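import Mathlib

/-! # P319, number theory part: shared definitions and interfaces.  See `notes/P319N.md`.

This is the port of P026 from `ℤ[ω]` to an arbitrary number field `K ∋ ω`. -/

namespace Vale.Agent.P319

open scoped ComplexConjugate Real ContDiff NumberField nonZeroDivisors Topology
open MeasureTheory Filter

/-- a number field with a cube root of unity `om` and an integer `M` that is inverted -/
class Stp (K : Type) [Field K] [NumberField K] where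
  om : 𝓞 K
  om_eq : om ^ 2 + om + 1 = 0
  M : ℕ
  M_ne : M ≠ 0
  six_dvd : 6 ∣ M
  disc_dvd : NumberField.discr K ∣ (M : ℤ)
  cls : ∀ c : ClassGroup (𝓞 K), ∃ I : (Ideal (𝓞 K))⁰, ClassGroup.mk0 I = c ∧ (M : 𝓞 K) ∈ I.1

section base

variable (K : Type) [Field K] [NumberField K] [Stp K]

/-- the inverted integer -/
abbrev MM : ℕ := Stp.M K

theorem pow_le : Submonoid.powers (MM K : 𝓞 K) ≤ (𝓞 K)⁰ :=
  powers_le_nonZeroDivisors_of_noZeroDivisors (Nat.cast_ne_zero.2 Stp.M_ne)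

/-- `𝓞 K [1/M]` inside `K` -/
noncomputable def RS : Subalgebra (𝓞 K) K :=
  Localization.subalgebra.ofField K (Submonoid.powers (MM K : 𝓞 K)) (pow_le K)

/-- the ring `R = 𝓞 K [1/M]`; it plays the role of `O` in P026 -/
def R : Type := ↥(RS K)

noncomputable instance : CommRing (R K) := inferInstanceAs (CommRing (RS K))
instance : IsDomain (R K) := inferInstanceAs (IsDomain (RS K))
noncomputable instance : Algebra (𝓞 K) (R K) := inferInstanceAs (Algebra (𝓞 K) (RS K))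
noncomputable instance : Algebra (R K) K := inferInstanceAs (Algebra (RS K) K)
instance : IsScalarTower (𝓞 K) (R K) K := inferInstanceAs (IsScalarTower (𝓞 K) (RS K) K)

/-- the coercion `R K → K` unfolds to `algebraMap (R K) K` -/
noncomputable instance : CoeHead (R K) K := ⟨fun x => algebraMap (R K) K x⟩

instance : IsLocalization (Submonoid.powers (MM K : 𝓞 K)) (R K) :=
  Localization.subalgebra.isLocalization_ofField K _ (pow_le K)

instance : IsFractionRing (R K) K :=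
  Localization.subalgebra.isFractionRing_ofField K _ (pow_le K)

theorem mem_RS_iff (x : K) : x ∈ RS K ↔ ∃ y : R K, (y : K) = x :=
  ⟨fun h => ⟨⟨x, h⟩, rfl⟩, fun ⟨y, h⟩ => h ▸ y.2⟩

theorem algebraMap_R_injective : Function.Injective (algebraMap (𝓞 K) (R K)) :=
  IsLocalization.injective _ (pow_le K)

theorem isUnit_M : IsUnit (algebraMap (𝓞 K) (R K) (MM K)) :=
  IsLocalization.map_units (R K) (⟨_, Submonoid.mem_powers _⟩ : Submonoid.powers (MM K : 𝓞 K))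

instance : IsPrincipalIdealRing (R K) where
  principal I := by
    rw [← IsLocalization.map_under (Submonoid.powers (MM K : 𝓞 K)) (R K) I]
    set J := I.under (𝓞 K)
    by_cases hJ : J = ⊥
    · rw [hJ, Ideal.map_bot]; infer_instance
    obtain ⟨I₀, h1, h2⟩ := Stp.cls (ClassGroup.mk0 ⟨J, mem_nonZeroDivisors_of_ne_zero hJ⟩)
    obtain ⟨x, y, hx, hy, h⟩ := ClassGroup.mk0_eq_mk0_iff.1 h1
    have h3 := congrArg (Ideal.map (algebraMap (𝓞 K) (R K))) h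
    rw [Ideal.map_mul, Ideal.map_mul, Ideal.map_span, Ideal.map_span, Set.image_singleton,
      Set.image_singleton, Ideal.eq_top_of_isUnit_mem _ (Ideal.mem_map_of_mem _ h2) (isUnit_M K),
      Ideal.mul_top] at h3
    have hy' : algebraMap (𝓞 K) (R K) y ≠ 0 :=
      (map_ne_zero_iff _ (algebraMap_R_injective K)).2 hy
    obtain ⟨z, hz, e⟩ := Ideal.mem_span_singleton_mul.1
      (h3 ▸ Ideal.mem_span_singleton_self (algebraMap (𝓞 K) (R K) x))
    refine ⟨⟨z, le_antisymm (fun w hw => ?_) ((Ideal.span_singleton_le_iff_mem _).2 hz)⟩⟩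
    obtain ⟨c, hc⟩ := Ideal.mem_span_singleton'.1
      (h3.symm ▸ Ideal.mul_mem_mul (Ideal.mem_span_singleton_self _) hw)
    refine Ideal.mem_span_singleton'.2 ⟨c, mul_left_cancel₀ hy' ?_⟩
    rw [← hc, ← e]; ring

/-- the complex places: the embeddings with `om ↦ exp (2πi/3)` -/
def Pl : Type := {φ : K →+* ℂ // φ (Stp.om : 𝓞 K) = Complex.exp (2 * π * Complex.I / 3)}

noncomputable instance : Fintype (Pl K) := open Classical in Subtype.fintype _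

noncomputable instance : DecidableEq (Pl K) := Classical.decEq _

/-- `SL₂(R)` -/
abbrev SL2 : Type := Matrix.SpecialLinearGroup (Fin 2) (R K)

/-- points of `(ℂ × ℝ)^r`; the product of hyperbolic spaces is the part with all heights positive -/
abbrev Hy : Type := Pl K → ℂ × ℝ

end base

variable {K : Type} [Field K] [NumberField K] [Stp K]

/-- `ω` in `R` -/
noncomputable def om : R K := algebraMap (𝓞 K) (R K) Stp.om

/-- the embedding at the place `v` -/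
noncomputable def ev (v : Pl K) (x : K) : ℂ := v.1 x

/-- the Minkowski embedding -/
noncomputable def emb (x : K) : Pl K → ℂ := fun v => ev v x

/-- the absolute norm `|N_{K/ℚ} x| = ∏ ‖ev v x‖²` -/
noncomputable def nK (x : K) : ℝ := ((|Algebra.norm ℚ x| : ℚ) : ℝ)

/-- `x ∈ M ^ a * O_S`, with `O_S` the semilocal ring at the primes above `M` -/
def SIn (a : ℕ) (x : K) : Prop :=
  ∃ s t : 𝓞 K, IsCoprime s (MM K : 𝓞 K) ∧ (s : K) * x = (MM K : K) ^ a * t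

/-- `x ≡ 1 mod M ^ q` at the primes above `M` -/
def InUq (q : ℕ) (x : K) : Prop := SIn q (x - 1)

/-- the standard level -/
abbrev InU (x : K) : Prop := InUq 10 x

/-- the ideals `(x)`, `(y)` of `R` are in the same ray class modulo `M ^ q * m` -/
def Ray (q : ℕ) (m x y : R K) : Prop :=
  x ≠ 0 ∧ y ≠ 0 ∧ ∃ u : (R K)ˣ, InUq q (((u * x : R K) : K) / y) ∧ m ∣ u * x - y

/-- same ray class at the standard level (replaces `72 ∣ x - y` and `Q ∣ x - y` of P026) -/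
abbrev Cg (x y : R K) : Prop := Ray 10 1 x y

/-- the chosen representative of the ray class of `x` modulo `M ^ q` -/
noncomputable def crep (q : ℕ) (x : R K) : R K := Quot.out (Quot.mk (Ray q 1) x)

/-- the representatives of the ray classes modulo `M ^ q` (replaces `res Q`) -/
noncomputable def creps (K : Type) [Field K] [NumberField K] [Stp K] (q : ℕ) : Finset (R K) :=
  open Classical in
  if h : {y | ∃ x : R K, x ≠ 0 ∧ y = crep q x}.Finite then h.toFinset else ∅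

/-- normalised generator: associated to `x`, in `crep 10 x * U` -/
noncomputable def ng (x : R K) : R K :=
  open Classical in
  if h : ∃ y : R K, Associated y x ∧ InU ((y : K) / crep 10 x) then h.choose else x

/-- `φ` depends only on the ray class -/
def ClF (φ : R K → ℂ) : Prop := ∀ x y, Cg x y → φ x = φ y

/-- the multiplicative choice of generators -/
noncomputable def pp (x : R K) : R K :=
  letI := UniqueFactorizationMonoid.strongNormalizationMonoid (α := R K)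
  normalize x

/-- `n` is the chosen generator of a nonzero ideal (replaces both `Prim` and `IsP` of P026) -/
def Prim (n : R K) : Prop := n ≠ 0 ∧ pp n = n

/-- chosen generator of a squarefree ideal -/
def IsS (n : R K) : Prop := Prim n ∧ Squarefree n

/-- the norm of the ideal `(x)` of `R` -/
noncomputable def nm (x : R K) : ℕ := Nat.card (R K ⧸ Ideal.span {x})

/-- chosen generators of norm at most `X` -/
noncomputable def pball (K : Type) [Field K] [NumberField K] [Stp K] (X : ℝ) : Finset (R K) :=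
  open Classical in
  if h : {n : R K | Prim n ∧ (nm n : ℝ) ≤ X}.Finite then h.toFinset else ∅

/-- squarefree chosen generators of norm at most `X` -/
noncomputable def sball (K : Type) [Field K] [NumberField K] [Stp K] (X : ℝ) : Finset (R K) :=
  open Classical in (pball K X).filter Squarefree

/-- divisors -/
noncomputable def pdiv (n : R K) : Finset (R K) :=
  open Classical in (pball K (nm n)).filter fun e => e ∣ n

/-- number of divisors -/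
noncomputable def tau (n : R K) : ℝ := (pdiv n).card

/-- a complete residue system mod `n ≠ 0` -/
noncomputable def res (n : R K) : Finset (R K) :=
  open Classical in
  if h : (Set.range (Quotient.out : R K ⧸ Ideal.span {n} → R K)).Finite then h.toFinset else ∅

/-- Möbius function -/
noncomputable def mu (n : R K) : ℂ := (UniqueFactorizationMonoid.moebius n : ℤ)

/-- indicator -/
noncomputable def ind (p : Prop) : ℂ := open Classical in if p then 1 else 0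

/-- `exp (2πi/3)` -/
noncomputable def z3 : ℂ := Complex.exp (2 * π * Complex.I / 3)

/-- cubic residue symbol at a prime -/
noncomputable def cubP (a p : R K) : ℂ :=
  open Classical in
  if p ∣ a ^ ((nm p - 1) / 3) - 1 then 1
  else if p ∣ a ^ ((nm p - 1) / 3) - om then z3
  else if p ∣ a ^ ((nm p - 1) / 3) - om ^ 2 then z3 ^ 2 else 0

/-- quadratic residue symbol at a prime -/
noncomputable def quadP (a p : R K) : ℂ :=
  open Classical in
  if p ∣ a ^ ((nm p - 1) / 2) - 1 then 1 else if p ∣ a ^ ((nm p - 1) / 2) + 1 then -1 else 0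

/-- cubic symbol `(a/n)₃` -/
noncomputable def cub (a n : R K) : ℂ :=
  ((UniqueFactorizationMonoid.factors n).map fun p => cubP a p).prod

/-- quadratic symbol `(a/n)₂` -/
noncomputable def quad (a n : R K) : ℂ :=
  ((UniqueFactorizationMonoid.factors n).map fun p => quadP a p).prod

/-- sextic symbol `χ_n(a)` -/
noncomputable def sex (a n : R K) : ℂ := quad a n * conj (cub a n)

/-- `exp (2πi Tr x)` -/
noncomputable def eTr (x : K) : ℂ :=
  Complex.exp (2 * π * Complex.I * ((Algebra.trace ℚ K x : ℚ) : ℂ))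

/-- the additive character of `K` trivial on `R`: `eTr y` for any `y ∈ (x + R) ∩ O_S` -/
noncomputable def psiK (x : K) : ℂ :=
  open Classical in
  if h : ∃ y : K, SIn 0 y ∧ x - y ∈ RS K then eTr h.choose else 1

/-- `psiK (x / n)` -/
noncomputable def eq (x n : R K) : ℂ := psiK ((x : K) / n)

/-- cubic Gauss sum `g(ν, n)`; it depends on the generator `n` -/
noncomputable def g3 (ν n : R K) : ℂ := ∑ x ∈ res n, cub x n * eq (ν * x) n
/-- normalised cubic Gauss sum -/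
noncomputable def gt3 (n : R K) : ℂ := g3 1 n / (√(nm n) : ℝ)
/-- normalised sextic Gauss sum -/
noncomputable def gt6 (n : R K) : ℂ := (∑ x ∈ res n, sex x n * eq x n) / (√(nm n) : ℝ)
/-- normalised quadratic Gauss sum -/
noncomputable def gt2 (n : R K) : ℂ := (∑ x ∈ res n, quad x n * eq x n) / (√(nm n) : ℝ)

/-- `∏ x_v / |x_v|` -/
noncomputable def ang (x : R K) : ℂ := ∏ v : Pl K, ev v x / (‖ev v (x : K)‖ : ℝ)
/-- `N(n)^{it}` -/
noncomputable def nt (n : R K) (t : ℝ) : ℂ := Complex.exp (Complex.I * t * Real.log (nm n))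

/-- `f` has period `q` -/
def Per (q : R K) (f : R K → ℂ) : Prop := ∀ x y, q ∣ x - y → f x = f y

/-- smooth weight supported in `[1/B, B]` -/
def Adm (B : ℝ) (V : ℝ → ℝ) : Prop :=
  1 ≤ B ∧ ContDiff ℝ ∞ V ∧ ∀ x, V x ≠ 0 → 1 / B ≤ x ∧ x ≤ B

/-- normalised theta coefficient of `x = c d³`, `c` squarefree; it depends on the generator `x`
but not on the choice of `d` -/
noncomputable def th0 (x : R K) : ℂ :=
  open Classical in
  if h : ∃ p : R K × R K, Squarefree p.1 ∧ Prim p.2 ∧ x = p.1 * p.2 ^ 3 then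
    conj (gt3 h.choose.1) * (√(nm h.choose.2) : ℝ) else 0

/-- cubic reciprocity (part CFT) -/
def CubStmt (K : Type) [Field K] [NumberField K] [Stp K] : Prop :=
  ∀ x y : R K, InU (x : K) → y ≠ 0 → IsCoprime x y → cub y x = cub x y

/-- quadratic reciprocity and Gauss sums (part QG) -/
def QGStmt (K : Type) [Field K] [NumberField K] [Stp K] : Prop :=
  (∀ x y : R K, InU (x : K) → y ≠ 0 → IsCoprime x y → quad y x = quad x y) ∧
  (∀ x y : R K, Squarefree x → Squarefree y → InU ((y : K) / x) → gt2 y = gt2 x) ∧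
  ∀ (x : R K) (z : K), Squarefree x → InU ((x : K) / z ^ 2) → gt2 x = 1

/-- the reciprocity laws, as a hypothesis of all parts that use them -/
class Rcp (K : Type) [Field K] [NumberField K] [Stp K] : Prop where
  cubic : CubStmt K
  quadr : QGStmt K

/-- A family of primitive characters `X n` mod `n`, with Gauss sums and reciprocity sign. -/
structure Fam (K : Type) [Field K] [NumberField K] [Stp K] where
  X : R K → R K → ℂ
  g : R K → ℂ
  ε : R K → R K → ℂ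
  mul_left : ∀ m n a, Prim m → Prim n → X (m * n) a = X m a * X n a
  mul_right : ∀ n a b, Prim n → X n (a * b) = X n a * X n b
  one_left : ∀ a, X 1 a = 1
  per : ∀ n, Per n (X n)
  norm_X : ∀ n a, Prim n → IsCoprime a n → ‖X n a‖ = 1
  X_eq_zero : ∀ n a, Prim n → ¬IsCoprime a n → X n a = 0
  six : ∀ n (u : (R K)ˣ), Prim n → X n (u ^ 6) = 1
  unitU : ∀ n (u : (R K)ˣ), Prim n → InU ((u : R K) : K) → X n u = 1
  norm_g : ∀ n, IsS n → ‖g n‖ = 1
  norm_ε : ∀ a b, ‖ε a b‖ ≤ 1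
  ε_per : ∀ a a' b b', Cg a a' → Cg b b' → ε a b = ε a' b'
  ft : ∀ m₁ m₂ k, IsS m₁ → IsS m₂ → IsCoprime m₁ m₂ →
    ∑ x ∈ res (m₁ * m₂), X m₁ x * conj (X m₂ x) * eq (k * x) (ng (m₁ * m₂)) =
      (√(nm m₁) * √(nm m₂) : ℝ) * g m₁ * conj (g m₂) * ε m₁ m₂ * conj (X m₁ k) * X m₂ k

/-! ## units, rows, hyperbolic space -/

/-- the units `≡ 1 mod M ^ 10`; a torsion free subgroup of finite index of `(𝓞 K)ˣ` -/
noncomputable def EU (K : Type) [Field K] [NumberField K] [Stp K] : Subgroup (R K)ˣ :=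
  Subgroup.closure {u | InU ((u : R K) : K)}

/-- elements of `K` modulo `EU` -/
abbrev KQ (K : Type) [Field K] [NumberField K] [Stp K] : Type :=
  Quot fun x y : K => ∃ u ∈ EU K, y = ((u : R K) : K) * x

/-- elements of `R` modulo `EU` -/
abbrev RQ (K : Type) [Field K] [NumberField K] [Stp K] : Type :=
  Quot fun x y : R K => ∃ u ∈ EU K, y = (u : R K) * x

/-- rows modulo `EU` -/
abbrev RowQ (K : Type) [Field K] [NumberField K] [Stp K] : Type :=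
  Quot fun r r' : R K × R K => ∃ u ∈ EU K, r' = ((u : R K) * r.1, (u : R K) * r.2)

/-- row vector times matrix -/
noncomputable def rmul (r : R K × R K) (g : SL2 K) : R K × R K :=
  (r.1 * g.1 0 0 + r.2 * g.1 1 0, r.1 * g.1 0 1 + r.2 * g.1 1 1)

/-- `δ ≡ 1 mod 𝔪` (so the entries are in `𝓞 K`) -/
def Gam (𝔪 : Ideal (𝓞 K)) (δ : SL2 K) : Prop :=
  ∀ i j, ∃ t ∈ 𝔪, δ.1 i j = (1 : Matrix (Fin 2) (Fin 2) (R K)) i j + algebraMap (𝓞 K) (R K) t

/-- the Kubota symbol -/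
noncomputable def kap (δ : SL2 K) : ℂ := cub (δ.1 1 0) (δ.1 1 1)

/-- admissible level -/
def Lev (𝔪 : Ideal (𝓞 K)) : Prop := 𝔪 ≠ ⊥ ∧ 𝔪 ≤ Ideal.span {(MM K : 𝓞 K) ^ 10}

/-- the principal level `M ^ a` -/
noncomputable def lev (K : Type) [Field K] [NumberField K] [Stp K] (a : ℕ) : Ideal (𝓞 K) :=
  Ideal.span {(MM K : 𝓞 K) ^ a}

/-- primitive rows whose content `𝔟` at the primes above `M` satisfies `M^a ⊆ 𝔟 ⊆ M^(-a)` -/
def Box (a : ℕ) (r : R K × R K) : Prop :=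
  IsCoprime r.1 r.2 ∧ SIn 0 ((MM K : K) ^ a * r.1) ∧ SIn 0 ((MM K : K) ^ a * r.2) ∧
    ∃ s t : K, SIn 0 s ∧ SIn 0 t ∧ s * r.1 + t * r.2 = (MM K : K) ^ a

/-- the row functions of level `𝔪` -/
def Cls (a : ℕ) (𝔪 : Ideal (𝓞 K)) (Ψ : R K × R K → ℂ) : Prop :=
  (∀ r, ¬Box a r → Ψ r = 0) ∧ (∀ r, ‖Ψ r‖ ≤ 1) ∧
  (∀ u ∈ EU K, ∀ r : R K × R K, Ψ ((u : R K) * r.1, (u : R K) * r.2) = Ψ r) ∧
  ∀ δ, Gam 𝔪 δ → ∀ r, Ψ (rmul r δ) = kap δ * Ψ r

/-- `|cz+d|² + |c|²v²` for complex `c, d` -/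
noncomputable def denC (c d : ℂ) (w : ℂ × ℝ) : ℝ := ‖c * w.1 + d‖ ^ 2 + ‖c‖ ^ 2 * w.2 ^ 2

/-- the action of the complex matrix `(a b; c d)` of determinant one on hyperbolic 3-space -/
noncomputable def actC (a b c d : ℂ) (w : ℂ × ℝ) : ℂ × ℝ :=
  (((a * w.1 + b) * conj (c * w.1 + d) + a * conj c * (w.2 : ℂ) ^ 2) / (denC c d w : ℝ),
    w.2 / denC c d w)

/-- all heights positive -/
def Pos (w : Hy K) : Prop := ∀ v, 0 < (w v).2

/-- total height of `γ w` when `γ` has bottom row `r` -/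
noncomputable def vr (r : R K × R K) (w : Hy K) : ℝ :=
  ∏ v : Pl K, (w v).2 / denC (ev v r.1) (ev v r.2) (w v)

/-- the action of `SL₂(R)` on the product of hyperbolic spaces -/
noncomputable def act (g : SL2 K) (w : Hy K) : Hy K := fun v =>
  actC (ev v (g.1 0 0)) (ev v (g.1 0 1)) (ev v (g.1 1 0)) (ev v (g.1 1 1)) (w v)

/-- `z ↦ exp (2πi (z + z̄))`; `eTr x = ∏ v, ecc (ev v x)` -/
noncomputable def ecc (z : ℂ) : ℂ := Complex.exp (2 * π * Complex.I * ((2 * z.re : ℝ) : ℂ))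

/-- Whittaker function -/
noncomputable def Wh (s ξ : ℂ) (v : ℝ) : ℂ :=
  ∫ z : ℂ, ((v / (‖z‖ ^ 2 + v ^ 2) : ℝ) : ℂ) ^ s * ecc (-(ξ * z))

/-- the Fourier series with coefficients `τ` -/
noncomputable def th (τ : R K → ℂ) (w : Hy K) : ℂ :=
  ∑' ν : R K, τ ν * ∏ v : Pl K, Wh (4 / 3) (ev v ν) (w v).2 * ecc (ev v ν * (w v).1)

/-- the region of continuation (same as in P026) -/
def Dom : Set ℂ := {s | 4 / 3 < s.re ∧ s.re < 3 ∧ 0 < s.im ∧ s.im < 1}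

/-- the path to `4/3` -/
noncomputable def sE (ε : ℝ) : ℂ := 4 / 3 + ε * (1 + Complex.I)

/-- `f`, given on `Re s > 2`, continues to `Dom` and has residue `x` at `4/3` along `sE` -/
def HasRes (f : ℂ → ℂ) (x : ℂ) : Prop :=
  ∃ F : ℂ → ℂ, DifferentiableOn ℂ F Dom ∧ (∀ s ∈ Dom, 2 < s.re → F s = f s) ∧
    Tendsto (fun ε : ℝ => (sE ε - 4 / 3) * F (sE ε)) (𝓝[>] 0) (𝓝 x)

/-- the invariant measure `dz dv / v³` on `{v > 0}` -/
noncomputable def hmu : Measure (ℂ × ℝ) :=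
  ((volume : Measure (ℂ × ℝ)).restrict {w | 0 < w.2}).withDensity
    fun w => ENNReal.ofReal (1 / w.2 ^ 3)

/-- the invariant measure on the product -/
noncomputable def hmuK (K : Type) [Field K] [NumberField K] [Stp K] : Measure (Hy K) :=
  Measure.pi fun _ => hmu

/-- the Eisenstein series -/
noncomputable def Eis (Ψ : R K × R K → ℂ) (w : Hy K) (s : ℂ) : ℂ :=
  ∑' r : RowQ K, Ψ r.out * ((vr r.out w : ℝ) : ℂ) ^ s

/-- the compact box of size `T` -/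
def InBox (T : ℝ) (w : Hy K) : Prop := ∀ v, ‖(w v).1‖ ≤ T ∧ 1 / T ≤ (w v).2 ∧ (w v).2 ≤ T

/-- bounded measurable functions with compact support -/
def Test (F : Hy K → ℂ) : Prop :=
  Measurable F ∧ ∃ T : ℝ, 0 < T ∧ ∀ w, ‖F w‖ ≤ T ∧ (F w ≠ 0 → InBox T w)

/-- bounded measurable functions with compact support in `(0, ∞)^r` -/
def Test1 (ψ : (Pl K → ℝ) → ℂ) : Prop :=
  Measurable ψ ∧ ∃ T : ℝ, 0 < T ∧ ∀ y, ‖ψ y‖ ≤ T ∧ (ψ y ≠ 0 → ∀ v, 1 / T ≤ y v ∧ y v ≤ T)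

/-- `P` is a bounded measurable fundamental set for the lattice `𝔪` -/
def Tile (𝔪 : Ideal (𝓞 K)) (P : Set (Pl K → ℂ)) : Prop :=
  MeasurableSet P ∧ (∃ T : ℝ, ∀ z ∈ P, ‖z‖ ≤ T) ∧ ∀ z, ∃! y : 𝓞 K, y ∈ 𝔪 ∧ z + emb (y : K) ∈ P

/-! ## interfaces -/

/-- `∫ f(x) e(-Tr(x ξ)) dx` on `ℂ^r` -/
noncomputable def FT (f : (Pl K → ℂ) → ℂ) (ξ : Pl K → ℂ) : ℂ :=
  ∫ x, f x * ∏ v, ecc (-(x v * ξ v))

/-- covolume of `𝓞 K` in `ℂ^r` -/
noncomputable def covol (K : Type) [Field K] [NumberField K] [Stp K] : ℝ :=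
  √|(NumberField.discr K : ℝ)| / 2 ^ Fintype.card (Pl K)

/-- Poisson summation for a fractional ideal (part LAT) -/
def PoisStmt (K : Type) [Field K] [NumberField K] [Stp K] : Prop :=
  ∀ (I : FractionalIdeal (𝓞 K)⁰ K) (f : (Pl K → ℂ) → ℂ) (C : ℝ), I ≠ 0 → Continuous f →
    (∀ x, ‖f x‖ ≤ C / (1 + ‖x‖) ^ (2 * Fintype.card (Pl K) + 1)) →
    Summable (fun ξ : FractionalIdeal.dual ℤ ℚ I => FT f (emb (ξ : K))) →
    ∑' x : I, f (emb (x : K)) = ((covol K * (FractionalIdeal.absNorm I : ℚ) : ℝ) : ℂ)⁻¹ *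
      ∑' ξ : FractionalIdeal.dual ℤ ℚ I, FT f (emb (ξ : K))

/-- the zeta functions of ray classes (part ZETA) -/
def ZetaStmt (K : Type) [Field K] [NumberField K] [Stp K] : Prop :=
  ∀ (q : ℕ) (m : R K), 1 ≤ q → m ≠ 0 → ∃ κ : ℝ, 0 < κ ∧ ∀ α : R K, α ≠ 0 → IsCoprime α m →
    ∃ Z : ℂ → ℂ, Differentiable ℂ Z ∧ Z 1 = κ ∧ ∀ s : ℂ, 1 < s.re →
      Z s = (s - 1) * ∑' n : R K, ind (Prim n ∧ Ray q m n α) * (nm n : ℂ) ^ (-s)

/-- the Poisson step (part PS); `Bil` is opaque for the part REC -/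
def PSStmt (K : Type) [Field K] [NumberField K] [Stp K] : Prop :=
  ∀ F : Fam K, ∃ Bil : ℝ → ℝ → (R K → ℂ) → R K → ℂ,
    (∃ C : ℝ, 0 < C ∧ ∀ (Y Z : ℝ) (b : R K → ℂ) (g : R K) (τ : (R K)ˣ), 1 ≤ Y →
      (∀ n, b n ≠ 0 → n ∈ sball K Z) →
      ∑ h ∈ pball K Y, ‖∑ n ∈ sball K Z, ind (g ∣ n) * b n * F.X n (τ * h)‖ ^ 2 ≤
        C * ∑ Δ ∈ sball K Z, ‖ind (g ∣ Δ)‖ * ‖Bil Y Z b Δ‖) ∧
    (∀ η : ℝ, 0 < η → ∃ C : ℝ, 0 < C ∧ ∀ (Y Z D : ℝ) (b : R K → ℂ) (Δ : R K), 1 ≤ Y →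
      (∀ (τ : (R K)ˣ) (s : Finset (R K)), (∀ h ∈ s, Prim h) →
        ∑ f ∈ sball K Z, ∑ h ∈ s, (1 + (nm h : ℝ) / Y) ^ (-3 : ℝ) *
          ‖∑ m ∈ sball K Z, ind (f ∣ m) * b (Δ * m) * F.X m (τ * h)‖ ^ 2 ≤ D) →
      ‖Bil Y Z b Δ‖ ≤ C * Y ^ η * D) ∧
    ∀ (B A η : ℝ), 1 ≤ B → 0 ≤ A → 0 < η → ∃ C : ℝ, 0 < C ∧
      ∀ (X Y D : ℝ) (b : R K → ℂ) (c : R K → ℝ), 0 < X → 1 ≤ Y → (∀ Δ, 0 ≤ c Δ) →
        (∀ n, b n ≠ 0 → IsS n ∧ X / B ≤ nm n ∧ (nm n : ℝ) ≤ B * X) →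
        (∀ (t : ℝ) (α : R K) (τ : (R K)ˣ) (s : Finset (R K)), (∀ k ∈ s, Prim k) →
          ∑ Δ ∈ sball K (B * X), ∑ e ∈ pdiv Δ, c Δ * (Y * nm Δ / (nm e * X)) *
            ∑ f ∈ sball K (B * X), ∑ k ∈ s,
              (1 + Y * (nm Δ : ℝ) ^ 2 * nm k / (nm e * X ^ 2)) ^ (-5 : ℝ) *
              ‖∑ m ∈ sball K (B * X), ind (Cg m α) * ind (f ∣ m) * b (Δ * m) * F.X m e *
                F.g m * conj (F.X m (τ * k)) * nt m t‖ ^ 2 ≤ D * (1 + |t|) ^ A) →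
        ∑ Δ ∈ sball K (B * X), c Δ * ‖Bil Y (B * X) b Δ‖ ≤
          C * ((1 + X ^ 2 / Y) ^ η * D + Y * ∑ Δ ∈ sball K (B * X), c Δ * ‖b Δ‖ ^ 2)

/-- quadratic large sieve (part QLS) -/
def QLSStmt (K : Type) [Field K] [NumberField K] [Stp K] : Prop :=
  ∃ C : ℝ, 0 < C ∧ ∀ (M X : ℝ) (a : R K → ℂ), 1 ≤ M → 1 ≤ X →
    ∑ k ∈ sball K M, ‖∑ n ∈ sball K X, a n * quad n k‖ ^ 2 ≤
      C * (M ^ (6 / 5 : ℝ) + X ^ (41 / 25 : ℝ)) * ∑ n ∈ sball K X, ‖a n‖ ^ 2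

/-- the export of TH-B: convergence, residue functional, `L²` bound, equivariance, cusp lemma -/
def ThBStmt (K : Type) [Field K] [NumberField K] [Stp K] : Prop :=
  (∀ (a : ℕ) (σ T : ℝ), 2 < σ → 0 < T → ∃ C : ℝ, ∀ w : Hy K, InBox T w →
    Summable (fun r : RowQ K => ‖ind (Box a r.out)‖ * vr r.out w ^ σ) ∧
      ∑' r : RowQ K, ‖ind (Box a r.out)‖ * vr r.out w ^ σ ≤ C) ∧
  ∃ Θ : (R K × R K → ℂ) → (Hy K → ℂ) → ℂ, ∀ (a : ℕ) (𝔪 : Ideal (𝓞 K)), Lev 𝔪 →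
    (∀ Ψ, Cls a 𝔪 Ψ → ∀ F, Test F →
      HasRes (fun s => ∫ w, Eis Ψ w s * F w ∂hmuK K) (Θ Ψ F)) ∧
    (∀ T : ℝ, 0 < T → ∃ C : ℝ, 0 ≤ C ∧ ∀ Ψ, Cls a 𝔪 Ψ → ∀ F, Test F →
      (∀ w, F w ≠ 0 → InBox T w) → ‖Θ Ψ F‖ ^ 2 ≤ C * ∫ w, ‖F w‖ ^ 2 ∂hmuK K) ∧
    (∀ Ψ, Cls a 𝔪 Ψ → ∀ F, Test F → ∀ g : SL2 K,
      Θ Ψ (fun w => F (act g w)) = Θ (fun r => Ψ (rmul r g)) F) ∧
    (∀ Ψ, Cls a 𝔪 Ψ →
      (∀ (g : SL2 K) (a' : ℕ) (𝔪' : Ideal (𝓞 K)) (P : Set (Pl K → ℂ)) (ψ : (Pl K → ℝ) → ℂ),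
        Lev 𝔪' → Cls a' 𝔪' (fun r => Ψ (rmul r g)) → Tile 𝔪' P → Test1 ψ →
        Θ (fun r => Ψ (rmul r g))
          (fun w => P.indicator (fun _ => (1 : ℂ)) (fun v => (w v).1) * ψ fun v => (w v).2) = 0) →
      ∀ F, Test F → Θ Ψ F = 0)

/-- the cubic theta functions (part TH-C) -/
def ThetaStmt (K : Type) [Field K] [NumberField K] [Stp K] : Prop :=
  ∃ ρ : (R K × R K → ℂ) → R K → ℂ,
    (∀ a Ψ, 10 ≤ a → Cls a (lev K a) Ψ → ∀ (g : SL2 K) (w : Hy K), Pos w →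
      th (ρ Ψ) (act g w) = th (ρ fun r => Ψ (rmul r g⁻¹)) w) ∧
    (∀ a Ψ, 10 ≤ a → Cls a (lev K a) Ψ → ∀ ζ : ℂ, ‖ζ‖ ≤ 1 → ∀ ν,
      ρ (fun r => ζ * Ψ r) ν = ζ * ρ Ψ ν) ∧
    (∀ a, 10 ≤ a → ∃ C : ℝ, ∀ Ψ, Cls a (lev K a) Ψ → ∀ ν : R K, ν ≠ 0 → ρ Ψ ν ≠ 0 →
      SIn 0 ((MM K : K) ^ (a + 1) * ν) ∧ ∃ (u : (R K)ˣ) (c d : R K), IsS c ∧ Prim d ∧
        ν = u * c * d ^ 3 ∧ ‖ρ Ψ ν‖ ≤ C * (nm c : ℝ) ^ (-1 / 6 : ℝ)) ∧
    ∃ q, 10 ≤ q ∧ ∀ α : R K, α ≠ 0 → ∃ (a : ℕ) (Ψ : R K × R K → ℂ) (κ : ℂ), 10 ≤ a ∧ κ ≠ 0 ∧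
      Cls a (lev K a) Ψ ∧ ∀ x : R K, InUq q ((x : K) / α) →
        ρ Ψ x = κ * th0 x * ((nm x : ℝ) ^ (-1 / 6 : ℝ) : ℝ)

/-- the conditions on the weight in the Voronoi bound; `φ` is a function of ideals -/
def VBw (L : R K) (φ : R K → ℂ) : Prop :=
  (∀ n, ‖φ n‖ ≤ 1) ∧ (∀ x y : R K, x ≠ 0 → InU ((y : K) / x) → L ∣ x - y → φ (pp x) = φ (pp y)) ∧
    ∀ u : R K, InU (u : K) → IsCoprime u L → ∃ η : ℂ, ‖η‖ = 1 ∧
      ∀ n, Prim n → φ (pp u * n) = η * φ n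

open Classical in
/-- Voronoi bound (part VOR) -/
def VBStmt (K : Type) [Field K] [NumberField K] [Stp K] : Prop :=
  ∀ (B : ℝ) (V : ℝ → ℝ) (ε : ℝ), Adm B V → 0 < ε →
    ∃ C A : ℝ, 0 < C ∧ 0 ≤ A ∧ ∀ (N Y t : ℝ) (L : R K) (φ : R K → ℂ), 1 / B ≤ N → 1 ≤ Y →
      L ≠ 0 → VBw L φ →
      ∑ k ∈ (sball K Y).filter (fun k => IsCoprime k L), ‖∑ n ∈ pball K (B * N),
          th0 (ng n) * ang (ng n) * φ n * (quad (ng n) k * cub (ng n) k) * V (nm n / N) *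
            nt n t‖ ^ 2 ≤
        C * (1 + |t|) ^ A * (Y * nm L) ^ ε * nm L * N *
          (Y ^ (6 / 5 : ℝ) + (Y ^ 2 * (nm L : ℝ) ^ 2 / N) ^ (41 / 25 : ℝ))

/-- the twisted Möbius sum -/
noncomputable def Asum (α : R K) (B : ℝ) (V : ℝ → ℝ) (N t : ℝ) (h : R K) : ℂ :=
  ∑ n ∈ sball K (B * N), ind (Cg n α) * mu n * sex h n * V (nm n / N) * nt n t

/-- mean square bound with loss `N^θ` (part REC) -/
def PStmt (K : Type) [Field K] [NumberField K] [Stp K] (θ : ℝ) : Prop :=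
  ∀ (B : ℝ) (V : ℝ → ℝ) (ε : ℝ), Adm B V → 0 < ε →
    ∃ C A : ℝ, 0 < C ∧ 0 ≤ A ∧ ∀ (N H t : ℝ) (α : R K) (τ : (R K)ˣ), 0 < N → 1 ≤ H →
      N ^ (599 / 500 : ℝ) ≤ H →
      ∑ h ∈ pball K H, ‖Asum α B V N t (τ * h)‖ ^ 2 ≤
        C * (1 + |t|) ^ A * H ^ (1 + ε) * N ^ (1 + θ)

/-- the zero-free half plane for the Dedekind zeta function (part REC, Final) -/
def ZFStmt (F : Type) [Field F] [NumberField F] : Prop :=
  ∀ Z : ℂ → ℂ, Differentiable ℂ Z →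
    (∀ s : ℂ, 1 < s.re → Z s = (s - 1) * NumberField.dedekindZeta F s) →
    ∀ s : ℂ, 1999 / 2000 < s.re → Z s ≠ 0

/-- continuation of Dedekind zeta functions with a uniform bound (part ZETA) -/
def XiStmt : Prop :=
  ∃ C : ℝ, 0 < C ∧ ∀ (F : Type) [Field F] [NumberField F], (∃ w : F, w ^ 2 + w + 1 = 0) →
    ∃ Z : ℂ → ℂ, Differentiable ℂ Z ∧
      (∀ s : ℂ, 1 < s.re → Z s = (s - 1) * NumberField.dedekindZeta F s) ∧
      ∀ s : ℂ, 1 / 2 ≤ s.re → s.re ≤ 4 → ‖Z s‖ ≤ Real.exp (C *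
        (Real.log |(NumberField.discr F : ℝ)| + Module.finrank ℚ F) * (1 + |s.im|))

/-- what the algorithm needs (part PNT) -/
def NTStmt : Prop :=
  ∃ C : ℕ, ∀ l p : ℕ, l.Prime → p.Prime → 3 < p → l ≠ p →
    ∃ r : ℕ, r.Prime ∧ 12 * l ∣ r - 1 ∧ r ≤ (l * (Nat.log 2 p + 1)) ^ C ∧
      ¬∃ x : ZMod r, x ^ l = (p : ZMod r)

end Vale.Agent.P319
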