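import Mathlib

/-! # P319, part PNT: the von Mangoldt function of a number field -/

namespace Vale.Agent.P319

open NumberField Ideal UniqueFactorizationMonoid Finset

variable (F : Type) [Field F] [NumberField F]

/-- number of ideals of norm `n` -/
noncomputable def pntA (n : ℕ) : ℕ := Nat.card {I : Ideal (𝓞 F) // absNorm I = n}

/-- the ideals of norm `n` -/
noncomputable def pntS (n : ℕ) : Finset (Ideal (𝓞 F)) :=
  (finite_setOfPred_absNorm_eq (S := 𝓞 F) n).toFinset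

variable {F} in
theorem mem_pntS {n : ℕ} {I : Ideal (𝓞 F)} : I ∈ pntS F n ↔ absNorm I = n := by
  simp [pntS]

theorem card_pntS (n : ℕ) : (pntS F n).card = pntA F n := by
  rw [pntA, pntS, ← Nat.card_eq_card_finite_toFinset]
  rfl

theorem pntA_one : pntA F 1 = 1 := by
  simp [pntA]

variable {F}

open Classical in
/-- the prime power divisors of `I` -/
noncomputable def pntD (I : Ideal (𝓞 F)) : Finset (Σ _ : Ideal (𝓞 F), ℕ) :=
  (normalizedFactors I).toFinset.sigma fun P => Icc 1 ((normalizedFactors I).count P)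

theorem mem_pntD {I : Ideal (𝓞 F)} (hI : I ≠ 0) {x : Σ _ : Ideal (𝓞 F), ℕ} :
    x ∈ pntD I ↔ Prime x.1 ∧ 1 ≤ x.2 ∧ x.1 ^ x.2 ∣ I := by
  classical
  obtain ⟨P, j⟩ := x
  simp only [pntD, mem_sigma, Multiset.mem_toFinset, mem_Icc]
  have key : Prime P → (P ^ j ∣ I ↔ j ≤ (normalizedFactors I).count P) := fun hP => by
    rw [pow_dvd_iff_le_emultiplicity, emultiplicity_eq_count_normalizedFactors hP.irreducible hI,
      normalize_eq]
    exact Nat.cast_le
  constructor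
  · rintro ⟨h1, h2, h3⟩
    have hP := prime_of_normalized_factor P h1
    exact ⟨hP, h2, (key hP).2 h3⟩
  · rintro ⟨hP, h2, h3⟩
    have h4 := (key hP).1 h3
    exact ⟨Multiset.one_le_count_iff_mem.1 (h2.trans h4), h2, h4⟩

theorem sum_pntD {I : Ideal (𝓞 F)} (hI : I ≠ 0) :
    ∑ x ∈ pntD I, Real.log (absNorm x.1) = Real.log (absNorm I) := by
  classical
  rw [pntD, sum_sigma]
  simp only [sum_const, Nat.card_Icc, Nat.add_sub_cancel]
  rw [← sum_multiset_map_count]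
  conv_rhs => rw [← Ideal.prod_normalizedFactors_eq_self hI]
  rw [map_multiset_prod, Nat.cast_multiset_prod, Real.log_multiset_prod, Multiset.map_map,
    Multiset.map_map]
  · rfl
  · intro y hy
    simp only [Multiset.map_map, Multiset.mem_map, Function.comp_apply] at hy
    obtain ⟨P, hP, rfl⟩ := hy
    exact Nat.cast_ne_zero.2 (absNorm_eq_zero_iff.not.2 (prime_of_normalized_factor P hP).ne_zero)

variable (F) in
open Classical in
/-- the prime powers of norm `n` -/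
noncomputable def pntT (n : ℕ) : Finset (Σ _ : Ideal (𝓞 F), ℕ) :=
  (pntD (span {(n : 𝓞 F)})).filter fun x => absNorm x.1 ^ x.2 = n

theorem pnt_span_ne {n : ℕ} (hn : n ≠ 0) : (span {(n : 𝓞 F)} : Ideal (𝓞 F)) ≠ 0 := by
  simpa using hn

theorem mem_pntT {n : ℕ} (hn : n ≠ 0) {x : Σ _ : Ideal (𝓞 F), ℕ} :
    x ∈ pntT F n ↔ Prime x.1 ∧ 1 ≤ x.2 ∧ absNorm x.1 ^ x.2 = n := by
  classical
  rw [pntT, mem_filter, mem_pntD (pnt_span_ne hn)]
  constructor
  · rintro ⟨⟨h1, h2, -⟩, h4⟩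
    exact ⟨h1, h2, h4⟩
  · rintro ⟨h1, h2, h4⟩
    refine ⟨⟨h1, h2, ?_⟩, h4⟩
    rw [← h4, dvd_span_singleton, Nat.cast_pow]
    exact pow_mem_pow (absNorm_mem _) _

variable (F)

/-- the von Mangoldt function of `F` -/
noncomputable def pntL (n : ℕ) : ℝ := ∑ x ∈ pntT F n, Real.log (absNorm x.1)

theorem pntL_nonneg (n : ℕ) : 0 ≤ pntL F n :=
  sum_nonneg fun _ _ => Real.log_natCast_nonneg _

theorem pntL_zero : pntL F 0 = 0 := by
  have h : (span {((0 : ℕ) : 𝓞 F)} : Ideal (𝓞 F)) = 0 := by simp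
  rw [pntL, pntT, h, pntD, normalizedFactors_zero, Multiset.toFinset_zero, sum_filter, sum_sigma,
    sum_empty]

theorem pntL_le (n : ℕ) : pntL F n ≤ Module.finrank ℚ F * Real.log n := by
  classical
  rcases eq_or_ne n 0 with rfl | hn
  · simp [pntL_zero]
  calc pntL F n ≤ ∑ x ∈ pntD (span {(n : 𝓞 F)}), Real.log (absNorm x.1) :=
        sum_le_sum_of_subset_of_nonneg (filter_subset _ _) fun _ _ _ => Real.log_natCast_nonneg _
    _ = _ := by
        rw [sum_pntD (pnt_span_ne hn), absNorm_span_natCast, RingOfIntegers.rank, Nat.cast_pow,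
          Real.log_pow]

theorem pntL_eq_zero (n : ℕ) (h : ¬IsPrimePow n) : pntL F n = 0 := by
  rcases eq_or_ne n 0 with rfl | hn
  · exact pntL_zero F
  refine sum_eq_zero fun x hx => (h ?_).elim
  obtain ⟨h1, h2, h3⟩ := (mem_pntT hn).1 hx
  have : x.1.IsMaximal := (isPrime_of_prime h1).isMaximal h1.ne_zero
  obtain ⟨p, m, hm, -, hp, e⟩ := exists_prime_and_absNorm_eq_pow x.1
  rw [← h3, e, ← pow_mul]
  exact (isPrimePow_nat_iff _).2 ⟨p, m * x.2, hp, Nat.mul_pos hm h2, rfl⟩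

theorem pntL_prime (r : ℕ) (hr : r.Prime) : pntL F r = pntA F r * Real.log r := by
  rw [← card_pntS, ← nsmul_eq_mul, ← sum_const, pntL]
  have key : ∀ x ∈ pntT F r, x.2 = 1 ∧ absNorm x.1 = r := fun x hx => by
    obtain ⟨-, h2, h3⟩ := (mem_pntT hr.ne_zero).1 hx
    have h4 : x.2 = 1 := (h3 ▸ hr).eq_one_of_pow
    exact ⟨h4, by rwa [h4, pow_one] at h3⟩
  refine sum_bij (fun x _ => x.1) (fun x hx => mem_pntS.2 (key x hx).2) ?_ ?_ ?_
  · rintro ⟨P, j⟩ hx ⟨Q, k⟩ hy h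
    have h1 := (key _ hx).1
    have h2 := (key _ hy).1
    simp only at h h1 h2
    subst h h1 h2
    rfl
  · intro P hP
    rw [mem_pntS] at hP
    refine ⟨⟨P, 1⟩, (mem_pntT hr.ne_zero).2 ⟨?_, le_rfl, by simpa using hP⟩, rfl⟩
    exact (irreducible_of_irreducible_absNorm (hP ▸ hr)).prime
  · intro x hx
    rw [(key x hx).2]

theorem pntL_conv (n : ℕ) (hn : n ≠ 0) :
    ∑ p ∈ n.divisorsAntidiagonal, pntL F p.1 * pntA F p.2 = Real.log n * pntA F n := by
  have e1 : ∀ p ∈ n.divisorsAntidiagonal, pntL F p.1 * pntA F p.2 =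
      ∑ y ∈ pntT F p.1 ×ˢ pntS F p.2, Real.log (absNorm y.1.1) := fun p _ => by
    rw [sum_product, pntL, sum_mul]
    refine sum_congr rfl fun x _ => ?_
    simp only [sum_const, card_pntS, nsmul_eq_mul, mul_comm]
  have e2 : Real.log n * pntA F n =
      ∑ I ∈ pntS F n, ∑ x ∈ pntD I, Real.log (absNorm x.1) := by
    rw [← card_pntS, mul_comm, ← nsmul_eq_mul, ← sum_const]
    refine sum_congr rfl fun I hI => ?_
    rw [mem_pntS] at hI
    rw [sum_pntD (fun h => hn (by rw [← hI, h, map_zero])), hI]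
  rw [sum_congr rfl e1, e2, sum_sigma', sum_sigma']
  refine sum_bij (fun z _ => ⟨z.2.1.1 ^ z.2.1.2 * z.2.2, z.2.1⟩) ?_ ?_ ?_ fun _ _ => rfl
  · rintro ⟨⟨d, e⟩, x, J⟩ hz
    simp only [mem_sigma, Nat.mem_divisorsAntidiagonal, mem_product, mem_pntS] at hz ⊢
    obtain ⟨⟨h1, -⟩, h2, h3⟩ := hz
    have hd : d ≠ 0 := fun h => hn (by rw [← h1, h, zero_mul])
    obtain ⟨h4, h5, h6⟩ := (mem_pntT hd).1 h2
    have h7 : absNorm (x.1 ^ x.2 * J) = n := by rw [map_mul, map_pow, h6, h3, h1]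
    exact ⟨h7, (mem_pntD fun h => hn (by rw [← h7, h, map_zero])).2 ⟨h4, h5, dvd_mul_right _ _⟩⟩
  · rintro ⟨⟨d, e⟩, x, J⟩ hz ⟨⟨d', e'⟩, x', J'⟩ hz' h
    simp only [mem_sigma, Nat.mem_divisorsAntidiagonal, mem_product, mem_pntS] at hz hz'
    obtain ⟨⟨h1, -⟩, h2, h3⟩ := hz
    obtain ⟨⟨h1', -⟩, h2', h3'⟩ := hz'
    have hd : d ≠ 0 := fun h => hn (by rw [← h1, h, zero_mul])
    have hd' : d' ≠ 0 := fun h => hn (by rw [← h1', h, zero_mul])
    obtain ⟨h4, -, h6⟩ := (mem_pntT hd).1 h2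
    obtain ⟨-, -, h6'⟩ := (mem_pntT hd').1 h2'
    simp only [Sigma.mk.injEq, heq_eq_eq] at h
    obtain ⟨h8, rfl⟩ := h
    have h9 := mul_left_cancel₀ (pow_ne_zero _ h4.ne_zero) h8
    subst h9 h3 h3' h6 h6'
    rfl
  · rintro ⟨I, x⟩ hz
    simp only [mem_sigma, mem_pntS] at hz
    obtain ⟨h1, h2⟩ := hz
    obtain ⟨h4, h5, J, rfl⟩ := (mem_pntD fun h => hn (by rw [← h1, h, map_zero])).1 h2
    rw [map_mul, map_pow] at h1
    refine ⟨⟨(absNorm x.1 ^ x.2, absNorm J), x, J⟩, ?_, rfl⟩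
    simp only [mem_sigma, Nat.mem_divisorsAntidiagonal, mem_product, mem_pntS]
    exact ⟨⟨h1, hn⟩, (mem_pntT fun h => hn (by rw [← h1, h, zero_mul])).2 ⟨h4, h5, rfl⟩, trivial⟩

theorem pntA_summable (s : ℂ) (hs : 1 < s.re) : LSeriesSummable (fun n => (pntA F n : ℂ)) s := by
  have h : Filter.Tendsto (fun n : ℕ => (∑ k ∈ Icc 1 n, (pntA F k : ℝ)) / n) Filter.atTop
      (nhds (dedekindZeta_residue F)) := by
    refine ((NumberField.Ideal.tendsto_norm_le_div_atTop₀ F).comp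
      tendsto_natCast_atTop_atTop).congr fun n ↦ ?_
    simp only [Function.comp_apply, Nat.cast_le, ← Nat.cast_sum, pntA]
    congr
    rw [← add_left_inj 1, ← card_norm_le_eq_card_norm_le_add_one,
      show Finset.Icc 1 n = Finset.Ioc 0 n from Finset.Icc_succ_left_eq_Ioc _ _,
      show 1 = Nat.card {I : Ideal (𝓞 F) // absNorm I = 0} by simp [Ideal.absNorm_eq_zero_iff],
      Finset.sum_Ioc_add_eq_sum_Icc (n.zero_le),
      ← Finset.card_preimage_eq_sum_card_image_eq (fun k _ ↦ finite_setOfPred_absNorm_eq k)]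
    simp [Set.coe_eq_subtype]
  exact LSeriesSummable_of_sum_norm_bigO_and_nonneg (f := fun n => (pntA F n : ℝ))
    (Asymptotics.isBigO_atTop_natCast_rpow_of_tendsto_div_rpow (by simpa using h))
    (fun _ => Nat.cast_nonneg _) zero_le_one hs

end Vale.Agent.P319
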