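import Mathlib

/-! # P319, part PNT: a bound for the discriminant -/

namespace Vale.Agent.P319

open NumberField Module

theorem pnt_disc {F : Type} [Field F] [NumberField F] {ι : Type} [Fintype ι] [DecidableEq ι]
    (b : Basis ι ℚ F) (hb : ∀ i, IsIntegral ℤ (b i)) (B : ℝ) (hB0 : 0 ≤ B)
    (hB : ∀ i (σ : F →ₐ[ℚ] ℂ), ‖σ (b i)‖ ≤ B) :
    |(discr F : ℝ)| ≤ ((finrank ℚ F : ℝ) * B) ^ (2 * finrank ℚ F) := by
  set e := (integralBasis F).indexEquiv b
  set b₀ := (integralBasis F).reindex e with hb₀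
  have h1 : Algebra.discr ℚ b = (b₀.toMatrix b).det ^ 2 * discr F := by
    rw [coe_discr, ← Algebra.discr_reindex ℚ (integralBasis F) e, ← Basis.coe_reindex,
      ← Algebra.discr_of_matrix_vecMul, Basis.toMatrix_map_vecMul]
  have h2 : IsIntegral ℤ (b₀.toMatrix b).det := by
    refine IsIntegral.det fun i j => ?_
    rw [Basis.toMatrix_apply, hb₀, Basis.repr_reindex_apply]
    have := integralBasis_repr_apply F ⟨b j, hb j⟩ (e.symm i)
    erw [this]
    exact isIntegral_algebraMap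
  obtain ⟨z, hz⟩ := IsIntegrallyClosed.isIntegral_iff.1 h2
  have hz0 : z ≠ 0 := by
    rintro rfl
    have := b₀.isUnit_det b
    rw [Basis.det_apply, ← hz] at this
    simp at this
  have hc : Fintype.card ι = finrank ℚ F := (finrank_eq_card_basis b).symm
  obtain ⟨f⟩ : Nonempty (ι ≃ (F →ₐ[ℚ] ℂ)) := by
    rw [← Fintype.card_eq, hc, AlgHom.card]
  have h3 := Algebra.discr_eq_det_embeddingsMatrixReindex_pow_two ℚ ℂ b f
  have h4 : ‖(Algebra.embeddingsMatrixReindex ℚ ℂ b f).det‖ ≤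
      (finrank ℚ F).factorial • B ^ finrank ℚ F := by
    rw [← hc]
    exact Matrix.det_le (abv := NormedField.toAbsoluteValue ℂ) fun i j => hB i _
  have h5 : |(discr F : ℝ)| ≤ ‖(Algebra.embeddingsMatrixReindex ℚ ℂ b f).det‖ ^ 2 := by
    rw [← norm_pow, ← h3, h1, ← hz]
    simp only [eq_intCast, eq_ratCast, Rat.cast_mul, Rat.cast_pow, Rat.cast_intCast, norm_mul,
      norm_pow, Complex.norm_intCast]
    refine le_mul_of_one_le_left (abs_nonneg _) (one_le_pow₀ ?_)
    exact_mod_cast Int.one_le_abs hz0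
  refine h5.trans ?_
  rw [mul_comm 2, pow_mul]
  refine pow_le_pow_left₀ (norm_nonneg _) (h4.trans ?_) 2
  rw [nsmul_eq_mul, mul_pow]
  refine mul_le_mul_of_nonneg_right ?_ (pow_nonneg hB0 _)
  exact_mod_cast Nat.factorial_le_pow _

end Vale.Agent.P319
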