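import Mathlib
import Vale.Agent.P319.N.PntLam
import Vale.Agent.P319.N.PntDisc

/-! # P319, part PNT: the fields `K = ℚ(ζ_{12 l})` and `L = K(p^{1/l})` -/

namespace Vale.Agent.P319

open NumberField Ideal Polynomial Module
open scoped Pointwise

section cyc

variable {K : Type} [Field K] [NumberField K] {m : ℕ} [NeZero m] [IsCyclotomicExtension {m} ℚ K]

variable (m) in
theorem pnt_not_pow {p l : ℕ} (hp : p.Prime) (hm : ¬p ∣ m) (hl : 2 ≤ l) (x : K) :
    x ^ l ≠ p := by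
  intro hx
  have : Fact p.Prime := ⟨hp⟩
  have hi : IsIntegral ℤ x := IsIntegral.of_pow (show 0 < l by omega) (by
    rw [hx]; exact_mod_cast isIntegral_algebraMap (R := ℤ) (A := K) (x := (p : ℤ)))
  set y : 𝓞 K := ⟨x, hi⟩
  have hy : y ^ l = p := by
    apply RingOfIntegers.ext
    simp only [map_pow, map_natCast]
    exact hx
  obtain ⟨⟨P, _, _⟩⟩ := (span {(p : ℤ)}).nonempty_primesOver (S := 𝓞 K)
  have h0 : (span {(p : ℤ)}).map (algebraMap ℤ (𝓞 K)) = span {y} ^ l := by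
    rw [map_span, Set.image_singleton, span_singleton_pow, hy, map_natCast]
  have h1 : (span {(p : ℤ)}).map (algebraMap ℤ (𝓞 K)) ≠ ⊥ :=
    map_ne_bot_of_ne_bot (by simpa using hp.ne_zero)
  have h2 := IsCyclotomicExtension.Rat.ramificationIdx_eq_of_not_dvd p K P hm
  rw [IsDedekindDomain.ramificationIdx_eq_normalizedFactors_count (span {(p : ℤ)}) P h1, h0,
    UniqueFactorizationMonoid.normalizedFactors_pow, Multiset.count_nsmul] at h2
  have := Nat.eq_one_of_mul_eq_one_right h2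
  omega

theorem pnt_dvd {r : ℕ} (hr : r.Prime) (hm : ¬r ∣ m) (P : Ideal (𝓞 K)) (hP : absNorm P = r) :
    m ∣ r - 1 := by
  have : Fact r.Prime := ⟨hr⟩
  have : P.IsPrime := isPrime_of_irreducible_absNorm (hP ▸ hr)
  have : P.LiesOver (span {(r : ℤ)}) := ⟨by
    have := span_singleton_absNorm (I := P) (hP ▸ hr)
    rwa [hP] at this⟩
  have h1 := pow_inertiaDeg r P
  rw [hP, IsCyclotomicExtension.Rat.inertiaDeg_eq_of_not_dvd r K P hm] at h1
  have h2 : orderOf (r : ZMod m) = 1 := (Nat.pow_eq_self_iff hr.one_lt).1 h1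
  rw [orderOf_eq_one_iff, ← Nat.cast_one (R := ZMod m), eq_comm, ZMod.natCast_eq_natCast_iff] at h2
  exact (Nat.modEq_iff_dvd' hr.one_lt.le).1 h2

end cyc

theorem pnt_split {K L : Type} [Field K] [NumberField K] [Field L] [NumberField L] [Algebra K L]
    [IsGalois K L] {l r : ℕ} {p : ℤ} (hl : l.Prime) (hr : r.Prime) (hrl : r ≠ l)
    (hrp : ¬(r : ℤ) ∣ p) (hd : finrank K L = l) (ζ α : 𝓞 L) (hζ : IsPrimitiveRoot ζ l)
    (hα : α ^ l = p)
    (σ : Gal(L/K)) (h1 : σ • α = ζ * α) (h2 : σ • ζ = ζ) (t : ℤ) (ht : (r : ℤ) ∣ t ^ l - p)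
    (P : Ideal (𝓞 K)) (hP : absNorm P = r) :
    (P.primesOver (𝓞 L)).ncard = l ∧ ∀ Q ∈ P.primesOver (𝓞 L), absNorm Q = r := by
  have : P.IsPrime := isPrime_of_irreducible_absNorm (hP ▸ hr)
  have hg : 2 ≤ (P.primesOver (𝓞 L)).ncard := by
    obtain ⟨⟨Q, hQ, hQ'⟩⟩ := P.nonempty_primesOver (S := 𝓞 L)
    rw [Nat.succ_le_iff, Set.one_lt_ncard (Algebra.QuasiFinite.finite_primesOver P)]
    refine ⟨Q, ⟨hQ, hQ'⟩, σ • Q, ⟨inferInstance, inferInstance⟩, fun h => ?_⟩
    have hrQ : (r : 𝓞 L) ∈ Q := by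
      have h3 : (r : 𝓞 K) ∈ P := hP ▸ absNorm_mem P
      rw [hQ'.over, mem_comap, map_natCast] at h3
      exact h3
    have hco : ∀ q : ℤ, ¬(r : ℤ) ∣ q → (q : 𝓞 L) ∉ Q := fun q hrq hqQ => by
      obtain ⟨a, b, e⟩ := (((Nat.prime_iff_prime_int.1 hr).coprime_iff_not_dvd.2 hrq).map
        (Int.castRingHom (𝓞 L)))
      simp only [eq_intCast, Int.cast_natCast] at e
      exact hQ.ne_top ((eq_top_iff_one Q).2
        (e ▸ Q.add_mem (Q.mul_mem_left a hrQ) (Q.mul_mem_left b hqQ)))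
    have h4 : ∏ i ∈ Finset.range l, (α - ζ ^ i * t) ∈ Q := by
      have h5 := congrArg (eval α) (X_pow_sub_C_eq_prod hζ hl.pos (rfl : (t : 𝓞 L) ^ l = _))
      simp only [eval_sub, eval_pow, eval_X, eval_C, eval_prod] at h5
      obtain ⟨c, hc⟩ := ht
      have h6 : (t : 𝓞 L) ^ l - p = r * c := by exact_mod_cast congrArg (Int.cast (R := 𝓞 L)) hc
      rw [← h5, hα, ← neg_sub, h6]
      exact Q.neg_mem (Q.mul_mem_right _ hrQ)
    obtain ⟨i, -, hi⟩ := (IsPrime.prod_mem_iff (hp := hQ)).1 h4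
    have h7 : σ • (α - ζ ^ i * t) ∈ Q := by
      rw [h]
      exact smul_mem_pointwise_smul _ _ _ (h ▸ hi)
    rw [smul_sub, smul_mul', smul_pow', h1, h2,
      show σ • (t : 𝓞 L) = t from map_intCast (MulSemiringAction.toRingHom _ _ σ) t] at h7
    have h8 : (ζ - 1) * α ∈ Q := by
      have := Q.sub_mem h7 hi
      rwa [show ζ * α - ζ ^ i * t - (α - ζ ^ i * t) = (ζ - 1) * α by ring] at this
    rcases hQ.mem_or_mem h8 with h9 | h9
    · refine hco l (fun h => hrl ((Nat.prime_dvd_prime_iff_eq hr hl).1 (by exact_mod_cast h))) ?_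
      have h10 := congrArg (Ideal.Quotient.mk Q) (hζ.geom_sum_eq_zero hl.one_lt)
      have h11 : Ideal.Quotient.mk Q ζ = 1 := by
        rw [← map_one (Ideal.Quotient.mk Q), Ideal.Quotient.eq]; exact h9
      rw [← Ideal.Quotient.eq_zero_iff_mem, Int.cast_natCast, map_natCast]
      simpa [h11] using h10
    · exact hco p hrp (hα ▸ Q.pow_mem_of_mem h9 l hl.pos)
  have h3 := ncard_primesOver_mul_ramificationIdxIn_mul_inertiaDegIn P (𝓞 L) Gal(L/K)
  rw [IsGalois.card_aut_eq_finrank, hd] at h3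
  have h4 : (P.primesOver (𝓞 L)).ncard = l :=
    ((Nat.dvd_prime hl).1 ⟨_, h3.symm⟩).resolve_left (by omega)
  refine ⟨h4, fun Q ⟨hQ, hQ'⟩ => ?_⟩
  rw [h4, mul_eq_left₀ hl.ne_zero, inertiaDegIn_eq_inertiaDeg P Q Gal(L/K)] at h3
  rw [← absNorm_pow_inertiaDeg P Q, Nat.eq_one_of_mul_eq_one_left h3, pow_one, hP]

theorem pnt_count {K L : Type} [Field K] [NumberField K] [Field L] [NumberField L] [Algebra K L]
    (r g : ℕ) (h : ∀ P : Ideal (𝓞 K), absNorm P = r →
      (P.primesOver (𝓞 L)).ncard = g ∧ ∀ Q ∈ P.primesOver (𝓞 L), absNorm Q = r) :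
    g * pntA K r ≤ pntA L r := by
  classical
  rw [← card_pntS, ← card_pntS]
  refine le_trans (Finset.mul_card_image_le_card_of_maps_to
    (s := (pntS L r).filter fun Q => Q.under (𝓞 K) ∈ pntS K r) (f := fun Q => Q.under (𝓞 K))
    (fun Q hQ => (Finset.mem_filter.1 hQ).2) g fun P hP => ?_) (Finset.card_filter_le _ _)
  obtain ⟨h1, h2⟩ := h P (mem_pntS.1 hP)
  refine h1.ge.trans ?_
  rw [← Set.ncard_coe_finset]
  refine Set.ncard_le_ncard (fun Q hQ => ?_) (Finset.finite_toSet _)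
  have h3 : Q.under (𝓞 K) = P := hQ.2.over.symm
  simp only [Finset.coe_filter, Finset.mem_filter, Set.mem_ofPred_eq, h3, hP, and_true]
  exact mem_pntS.2 (h2 Q hQ)

theorem pnt_exK (m : ℕ) [NeZero m] :
    ∃ (K : Type) (_ : Field K) (_ : NumberField K), IsCyclotomicExtension {m} ℚ K :=
  ⟨CyclotomicField m ℚ, inferInstance, inferInstance, CyclotomicField.isCyclotomicExtension m ℚ⟩

theorem pnt_exL {K : Type} [Field K] [NumberField K] {l : ℕ} (hl : l.Prime) (a : K)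
    (H : Irreducible (X ^ l - C a)) {ζ : K} (hζ : IsPrimitiveRoot ζ l) :
    ∃ (L : Type) (_ : Field L) (_ : NumberField L) (_ : Algebra K L) (_ : IsGalois K L)
      (b : PowerBasis K L) (σ : Gal(L/K)), b.dim = l ∧ b.gen ^ l = algebraMap K L a ∧
        σ b.gen = algebraMap K L ζ * b.gen := by
  have : NeZero l := ⟨hl.ne_zero⟩
  have := Fact.mk H
  let L := AdjoinRoot (X ^ l - C a)
  have hne : (primitiveRoots l K).Nonempty := ⟨_, (mem_primitiveRoots hl.pos).2 hζ⟩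
  have : IsSplittingField K L (X ^ l - C a) := isSplittingField_AdjoinRoot_X_pow_sub_C hne H
  have : FiniteDimensional K L := IsSplittingField.finiteDimensional L (X ^ l - C a)
  refine ⟨L, inferInstance, NumberField.of_module_finite K L, inferInstance,
    isGalois_of_isSplittingField_X_pow_sub_C hne H L, AdjoinRoot.powerBasis H.ne_zero,
    autAdjoinRootXPowSubC l a hζ.toRootsOfUnity, ?_, ?_, ?_⟩
  · rw [AdjoinRoot.powerBasis_dim, natDegree_X_pow_sub_C]
  · rw [AdjoinRoot.powerBasis_gen]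
    exact root_X_pow_sub_C_pow l a
  · rw [AdjoinRoot.powerBasis_gen, autAdjoinRootXPowSubC_root, Algebra.smul_def,
      IsPrimitiveRoot.val_toRootsOfUnity_coe]

theorem pnt_alg (l p : ℕ) (hl : l.Prime) (hp : p.Prime) (h3 : 3 < p) (hlp : l ≠ p) :
    ∃ (K L : Type) (_ : Field K) (_ : NumberField K) (_ : Field L) (_ : NumberField L),
      (∃ w : K, w ^ 2 + w + 1 = 0) ∧ (∃ w : L, w ^ 2 + w + 1 = 0) ∧
      finrank ℚ K ≤ 12 * l ^ 2 ∧ finrank ℚ L ≤ 12 * l ^ 2 ∧
      |(discr K : ℝ)| ≤ ((finrank ℚ K : ℝ) * p) ^ (2 * finrank ℚ K) ∧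
      |(discr L : ℝ)| ≤ ((finrank ℚ L : ℝ) * p) ^ (2 * finrank ℚ L) ∧
      ∀ r : ℕ, r.Prime → r ≠ 2 → r ≠ 3 → r ≠ l → r ≠ p →
        (12 * l ∣ r - 1 → ∃ x : ZMod r, x ^ l = (p : ZMod r)) → 2 * pntA K r ≤ pntA L r := by
  classical
  have hnd : ∀ q : ℕ, q.Prime → q ≠ 2 → q ≠ 3 → q ≠ l → ¬q ∣ 12 * l := fun q hq h2 h3 h4 h => by
    rcases (Nat.Prime.dvd_mul hq).1 h with h | h
    · rcases (Nat.Prime.dvd_mul (m := 2 ^ 2) (n := 3) hq).1 h with h | h
      · exact h2 ((Nat.prime_dvd_prime_iff_eq hq Nat.prime_two).1 (hq.dvd_of_dvd_pow h))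
      · exact h3 ((Nat.prime_dvd_prime_iff_eq hq Nat.prime_three).1 h)
    · exact h4 ((Nat.prime_dvd_prime_iff_eq hq hl).1 h)
  have hm0 : 0 < 12 * l := by have := hl.pos; omega
  have : NeZero (12 * l) := ⟨hm0.ne'⟩
  obtain ⟨K, _, _, _⟩ := pnt_exK (12 * l)
  have hζ := IsCyclotomicExtension.zeta_spec (12 * l) ℚ K
  set ζ := IsCyclotomicExtension.zeta (12 * l) ℚ K
  have hζl : IsPrimitiveRoot (ζ ^ 12) l := hζ.pow hm0 rfl
  have hw : (ζ ^ (4 * l)) ^ 2 + ζ ^ (4 * l) + 1 = 0 := by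
    have h1 : IsPrimitiveRoot (ζ ^ (4 * l)) 3 := hζ.pow hm0 (by ring)
    have h2 := h1.geom_sum_eq_zero (by norm_num)
    simp only [Finset.sum_range_succ, Finset.range_zero, Finset.sum_empty] at h2
    rw [← h2]; ring
  have H : Irreducible (X ^ l - C (p : K)) := X_pow_sub_C_irreducible_of_prime hl
    (pnt_not_pow (12 * l) hp (hnd p hp (by omega) (by omega) hlp.symm) hl.two_le)
  obtain ⟨L, _, _, _, _, bL, τ, hdim, hα, hτ⟩ := pnt_exL hl (p : K) H hζl
  have hd : finrank K L = l := bL.finrank.trans hdim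
  rw [map_natCast] at hα
  have hK : finrank ℚ K ≤ 12 * l := by
    rw [IsCyclotomicExtension.finrank K (cyclotomic.irreducible_rat hm0)]
    exact Nat.totient_le _
  have hL : finrank ℚ L ≤ 12 * l ^ 2 := by
    rw [← finrank_mul_finrank ℚ K L, hd, pow_two, ← mul_assoc]
    exact Nat.mul_le_mul_right _ hK
  set α : L := bL.gen
  have hαi : IsIntegral ℤ α := IsIntegral.of_pow hl.pos (by
    rw [hα]; exact_mod_cast isIntegral_algebraMap (R := ℤ) (A := L) (x := (p : ℤ)))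
  have hζi : IsIntegral ℤ ζ := hζ.isIntegral hm0
  have hp1 : (1 : ℝ) ≤ p := by exact_mod_cast hp.one_lt.le
  have hζn : ∀ (z : ℂ), z ^ (12 * l) = 1 → ‖z‖ = 1 := fun z hz =>
    Complex.norm_eq_one_of_pow_eq_one hz hm0.ne'
  let bK := hζ.powerBasis ℚ
  have hbK : ∀ i, bK.basis i = ζ ^ (i : ℕ) := fun i => by
    rw [bK.basis_eq_pow, IsPrimitiveRoot.powerBasis_gen]
  have hbL : ∀ i, bL.basis i = α ^ (i : ℕ) := fun i => bL.basis_eq_pow i
  refine ⟨K, L, inferInstance, inferInstance, inferInstance, inferInstance, ⟨_, hw⟩,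
    ⟨algebraMap K L (ζ ^ (4 * l)), by simpa using congrArg (algebraMap K L) hw⟩,
    hK.trans (by nlinarith [hl.pos]), hL, ?_, ?_, ?_⟩
  · refine pnt_disc bK.basis (fun i => hbK i ▸ hζi.pow _) p (by positivity) fun i σ => ?_
    rw [hbK, map_pow, norm_pow, hζn _ (by rw [← map_pow, hζ.pow_eq_one, map_one]), one_pow]
    exact hp1
  · refine pnt_disc (bK.basis.smulTower bL.basis) (fun i => ?_) p (by positivity) fun i σ => ?_
    · rw [Basis.smulTower_apply, hbK, hbL, Algebra.smul_def]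
      exact (hζi.pow _).algebraMap.mul (hαi.pow _)
    · rw [Basis.smulTower_apply, hbK, hbL, Algebra.smul_def, map_mul, map_pow, map_pow, map_pow,
        norm_mul, norm_pow, norm_pow,
        hζn _ (by rw [← map_pow, ← map_pow, hζ.pow_eq_one, map_one, map_one]), one_pow, one_mul]
      have h1 : ‖σ α‖ ^ l = p := by rw [← norm_pow, ← map_pow, hα, map_natCast, Complex.norm_natCast]
      have h2 : 1 ≤ ‖σ α‖ := by
        rwa [← h1, one_le_pow_iff_of_nonneg (norm_nonneg _) hl.ne_zero] at hp1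
      rw [← h1]
      refine pow_le_pow_right₀ h2 ?_
      exact hdim ▸ i.2.2.le
  · intro r hr h2 h3 hrl hrp hx
    refine (Nat.mul_le_mul_right _ hl.two_le).trans (pnt_count r l fun P hP => ?_)
    obtain ⟨x, hx⟩ := hx (pnt_dvd hr (hnd r hr h2 h3 hrl) P hP)
    obtain ⟨t, rfl⟩ := ZMod.intCast_surjective x
    have ht : (r : ℤ) ∣ t ^ l - p := by
      rw [← ZMod.intCast_zmod_eq_zero_iff_dvd]
      push_cast
      rw [hx, sub_self]
    have hinj := (algebraMap K L).injective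
    refine pnt_split hl hr hrl
      (fun h => hrp ((Nat.prime_dvd_prime_iff_eq hr hp).1 (by exact_mod_cast h))) hd
      ⟨algebraMap K L (ζ ^ 12), (hζi.pow _).algebraMap⟩ ⟨α, hαi⟩ ?_ ?_ τ ?_ ?_ t ht P hP
    · exact (hζl.map_of_injective hinj).of_map_of_injective (f := algebraMap (𝓞 L) L)
        RingOfIntegers.coe_injective
    · apply RingOfIntegers.ext
      simp only [Int.cast_natCast, map_natCast]
      exact hα
    · exact RingOfIntegers.ext hτ
    · exact RingOfIntegers.ext (τ.commutes _)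

end Vale.Agent.P319
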