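import Mathlib

/-! # P319, part PNT: Taylor coefficients of the logarithmic derivative at `1 + 1/4000` -/

namespace Vale.Agent.P319

open Complex Metric LSeries Filter Topology Finset


/-- the weight `η^(k+1) (log n)^k / k! * n^(-1-η)`, `η = 1/4000` -/
noncomputable def pntW (k n : ℕ) : ℝ :=
  (1 / 4000 : ℝ) ^ (k + 1) * (Real.log n ^ k / k.factorial) * (n : ℝ) ^ (-(4001 / 4000) : ℝ)

theorem pnt_log (Z : ℂ → ℂ) (c : ℂ) (η M : ℝ) (hη : 0 < η) (hM : 0 < M) (hZ : Differentiable ℂ Z)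
    (h0 : ∀ z ∈ ball c (3 * η), Z z ≠ 0)
    (h1 : ∀ z ∈ ball c (3 * η), ‖Z z‖ ≤ Real.exp M * ‖Z c‖) :
    ∃ g : ℂ → ℂ, (∀ z ∈ ball c (3 * η), HasDerivAt g (deriv Z z / Z z) z) ∧
      ∀ k : ℕ, ‖iteratedDeriv k g c‖ ≤ k.factorial * (4 * M) / (2 * η) ^ k := by
  have hc : c ∈ ball c (3 * η) := mem_ball_self (by positivity)
  have hd : DifferentiableOn ℂ (fun z => deriv Z z / Z z) (ball c (3 * η)) :=
    hZ.deriv.differentiableOn.div hZ.differentiableOn h0
  obtain ⟨g, hg0, hg⟩ := hd.isExactOn_ball.with_val_at c 0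
  have hgd : DifferentiableOn ℂ g (ball c (3 * η)) :=
    fun z hz => (hg z hz).differentiableAt.differentiableWithinAt
  have hE : ∀ z ∈ ball c (3 * η), HasDerivAt (fun z => Z z * exp (-g z)) 0 z := fun z hz => by
    have := (hZ z).hasDerivAt.mul (hg z hz).neg.cexp
    refine this.congr_deriv ?_
    have := h0 z hz
    simp only [Pi.neg_apply]
    field_simp
    ring
  have hre : ∀ z ∈ ball c (3 * η), (g z).re ≤ M := fun z hz => by
    have h2 : Z z * exp (-g z) = Z c * exp (-g c) :=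
      isOpen_ball.is_const_of_deriv_eq_zero (convex_ball c _).isPreconnected
        (fun w hw => (hE w hw).differentiableAt.differentiableWithinAt)
        (fun w hw => (hE w hw).deriv) hz hc
    rw [hg0, neg_zero, exp_zero, mul_one] at h2
    have h3 : Z z = Z c * exp (g z) := by
      rw [← h2, mul_assoc, ← exp_add, neg_add_cancel, exp_zero, mul_one]
    have h4 := h1 z hz
    rw [h3, norm_mul, norm_exp, mul_comm] at h4
    exact Real.exp_le_exp.1 (le_of_mul_le_mul_right h4 (norm_pos_iff.2 (h0 c hc)))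
  refine ⟨g, hg, fun k => ?_⟩
  have hsub : closedBall c (2 * η) ⊆ ball c (3 * η) := closedBall_subset_ball (by linarith)
  refine norm_iteratedDeriv_le_of_forall_mem_sphere_norm_le k (by positivity)
    (hgd.diffContOnCl_ball hsub) fun z hz => ?_
  have hz' : ‖z - c‖ = 2 * η := mem_sphere_iff_norm.1 hz
  have hmem : ∀ w ∈ ball (0 : ℂ) (3 * η), c + w ∈ ball c (3 * η) := fun w hw => by
    simpa using hw
  have h5 := borelCaratheodory_zero (f := fun w => g (c + w)) (M := M) (R := 3 * η) (z := z - c) hM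
    (hgd.comp (by fun_prop) hmem) (fun w hw => hre _ (hmem w hw)) (by positivity)
    (by rw [mem_ball_zero_iff, hz']; linarith) (by simpa using hg0)
  rw [hz', add_sub_cancel] at h5
  refine h5.trans (le_of_eq ?_)
  rw [show 3 * η - 2 * η = η by ring]
  field_simp
  ring

theorem pnt_absc {f : ℕ → ℂ} (hf : ∀ s : ℂ, 1 < s.re → LSeriesSummable f s) {s : ℂ}
    (hs : 1 < s.re) : abscissaOfAbsConv f < s.re := by
  have h : abscissaOfAbsConv f ≤ (1 : ℝ) :=
    abscissaOfAbsConv_le_of_forall_lt_LSeriesSummable fun y hy => hf y (by simpa using hy)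
  exact h.trans_lt (by exact_mod_cast hs)

theorem pnt_lam_summable (Λ : ℕ → ℝ) (c : ℝ) (h0 : ∀ n, 0 ≤ Λ n)
    (hc : ∀ n, Λ n ≤ c * Real.log n) (s : ℂ) (hs : 1 < s.re) :
    LSeriesSummable (fun n => (Λ n : ℂ)) s := by
  have hf := (LSeriesSummable_logMul_of_lt_re
    (show abscissaOfAbsConv 1 < s.re by
      rw [abscissaOfAbsConv_one]; exact_mod_cast hs)).smul (c : ℂ)
  rw [LSeriesSummable, ← summable_norm_iff] at hf ⊢
  refine hf.of_nonneg_of_le (fun _ ↦ norm_nonneg _) (fun n ↦ norm_term_le s ?_)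
  simp only [Pi.smul_apply, logMul, Pi.one_apply, mul_one, smul_eq_mul, ← natCast_log,
    ← ofReal_mul, norm_real, Real.norm_eq_abs]
  rw [abs_of_nonneg (h0 n)]
  exact (hc n).trans (le_abs_self _)

theorem pnt_hasSum (f : ℕ → ℝ) (x : ℝ) (hx : 0 < x)
    (hf : LSeriesSummable (fun n => (f n : ℂ)) x) :
    ∃ S : ℝ, HasSum (fun n => f n * (n : ℝ) ^ (-x)) S ∧ LSeries (fun n => (f n : ℂ)) x = S := by
  have h : ∀ n : ℕ, term (fun n => (f n : ℂ)) x n = ((f n * (n : ℝ) ^ (-x) : ℝ) : ℂ) := fun n => by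
    rcases eq_or_ne n 0 with rfl | hn
    · simp [Real.zero_rpow (neg_ne_zero.2 hx.ne')]
    · rw [term_of_ne_zero hn, ofReal_mul, ofReal_cpow (Nat.cast_nonneg n), ofReal_neg, cpow_neg,
        div_eq_mul_inv, ofReal_natCast]
  have h1 : HasSum (fun n : ℕ => ((f n * (n : ℝ) ^ (-x) : ℝ) : ℂ))
      (LSeries (fun n => (f n : ℂ)) x) := by
    simp only [← h]
    exact hf.hasSum
  have h2 : Summable fun n : ℕ => f n * (n : ℝ) ^ (-x) := summable_ofReal.1 h1.summable
  exact ⟨_, h2.hasSum, h1.unique (hasSum_ofReal.2 h2.hasSum)⟩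

theorem pnt_iter (Λ : ℕ → ℝ) (k : ℕ) :
    logMul^[k] (fun n => (Λ n : ℂ)) = fun n : ℕ => ((Real.log n ^ k * Λ n : ℝ) : ℂ) := by
  induction k with
  | zero => simp
  | succ k ih =>
    rw [Function.iterate_succ_apply', ih]
    funext n
    simp only [logMul, ← natCast_log]
    push_cast
    ring

theorem pnt_an (a : ℕ → ℕ) (Λ : ℕ → ℝ) (c M : ℝ) (Z : ℂ → ℂ) (ha1 : a 1 = 1)
    (ha : ∀ s : ℂ, 1 < s.re → LSeriesSummable (fun n => (a n : ℂ)) s)
    (h0 : ∀ n, 0 ≤ Λ n) (hc : ∀ n, Λ n ≤ c * Real.log n)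
    (hconv : ∀ n : ℕ, n ≠ 0 → ∑ p ∈ n.divisorsAntidiagonal, Λ p.1 * a p.2 = Real.log n * a n)
    (hZ : Differentiable ℂ Z)
    (hZ1 : ∀ s : ℂ, 1 < s.re → Z s = (s - 1) * LSeries (fun n => (a n : ℂ)) s)
    (hZ0 : ∀ s : ℂ, 1999 / 2000 < s.re → Z s ≠ 0) (hM : 0 ≤ M)
    (hZM : ∀ s : ℂ, 1 / 2 ≤ s.re → s.re ≤ 4 → |s.im| ≤ 1 → ‖Z s‖ ≤ Real.exp M) (k : ℕ) :
    ∃ S, HasSum (fun n => pntW k n * Λ n) S ∧ |S - 1| ≤ 4 * (M + 4000) * (k + 1) / 2 ^ (k + 1) := by
  set x : ℝ := 4001 / 4000 with hx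
  have hx1 : 1 < (x : ℂ).re := by rw [ofReal_re, hx]; norm_num
  have hL := pnt_lam_summable Λ c h0 hc
  -- lower bound at the centre
  have hc0 : 1 / 4000 ≤ ‖Z x‖ := by
    obtain ⟨S, h1, h2⟩ := pnt_hasSum (fun n => (a n : ℝ)) x (by norm_num [hx]) (ha x hx1)
    have h3 : 1 ≤ S := by
      have := le_hasSum h1 1 fun n _ => by positivity
      simpa [ha1] using this
    have h4 : LSeries (fun n => (a n : ℂ)) x = S := h2
    rw [hZ1 x hx1, h4, show (x : ℂ) - 1 = ((1 / 4000 : ℝ) : ℂ) by rw [hx]; push_cast; norm_num,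
      ← ofReal_mul, norm_real, Real.norm_eq_abs]
    refine le_trans ?_ (le_abs_self _)
    linarith
  have hball : ∀ z ∈ ball (x : ℂ) (3 * (1 / 4000)), 1999 / 2000 < z.re ∧ z.re ≤ 4 ∧ |z.im| ≤ 1 :=
    fun z hz => by
    rw [mem_ball_iff_norm] at hz
    have h1 := (abs_re_le_norm (z - x)).trans_lt hz
    have h2 := (abs_im_le_norm (z - x)).trans_lt hz
    simp only [sub_re, ofReal_re, sub_im, ofReal_im, sub_zero, hx] at h1 h2
    rw [abs_lt] at h1
    exact ⟨by linarith [h1.1], by linarith [h1.2], by linarith⟩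
  obtain ⟨g, hg, hk⟩ := pnt_log Z x (1 / 4000) (M + 4000) (by norm_num) (by linarith) hZ
    (fun z hz => hZ0 z (hball z hz).1) fun z hz => by
      obtain ⟨h1, h2, h3⟩ := hball z hz
      refine (hZM z (by linarith) h2 h3).trans ?_
      rw [Real.exp_add, mul_assoc]
      refine le_mul_of_one_le_right (Real.exp_pos _).le ?_
      have := Real.add_one_le_exp 4000
      nlinarith
  -- the logarithmic derivative
  have hE : deriv g =ᶠ[𝓝 (x : ℂ)] fun s => (1 * s - 1)⁻¹ - LSeries (fun n => (Λ n : ℂ)) s := by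
    have hop : IsOpen {s : ℂ | 1 < s.re} := isOpen_lt continuous_const continuous_re
    filter_upwards [ball_mem_nhds (x : ℂ) (show (0 : ℝ) < 3 * (1 / 4000) by norm_num),
      hop.mem_nhds hx1] with s hs hs1
    have h1 : Z =ᶠ[𝓝 s] fun s => (s - 1) * LSeries (fun n => (a n : ℂ)) s := by
      filter_upwards [hop.mem_nhds hs1] with t ht using hZ1 t ht
    have h2 := (((hasDerivAt_id s).sub_const 1).mul (LSeries_hasDerivAt (pnt_absc ha hs1))).deriv
    have h3 : LSeries (logMul fun n => (a n : ℂ)) s =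
        LSeries (fun n => (Λ n : ℂ)) s * LSeries (fun n => (a n : ℂ)) s := by
      rw [← LSeries_convolution' (hL s hs1) (ha s hs1)]
      refine LSeries_congr (fun {n} hn => ?_) s
      rw [convolution_def]
      simp only [logMul, ← natCast_log]
      exact_mod_cast (hconv n hn).symm
    have h4 := hZ0 s (hball s hs).1
    rw [hZ1 s hs1] at h4
    have h5 := left_ne_zero_of_mul h4
    have h6 := right_ne_zero_of_mul h4
    rw [(hg s hs).deriv, h1.deriv_eq, hZ1 s hs1, one_mul]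
    erw [h2]
    rw [h3]
    simp only [id]
    field_simp
    ring
  have hx0 : (1 : ℂ) * x - 1 = 1 / 4000 := by rw [hx]; push_cast; norm_num
  have h7 := hk (k + 1)
  rw [iteratedDeriv_succ', hE.iteratedDeriv_eq, iteratedDeriv_fun_sub, iteratedDeriv_eq_iterate,
    iter_deriv_inv_linear_sub, LSeries_iteratedDeriv _ (pnt_absc hL hx1), pnt_iter] at h7
  rotate_left
  · exact ContDiffAt.inv (by fun_prop) (by rw [hx0]; norm_num)
  · exact (LSeries_analyticOnNhd _ _ (pnt_absc hL hx1)).contDiffAt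
  obtain ⟨S, h8, h9⟩ := pnt_hasSum (fun n => Real.log n ^ k * Λ n) x (by norm_num [hx]) (by
    rw [← pnt_iter]
    exact LSeriesSummable_of_abscissaOfAbsConv_lt_re
      (by rw [absicssaOfAbsConv_logPowMul]; exact pnt_absc hL hx1))
  refine ⟨(1 / 4000 : ℝ) ^ (k + 1) / k.factorial * S, ?_, ?_⟩
  · refine (h8.mul_left ((1 / 4000 : ℝ) ^ (k + 1) / k.factorial)).congr_fun fun n => ?_
    rw [pntW]
    ring
  · have hf : (0 : ℝ) < k.factorial := by positivity
    have e1 : ((1 : ℂ) / 4000) ^ (-1 - k : ℤ) = ((4000 ^ (k + 1) : ℝ) : ℂ) := by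
      rw [show (-1 - k : ℤ) = -((k + 1 : ℕ) : ℤ) by push_cast; ring, zpow_neg, zpow_natCast]
      simp
    simp only [h9, hx0, e1, one_pow, mul_one] at h7
    rw [mul_assoc, ← mul_sub, norm_mul, norm_pow, norm_neg, norm_one, one_pow, one_mul,
      ← ofReal_natCast, ← ofReal_mul, ← ofReal_sub, norm_real, Real.norm_eq_abs,
      abs_sub_comm] at h7
    have e2 : (1 / 4000 : ℝ) ^ (k + 1) / k.factorial * S - 1 =
        (1 / 4000 : ℝ) ^ (k + 1) / k.factorial * (S - k.factorial * 4000 ^ (k + 1)) := by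
      rw [one_div, inv_pow]
      field_simp
    rw [e2, abs_mul, abs_of_nonneg (by positivity)]
    refine (mul_le_mul_of_nonneg_left h7 (by positivity)).trans (le_of_eq ?_)
    rw [Nat.factorial_succ, mul_pow]
    push_cast
    field_simp

end Vale.Agent.P319
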