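import Mathlib
import Vale.Agent.P319.N.PntAn

/-! # P319, part PNT: the final comparison of the two weighted sums -/

namespace Vale.Agent.P319

open Finset

theorem pntW_nonneg (k n : ℕ) : 0 ≤ pntW k n := by
  have := Real.log_natCast_nonneg n
  unfold pntW
  positivity

theorem pntW_le (k n : ℕ) (hn : n ≠ 0) (θ : ℝ) (hθ : 0 < θ) :
    pntW k n * Real.log n ≤
      (k + 1) * (1 / 4000 / θ) ^ (k + 1) * (n : ℝ) ^ (θ - 4001 / 4000) := by
  have hn' : (0 : ℝ) < n := by positivity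
  have h1 := Real.pow_div_factorial_le_exp (θ * Real.log n)
    (mul_nonneg hθ.le (Real.log_natCast_nonneg n)) (k + 1)
  rw [mul_comm θ, ← Real.rpow_def_of_pos hn'] at h1
  rw [sub_eq_add_neg, Real.rpow_add hn']
  calc pntW k n * Real.log n = (k + 1) * (1 / 4000 / θ) ^ (k + 1) *
        ((Real.log n * θ) ^ (k + 1) / (k + 1).factorial * (n : ℝ) ^ (-(4001 / 4000) : ℝ)) := by
        rw [pntW, Nat.factorial_succ, div_pow _ θ, mul_pow]
        push_cast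
        field_simp
        ring
    _ ≤ _ := by gcongr

open Classical in
/-- `n ^ (-3/4)` on the proper prime powers -/
noncomputable def pntP (n : ℕ) : ℝ :=
  if IsPrimePow n ∧ ¬n.Prime then (n : ℝ) ^ (-(3 / 4) : ℝ) else 0

theorem pntP_nonneg (n : ℕ) : 0 ≤ pntP n := by
  unfold pntP
  split_ifs <;> positivity

theorem pntP_summable : Summable pntP := by
  have h1 : ∀ n : {n : ℕ | IsPrimePow n ∧ ¬n.Prime}, ∃ x : ℕ × Bool, 0 < x.1 ∧
      (n : ℕ) = x.1 ^ 2 * if x.2 then x.1.minFac else 1 := by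
    rintro ⟨n, hn, hn'⟩
    obtain ⟨r, j, hr, hj, rfl⟩ := (isPrimePow_nat_iff _).1 hn
    have hj1 : j ≠ 1 := by rintro rfl; exact hn' (by simpa using hr)
    obtain ⟨i, rfl | rfl⟩ := Nat.even_or_odd' j
    · exact ⟨(r ^ i, false), pow_pos hr.pos i, by simp [← pow_mul, mul_comm]⟩
    · refine ⟨(r ^ i, true), pow_pos hr.pos i, ?_⟩
      simp only [if_true]
      rw [hr.pow_minFac (by omega)]
      ring
  choose g hg0 hg using h1
  have hinj : Function.Injective g := fun a b h => Subtype.ext (by rw [hg a, hg b, h])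
  have h2 : Summable fun x : ℕ × Bool => (x.1 : ℝ) ^ (-(3 / 2) : ℝ) * (1 : ℝ) :=
    Summable.mul_of_nonneg (f := fun m : ℕ => (m : ℝ) ^ (-(3 / 2) : ℝ)) (g := fun _ : Bool => 1)
      (Real.summable_nat_rpow.2 (by norm_num)) Summable.of_finite (fun _ => by positivity)
      (fun _ => zero_le_one)
  have h3 : Summable ((fun n : ℕ => (n : ℝ) ^ (-(3 / 4) : ℝ)) ∘
      ((↑) : {n : ℕ | IsPrimePow n ∧ ¬n.Prime} → ℕ)) := by
    refine (h2.comp_injective hinj).of_nonneg_of_le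
      (fun _ => by simp only [Function.comp]; positivity) fun n => ?_
    simp only [Function.comp, mul_one]
    have h4 : (0 : ℝ) < (g n).1 := by exact_mod_cast hg0 n
    have h5 : (g n).1 ^ 2 ≤ (n : ℕ) := by
      rw [hg n]
      refine Nat.le_mul_of_pos_right _ ?_
      split_ifs
      · exact Nat.minFac_pos _
      · exact one_pos
    calc ((n : ℕ) : ℝ) ^ (-(3 / 4) : ℝ) ≤ (((g n).1 : ℝ) ^ (2 : ℝ)) ^ (-(3 / 4) : ℝ) :=
          Real.rpow_le_rpow_of_nonpos (by positivity) (by exact_mod_cast h5) (by norm_num)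
      _ = _ := by rw [← Real.rpow_mul h4.le]; norm_num
  rw [summable_subtype_iff_indicator] at h3
  refine h3.congr fun n => ?_
  simp only [pntP, Set.indicator, Set.mem_ofPred_eq]

theorem pnt_point (LK LL : ℕ → ℝ) (M : ℝ) (X l p k : ℕ) (hM : 0 ≤ M) (hX : 0 < X)
    (hL : ∀ n, 0 ≤ LL n) (h1 : ∀ n, LK n ≤ M * Real.log n) (h2 : ∀ n, ¬IsPrimePow n → LK n = 0)
    (h3 : ∀ r, r.Prime → r ≤ X → r ≠ 2 → r ≠ 3 → r ≠ l → r ≠ p → 2 * LK r ≤ LL r) (n : ℕ) :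
    2 * (pntW k n * LK n) ≤ pntW k n * LL n +
      2 * M * ((k + 1) * 2 ^ (k + 1)) * (X : ℝ) ^ (-(1 / 16000) : ℝ) *
        (n : ℝ) ^ (-(16001 / 16000) : ℝ) +
      2 * M * ((k + 1) / 2 ^ (k + 1)) * pntP n +
      2 * M * ((k + 1) / 2 ^ (k + 1)) * (if n ∈ ({2, 3, l, p} : Finset ℕ) then 1 else 0) := by
  have hw := pntW_nonneg k n
  have a1 : 0 ≤ pntW k n * LL n := mul_nonneg hw (hL n)
  have a2 : 0 ≤ 2 * M * ((k + 1) * 2 ^ (k + 1)) * (X : ℝ) ^ (-(1 / 16000) : ℝ) *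
      (n : ℝ) ^ (-(16001 / 16000) : ℝ) := by positivity
  have a3 : 0 ≤ 2 * M * ((k + 1) / 2 ^ (k + 1)) * pntP n := by
    have := pntP_nonneg n
    positivity
  have a4 : 0 ≤ 2 * M * ((k + 1) / 2 ^ (k + 1)) *
      (if n ∈ ({2, 3, l, p} : Finset ℕ) then (1 : ℝ) else 0) := by
    split_ifs <;> positivity
  by_cases hn : IsPrimePow n
  swap
  · rw [h2 n hn]
    linarith
  have hn0 : n ≠ 0 := hn.ne_zero
  have hn1 : (1 : ℝ) ≤ n := by exact_mod_cast Nat.pos_of_ne_zero hn0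
  have b1 : 2 * (pntW k n * LK n) ≤ 2 * M * (pntW k n * Real.log n) := by
    have := mul_le_mul_of_nonneg_left (h1 n) hw
    linarith
  have b2 : 2 * (pntW k n * LK n) ≤
      2 * M * ((k + 1) / 2 ^ (k + 1)) * (n : ℝ) ^ (-(3 / 4) : ℝ) := by
    refine b1.trans ?_
    rw [mul_assoc (2 * M)]
    refine mul_le_mul_of_nonneg_left ((pntW_le k n hn0 (1 / 4) (by norm_num)).trans ?_)
      (by positivity)
    rw [div_eq_mul_inv (_ + _ : ℝ), ← inv_pow]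
    gcongr
    · norm_num
    · norm_num
  by_cases hp : n.Prime
  swap
  · rw [pntP, if_pos ⟨hn, hp⟩]
    linarith
  by_cases hs : n ∈ ({2, 3, l, p} : Finset ℕ)
  · rw [if_pos hs]
    have : (n : ℝ) ^ (-(3 / 4) : ℝ) ≤ 1 := Real.rpow_le_one_of_one_le_of_nonpos hn1 (by norm_num)
    have := mul_le_mul_of_nonneg_left this
      (show 0 ≤ 2 * M * ((k + 1 : ℝ) / 2 ^ (k + 1)) by positivity)
    linarith
  rcases le_or_gt n X with hnX | hnX
  · simp only [mem_insert, mem_singleton, not_or] at hs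
    have := mul_le_mul_of_nonneg_left (h3 n hp hnX hs.1 hs.2.1 hs.2.2.1 hs.2.2.2) hw
    linarith
  · have b3 : pntW k n * Real.log n ≤ ((k + 1) * 2 ^ (k + 1)) * (X : ℝ) ^ (-(1 / 16000) : ℝ) *
        (n : ℝ) ^ (-(16001 / 16000) : ℝ) := by
      refine (pntW_le k n hn0 (1 / 8000) (by norm_num)).trans ?_
      rw [show (1 / 4000 / (1 / 8000) : ℝ) = 2 by norm_num,
        show (1 / 8000 - 4001 / 4000 : ℝ) = -(1 / 16000) + -(16001 / 16000) by norm_num,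
        Real.rpow_add (by positivity), ← mul_assoc]
      have : (n : ℝ) ^ (-(1 / 16000) : ℝ) ≤ (X : ℝ) ^ (-(1 / 16000) : ℝ) :=
        Real.rpow_le_rpow_of_nonpos (by positivity) (by exact_mod_cast hnX.le) (by norm_num)
      gcongr
    have := mul_le_mul_of_nonneg_left b3 (show 0 ≤ 2 * M by positivity)
    linarith

theorem pnt_fin : ∃ D : ℝ, 0 < D ∧ ∀ (LK LL : ℕ → ℝ) (M : ℝ) (W l p : ℕ), 1 ≤ M → D * M ≤ W →
    (∀ n, 0 ≤ LL n) → (∀ n, LK n ≤ M * Real.log n) → (∀ n, ¬IsPrimePow n → LK n = 0) →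
    (∀ k : ℕ, ∃ S, HasSum (fun n => pntW k n * LK n) S ∧
      |S - 1| ≤ 4 * M * (k + 1) / 2 ^ (k + 1)) →
    (∀ k : ℕ, ∃ S, HasSum (fun n => pntW k n * LL n) S ∧
      |S - 1| ≤ 4 * M * (k + 1) / 2 ^ (k + 1)) →
    ∃ r, r.Prime ∧ r ≤ W ^ 80000 ∧ r ≠ 2 ∧ r ≠ 3 ∧ r ≠ l ∧ r ≠ p ∧ LL r < 2 * LK r := by
  obtain ⟨C₁, hC₁⟩ : Summable fun n : ℕ => (n : ℝ) ^ (-(16001 / 16000) : ℝ) :=
    Real.summable_nat_rpow.2 (by norm_num)
  obtain ⟨C₂, hC₂⟩ := pntP_summable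
  have c1 : 0 ≤ C₁ := hC₁.nonneg fun _ => by positivity
  have c2 : 0 ≤ C₂ := hC₂.nonneg pntP_nonneg
  refine ⟨41 + 32 * C₁ + 4 * C₂, by positivity, ?_⟩
  intro LK LL M W l p hM hW hL h1 h2 hSK hSL
  by_contra hcon
  push Not at hcon
  have hW1 : (1 : ℝ) ≤ W := by nlinarith
  have hW0 : W ≠ 0 := by rintro rfl; norm_num at hW1
  obtain ⟨j, j0, j1, j2⟩ : ∃ j : ℕ, 0 < j ∧ (W : ℝ) ≤ 2 ^ j ∧ (2 : ℝ) ^ j ≤ 2 * W := by
    refine ⟨Nat.log 2 W + 1, by omega, ?_, ?_⟩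
    · exact_mod_cast (Nat.lt_pow_succ_log_self one_lt_two W).le
    · rw [pow_succ, mul_comm]
      exact_mod_cast Nat.mul_le_mul_left 2 (Nat.pow_log_le_self 2 hW0)
  have j3 : (j : ℝ) ≤ 2 ^ j := by exact_mod_cast (Nat.lt_two_pow_self).le
  obtain ⟨k, hk⟩ : ∃ k, k + 1 = 2 * j := ⟨2 * j - 1, by omega⟩
  have hk' : (k + 1 : ℝ) = 2 * j := by exact_mod_cast hk
  have e1 : (k + 1 : ℝ) / 2 ^ (k + 1) ≤ 2 / W := by
    rw [hk, hk', pow_mul', div_le_div_iff₀ (by positivity) (by positivity), pow_two, mul_assoc]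
    gcongr
  have e2 : (k + 1 : ℝ) * 2 ^ (k + 1) * ((W ^ 80000 : ℕ) : ℝ) ^ (-(1 / 16000) : ℝ) ≤ 16 / W := by
    rw [Nat.cast_pow, ← Real.rpow_natCast _ 80000, ← Real.rpow_mul (by positivity),
      show ((80000 : ℕ) : ℝ) * -(1 / 16000) = -((5 : ℕ) : ℝ) by norm_num,
      Real.rpow_neg (by positivity), Real.rpow_natCast, hk, hk', pow_mul']
    calc 2 * (j : ℝ) * (2 ^ j) ^ 2 * ((W : ℝ) ^ 5)⁻¹
        ≤ 2 * (2 * W) * (2 * W) ^ 2 * ((W : ℝ) ^ 5)⁻¹ := by gcongr; exact j3.trans j2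
      _ = 16 / (W : ℝ) * (1 / W) := by field_simp; ring
      _ ≤ 16 / (W : ℝ) * 1 := by gcongr; exact (div_le_one (by positivity)).2 hW1
      _ = _ := mul_one _
  obtain ⟨SK, s1, s2⟩ := hSK k
  obtain ⟨SL, s3, s4⟩ := hSL k
  have s5 : HasSum (fun n => if n ∈ ({2, 3, l, p} : Finset ℕ) then (1 : ℝ) else 0)
      (#({2, 3, l, p} : Finset ℕ)) := by
    have := hasSum_sum_of_ne_finset_zero (L := .unconditional ℕ)
      (f := fun n => if n ∈ ({2, 3, l, p} : Finset ℕ) then (1 : ℝ) else 0)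
      (s := ({2, 3, l, p} : Finset ℕ)) fun b hb => if_neg hb
    rwa [sum_congr rfl fun b hb => if_pos hb, sum_const, nsmul_eq_mul, mul_one] at this
  have s6 : (#({2, 3, l, p} : Finset ℕ) : ℝ) ≤ 4 := by exact_mod_cast card_le_four
  have key := hasSum_le (pnt_point LK LL M (W ^ 80000) l p k (by linarith) (by positivity) hL h1 h2
    hcon) (s1.mul_left 2) (((s3.add (hC₁.mul_left _)).add (hC₂.mul_left _)).add (s5.mul_left _))
  rw [mul_div_assoc] at s2 s4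
  have hM0 : 0 ≤ M := by linarith
  have t1 : 4 * M * ((k + 1 : ℝ) / 2 ^ (k + 1)) ≤ 4 * M * (2 / W) := by gcongr
  have t2 : 2 * M * ((k + 1) * 2 ^ (k + 1)) * ((W ^ 80000 : ℕ) : ℝ) ^ (-(1 / 16000) : ℝ) * C₁ ≤
      2 * M * (16 / W) * C₁ := by
    rw [mul_assoc (2 * M)]
    gcongr
  have t3 : 2 * M * ((k + 1 : ℝ) / 2 ^ (k + 1)) * C₂ ≤ 2 * M * (2 / W) * C₂ := by gcongr
  have t4 : 2 * M * ((k + 1 : ℝ) / 2 ^ (k + 1)) * (#({2, 3, l, p} : Finset ℕ) : ℝ) ≤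
      2 * M * (2 / W) * 4 := by gcongr
  have t5 : (40 + 32 * C₁ + 4 * C₂) * M / W < 1 := by
    rw [div_lt_one (by positivity)]
    linarith
  have t6 : (40 + 32 * C₁ + 4 * C₂) * M / W = 3 * (4 * M * (2 / W)) + 2 * M * (16 / W) * C₁ +
      2 * M * (2 / W) * C₂ + 2 * M * (2 / W) * 4 := by ring
  have := (abs_le.1 s2).1
  have := (abs_le.1 s4).2
  linarith

end Vale.Agent.P319
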