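import Mathlib
import Vale.Agent.P319.N.PntLam
import Vale.Agent.P319.N.PntFin

/-! # P319, part PNT: an upper bound for the number of prime ideals (used by P016) -/

namespace Vale.Agent.P319

open Finset NumberField Module

theorem pnt_fact (k : ℕ) : (k.factorial : ℝ) * Real.exp k ≤ (k + 1 : ℝ) ^ (k + 1) := by
  induction k with
  | zero => simp
  | succ k ih =>
    have h := Real.one_sub_div_pow_le_exp_neg (n := k + 2) (t := 1)
      (by push_cast; linarith [Nat.cast_nonneg (α := ℝ) k])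
    have e : (1 : ℝ) - 1 / ((k + 2 : ℕ) : ℝ) = (k + 1) / (k + 2) := by
      push_cast; field_simp; ring
    rw [e, div_pow, div_le_iff₀ (by positivity), Real.exp_neg,
      le_inv_mul_iff₀ (Real.exp_pos 1)] at h
    rw [Nat.factorial_succ]
    push_cast
    rw [Real.exp_add]
    calc (k + 1 : ℝ) * k.factorial * (Real.exp k * Real.exp 1)
        = Real.exp 1 * (k + 1) * (k.factorial * Real.exp k) := by ring
      _ ≤ Real.exp 1 * (k + 1) * (k + 1 : ℝ) ^ (k + 1) := by gcongr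
      _ = Real.exp 1 * (k + 1 : ℝ) ^ (k + 2) := by ring
      _ ≤ _ := h.trans (le_of_eq (by ring))

theorem pntW_ge (k n : ℕ) (hn : n ≠ 0) (h1 : (k + 1 : ℝ) ≤ Real.log n / 4000)
    (h2 : Real.log n / 4000 ≤ k + 2) :
    1 ≤ Real.exp 2 * Real.exp 4000 ^ (k + 2) * (pntW k n * Real.log n) := by
  have hn' : (0 : ℝ) < n := by positivity
  have h3 : (n : ℝ) ≤ Real.exp 4000 ^ (k + 2) := by
    rw [← Real.exp_nat_mul, ← Real.log_le_iff_le_exp hn']
    push_cast
    linarith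
  have e : pntW k n * Real.log n =
      (Real.log n / 4000) ^ (k + 1) / k.factorial * Real.exp (-(Real.log n / 4000)) / n := by
    rw [pntW, show (-(4001 / 4000) : ℝ) = -(1 / 4000) - 1 by norm_num, Real.rpow_sub_one hn'.ne',
      Real.rpow_def_of_pos hn', show Real.log n * -(1 / 4000) = -(Real.log n / 4000) by ring,
      div_pow, div_pow]
    field_simp
    ring
  have h4 : Real.exp k ≤ (k + 1 : ℝ) ^ (k + 1) / k.factorial := by
    rw [le_div_iff₀' (by positivity)]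
    exact pnt_fact k
  calc (1 : ℝ) = Real.exp 2 * n * (Real.exp k * Real.exp (-(k + 2)) / n) := by
        rw [← Real.exp_add, show (k : ℝ) + -(k + 2) = -2 by ring, Real.exp_neg]
        field_simp
    _ ≤ Real.exp 2 * Real.exp 4000 ^ (k + 2) * ((Real.log n / 4000) ^ (k + 1) / k.factorial *
          Real.exp (-(Real.log n / 4000)) / n) := by
        gcongr
        exact h4.trans (by gcongr)
    _ = _ := by rw [e]

theorem pnt_cnt : ∃ D : ℝ, 0 < D ∧ ∀ (b Λ : ℕ → ℝ) (c M x : ℝ), 0 ≤ c → 0 ≤ M → 1 ≤ x →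
    (∀ n, 0 ≤ Λ n) → (∀ n, 0 ≤ b n) → (∀ n, b n ≤ c) → (∀ n, b n * Real.log n ≤ Λ n) →
    (∀ k : ℕ, ∃ S, HasSum (fun n => pntW k n * Λ n) S ∧
      |S - 1| ≤ 4 * M * (k + 1) / 2 ^ (k + 1)) →
    ∑ n ∈ range (⌊x⌋₊ + 1), b n ≤ D * (x + x ^ (1 - 1 / 8000 : ℝ) * (M + c)) := by
  set E := Real.exp 4000 with hE
  have E2 : 2 ≤ E := by linarith [Real.add_one_le_exp 4000]
  set ρ := Real.exp (1 / 2) / 2 with hρ
  have ρ0 : 0 < ρ := by positivity
  have ρ1 : ρ < 1 := by
    rw [hρ, div_lt_one two_pos, ← Real.lt_log_iff_exp_lt two_pos]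
    linarith [Real.log_two_gt_d9]
  obtain ⟨A, hA⟩ : Summable fun k : ℕ => ((k + 1 : ℕ) : ℝ) ^ 1 * ρ ^ (k + 1) :=
    (summable_nat_add_iff (f := fun k : ℕ => (k : ℝ) ^ 1 * ρ ^ k) 1).2
      (summable_pow_mul_geometric_of_norm_lt_one 1 (by rwa [Real.norm_of_nonneg ρ0.le]))
  have A0 : 0 ≤ A := hA.nonneg fun _ => by positivity
  refine ⟨⌈E⌉₊ + Real.exp 2 * E * (2 + 4 * A), by positivity, ?_⟩
  intro b Λ c M x hc hM hx h0 hb0 hbc hb hS
  choose S hS1 hS2 using hS
  set K := ⌊Real.log x / 4000⌋₊ with hK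
  have hlx : 0 ≤ Real.log x / 4000 := by have := Real.log_nonneg hx; positivity
  have hEK : ∀ k, k ≤ K → E ^ k ≤ x := fun k hk => by
    rw [hE, ← Real.exp_nat_mul, ← Real.le_log_iff_exp_le (by linarith)]
    have h1 : (k : ℝ) ≤ K := by exact_mod_cast hk
    linarith [Nat.floor_le hlx]
  have pt : ∀ n ∈ range (⌊x⌋₊ + 1), b n ≤ (if n ∈ range ⌈E⌉₊ then c else 0) +
      ∑ k ∈ range K, Real.exp 2 * E ^ (k + 2) * (pntW k n * Λ n) := fun n hn => by
    have t0 : ∀ k ∈ range K, 0 ≤ Real.exp 2 * E ^ (k + 2) * (pntW k n * Λ n) := fun k _ => by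
      have := pntW_nonneg k n
      have := h0 n
      positivity
    split_ifs with h
    · linarith [hbc n, sum_nonneg t0]
    · rw [mem_range, Nat.lt_ceil, not_lt] at h
      rw [mem_range, Nat.lt_succ_iff, Nat.le_floor_iff (by linarith)] at hn
      have n0 : (0 : ℝ) < n := by linarith
      have l1 : 1 ≤ Real.log n / 4000 := by
        have := (Real.le_log_iff_exp_le n0).2 h
        linarith
      obtain ⟨k, hk⟩ : ∃ k, ⌊Real.log n / 4000⌋₊ = k + 1 :=
        ⟨_, (Nat.succ_pred_eq_of_pos (Nat.floor_pos.2 l1)).symm⟩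
      have k1 : (k + 1 : ℝ) ≤ Real.log n / 4000 := by
        have := Nat.floor_le (zero_le_one.trans l1)
        rw [hk] at this
        exact_mod_cast this
      have k2 : Real.log n / 4000 ≤ k + 2 := by
        have := Nat.lt_floor_add_one (Real.log n / 4000)
        rw [hk] at this
        push_cast at this
        linarith
      have k3 : k ∈ range K := by
        rw [mem_range, Nat.lt_iff_add_one_le, ← hk]
        exact Nat.floor_le_floor (by gcongr)
      rw [zero_add]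
      refine le_trans ?_ (single_le_sum t0 k3)
      have := pntW_nonneg k n
      calc b n ≤ Real.exp 2 * E ^ (k + 2) * (pntW k n * Real.log n) * b n :=
            le_mul_of_one_le_left (hb0 n) (pntW_ge k n (by exact_mod_cast n0.ne') k1 k2)
        _ = Real.exp 2 * E ^ (k + 2) * (pntW k n * (b n * Real.log n)) := by ring
        _ ≤ _ := by gcongr; exact hb n
  have x1 : 1 ≤ x ^ (1 - 1 / 8000 : ℝ) := Real.one_le_rpow hx (by norm_num)
  have s1 : ∑ n ∈ range (⌊x⌋₊ + 1), (if n ∈ range ⌈E⌉₊ then c else 0) ≤ ⌈E⌉₊ * c := by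
    rw [← sum_filter, sum_const, nsmul_eq_mul]
    gcongr
    refine (card_le_card fun n hn => (mem_filter.1 hn).2).trans (card_range _).le
  have s2 : ∀ k ∈ range K, ∑ n ∈ range (⌊x⌋₊ + 1), Real.exp 2 * E ^ (k + 2) * (pntW k n * Λ n) ≤
      Real.exp 2 * E * (E ^ (k + 1) +
        4 * M * x ^ (1 - 1 / 8000 : ℝ) * (((k + 1 : ℕ) : ℝ) ^ 1 * ρ ^ (k + 1))) := fun k hk => by
    rw [← mul_sum]
    have u1 := sum_le_hasSum (range (⌊x⌋₊ + 1))
      (fun n _ => mul_nonneg (pntW_nonneg k n) (h0 n)) (hS1 k)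
    have u2 : S k ≤ 1 + 4 * M * (k + 1) / 2 ^ (k + 1) := by linarith [(abs_le.1 (hS2 k)).2]
    have u3 : E ^ (k + 1) ≤ x ^ (1 - 1 / 8000 : ℝ) * Real.exp (1 / 2) ^ (k + 1) := by
      have v1 : Real.exp (1 / 2) ^ (k + 1) = (E ^ (k + 1)) ^ (1 / 8000 : ℝ) := by
        rw [hE, ← Real.exp_nat_mul, ← Real.exp_nat_mul, ← Real.exp_mul]
        congr 1
        ring
      calc E ^ (k + 1) = (E ^ (k + 1)) ^ (1 - 1 / 8000 : ℝ) * (E ^ (k + 1)) ^ (1 / 8000 : ℝ) := by
            rw [← Real.rpow_add (by positivity)]; norm_num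
        _ ≤ _ := by
            rw [v1]
            gcongr
            exact hEK _ (mem_range.1 hk)
    calc _ ≤ Real.exp 2 * E ^ (k + 2) * (1 + 4 * M * (k + 1) / 2 ^ (k + 1)) := by
          gcongr; exact u1.trans u2
      _ = Real.exp 2 * E * (E ^ (k + 1) + 4 * M * (k + 1) / 2 ^ (k + 1) * E ^ (k + 1)) := by ring
      _ ≤ Real.exp 2 * E * (E ^ (k + 1) + 4 * M * (k + 1) / 2 ^ (k + 1) *
            (x ^ (1 - 1 / 8000 : ℝ) * Real.exp (1 / 2) ^ (k + 1))) := by gcongr
      _ = _ := by rw [hρ, div_pow]; push_cast; ring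
  have s3 : ∀ m : ℕ, ∑ k ∈ range m, E ^ (k + 1) ≤ 2 * E ^ m := fun m => by
    induction m with
    | zero => simp
    | succ m ih =>
      rw [sum_range_succ, pow_succ]
      nlinarith [pow_pos (show 0 < E by linarith) m]
  have s4 := sum_le_hasSum (range K) (fun k _ => by positivity) hA
  refine (sum_le_sum pt).trans ?_
  rw [sum_add_distrib, sum_comm]
  refine (add_le_add s1 (sum_le_sum s2)).trans ?_
  rw [← mul_sum, sum_add_distrib, ← mul_sum]
  have s5 := (s3 K).trans (mul_le_mul_of_nonneg_left (hEK K le_rfl) zero_le_two)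
  set y := x ^ (1 - 1 / 8000 : ℝ)
  have w1 : c ≤ x + y * (M + c) := by nlinarith
  have w2 : ∑ k ∈ range K, E ^ (k + 1) +
      4 * M * y * ∑ k ∈ range K, ((k + 1 : ℕ) : ℝ) ^ 1 * ρ ^ (k + 1) ≤
      (2 + 4 * A) * (x + y * (M + c)) := by
    have := mul_le_mul_of_nonneg_left s4 (show 0 ≤ 4 * M * y by positivity)
    have : 0 ≤ y * M := by positivity
    have : 0 ≤ y * c := by positivity
    have : 0 ≤ A * x := by positivity
    have : 0 ≤ A * (y * c) := by positivity
    nlinarith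
  rw [add_mul, mul_assoc (Real.exp 2 * E)]
  gcongr

open Ideal in
/-- upper bound for the number of prime ideals of norm at most `x` -/
theorem pnt_card (C : ℝ) (hC : 0 < C) : ∃ C' : ℝ, 0 < C' ∧
    ∀ (F : Type) [Field F] [NumberField F] (Z : ℂ → ℂ), Differentiable ℂ Z →
      (∀ s : ℂ, 1 < s.re → Z s = (s - 1) * dedekindZeta F s) →
      (∀ s : ℂ, 1 / 2 ≤ s.re → s.re ≤ 4 →
        ‖Z s‖ ≤ Real.exp (C * (Real.log |(discr F : ℝ)| + finrank ℚ F) * (1 + |s.im|))) →
      (∀ s : ℂ, 1999 / 2000 < s.re → Z s ≠ 0) → ∀ x : ℝ, 1 ≤ x →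
      ({P : Ideal (𝓞 F) | P.IsPrime ∧ P ≠ ⊥ ∧ (absNorm P : ℝ) ≤ x}.ncard : ℝ) ≤
        C' * (x + x ^ (1 - 1 / 8000 : ℝ) * (Real.log |(discr F : ℝ)| + finrank ℚ F)) := by
  classical
  obtain ⟨D, hD, h⟩ := pnt_cnt
  refine ⟨D * (2 * C + 4001), by positivity, fun F _ _ Z z1 z2 z3 z4 x hx => ?_⟩
  set T : ℝ := Real.log |(discr F : ℝ)| + finrank ℚ F with hT
  have d0 : 0 ≤ Real.log |(discr F : ℝ)| :=
    Real.log_nonneg (by exact_mod_cast Int.one_le_abs (discr_ne_zero F))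
  have n1 : (1 : ℝ) ≤ finrank ℚ F := by exact_mod_cast finrank_pos
  have T1 : 1 ≤ T := by linarith
  set b : ℕ → ℝ := fun n => #((pntS F n).filter Prime) with hb
  have hbL : ∀ n, b n * Real.log n ≤ pntL F n := fun n => by
    rcases eq_or_ne n 0 with rfl | hn
    · simp [pntL_zero]
    have hinj : Function.Injective fun P : Ideal (𝓞 F) => (⟨P, 1⟩ : Σ _ : Ideal (𝓞 F), ℕ) :=
      fun _ _ h => congrArg Sigma.fst h
    calc b n * Real.log n = ∑ y ∈ ((pntS F n).filter Prime).map ⟨_, hinj⟩,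
          Real.log (absNorm y.1) := by
          rw [sum_map, hb, ← nsmul_eq_mul, ← sum_const]
          exact sum_congr rfl fun P hP => by rw [← mem_pntS.1 (mem_filter.1 hP).1]; rfl
      _ ≤ _ := by
          refine sum_le_sum_of_subset_of_nonneg (fun y hy => ?_)
            fun _ _ _ => Real.log_natCast_nonneg _
          obtain ⟨P, hP, rfl⟩ := mem_map.1 hy
          exact (mem_pntT hn).2 ⟨(mem_filter.1 hP).2, le_rfl,
            (pow_one _).trans (mem_pntS.1 (mem_filter.1 hP).1)⟩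
  have hbc : ∀ n, b n ≤ finrank ℚ F := fun n => by
    rcases le_or_gt n 1 with hn | hn
    · have : (pntS F n).filter Prime = ∅ := filter_eq_empty_iff.2 fun P hP hP' => by
        rw [mem_pntS] at hP
        interval_cases n
        · exact hP'.ne_zero (absNorm_eq_zero_iff.1 hP)
        · exact hP'.not_isUnit (isUnit_iff.2 (absNorm_eq_one_iff.1 hP))
      simp [hb, this]
    · exact le_of_mul_le_mul_right ((hbL n).trans (pntL_le F n))
        (Real.log_pos (by exact_mod_cast hn))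
  have key := h b (pntL F) (finrank ℚ F) (2 * C * T + 4000) x (by linarith) (by positivity) hx
    (pntL_nonneg F) (fun _ => Nat.cast_nonneg _) hbc hbL
    (pnt_an (pntA F) (pntL F) _ _ Z (pntA_one F) (pntA_summable F) (pntL_nonneg F)
      (pntL_le F) (pntL_conv F) z1 z2 z4 (by positivity) fun s s1 s2 s3 =>
        (z3 s s1 s2).trans (Real.exp_le_exp.2 (by nlinarith [mul_pos hC (one_pos.trans_le T1)])))
  have h1 : {P : Ideal (𝓞 F) | P.IsPrime ∧ P ≠ ⊥ ∧ (absNorm P : ℝ) ≤ x}.ncard ≤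
      ∑ n ∈ range (⌊x⌋₊ + 1), #((pntS F n).filter Prime) := by
    refine le_trans ?_ card_biUnion_le
    rw [← Set.ncard_coe_finset]
    refine Set.ncard_le_ncard (fun P ⟨p1, p2, p3⟩ => ?_) (finite_toSet _)
    simp only [coe_biUnion, coe_range, Set.mem_Iio, coe_filter, Set.mem_iUnion, Set.mem_ofPred_eq]
    exact ⟨absNorm P, Nat.lt_succ_of_le (Nat.le_floor p3), mem_pntS.2 rfl, prime_of_isPrime p2 p1⟩
  have y0 : 0 ≤ x ^ (1 - 1 / 8000 : ℝ) := by positivity
  calc _ ≤ ∑ n ∈ range (⌊x⌋₊ + 1), b n := by simp only [hb]; exact_mod_cast h1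
    _ ≤ _ := key
    _ ≤ D * ((2 * C + 4001) * x + x ^ (1 - 1 / 8000 : ℝ) * ((2 * C + 4001) * T)) := by
        gcongr <;> nlinarith
    _ = _ := by ring

end Vale.Agent.P319
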