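import Mathlib

/-! # P319 ZETA: the Dedekind zeta function as a sum over ideals; the value at `2` (Mathlib only; TASK).
PLAN.  `zeta_summable_ideal`: `Ideal.tendsto_norm_le_div_atTop₀` and `LSeriesSummable_of_sum_norm_bigO` as in the proof of
`NumberField.tendsto_sub_one_mul_dedekindZeta_nhdsGT`, or (simpler) the finite Euler product bound below with the exponent `σ`
(`summable_of_sum_le`).  Euler product bound: for a finite set `S` of nonzero prime ideals and a finite set `T` of nonzero ideals all of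
whose prime factors lie in `S`, `∑ l ∈ T, N l ^ (-σ) ≤ ∏ P ∈ S, (1 - N P ^ (-σ))⁻¹` (induction on `S`: `l = P ^ j * l'`, `P ∤ l'`,
`WfDvdMonoid.max_power_factor`; `(j, l') ↦ P ^ j * l'` covers `T`; geometric series).  `(1 - x)⁻¹ ≤ exp (2 x)` for `x ≤ 1/2`;
a nonzero prime `P` lies over a rational prime `p ≤ N P` (`Ideal.absNorm_mem`, `p ∣ N P`; e.g. `Ideal.IsPrime.under`,
`Ideal.exists_prime_and_absNorm_eq_pow`), at most `finrank` primes lie over `p` (`Ideal.card_primesOverFinset_le_finrank`), and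
`∑ p, p ^ (-2) ≤ 1` (`sum_Ioo_inv_sq_le` or telescoping `1/(m(m-1))`).
`dedekindZeta_eq_tsum`: `Equiv.sigmaFiberEquiv` for `absNorm`, the fibres are finite (`Ideal.finite_setOf_absNorm_eq`), the fibre over `0`
is empty for nonzero ideals and `LSeries.term f s 0 = 0`; `HasSum.sigma`. -/

namespace Vale.Agent.P319

open scoped NumberField nonZeroDivisors

theorem zetaTwo_euler {M : Type} [CommMonoidWithZero M] [UniqueFactorizationMonoid M]
    [Subsingleton Mˣ] (w : M → ℝ) (h0 : ∀ l, 0 ≤ w l) (h1 : w 1 = 1)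
    (hm : ∀ l l', w (l * l') = w l * w l') (S : Finset M) :
    (∀ P ∈ S, Prime P ∧ w P < 1) → ∀ T : Finset M,
      (∀ l ∈ T, l ≠ 0 ∧ ∀ Q, Prime Q → Q ∣ l → Q ∈ S) →
      ∑ l ∈ T, w l ≤ ∏ P ∈ S, (1 - w P)⁻¹ := by
  classical
  induction S using Finset.induction_on with
  | empty =>
    intro _ T hT
    have hsub : T ⊆ {1} := by
      intro l hl
      rw [Finset.mem_singleton]
      by_contra hc
      have hu : ¬ IsUnit l := fun ⟨u, hu⟩ => hc (by rw [← hu, Subsingleton.elim u 1]; rfl)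
      obtain ⟨Q, hQ, hd⟩ := WfDvdMonoid.exists_irreducible_factor hu (hT l hl).1
      exact Finset.notMem_empty Q ((hT l hl).2 Q hQ.prime hd)
    refine (Finset.sum_le_sum_of_subset_of_nonneg hsub fun _ _ _ => h0 _).trans ?_
    simp [h1]
  | insert P S hP ih =>
    intro hS T hT
    obtain ⟨hPp, hPw⟩ := hS P (Finset.mem_insert_self P S)
    have hpow : ∀ j : ℕ, w (P ^ j) = w P ^ j := fun j => by
      induction j with
      | zero => simpa using h1
      | succ j ihj => rw [pow_succ, hm, ihj, pow_succ]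
    have hex : ∀ l : M, ∃ q : ℕ × M, l ≠ 0 → ¬ P ∣ q.2 ∧ l = P ^ q.1 * q.2 := fun l => by
      by_cases hl : l = 0
      · exact ⟨(0, 0), fun h => absurd hl h⟩
      · obtain ⟨n, a, h⟩ := WfDvdMonoid.max_power_factor hl hPp.irreducible
        exact ⟨(n, a), fun _ => h⟩
    choose φ hφ using hex
    have hinj : Set.InjOn φ T := fun a ha b hb hab => by
      rw [(hφ a (hT a ha).1).2, (hφ b (hT b hb).1).2, hab]
    have e1 : ∑ l ∈ T, w l = ∑ q ∈ T.image φ, w P ^ q.1 * w q.2 := by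
      rw [Finset.sum_image hinj]
      refine Finset.sum_congr rfl fun l hl => ?_
      rw [← hpow, ← hm, ← (hφ l (hT l hl).1).2]
    have e2 : ∑ q ∈ T.image φ, w P ^ q.1 * w q.2 ≤
        ∑ q ∈ (T.image fun l => (φ l).1) ×ˢ (T.image fun l => (φ l).2), w P ^ q.1 * w q.2 := by
      refine Finset.sum_le_sum_of_subset_of_nonneg (fun q hq => ?_)
        fun q _ _ => mul_nonneg (pow_nonneg (h0 _) _) (h0 _)
      obtain ⟨l, hl, rfl⟩ := Finset.mem_image.1 hq
      exact Finset.mem_product.2 ⟨Finset.mem_image_of_mem _ hl, Finset.mem_image_of_mem _ hl⟩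
    have e3 := ih (fun Q hQ => hS Q (Finset.mem_insert_of_mem hQ)) (T.image fun l => (φ l).2)
      fun l' hl' => by
        obtain ⟨l, hl, rfl⟩ := Finset.mem_image.1 hl'
        obtain ⟨a1, a2⟩ := hφ l (hT l hl).1
        refine ⟨fun hc => (hT l hl).1 (by rw [a2, hc, mul_zero]), fun Q hQ hd => ?_⟩
        rcases Finset.mem_insert.1 ((hT l hl).2 Q hQ (by rw [a2]; exact hd.mul_left _)) with h | h
        · exact absurd (h ▸ hd) a1
        · exact h
    have hg := hasSum_geometric_of_lt_one (h0 P) hPw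
    have e4 : ∑ j ∈ T.image fun l => (φ l).1, w P ^ j ≤ (1 - w P)⁻¹ :=
      sum_le_hasSum _ (fun j _ => pow_nonneg (h0 _) _) hg
    rw [e1, Finset.prod_insert hP]
    refine e2.trans ?_
    rw [Finset.sum_product' (f := fun j l => w P ^ j * w l), ← Finset.sum_mul_sum]
    exact mul_le_mul e4 e3 (Finset.sum_nonneg fun _ _ => h0 _) (inv_nonneg.2 (by linarith))

theorem zetaTwo_exp {x : ℝ} (h0 : 0 ≤ x) (h1 : x ≤ 1 / 2) : (1 - x)⁻¹ ≤ Real.exp (2 * x) := by
  refine le_trans ?_ (Real.add_one_le_exp _)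
  rw [inv_le_iff_one_le_mul₀ (by linarith)]
  nlinarith

variable (F : Type) [Field F] [NumberField F]

theorem zetaTwo_primes {σ c : ℝ} (hσ : 1 ≤ σ)
    (hc : ∀ U : Finset ℕ, (∀ m ∈ U, 2 ≤ m) → ∑ m ∈ U, (m : ℝ) ^ (-σ) ≤ c)
    (S : Finset (Ideal (𝓞 F))) (hS : ∀ P ∈ S, Prime P) :
    (∀ P ∈ S, (Ideal.absNorm P : ℝ) ^ (-σ) ≤ 1 / 2) ∧
      ∑ P ∈ S, (Ideal.absNorm P : ℝ) ^ (-σ) ≤ Module.finrank ℚ F * c := by
  classical
  have hex : ∀ P : Ideal (𝓞 F), ∃ p : ℕ, Prime P → p.Prime ∧ (p : 𝓞 F) ∈ P ∧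
      p ≤ Ideal.absNorm P := fun P => by
    by_cases hP : Prime P
    · have : P.IsMaximal := ((Ideal.prime_iff_isPrime hP.ne_zero).1 hP).isMaximal hP.ne_zero
      obtain ⟨p, n, hn, h1, h2, h3⟩ := Ideal.exists_prime_and_absNorm_eq_pow P
      exact ⟨p, fun _ => ⟨h2, h1, h3 ▸ Nat.le_self_pow hn.ne' p⟩⟩
    · exact ⟨0, fun h => absurd h hP⟩
  choose π hπ using hex
  have h1 : ∀ P ∈ S, (Ideal.absNorm P : ℝ) ^ (-σ) ≤ (π P : ℝ) ^ (-σ) := fun P hP => by
    obtain ⟨a1, -, a3⟩ := hπ P (hS P hP)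
    exact Real.rpow_le_rpow_of_nonpos (by exact_mod_cast a1.pos) (by exact_mod_cast a3)
      (by linarith)
  refine ⟨fun P hP => (h1 P hP).trans ?_, (Finset.sum_le_sum h1).trans ?_⟩
  · have a1 : (2 : ℝ) ≤ π P := by exact_mod_cast (hπ P (hS P hP)).1.two_le
    refine (Real.rpow_le_rpow_of_nonpos two_pos a1 (by linarith)).trans ?_
    refine (Real.rpow_le_rpow_of_exponent_le one_le_two (neg_le_neg hσ)).trans_eq ?_
    rw [Real.rpow_neg_one, one_div]
  · rw [Finset.sum_comp (fun m : ℕ => (m : ℝ) ^ (-σ)) π]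
    have h2 := hc (S.image π) fun m hm => by
      obtain ⟨P, hP, rfl⟩ := Finset.mem_image.1 hm
      exact (hπ P (hS P hP)).1.two_le
    refine le_trans ?_ (mul_le_mul_of_nonneg_left h2 (Nat.cast_nonneg _))
    rw [Finset.mul_sum]
    refine Finset.sum_le_sum fun m hm => ?_
    rw [nsmul_eq_mul]
    refine mul_le_mul_of_nonneg_right ?_ (by positivity)
    obtain ⟨P0, hP0, rfl⟩ := Finset.mem_image.1 hm
    have hp : Prime (π P0 : ℤ) := Nat.prime_iff_prime_int.1 (hπ P0 (hS P0 hP0)).1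
    have hmax : (Ideal.span {(π P0 : ℤ)}).IsMaximal :=
      PrincipalIdealRing.isMaximal_of_irreducible hp.irreducible
    have hne : Ideal.span {(π P0 : ℤ)} ≠ ⊥ := by
      rw [Ne, Ideal.span_singleton_eq_bot]
      exact hp.ne_zero
    have h3 := Ideal.card_primesOverFinset_le_finrank (𝓞 F) ℚ F hne
    refine Nat.cast_le.2 (le_trans (Finset.card_le_card fun P hP => ?_) h3)
    rw [Finset.mem_filter] at hP
    have hP' := hS P hP.1
    have hPp := (Ideal.prime_iff_isPrime hP'.ne_zero).1 hP'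
    rw [IsDedekindDomain.mem_primesOverFinset_iff hne]
    refine ⟨hPp, (Ideal.liesOver_span_iff hPp.ne_top hp).2 ?_⟩
    rw [← hP.2]
    simpa using (hπ P hP').2.1

theorem zetaTwo_bound {σ c : ℝ} (hσ : 1 ≤ σ)
    (hc : ∀ U : Finset ℕ, (∀ m ∈ U, 2 ≤ m) → ∑ m ∈ U, (m : ℝ) ^ (-σ) ≤ c)
    (T : Finset (Ideal (𝓞 F))⁰) :
    ∑ l ∈ T, (Ideal.absNorm l.1 : ℝ) ^ (-σ) ≤ Real.exp (2 * (Module.finrank ℚ F * c)) := by
  classical
  obtain ⟨S, hS1, hS2⟩ : ∃ S : Finset (Ideal (𝓞 F)), (∀ P ∈ S, Prime P) ∧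
      ∀ l ∈ T, ∀ Q, Prime Q → Q ∣ l.1 → Q ∈ S := by
    refine ⟨T.biUnion fun l => (UniqueFactorizationMonoid.normalizedFactors l.1).toFinset,
      fun P hP => ?_, fun l hl Q hQ hd => ?_⟩
    · obtain ⟨l, -, hl⟩ := Finset.mem_biUnion.1 hP
      exact UniqueFactorizationMonoid.prime_of_normalized_factor _ (Multiset.mem_toFinset.1 hl)
    · exact Finset.mem_biUnion.2 ⟨l, hl, Multiset.mem_toFinset.2
        ((UniqueFactorizationMonoid.mem_normalizedFactors_iff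
          (nonZeroDivisors.coe_ne_zero l)).2 ⟨hQ, hd⟩)⟩
  obtain ⟨h1, h2⟩ := zetaTwo_primes F hσ hc S hS1
  have h3 := zetaTwo_euler (fun l : Ideal (𝓞 F) => (Ideal.absNorm l : ℝ) ^ (-σ))
    (fun l => by positivity) (by rw [map_one]; simp)
    (fun l l' => by
      rw [map_mul, Nat.cast_mul, Real.mul_rpow (Nat.cast_nonneg _) (Nat.cast_nonneg _)]) S
    (fun P hP => ⟨hS1 P hP, (h1 P hP).trans_lt (by norm_num)⟩) (T.image fun l => l.1)
    fun l' hl' => by
      obtain ⟨l, hl, rfl⟩ := Finset.mem_image.1 hl'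
      exact ⟨nonZeroDivisors.coe_ne_zero l, hS2 l hl⟩
  rw [Finset.sum_image fun a _ b _ hab => Subtype.ext hab] at h3
  refine h3.trans ((Finset.prod_le_prod (g := fun P : Ideal (𝓞 F) =>
    Real.exp (2 * (Ideal.absNorm P : ℝ) ^ (-σ))) (fun P hP => ?_) fun P hP => ?_).trans ?_)
  · exact inv_nonneg.2 (by linarith [h1 P hP])
  · exact zetaTwo_exp (by positivity) (h1 P hP)
  · rw [← Real.exp_sum, ← Finset.mul_sum]
    exact Real.exp_le_exp.2 (by linarith)

theorem zeta_summable_ideal {σ : ℝ} (hσ : 1 < σ) :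
    Summable fun l : (Ideal (𝓞 F))⁰ => (Ideal.absNorm l.1 : ℝ) ^ (-σ) := by
  have hs : Summable fun m : ℕ => (m : ℝ) ^ (-σ) := Real.summable_nat_rpow.2 (by linarith)
  exact summable_of_sum_le (fun l => by positivity) (zetaTwo_bound F hσ.le
    (c := ∑' m : ℕ, (m : ℝ) ^ (-σ)) fun U _ => hs.sum_le_tsum U fun m _ => by positivity)

theorem tsum_ideal_two_le :
    ∑' l : (Ideal (𝓞 F))⁰, (Ideal.absNorm l.1 : ℝ) ^ (-2 : ℝ) ≤
      Real.exp (2 * Module.finrank ℚ F) := by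
  have h := zetaTwo_bound F (σ := 2) (c := 1) one_le_two fun U hU => by
    obtain ⟨n, hn⟩ := U.bddAbove
    have h1 : U ⊆ Finset.Ioc 1 (n + 1) := fun m hm =>
      Finset.mem_Ioc.2 ⟨hU m hm, (hn hm).trans (Nat.le_succ n)⟩
    have h2 := sum_Ioc_inv_sq_le_sub (α := ℝ) (k := 1) (n := n + 1) one_ne_zero (by omega)
    have h3 : (0 : ℝ) ≤ ((n + 1 : ℕ) : ℝ)⁻¹ := by positivity
    refine (Finset.sum_le_sum_of_subset_of_nonneg h1 fun m _ _ => by positivity).trans ?_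
    have e : ∀ m : ℕ, (m : ℝ) ^ (-2 : ℝ) = ((m : ℝ) ^ 2)⁻¹ := fun m => by
      rw [Real.rpow_neg (Nat.cast_nonneg _), Real.rpow_two]
    simp only [e]
    rw [Nat.cast_one, inv_one] at h2
    linarith
  rw [mul_one] at h
  exact Real.tsum_le_of_sum_le (fun l => by positivity) h

theorem zetaTwo_pos (l : (Ideal (𝓞 F))⁰) : 0 < Ideal.absNorm l.1 :=
  Nat.pos_of_ne_zero fun h => nonZeroDivisors.coe_ne_zero l (Ideal.absNorm_eq_zero_iff.1 h)

theorem zetaTwo_norm (l : (Ideal (𝓞 F))⁰) (s : ℂ) :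
    ‖(Ideal.absNorm l.1 : ℂ) ^ (-s)‖ = (Ideal.absNorm l.1 : ℝ) ^ (-s.re) := by
  rw [Complex.norm_natCast_cpow_of_pos (zetaTwo_pos F l), Complex.neg_re]

theorem dedekindZeta_eq_tsum {s : ℂ} (hs : 1 < s.re) :
    NumberField.dedekindZeta F s = ∑' l : (Ideal (𝓞 F))⁰, (Ideal.absNorm l.1 : ℂ) ^ (-s) := by
  have h1 : Summable fun l : (Ideal (𝓞 F))⁰ => (Ideal.absNorm l.1 : ℂ) ^ (-s) :=
    Summable.of_norm ((zeta_summable_ideal F hs).congr fun l => (zetaTwo_norm F l s).symm)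
  have h2 := h1.hasSum.tsum_fiberwise fun l => Ideal.absNorm l.1
  rw [← h2.tsum_eq]
  unfold NumberField.dedekindZeta LSeries
  refine tsum_congr fun n => ?_
  rcases eq_or_ne n 0 with rfl | hn
  · have : IsEmpty ((fun l : (Ideal (𝓞 F))⁰ => Ideal.absNorm l.1) ⁻¹' {0}) :=
      ⟨fun l => (zetaTwo_pos F l.1).ne' l.2⟩
    rw [LSeries.term_zero, tsum_empty]
  · have e : ∀ l : ((fun l : (Ideal (𝓞 F))⁰ => Ideal.absNorm l.1) ⁻¹' {n}),
        (Ideal.absNorm l.1.1 : ℂ) ^ (-s) = (n : ℂ) ^ (-s) := fun l => by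
      have : Ideal.absNorm l.1.1 = n := l.2
      rw [this]
    have hc : Nat.card ((fun l : (Ideal (𝓞 F))⁰ => Ideal.absNorm l.1) ⁻¹' {n}) =
        Nat.card {I : Ideal (𝓞 F) // Ideal.absNorm I = n} := by
      refine Nat.card_congr ⟨fun l => ⟨l.1.1, l.2⟩, fun I => ⟨⟨I.1, ?_⟩, I.2⟩,
        fun _ => rfl, fun _ => rfl⟩
      refine mem_nonZeroDivisors_iff_ne_zero.2 fun h => hn ?_
      rw [← I.2, h, map_zero]
    rw [tsum_congr e, tsum_const, hc, LSeries.term_of_ne_zero hn, Complex.cpow_neg, nsmul_eq_mul,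
      div_eq_mul_inv]

/-- for `2 ≤ re s` -/
theorem norm_dedekindZeta_le {s : ℂ} (hs : 2 ≤ s.re) :
    ‖NumberField.dedekindZeta F s‖ ≤ Real.exp (2 * Module.finrank ℚ F) := by
  rw [dedekindZeta_eq_tsum F (by linarith)]
  refine le_trans (tsum_of_norm_bounded (zeta_summable_ideal F one_lt_two).hasSum fun l => ?_)
    (tsum_ideal_two_le F)
  rw [zetaTwo_norm]
  exact Real.rpow_le_rpow_of_exponent_le (by exact_mod_cast zetaTwo_pos F l) (by linarith)

end Vale.Agent.P319
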