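import Mathlib

/-! # P319 LAT: Poisson summation on `ℤ^n`.
PLAN.  `G x = ∑' m, g (x + m)` converges locally uniformly (`continuous_tsum` on balls / `continuousOn_tsum`, using
`1 + ‖m‖ ≤ (1 + ‖x‖) (1 + ‖x + m‖)` and `summable_zn`), is continuous and `ℤ^n`-periodic, so it descends to a continuous map on
`UnitAddTorus (Fin n)` (the quotient map `(Fin n → ℝ) → UnitAddTorus` is an open quotient map: `IsOpenQuotientMap.piMap`,
`QuotientAddGroup.isOpenQuotientMap_mk`; define the function through `AddCircle.equivIco` representatives or `Function.surjInv`).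
`mFourierCoeff_eq_integral`: the coefficient is `∫_{box} ∑' m, g (x + m) e(-k x) = ∫ g e(-k x)` (`integral_tsum`/
`hasSum_integral_iUnion`, or `ZSpan.isAddFundamentalDomain` for `Pi.basisFun` with `IsAddFundamentalDomain.integral_eq_tsum`).
Finish with `UnitAddTorus.hasSum_mFourier_series_apply_of_summable` at `0`.  See P026/ThCPars.lean for the measure set-up.
`summable_zn`: `ZLattice.summable_norm_sub_inv_pow`, or `summable_pi` of `∏ (1 + |m i|)^(-(n+1)/n)`. -/

namespace Vale.Agent.P319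

open scoped Real
open MeasureTheory

theorem summable_zn (n : ℕ) :
    Summable fun m : Fin n → ℤ => 1 / (1 + ‖fun i => (m i : ℝ)‖) ^ (n + 1) := by
  set L := Submodule.span ℤ (Set.range (Pi.basisFun ℝ (Fin n))) with hL
  have hmem : ∀ m : Fin n → ℤ, (fun i => (m i : ℝ)) ∈ L := fun m =>
    ((Pi.basisFun ℝ (Fin n)).mem_span_iff_repr_mem ℤ _).2 fun i => ⟨m i, by simp⟩
  have hr : Module.finrank ℤ L < n + 1 := by
    rw [ZLattice.rank ℝ L]
    simp
  have h1 := ZLattice.summable_norm_pow_inv L (n + 1) hr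
  have hinj : Function.Injective fun m : Fin n → ℤ => (⟨_, hmem m⟩ : L) := by
    intro a b hab
    have h := congrArg Subtype.val hab
    funext i
    have h' : (a i : ℝ) = b i := congrFun h i
    exact_mod_cast h'
  have h2 := h1.comp_injective hinj
  refine Summable.of_norm_bounded_eventually h2 ?_
  refine (Set.finite_singleton (0 : Fin n → ℤ)).subset fun m hm => ?_
  by_contra h0
  apply hm
  have h3 : 0 < ‖fun i => (m i : ℝ)‖ := by
    refine norm_pos_iff.2 fun h => h0 ?_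
    funext i
    have h' : (m i : ℝ) = 0 := congrFun h i
    exact_mod_cast h'
  show ‖1 / (1 + ‖fun i => (m i : ℝ)‖) ^ (n + 1)‖ ≤ ‖fun i => (m i : ℝ)‖⁻¹ ^ (n + 1)
  rw [Real.norm_eq_abs, abs_of_nonneg (by positivity), inv_pow, one_div]
  exact inv_anti₀ (by positivity) (pow_le_pow_left₀ h3.le (by linarith) _)

theorem latZn_le {n : ℕ} (k : ℕ) (a x : Fin n → ℝ) {R : ℝ} (hx : ‖x‖ ≤ R) :
    1 / (1 + ‖a + x‖) ^ k ≤ (1 + R) ^ k * (1 / (1 + ‖a‖) ^ k) := by
  have h0 := norm_nonneg x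
  have h1 := norm_nonneg (a + x)
  have h2 : ‖a‖ ≤ ‖a + x‖ + ‖x‖ := by simpa using norm_sub_le (a + x) x
  have h3 : 1 + ‖a‖ ≤ (1 + R) * (1 + ‖a + x‖) := by nlinarith
  rw [mul_one_div, div_le_div_iff₀ (by positivity) (by positivity), one_mul, ← mul_pow]
  exact pow_le_pow_left₀ (by positivity) h3 _

theorem tsum_zn_le (n : ℕ) : ∃ C : ℝ, ∀ x : Fin n → ℝ,
    Summable (fun m : Fin n → ℤ => 1 / (1 + ‖(fun i => (m i : ℝ)) + x‖) ^ (n + 1)) ∧
      ∑' m : Fin n → ℤ, 1 / (1 + ‖(fun i => (m i : ℝ)) + x‖) ^ (n + 1) ≤ C := by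
  refine ⟨(1 + 1) ^ (n + 1) * ∑' m : Fin n → ℤ, 1 / (1 + ‖fun i => (m i : ℝ)‖) ^ (n + 1),
    fun x => ?_⟩
  set k : Fin n → ℤ := fun i => ⌊x i⌋ with hk
  have hs : Summable fun m : Fin n → ℤ => (1 + 1 : ℝ) ^ (n + 1) *
      (1 / (1 + ‖fun i => ((m + k) i : ℝ)‖) ^ (n + 1)) :=
    ((Equiv.addRight k).summable_iff.2 (summable_zn n)).mul_left _
  have hle : ∀ m : Fin n → ℤ, 1 / (1 + ‖(fun i => (m i : ℝ)) + x‖) ^ (n + 1) ≤
      (1 + 1 : ℝ) ^ (n + 1) * (1 / (1 + ‖fun i => ((m + k) i : ℝ)‖) ^ (n + 1)) := by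
    intro m
    have e : (fun i => (m i : ℝ)) + x = (fun i => ((m + k) i : ℝ)) + fun i => Int.fract (x i) := by
      funext i
      simp only [hk, Pi.add_apply, Int.cast_add, add_assoc, Int.floor_add_fract]
    rw [e]
    refine latZn_le _ _ _ ((pi_norm_le_iff_of_nonneg zero_le_one).2 fun i => ?_)
    rw [Real.norm_eq_abs, abs_of_nonneg (Int.fract_nonneg _)]
    exact (Int.fract_lt_one _).le
  have hs2 := Summable.of_nonneg_of_le (fun m => by positivity) hle hs
  refine ⟨hs2, (hs2.tsum_le_tsum hle hs).trans (le_of_eq ?_)⟩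
  rw [tsum_mul_left]
  exact congrArg _ ((Equiv.addRight k).tsum_eq
    fun m : Fin n → ℤ => 1 / (1 + ‖fun i => (m i : ℝ)‖) ^ (n + 1))

/-- the half open unit box at `m` -/
def latZnBox {n : ℕ} (m : Fin n → ℤ) : Set (Fin n → ℝ) :=
  {x | ∀ i, x i ∈ Set.Ioc (m i : ℝ) (m i + 1)}

theorem latZn_meas {n : ℕ} (m : Fin n → ℤ) : MeasurableSet (latZnBox m) :=
  MeasurableSet.univ_pi' fun _ => measurableSet_Ioc

theorem latZn_disj {n : ℕ} : Pairwise (Function.onFun Disjoint (latZnBox (n := n))) := by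
  intro a b hab
  refine Set.disjoint_left.2 fun x ha hb => hab (funext fun i => ?_)
  have h1 : (a i : ℝ) < b i + 1 := (ha i).1.trans_le (hb i).2
  have h2 : (b i : ℝ) < a i + 1 := (hb i).1.trans_le (ha i).2
  have h3 : a i < b i + 1 := by exact_mod_cast h1
  have h4 : b i < a i + 1 := by exact_mod_cast h2
  omega

theorem latZn_union {n : ℕ} : ⋃ m : Fin n → ℤ, latZnBox m = Set.univ := by
  refine Set.eq_univ_of_forall fun x => Set.mem_iUnion.2 ⟨fun i => ⌈x i⌉ - 1, fun i => ?_⟩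
  push_cast
  exact ⟨by linarith [Int.ceil_lt_add_one (x i)], by linarith [Int.le_ceil (x i)]⟩

theorem latZn_shift {n : ℕ} {E : Type} [NormedAddCommGroup E] [NormedSpace ℝ E]
    (h : (Fin n → ℝ) → E) (m : Fin n → ℤ) :
    ∫ x in latZnBox 0, h ((fun i => (m i : ℝ)) + x) = ∫ x in latZnBox m, h x := by
  have hp := measurePreserving_add_left (volume : Measure (Fin n → ℝ)) (fun i => (m i : ℝ))
  have e : (fun x : Fin n → ℝ => (fun i => (m i : ℝ)) + x) ⁻¹' latZnBox m = latZnBox 0 := by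
    ext x
    simp only [latZnBox, Set.mem_preimage, Set.mem_ofPred_eq, Pi.add_apply, Set.mem_Ioc,
      Pi.zero_apply, Int.cast_zero, zero_add, lt_add_iff_pos_right, add_le_add_iff_left]
  rw [← hp.setIntegral_preimage_emb (measurableEmbedding_addLeft _) h (latZnBox m), e]

theorem latZn_hasSum {n : ℕ} {E : Type} [NormedAddCommGroup E] [NormedSpace ℝ E]
    (h : (Fin n → ℝ) → E) (hi : Integrable h) :
    HasSum (fun m : Fin n → ℤ => ∫ x in latZnBox 0, h ((fun i => (m i : ℝ)) + x)) (∫ x, h x) := by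
  simp only [latZn_shift]
  have := hasSum_integral_iUnion (f := h) (μ := volume) latZn_meas latZn_disj
    (hi.integrableOn (s := ⋃ m : Fin n → ℤ, latZnBox m))
  rwa [latZn_union, Measure.restrict_univ] at this

theorem latZn_unfold {n : ℕ} (h : (Fin n → ℝ) → ℂ) (hi : Integrable h) :
    ∫ x in latZnBox 0, ∑' m : Fin n → ℤ, h ((fun i => (m i : ℝ)) + x) = ∫ x, h x := by
  have h1 := hasSum_integral_of_summable_integral_norm (μ := volume.restrict (latZnBox (n := n) 0))
    (F := fun (m : Fin n → ℤ) x => h ((fun i => (m i : ℝ)) + x))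
    (fun m => (hi.comp_add_left _).integrableOn) (latZn_hasSum (fun x => ‖h x‖) hi.norm).summable
  exact h1.unique (latZn_hasSum h hi)

theorem latZn_cont {n : ℕ} (g : (Fin n → ℝ) → ℂ) (C : ℝ) (hg : Continuous g)
    (hb : ∀ x, ‖g x‖ ≤ C / (1 + ‖x‖) ^ (n + 1)) :
    Continuous fun x : Fin n → ℝ => ∑' m : Fin n → ℤ, g ((fun i => (m i : ℝ)) + x) := by
  have hC : 0 ≤ C := by simpa using (norm_nonneg _).trans (hb 0)
  refine continuous_iff_continuousAt.2 fun x => ?_
  have h1 : ContinuousOn (fun x : Fin n → ℝ => ∑' m : Fin n → ℤ, g ((fun i => (m i : ℝ)) + x))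
      (Metric.ball 0 (‖x‖ + 1)) := by
    refine continuousOn_tsum (fun m => (hg.comp (continuous_const_add _)).continuousOn)
      (((summable_zn n).mul_left ((1 + (‖x‖ + 1)) ^ (n + 1))).mul_left C) fun m y hy => ?_
    refine (hb _).trans ?_
    rw [div_eq_mul_one_div]
    exact mul_le_mul_of_nonneg_left (latZn_le _ _ _ (mem_ball_zero_iff.1 hy).le) hC
  exact h1.continuousAt (Metric.isOpen_ball.mem_nhds (mem_ball_zero_iff.2 (by linarith)))

theorem latZn_desc {n : ℕ} (G : (Fin n → ℝ) → ℂ) (hG : Continuous G)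
    (hp : ∀ (k : Fin n → ℤ) (x : Fin n → ℝ), G ((fun i => (k i : ℝ)) + x) = G x) :
    ∃ F : C(UnitAddTorus (Fin n), ℂ), ∀ x : Fin n → ℝ, F (fun i => (x i : UnitAddCircle)) = G x := by
  have key : ∀ x : Fin n → ℝ,
      G (fun i => (AddCircle.equivIoc 1 0 (x i : UnitAddCircle) : ℝ)) = G x := by
    intro x
    have h : ∀ i, ∃ k : ℤ, (AddCircle.equivIoc 1 0 (x i : UnitAddCircle) : ℝ) = k + x i := by
      intro i
      refine ⟨-toIocDiv (zero_lt_one' ℝ) 0 (x i), ?_⟩
      show toIocMod _ 0 (x i) = _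
      rw [toIocMod]
      simp only [zsmul_eq_mul, mul_one, Int.cast_neg]
      ring
    choose k hk using h
    rw [← hp k x]
    exact congrArg G (funext hk)
  have hq : IsOpenQuotientMap (Pi.map fun (_ : Fin n) (t : ℝ) => (t : UnitAddCircle)) :=
    IsOpenQuotientMap.piMap fun _ => QuotientAddGroup.isOpenQuotientMap_mk
  refine ⟨⟨fun y => G fun i => (AddCircle.equivIoc 1 0 (y i) : ℝ), ?_⟩, key⟩
  refine hq.isQuotientMap.continuous_iff.2 ?_
  exact hG.congr fun x => (key x).symm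

theorem pois_zn {n : ℕ} (g : (Fin n → ℝ) → ℂ) (C : ℝ) (hg : Continuous g)
    (hb : ∀ x, ‖g x‖ ≤ C / (1 + ‖x‖) ^ (n + 1))
    (hs : Summable fun m : Fin n → ℤ =>
      ∫ x, g x * Complex.exp (-(2 * π * Complex.I * ((∑ i, x i * m i : ℝ) : ℂ)))) :
    ∑' m : Fin n → ℤ, g (fun i => (m i : ℝ)) = ∑' m : Fin n → ℤ,
      ∫ x, g x * Complex.exp (-(2 * π * Complex.I * ((∑ i, x i * m i : ℝ) : ℂ))) := by
  set G : (Fin n → ℝ) → ℂ := fun x => ∑' m : Fin n → ℤ, g ((fun i => (m i : ℝ)) + x) with hG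
  have hp : ∀ (k : Fin n → ℤ) (x : Fin n → ℝ), G ((fun i => (k i : ℝ)) + x) = G x := by
    intro k x
    simp only [hG]
    rw [← (Equiv.addRight k).tsum_eq fun m : Fin n → ℤ => g ((fun i => (m i : ℝ)) + x)]
    refine tsum_congr fun m => congrArg g (funext fun i => ?_)
    simp only [Pi.add_apply, Equiv.coe_addRight, Int.cast_add, add_assoc]
  obtain ⟨F, hF⟩ := latZn_desc G (latZn_cont g C hg hb) hp
  have hgi : Integrable g := by
    have h1 : Integrable fun x : Fin n → ℝ => (1 + ‖x‖) ^ (-((n + 1 : ℕ) : ℝ)) :=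
      integrable_one_add_norm (by simp)
    refine (h1.const_mul C).mono' hg.aestronglyMeasurable (ae_of_all _ fun x => ?_)
    rw [Real.rpow_neg (by positivity), Real.rpow_natCast, ← div_eq_mul_inv]
    exact hb x
  set E : (Fin n → ℤ) → (Fin n → ℝ) → ℂ := fun k x =>
    Complex.exp (-(2 * π * Complex.I * ((∑ i, x i * k i : ℝ) : ℂ))) with hE
  have hEn : ∀ k x, ‖E k x‖ = 1 := fun k x => by
    simp only [hE]
    rw [show -(2 * π * Complex.I * ((∑ i, x i * k i : ℝ) : ℂ)) =
      ((-(2 * π * ∑ i, x i * k i) : ℝ) : ℂ) * Complex.I by push_cast; ring,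
      Complex.norm_exp_ofReal_mul_I]
  have hEc : ∀ k, Continuous (E k) := fun k => by
    simp only [hE]
    fun_prop
  have hEp : ∀ (k m : Fin n → ℤ) (x : Fin n → ℝ), E k ((fun i => (m i : ℝ)) + x) = E k x := by
    intro k m x
    simp only [hE]
    rw [Complex.exp_eq_exp_iff_exists_int]
    refine ⟨-∑ i, m i * k i, ?_⟩
    simp only [Pi.add_apply, add_mul, Finset.sum_add_distrib]
    push_cast
    ring
  have hEf : ∀ (k : Fin n → ℤ) (x : Fin n → ℝ),
      UnitAddTorus.mFourier (-k) (fun i => (x i : UnitAddCircle)) = E k x := by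
    intro k x
    simp only [hE, UnitAddTorus.mFourier, ContinuousMap.coe_mk, fourier_coe_apply,
      ← Complex.exp_sum]
    refine congrArg Complex.exp ?_
    push_cast
    rw [Finset.mul_sum, ← Finset.sum_neg_distrib]
    refine Finset.sum_congr rfl fun i _ => ?_
    simp only [Pi.neg_apply, Int.cast_neg]
    ring
  have hc : ∀ k, UnitAddTorus.mFourierCoeff F k = ∫ x, g x * E k x := by
    intro k
    rw [UnitAddTorus.mFourierCoeff_eq_integral F k (fun i => (((0 : Fin n → ℤ) i : ℤ) : ℝ)),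
      ← latZn_unfold (fun x => g x * E k x)
        (hgi.mul_bdd (c := 1) (hEc k).aestronglyMeasurable (ae_of_all _ fun x => (hEn k x).le))]
    refine integral_congr_ae (ae_of_all _ fun x => ?_)
    simp only [hEf, hF, hEp, smul_eq_mul, hG]
    rw [tsum_mul_right, mul_comm]
  have hs' : Summable (UnitAddTorus.mFourierCoeff F) := by
    rw [funext hc]
    exact hs
  have h1 := UnitAddTorus.hasSum_mFourier_series_apply_of_summable hs'
    (fun i => (((0 : Fin n → ℝ) i : ℝ) : UnitAddCircle))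
  rw [hF] at h1
  have h2 : ∀ k : Fin n → ℤ,
      UnitAddTorus.mFourier k (fun i => (((0 : Fin n → ℝ) i : ℝ) : UnitAddCircle)) = 1 := by
    intro k
    simp [UnitAddTorus.mFourier]
  simp only [h2, hc, smul_eq_mul, mul_one, hG, add_zero] at h1
  exact h1.tsum_eq.symm

end Vale.Agent.P319
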