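import Mathlib

/-! # P319 ZETA: Dirichlet series through a kernel and a theta relation (Mathlib only). -/

namespace Vale.Agent.P319

open Set Filter Topology MeasureTheory Asymptotics

/-- a kernel whose Mellin transform is `Γ(s)^r` -/
structure ZKer (k : ℝ → ℝ) (r : ℕ) : Prop where
  nonneg : ∀ y, 0 ≤ k y
  cont : ContinuousOn k (Ioi 0)
  le : ∀ σ : ℝ, 0 < σ → ∃ C : ℝ, 0 < C ∧ ∀ y, 0 < y → k y ≤ C * y ^ (-σ)
  mel : ∀ s : ℂ, 0 < s.re → HasMellin (fun y => (k y : ℂ)) s (Complex.Gamma s ^ r)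

/-- coefficients of a general Dirichlet series that converges for `1 < re s` -/
structure ZCoef {ι : Type} (a : ι → ℂ) (p : ι → ℝ) : Prop where
  pos : ∀ i, a i ≠ 0 → 0 < p i
  sum : ∀ σ : ℝ, 1 < σ → Summable fun i => ‖a i‖ * p i ^ (-σ)

/-- the theta series -/
noncomputable def zS {ι : Type} (k : ℝ → ℝ) (a : ι → ℂ) (p : ι → ℝ) (y : ℝ) : ℂ :=
  ∑' i, a i * k (p i * y)

variable {ι : Type} {k : ℝ → ℝ} {r : ℕ} {a : ι → ℂ} {p : ι → ℝ}

theorem zS_term_le (hk : ZKer k r) (ha : ZCoef a p) {σ : ℝ} (hσ : 0 < σ) : ∃ C : ℝ, 0 < C ∧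
    ∀ i y, 0 < y → ‖a i * k (p i * y)‖ ≤ C * y ^ (-σ) * (‖a i‖ * p i ^ (-σ)) := by
  obtain ⟨C, hC, h⟩ := hk.le σ hσ
  refine ⟨C, hC, fun i y hy => ?_⟩
  by_cases h0 : a i = 0
  · simp [h0]
  have hp := ha.pos i h0
  rw [norm_mul, Complex.norm_real, Real.norm_of_nonneg (hk.nonneg _)]
  calc ‖a i‖ * k (p i * y) ≤ ‖a i‖ * (C * (p i * y) ^ (-σ)) :=
        mul_le_mul_of_nonneg_left (h _ (mul_pos hp hy)) (norm_nonneg _)
    _ = _ := by rw [Real.mul_rpow hp.le hy.le]; ring

theorem zS_summable (hk : ZKer k r) (ha : ZCoef a p) {y : ℝ} (hy : 0 < y) :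
    Summable fun i => a i * k (p i * y) := by
  obtain ⟨C, -, h⟩ := zS_term_le hk ha two_pos
  exact ((ha.sum 2 one_lt_two).mul_left (C * y ^ (-(2 : ℝ)))).of_norm_bounded fun i => h i y hy

theorem zS_cont (hk : ZKer k r) (ha : ZCoef a p) : ContinuousOn (zS k a p) (Ioi 0) := by
  obtain ⟨C, hC, h⟩ := zS_term_le hk ha two_pos
  intro y hy
  have hy' : 0 < y / 2 := half_pos hy
  have key : ContinuousOn (zS k a p) (Ioi (y / 2)) := by
    refine continuousOn_tsum (fun i => ?_)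
      ((ha.sum 2 one_lt_two).mul_left (C * (y / 2) ^ (-(2 : ℝ)))) fun i x hx => ?_
    · by_cases h0 : a i = 0
      · simp only [h0, zero_mul]
        exact continuousOn_const
      · refine continuousOn_const.mul (Complex.continuous_ofReal.comp_continuousOn
          (hk.cont.comp (by fun_prop) fun x hx => mul_pos (ha.pos i h0) (hy'.trans hx)))
    · refine (h i x (hy'.trans hx)).trans (mul_le_mul_of_nonneg_right (mul_le_mul_of_nonneg_left
        (Real.rpow_le_rpow_of_nonpos hy' (le_of_lt hx) (by norm_num)) hC.le) ?_)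
      by_cases h0 : a i = 0
      · simp [h0]
      · have := ha.pos i h0
        positivity
  exact (key.continuousAt (Ioi_mem_nhds (half_lt_self hy))).continuousWithinAt

theorem zS_decay (hk : ZKer k r) (ha : ZCoef a p) (t : ℝ) : zS k a p =O[atTop] (· ^ t) := by
  have h2 : 1 < max 2 (-t) := one_lt_two.trans_le (le_max_left _ _)
  obtain ⟨C, hC, h⟩ := zS_term_le hk ha (one_pos.trans h2)
  have hs := ha.sum _ h2
  have h0 : 0 ≤ ∑' i, ‖a i‖ * p i ^ (-max 2 (-t)) := tsum_nonneg fun i => by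
    by_cases h0 : a i = 0
    · simp [h0]
    · have := ha.pos i h0
      positivity
  refine IsBigO.of_bound (C * ∑' i, ‖a i‖ * p i ^ (-max 2 (-t))) ?_
  filter_upwards [eventually_ge_atTop 1] with y hy
  have hy0 : 0 < y := one_pos.trans_le hy
  refine (tsum_of_norm_bounded (hs.mul_left (C * y ^ (-max 2 (-t)))).hasSum
    fun i => h i y hy0).trans ?_
  rw [tsum_mul_left, Real.norm_of_nonneg (by positivity), mul_right_comm]
  refine mul_le_mul_of_nonneg_left (Real.rpow_le_rpow_of_exponent_le hy ?_) (by positivity)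
  linarith [le_max_right 2 (-t)]

theorem zS_norm_int {h : ℝ → ℝ} (h0 : ∀ x, 0 < x → 0 ≤ h x) (s : ℂ) :
    ∫ x in Ioi (0 : ℝ), ‖(x : ℂ) ^ (s - 1) • (h x : ℂ)‖ = (mellin (fun x => (h x : ℂ)) s.re).re := by
  have e : mellin (fun x => (h x : ℂ)) s.re =
      ((∫ x in Ioi (0 : ℝ), x ^ (s.re - 1) * h x : ℝ) : ℂ) := by
    rw [mellin, ← integral_complex_ofReal]
    refine setIntegral_congr_fun measurableSet_Ioi fun x hx => ?_
    simp only [smul_eq_mul]
    rw [Complex.ofReal_mul, Complex.ofReal_cpow (le_of_lt hx)]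
    push_cast
    rfl
  rw [e, Complex.ofReal_re]
  refine setIntegral_congr_fun measurableSet_Ioi fun x hx => ?_
  simp only [norm_smul, Complex.norm_cpow_eq_rpow_re_of_pos hx, Complex.norm_real,
    Real.norm_of_nonneg (h0 x hx), Complex.sub_re, Complex.one_re]

theorem zS_mellin_aux [Countable ι] (hk : ZKer k r) (ha : ZCoef a p) (hp : ∀ i, 0 < p i) {s : ℂ}
    (hs : 1 < s.re) :
    mellin (zS k a p) s = Complex.Gamma s ^ r * ∑' i, a i * (p i : ℂ) ^ (-s) := by
  have h0 : 0 < s.re := one_pos.trans hs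
  have hm : ∀ i, ∀ s : ℂ, 0 < s.re → mellin (fun y => (k (p i * y) : ℂ)) s =
      (p i : ℂ) ^ (-s) * Complex.Gamma s ^ r := fun i s hs => by
    rw [mellin_comp_mul_left (fun y => (k y : ℂ)) s (hp i), (hk.mel s hs).2, smul_eq_mul]
  have key := hasSum_integral_of_summable_integral_norm (μ := volume.restrict (Ioi (0 : ℝ)))
    (F := fun i (x : ℝ) => a i * ((x : ℂ) ^ (s - 1) • (k (p i * x) : ℂ))) (fun i =>
      Integrable.const_mul
        ((MellinConvergent.comp_mul_left (f := fun y => (k y : ℂ)) (hp i)).2 (hk.mel s h0).1) _) (by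
    refine ((ha.sum _ hs).mul_right (Complex.Gamma s.re ^ r).re).congr fun i => ?_
    simp only [norm_mul]
    rw [integral_const_mul, zS_norm_int (h := fun x => k (p i * x)) fun x _ => hk.nonneg _,
      hm i _ (by simpa using h0), ← Complex.ofReal_neg, ← Complex.ofReal_cpow (hp i).le,
      Complex.re_ofReal_mul, mul_assoc])
  have e : ∀ i, ∫ x in Ioi (0 : ℝ), a i * ((x : ℂ) ^ (s - 1) • (k (p i * x) : ℂ)) =
      Complex.Gamma s ^ r * (a i * (p i : ℂ) ^ (-s)) := fun i => by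
    rw [integral_const_mul]
    have := hm i s h0
    rw [mellin] at this
    rw [this]
    ring
  simp only [e] at key
  rw [← tsum_mul_left, key.tsum_eq, mellin]
  refine setIntegral_congr_fun measurableSet_Ioi fun x _ => ?_
  simp only [zS, smul_eq_mul, ← tsum_mul_left]
  exact tsum_congr fun i => by ring

theorem zS_mellin (hk : ZKer k r) (ha : ZCoef a p) {s : ℂ} (hs : 1 < s.re) :
    mellin (zS k a p) s = Complex.Gamma s ^ r * ∑' i, a i * (p i : ℂ) ^ (-s) := by
  have hc : (Function.support a).Countable := by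
    refine (ha.sum 2 one_lt_two).countable_support.mono fun i hi => ?_
    have := ha.pos i hi
    have := norm_pos_iff.2 hi
    exact ne_of_gt (by positivity)
  have := hc.to_subtype
  have h := zS_mellin_aux (ι := Function.support a) (a := fun i => a i) (p := fun i => p i) hk
    ⟨fun i _ => ha.pos i i.2, fun σ hσ => (ha.sum σ hσ).subtype _⟩ (fun i => ha.pos i i.2) hs
  have e : ∀ g : ι → ℂ, ∑' i : Function.support a, a i * g i = ∑' i, a i * g i := fun g =>
    tsum_subtype_eq_of_support_subset (f := fun i => a i * g i) fun i hi => left_ne_zero_of_mul hi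
  rw [← e, ← h]
  congr 1
  funext y
  exact (e fun i => k (p i * y)).symm

/-- the entire function attached to a pair of weight one -/
noncomputable def zZ (P : WeakFEPair ℂ) (r : ℕ) (s : ℂ) : ℂ :=
  (Complex.Gamma s)⁻¹ ^ r * ((s - 1) * P.Λ₀ s + P.ε * P.g₀) -
    (s - 1) * P.f₀ * (Complex.Gamma (s + 1))⁻¹ * (Complex.Gamma s)⁻¹ ^ (r - 1)

theorem zZ_diff (P : WeakFEPair ℂ) (r : ℕ) : Differentiable ℂ (zZ P r) := by
  have h1 := Complex.differentiable_one_div_Gamma
  have h2 : Differentiable ℂ fun s : ℂ => (Complex.Gamma (s + 1))⁻¹ :=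
    h1.comp (differentiable_id.add_const 1)
  have h3 := P.differentiable_Λ₀
  unfold zZ
  fun_prop

theorem zZ_eq (P : WeakFEPair ℂ) (hr : 0 < r) {s : ℂ} (hs : 0 < s.re) :
    zZ P r s = (Complex.Gamma s)⁻¹ ^ r *
      ((s - 1) * P.Λ₀ s + P.ε * P.g₀ - (s - 1) / s * P.f₀) := by
  have h0 : s ≠ 0 := fun h => by simp [h] at hs
  obtain ⟨m, rfl⟩ : ∃ m, r = m + 1 := ⟨r - 1, by omega⟩
  rw [zZ, Complex.Gamma_add_one s h0, Nat.add_sub_cancel, mul_inv, div_eq_mul_inv]
  ring

theorem zZ_mellin (P : WeakFEPair ℂ) (hP : P.k = 1) (hr : 0 < r) {s D : ℂ} (hs : 1 < s.re)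
    (h : mellin (fun x => P.f x - P.f₀) s = Complex.Gamma s ^ r * D) : zZ P r s = (s - 1) * D := by
  have h0 : s ≠ 0 := fun h => by rw [h, Complex.zero_re] at hs; linarith
  have h1 : 1 - s ≠ 0 := fun h => by rw [← sub_eq_zero.1 h, Complex.one_re] at hs; linarith
  have h2 := Complex.Gamma_ne_zero_of_re_pos (one_pos.trans hs)
  rw [zZ_eq P hr (one_pos.trans hs), P.Λ₀_eq, ← (P.hasMellin (hP ▸ hs)).2, h, hP]
  simp only [smul_eq_mul, Complex.ofReal_one, inv_pow]
  field_simp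
  ring

/-- the pair attached to a theta relation -/
noncomputable def zPair {κ : Type} {b : κ → ℂ} {q : κ → ℝ} (hk : ZKer k r) (ha : ZCoef a p)
    (hb : ZCoef b q) {A B ε : ℂ} (hε : ε ≠ 0)
    (fe : ∀ Y : ℝ, 0 < Y → zS k a p (1 / Y) + A = ε * Y * (zS k b q Y + B)) : WeakFEPair ℂ where
  f x := zS k a p x + A
  g x := zS k b q x + B
  k := 1
  ε := ε
  f₀ := A
  g₀ := B
  hf_int := ((zS_cont hk ha).add continuousOn_const).locallyIntegrableOn measurableSet_Ioi
  hg_int := ((zS_cont hk hb).add continuousOn_const).locallyIntegrableOn measurableSet_Ioi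
  hk := one_pos
  hε := hε
  h_feq x hx := by rw [fe x hx, Real.rpow_one, smul_eq_mul]
  hf_top t := by simpa only [add_sub_cancel_right] using zS_decay hk ha t
  hg_top t := by simpa only [add_sub_cancel_right] using zS_decay hk hb t

/-- continuation from a theta relation -/
theorem fe_cont {κ : Type} {b : κ → ℂ} {q : κ → ℝ} (hr : 0 < r) (hk : ZKer k r) (ha : ZCoef a p)
    (hb : ZCoef b q) {A B ε : ℂ} (hε : ε ≠ 0)
    (fe : ∀ Y : ℝ, 0 < Y → zS k a p (1 / Y) + A = ε * Y * (zS k b q Y + B)) :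
    ∃ Z : ℂ → ℂ, Differentiable ℂ Z ∧ Z 1 = ε * B ∧
      ∀ s : ℂ, 1 < s.re → Z s = (s - 1) * ∑' i, a i * (p i : ℂ) ^ (-s) := by
  refine ⟨zZ (zPair hk ha hb hε fe) r, zZ_diff _ _, by simp [zZ, zPair], fun s hs => ?_⟩
  refine zZ_mellin _ rfl hr hs ?_
  simp only [zPair, add_sub_cancel_right]
  exact zS_mellin hk ha hs

theorem zS_rpow_le {x σ : ℝ} (hx : 0 < x) (h1 : 1 / 2 ≤ σ) (h2 : σ ≤ 2) :
    x ^ (σ - 1) ≤ x ^ ((2 : ℝ) - 1) + x ^ ((-1 : ℝ) - 1) := by
  rcases le_total 1 x with h | h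
  · exact (Real.rpow_le_rpow_of_exponent_le h (by linarith)).trans
      (le_add_of_nonneg_right (by positivity))
  · exact (Real.rpow_le_rpow_of_exponent_ge hx h (by linarith)).trans
      (le_add_of_nonneg_left (by positivity))

/-- a Mellin transform of a nonnegative function -/
theorem zS_mellin_le {f : ℝ → ℂ} {h : ℝ → ℝ} (h0 : ∀ x, 0 < x → 0 ≤ h x)
    (e : ∀ x, 0 < x → f x = h x) (hc : ∀ s, MellinConvergent f s) :
    0 ≤ (mellin f 2).re ∧ ∀ s : ℂ, 1 / 2 ≤ s.re → s.re ≤ 2 →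
      ‖mellin f s‖ ≤ (mellin f 2).re + (mellin f (-1)).re := by
  have e1 : ∀ s, mellin f s = mellin (fun x => (h x : ℂ)) s := fun s =>
    setIntegral_congr_fun measurableSet_Ioi fun x hx => by simp only [e x hx]
  have c1 : ∀ s, MellinConvergent (fun x => (h x : ℂ)) s := fun s =>
    (hc s).congr_fun (fun x hx => by simp only [e x hx]) measurableSet_Ioi
  have n2 := zS_norm_int h0 2
  have n1 := zS_norm_int h0 (-1)
  rw [show ((2 : ℂ).re : ℂ) = 2 by simp] at n2
  rw [show ((-1 : ℂ).re : ℂ) = -1 by simp] at n1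
  simp only [e1]
  refine ⟨n2 ▸ integral_nonneg fun _ => norm_nonneg _, fun s h1 h2 => ?_⟩
  rw [← n1, ← n2, ← integral_add (c1 2).norm (c1 (-1)).norm]
  refine (norm_integral_le_integral_norm _).trans (setIntegral_mono_on (c1 s).norm
    ((c1 2).norm.add (c1 (-1)).norm) measurableSet_Ioi fun x hx => ?_)
  simp only [norm_smul, Complex.norm_cpow_eq_rpow_re_of_pos hx, Complex.sub_re, Complex.one_re,
    Complex.neg_re, Complex.re_ofNat, ← add_mul]
  exact mul_le_mul_of_nonneg_right (zS_rpow_le hx h1 h2) (norm_nonneg _)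

/-- the self dual case with all coefficients equal to one -/
theorem fe_bound (hr : 0 < r) (hk : ZKer k r) (ha : ZCoef (fun _ => 1) p) {V : ℝ} (hV : 0 ≤ V)
    (fe : ∀ Y : ℝ, 0 < Y → zS k (fun _ => 1) p (1 / Y) + V = Y * (zS k (fun _ => 1) p Y + V)) :
    ∃ Z : ℂ → ℂ, Differentiable ℂ Z ∧ (∀ s : ℂ, 1 < s.re → Z s = (s - 1) * ∑' i, (p i : ℂ) ^ (-s)) ∧
      ∀ s : ℂ, 1 / 2 ≤ s.re → s.re ≤ 2 →
        ‖Z s‖ ≤ ‖(Complex.Gamma s)⁻¹‖ ^ r * (2 * ‖s - 1‖ + 8) * ∑' i, p i ^ (-2 : ℝ) := by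
  have hp : ∀ i, 0 < p i := fun i => ha.pos i one_ne_zero
  obtain ⟨P, hP⟩ : ∃ P, P = zPair hk ha ha (A := V) (B := V) one_ne_zero
    (fun Y hY => by rw [one_mul, fe Y hY]) := ⟨_, rfl⟩
  have hk1 : P.k = 1 := by rw [hP]; rfl
  have he : P.ε = 1 := by rw [hP]; rfl
  have hf : P.f₀ = V := by rw [hP]; rfl
  have hg : P.g₀ = V := by rw [hP]; rfl
  have hF : ∀ x, P.f x = zS k (fun _ => 1) p x + V := fun x => by rw [hP]; rfl
  have hG : P.g = P.f := by rw [hP]; rfl
  have hm : ∀ s : ℂ, 1 < s.re → mellin (fun x => P.f x - P.f₀) s =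
      Complex.Gamma s ^ r * ∑' i, (p i : ℂ) ^ (-s) := fun s hs => by
    simp only [hF, hf, add_sub_cancel_right]
    simpa only [one_mul] using zS_mellin hk ha hs
  refine ⟨zZ P r, zZ_diff _ _, fun s hs => zZ_mellin P hk1 hr hs (hm s hs), fun s h1 h2 => ?_⟩
  have hθ : ∀ x, zS k (fun _ => 1) p x = ((∑' i, k (p i * x) : ℝ) : ℂ) := fun x => by
    simp only [zS, one_mul, Complex.ofReal_tsum]
  have hθ0 : ∀ x, 0 ≤ ∑' i, k (p i * x) := fun x => tsum_nonneg fun i => hk.nonneg _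
  obtain ⟨n0, n1⟩ := zS_mellin_le (f := P.f_modif)
    (h := (Ioi 1).indicator (fun x => ∑' i, k (p i * x)) +
      (Ioo 0 1).indicator fun x => x⁻¹ * ∑' i, k (p i * x⁻¹))
    (fun x hx => add_nonneg (indicator_nonneg (fun _ _ => hθ0 _) _)
      (indicator_nonneg (fun y hy => mul_nonneg (inv_pos.2 hy.1).le (hθ0 _)) _))
    (fun x hx => by
      have e := fe x⁻¹ (inv_pos.2 hx)
      rw [one_div, inv_inv] at e
      simp only [WeakFEPair.f_modif, Pi.add_apply, Complex.ofReal_add, indicator, hF, hf, hg, he, hk1,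
        add_sub_cancel_right]
      congr 1
      · split_ifs
        · exact hθ x
        · rfl
      · split_ifs
        · rw [e, hθ, Real.rpow_neg_one, smul_eq_mul]
          push_cast
          ring
        · rfl)
    fun s => (P.isStrongFEPair_toStrongFEPair.hasMellin s).1
  change 0 ≤ (P.Λ₀ 2).re at n0
  have n2 : ‖P.Λ₀ s‖ ≤ (P.Λ₀ 2).re + (P.Λ₀ (-1)).re := n1 s h1 h2
  have e1 : P.Λ₀ (-1) = P.Λ₀ 2 := by
    have := P.functional_equation₀ 2
    rw [hk1, he, one_smul, show ((1 : ℝ) : ℂ) - 2 = -1 by norm_num] at this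
    rw [this, WeakFEPair.Λ₀, WeakFEPair.Λ₀]
    congr 1
    simp only [WeakFEPair.f_modif, WeakFEPair.symm_f, WeakFEPair.symm_f₀, WeakFEPair.symm_g₀,
      WeakFEPair.symm_ε, WeakFEPair.symm_k, hG, hf, hg, he, inv_one]
  have e2 : (P.Λ₀ 2).re + V / 2 = ∑' i, p i ^ (-2 : ℝ) := by
    have h3 : P.k < (2 : ℂ).re := by rw [hk1]; norm_num
    have h4 : ∑' i, (p i : ℂ) ^ (-2 : ℂ) = ((∑' i, p i ^ (-2 : ℝ) : ℝ) : ℂ) := by
      rw [Complex.ofReal_tsum]
      exact tsum_congr fun i => by rw [Complex.ofReal_cpow (hp i).le]; norm_num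
    rw [P.Λ₀_eq, ← (P.hasMellin h3).2, hm 2 (by norm_num), h4, hk1, he, hf, hg,
      show Complex.Gamma 2 = 1 by simp, one_pow, one_mul]
    have : (1 / 2 : ℂ) • (V : ℂ) = ((V / 2 : ℝ) : ℂ) := by simp only [smul_eq_mul]; push_cast; ring
    have h5 : (1 / (((1 : ℝ) : ℂ) - 2)) • (V : ℂ) = ((-V : ℝ) : ℂ) := by
      simp only [smul_eq_mul]; push_cast; ring
    rw [this, h5, Complex.add_re, Complex.add_re, Complex.ofReal_re, Complex.ofReal_re,
      Complex.ofReal_re]
    ring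
  have hs : 1 / 2 ≤ ‖s‖ := h1.trans (Complex.re_le_norm s)
  have h3 : ‖(s - 1) / s‖ ≤ 3 := by
    rw [norm_div, div_le_iff₀ (by linarith)]
    have := norm_sub_le s 1
    rw [norm_one] at this
    linarith
  rw [zZ_eq P hr (by linarith), norm_mul, norm_pow, mul_assoc, he, hf, hg, one_mul]
  refine mul_le_mul_of_nonneg_left ?_ (by positivity)
  have hV' : ‖(V : ℂ)‖ = V := by rw [Complex.norm_real, Real.norm_of_nonneg hV]
  have h4 := norm_sub_le ((s - 1) * P.Λ₀ s + V) ((s - 1) / s * V)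
  have h5 := norm_add_le ((s - 1) * P.Λ₀ s) V
  rw [norm_mul, hV'] at h4 h5
  rw [e1] at n2
  have h6 := mul_le_mul_of_nonneg_left n2 (norm_nonneg (s - 1))
  have h7 := mul_le_mul_of_nonneg_right h3 hV
  have h8 := mul_nonneg (norm_nonneg (s - 1)) hV
  rw [← e2]
  nlinarith

theorem zS_sin (z : ℂ) : ‖Complex.sin z‖ ≤ Real.exp |z.im| := by
  rw [Complex.sin, norm_div, norm_mul, Complex.norm_I, mul_one, Complex.norm_two,
    div_le_iff₀ two_pos, mul_two]
  refine (norm_sub_le _ _).trans (add_le_add ?_ ?_) <;>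
    rw [Complex.norm_exp, Real.exp_le_exp]
  · simpa using le_abs_self z.im
  · simpa using neg_le_abs z.im

theorem zS_Gamma_le {s : ℂ} (hs : 0 < s.re) : ‖Complex.Gamma s‖ ≤ Real.Gamma s.re := by
  rw [Complex.Gamma_eq_integral hs, Real.Gamma_eq_integral hs, Complex.GammaIntegral]
  refine (norm_integral_le_integral_norm _).trans (le_of_eq ?_)
  refine setIntegral_congr_fun measurableSet_Ioi fun x hx => ?_
  simp only [norm_mul, Complex.norm_cpow_eq_rpow_re_of_pos hx, Complex.norm_real,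
    Real.norm_of_nonneg (Real.exp_pos _).le, Complex.sub_re, Complex.one_re]

theorem zS_refl {s : ℂ} (hs : s.re < 1) :
    (Complex.Gamma s)⁻¹ = Complex.Gamma (1 - s) * Complex.sin (Real.pi * s) / Real.pi := by
  have h1 : Complex.Gamma (1 - s) ≠ 0 :=
    Complex.Gamma_ne_zero_of_re_pos (by simpa using hs)
  have h2 := Complex.Gamma_mul_Gamma_one_sub s
  have h3 : (Real.pi : ℂ) ≠ 0 := Complex.ofReal_ne_zero.2 Real.pi_ne_zero
  by_cases h : Complex.sin (Real.pi * s) = 0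
  · rw [h, div_zero] at h2
    rw [(mul_eq_zero.1 h2).resolve_right h1, h, inv_zero, mul_zero, zero_div]
  · rw [← eq_div_iff h1] at h2
    rw [h2]
    field_simp

theorem zS_up {s : ℂ} (hs : 1 ≤ |s.im|) (n : ℕ) :
    ‖(Complex.Gamma (s + n))⁻¹‖ ≤ ‖(Complex.Gamma s)⁻¹‖ := by
  induction n with
  | zero => simp
  | succ n ih =>
    have h1 : 1 ≤ ‖s + n‖ := hs.trans (by simpa using Complex.abs_im_le_norm (s + n))
    have h2 : s + n ≠ 0 := norm_pos_iff.1 (one_pos.trans_le h1)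
    rw [Nat.cast_succ, ← add_assoc, Complex.Gamma_add_one _ h2, mul_inv, norm_mul, norm_inv]
    exact (mul_le_of_le_one_left (norm_nonneg _) (inv_le_one_of_one_le₀ h1)).trans ih

theorem inv_Gamma_le : ∃ C : ℝ, 0 < C ∧ ∀ s : ℂ, 1 / 2 ≤ s.re → s.re ≤ 2 →
    ‖(Complex.Gamma s)⁻¹‖ ≤ Real.exp (C * (1 + |s.im|)) := by
  have hc : ContinuousOn Real.Gamma (Icc 1 3) := fun x hx =>
    (Real.differentiableAt_Gamma fun m h => by
      have : (0 : ℝ) ≤ m := m.cast_nonneg
      linarith [hx.1]).continuousAt.continuousWithinAt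
  obtain ⟨M, hM⟩ := isCompact_Icc.exists_bound_of_continuousOn hc
  obtain ⟨C, hC⟩ := ((isCompact_Icc (a := 1 / 2) (b := 2)).reProdIm
    (isCompact_Icc (a := -1) (b := 1))).exists_bound_of_continuousOn
    (f := fun w => (Complex.Gamma w)⁻¹) Complex.differentiable_one_div_Gamma.continuous.continuousOn
  obtain ⟨A, hA⟩ : ∃ A, A = max (max C M) Real.pi := ⟨_, rfl⟩
  have hp : Real.pi ≤ A := hA ▸ le_max_right _ _
  have h0 : 0 < A := Real.pi_pos.trans_le hp
  have hA1 : A ≤ Real.exp A := by linarith [Real.add_one_le_exp A]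
  refine ⟨A, h0, fun w ha hb => ?_⟩
  rw [mul_add, mul_one, Real.exp_add]
  rcases le_total |w.im| 1 with h | h
  · refine (hC w ⟨⟨ha, hb⟩, abs_le.1 h⟩).trans
      ((hA ▸ (le_max_left C M).trans (le_max_left _ _) : C ≤ A).trans (hA1.trans ?_))
    exact le_mul_of_one_le_right (Real.exp_pos _).le (Real.one_le_exp (by positivity))
  · have h2 := zS_up (s := w - (2 : ℕ)) (by simpa using h) 2
    rw [sub_add_cancel] at h2
    refine h2.trans ?_
    have h3 : (w - (2 : ℕ)).re < 1 := by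
      simp only [Complex.sub_re, Complex.re_ofNat, Nat.cast_ofNat]
      linarith
    rw [zS_refl h3, norm_div, norm_mul, Complex.norm_real, Real.norm_of_nonneg Real.pi_pos.le]
    refine (div_le_self (by positivity) (by linarith [Real.pi_gt_three])).trans (mul_le_mul
      ((zS_Gamma_le (by simpa using h3)).trans ((le_abs_self _).trans ((hM _ ⟨?_, ?_⟩).trans
        ((hA ▸ (le_max_right C M).trans (le_max_left _ _) : M ≤ A).trans hA1))))
      ((zS_sin _).trans ?_) (norm_nonneg _) (Real.exp_pos _).le)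
    · simp only [Complex.sub_re, Complex.re_ofNat, Complex.one_re, Nat.cast_ofNat]
      linarith
    · simp only [Complex.sub_re, Complex.re_ofNat, Complex.one_re, Nat.cast_ofNat]
      linarith
    · rw [Real.exp_le_exp]
      simp only [Complex.im_ofReal_mul, Complex.sub_im, Complex.natCast_im, sub_zero, abs_mul,
        abs_of_pos Real.pi_pos]
      exact mul_le_mul_of_nonneg_right hp (abs_nonneg _)

end Vale.Agent.P319
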