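import Vale.Agent.P319.N.Val

/-! BASE: ideals of `𝓞 K` versus chosen generators; `S`-ideals; the `S`-part of the norm.
PLAN.  `gen I` is the chosen generator of `I R`.  `idl (gen I) = (I R) ∩ 𝓞 K ⊇ I`, so `I = spart I * idl (gen I)`
(`Ideal.dvd_iff_le`); mapping to `R` and cancelling gives `(spart I) R = ⊤`, i.e. `SId` (`sId_iff_map`, from
`IsLocalization.mem_map_algebraMap_iff` or `IsLocalization.map_eq_top..`).  Uniqueness: apply `gen`, cancel.
`summable_SId`: an `S`-ideal divides `(M)^k`, so it is a product of primes in the finite set `finite_S`; bound finite sums by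
`∏ P, (1 - N P ^ (-η))⁻¹` (induction on a finset of primes: `s = P^j s'`), or inject into `S → ℕ` and use
`summable_prod`-type lemmas / `Finset.prod_univ_sum`.  `NS`: for `x = M^(-k) t`: `nK t = absNorm (spart (t)) * nm`.
`exists_small`: `exists_shift 6`; `y ∣ M^a` in `O_S` gives `M^a ∈ spart (y)`, so its norm is at most `M ^ (a n)`. -/

namespace Vale.Agent.P319

open scoped NumberField nonZeroDivisors

variable {K : Type} [Field K] [NumberField K] [Stp K]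

/-- the chosen generator of `I R` -/
noncomputable def gen (I : Ideal (𝓞 K)) : R K :=
  pp (Submodule.IsPrincipal.generator (I.map (algebraMap (𝓞 K) (R K))))

/-- all prime factors lie above `M` -/
def SId (s : Ideal (𝓞 K)) : Prop := ∃ k : ℕ, (MM K : 𝓞 K) ^ k ∈ s

theorem span_gen (I : Ideal (𝓞 K)) :
    Ideal.span {gen I} = I.map (algebraMap (𝓞 K) (R K)) := by
  rw [gen, ← Ideal.span_singleton_eq_span_singleton.2 (associated_pp _),
    Ideal.span_singleton_generator]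
theorem pp_gen (I : Ideal (𝓞 K)) : pp (gen I) = gen I := pp_pp _
theorem gen_eq_of_span {I : Ideal (𝓞 K)} {x : R K}
    (h : Ideal.span {x} = I.map (algebraMap (𝓞 K) (R K))) : gen I = pp x := by
  rw [← pp_gen, pp_eq_iff, ← Ideal.span_singleton_eq_span_singleton, span_gen, h]
theorem gen_bot : gen (⊥ : Ideal (𝓞 K)) = 0 := by
  rw [gen_eq_of_span (x := 0) (by simp), pp_zero]
theorem gen_top : gen (⊤ : Ideal (𝓞 K)) = 1 := by
  rw [gen_eq_of_span (x := 1) (by simp [Ideal.map_top]), pp_one]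
theorem prim_gen {I : Ideal (𝓞 K)} (h : I ≠ ⊥) : Prim (gen I) := by
  refine ⟨fun e => h ?_, pp_gen I⟩
  have h1 := span_gen I
  rw [e, Ideal.span_singleton_zero, eq_comm] at h1
  exact (Ideal.map_eq_bot_iff_of_injective (algebraMap_R_injective K)).1 h1
theorem gen_mul (I J : Ideal (𝓞 K)) : gen (I * J) = gen I * gen J := by
  rw [gen_eq_of_span (x := gen I * gen J), pp_mul, pp_gen, pp_gen]
  rw [Ideal.map_mul, ← span_gen, ← span_gen, Ideal.span_singleton_mul_span_singleton]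
theorem gen_pow (I : Ideal (𝓞 K)) (k : ℕ) : gen (I ^ k) = gen I ^ k := by
  induction k with
  | zero => rw [pow_zero, pow_zero, Ideal.one_eq_top, gen_top]
  | succ k ih => rw [pow_succ, gen_mul, ih, pow_succ]
theorem gen_idl (n : R K) : gen (idl n) = pp n := by
  exact gen_eq_of_span (map_idl n).symm
theorem gen_span (t : 𝓞 K) : gen (Ideal.span {t}) = pp (algebraMap (𝓞 K) (R K) t) := by
  exact gen_eq_of_span (by rw [Ideal.map_span, Set.image_singleton])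
theorem gen_dvd_of_mem {I : Ideal (𝓞 K)} {t : 𝓞 K} (h : t ∈ I) :
    gen I ∣ algebraMap (𝓞 K) (R K) t := by
  rw [← Ideal.mem_span_singleton, span_gen]
  exact Ideal.mem_map_of_mem _ h
theorem le_idl_gen (I : Ideal (𝓞 K)) : I ≤ idl (gen I) := by
  exact fun _ h => mem_idl.2 (gen_dvd_of_mem h)
theorem idl_gen {I : Ideal (𝓞 K)} (h : IsCoprime I (Ideal.span {(MM K : 𝓞 K)})) :
    idl (gen I) = I := by
  rw [idl, span_gen, comap_map_of_coprime h]
theorem nm_gen {I : Ideal (𝓞 K)} (h : IsCoprime I (Ideal.span {(MM K : 𝓞 K)})) :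
    nm (gen I) = Ideal.absNorm I := by
  rw [← absNorm_idl, idl_gen h]
theorem isCoprime_M_of_prime {P : Ideal (𝓞 K)} (hP : Prime P) (h : (MM K : 𝓞 K) ∉ P) :
    IsCoprime P (Ideal.span {(MM K : 𝓞 K)}) := by
  have h1 : P.IsMaximal := (Ideal.isPrime_of_prime hP).isMaximal hP.ne_zero
  obtain ⟨y, i, hi, e⟩ := h1.exists_inv h
  exact Ideal.isCoprime_iff_exists.2
    ⟨i, hi, _, Ideal.mem_span_singleton'.2 ⟨y, rfl⟩, by rw [add_comm, e]⟩
theorem prime_gen {P : Ideal (𝓞 K)} (hP : Prime P) (h : (MM K : 𝓞 K) ∉ P) : Prime (gen P) := by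
  rwa [← prime_idl_iff, idl_gen (isCoprime_M_of_prime hP h)]
theorem M_not_mem_idl {p : R K} (hp : ¬IsUnit p) : (MM K : 𝓞 K) ∉ idl p := by
  rw [mem_idl]
  exact fun h => hp (isUnit_of_dvd_unit h (isUnit_M K))
/-- chosen generators correspond to the ideals of `𝓞 K` prime to `M` -/
noncomputable def primEquiv (K : Type) [Field K] [NumberField K] [Stp K] :
    {n : R K // Prim n} ≃ {I : Ideal (𝓞 K) // IsCoprime I (Ideal.span {(MM K : 𝓞 K)})} where
  toFun n := ⟨idl n.1, idl_isCoprime n.2.1⟩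
  invFun I := ⟨gen I.1, prim_gen (by
    intro e
    have h := I.2
    rw [e, Ideal.isCoprime_iff_sup_eq, bot_sup_eq, Ideal.span_singleton_eq_top] at h
    refine not_sIn_one (K := K) ?_
    rw [← map_one (algebraMap (𝓞 K) K)]
    exact sIn_int_iff.2 (by rw [pow_one]; exact h.dvd))⟩
  left_inv n := Subtype.ext ((gen_idl n.1).trans n.2.2)
  right_inv I := Subtype.ext (idl_gen I.2)

theorem sId_iff_map {s : Ideal (𝓞 K)} : SId s ↔ s.map (algebraMap (𝓞 K) (R K)) = ⊤ := by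
  constructor
  · rintro ⟨k, hk⟩
    exact Ideal.eq_top_of_isUnit_mem _ (Ideal.mem_map_of_mem _ hk)
      (by rw [map_pow]; exact (isUnit_M K).pow k)
  · intro h
    have h1 : algebraMap (𝓞 K) (R K) 1 ∈ s.map (algebraMap (𝓞 K) (R K)) := h ▸ Submodule.mem_top
    obtain ⟨_, ⟨k, rfl⟩, h2⟩ := (IsLocalization.algebraMap_mem_map_algebraMap_iff
      (Submonoid.powers (MM K : 𝓞 K)) (R K) s 1).1 h1
    exact ⟨k, by simpa using h2⟩
theorem sId_iff_gen {s : Ideal (𝓞 K)} : SId s ↔ gen s = 1 := by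
  rw [sId_iff_map, ← span_gen, Ideal.span_singleton_eq_top]
  exact ⟨fun h => by rw [← pp_gen, pp_of_isUnit h], fun h => h ▸ isUnit_one⟩
theorem sId_iff_prime {s : Ideal (𝓞 K)} (hs : s ≠ ⊥) :
    SId s ↔ ∀ P : Ideal (𝓞 K), Prime P → P ∣ s → (MM K : 𝓞 K) ∈ P := by
  constructor
  · rintro ⟨k, hk⟩ P hP h
    exact (Ideal.isPrime_of_prime hP).mem_of_pow_mem k (Ideal.le_of_dvd h hk)
  · intro h
    rw [sId_iff_gen]
    by_contra h1
    have h2 := prim_gen hs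
    obtain ⟨p, hp, h3⟩ := WfDvdMonoid.exists_irreducible_factor
      (fun e => h1 (h2.eq_one_of_isUnit e)) h2.ne_zero
    exact M_not_mem_idl hp.not_isUnit (h _ (prime_idl_iff.2 hp.prime)
      ((idl_dvd_iff.2 h3).trans (Ideal.dvd_iff_le.2 (le_idl_gen s))))
theorem SId.ne_bot {s : Ideal (𝓞 K)} (h : SId s) : s ≠ ⊥ := by
  obtain ⟨k, hk⟩ := h
  rintro rfl
  exact pow_ne_zero k M_int_ne_zero (Ideal.mem_bot.1 hk)
theorem sId_top : SId (⊤ : Ideal (𝓞 K)) := by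
  exact ⟨0, Submodule.mem_top⟩
theorem SId.mul {s s' : Ideal (𝓞 K)} (h : SId s) (h' : SId s') : SId (s * s') := by
  obtain ⟨k, hk⟩ := h
  obtain ⟨k', hk'⟩ := h'
  exact ⟨k + k', by rw [pow_add]; exact Ideal.mul_mem_mul hk hk'⟩
theorem SId.pow {s : Ideal (𝓞 K)} (h : SId s) (k : ℕ) : SId (s ^ k) := by
  obtain ⟨j, hj⟩ := h
  exact ⟨j * k, by rw [pow_mul]; exact Ideal.pow_mem_pow hj k⟩
theorem SId.of_le {s s' : Ideal (𝓞 K)} (h : SId s) (h' : s ≤ s') : SId s' := by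
  obtain ⟨k, hk⟩ := h
  exact ⟨k, h' hk⟩
theorem SId.of_dvd {s s' : Ideal (𝓞 K)} (h : SId s) (h' : s' ∣ s) : SId s' := by
  exact h.of_le (Ideal.le_of_dvd h')
theorem sId_lev (a : ℕ) : SId (lev K a) := by
  exact ⟨a, Ideal.mem_span_singleton_self _⟩
theorem SId.isCoprime_idl {s : Ideal (𝓞 K)} (h : SId s) {n : R K} (hn : n ≠ 0) :
    IsCoprime s (idl n) := by
  obtain ⟨k, hk⟩ := h
  have h1 := (idl_isCoprime hn).symm.pow_left (m := k)
  rw [Ideal.span_singleton_pow] at h1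
  exact h1.of_isCoprime_of_dvd_left
    (Ideal.dvd_iff_le.2 ((Ideal.span_singleton_le_iff_mem _).2 hk))
theorem SId.gen_mul_idl {s : Ideal (𝓞 K)} (h : SId s) (n : R K) : gen (s * idl n) = pp n := by
  rw [gen_mul, sId_iff_gen.1 h, one_mul, gen_idl]
/-- the class representatives may be taken among the divisors of `M` -/
theorem exists_cls_rep {I : Ideal (𝓞 K)} (hI : I ≠ ⊥) : ∃ (s : Ideal (𝓞 K)) (x : 𝓞 K),
    (MM K : 𝓞 K) ∈ s ∧ x ≠ 0 ∧ s * I = Ideal.span {x} := by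
  obtain ⟨s, h1, h2⟩ := Stp.cls (ClassGroup.mk0 ⟨I, mem_nonZeroDivisors_of_ne_zero hI⟩)⁻¹
  obtain ⟨x, hx, e⟩ := ClassGroup.mk0_eq_mk0_inv_iff.1 h1
  exact ⟨s, x, h2, hx, e⟩

/-- the part of `I` supported above `M` -/
noncomputable def spart (I : Ideal (𝓞 K)) : Ideal (𝓞 K) :=
  (Ideal.dvd_iff_le.2 (le_idl_gen I)).choose
theorem spart_mul_idl (I : Ideal (𝓞 K)) : spart I * idl (gen I) = I := by
  rw [mul_comm]
  exact (Ideal.dvd_iff_le.2 (le_idl_gen I)).choose_spec.symm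
theorem sId_spart {I : Ideal (𝓞 K)} (h : I ≠ ⊥) : SId (spart I) := by
  have h1 := congrArg gen (spart_mul_idl I)
  rw [gen_mul, gen_idl, pp_gen] at h1
  exact sId_iff_gen.2 ((mul_eq_right₀ (prim_gen h).ne_zero).1 h1)
theorem spart_eq {s : Ideal (𝓞 K)} (h : SId s) {n : R K} (hn : n ≠ 0) : spart (s * idl n) = s := by
  have h1 := spart_mul_idl (s * idl n)
  rw [h.gen_mul_idl, ← idl_eq_iff.2 (associated_pp n)] at h1
  exact mul_right_cancel₀ (idl_ne_bot hn) h1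
theorem spart_mul {I J : Ideal (𝓞 K)} (hI : I ≠ ⊥) (hJ : J ≠ ⊥) :
    spart (I * J) = spart I * spart J := by
  rw [← spart_eq ((sId_spart hI).mul (sId_spart hJ))
    (mul_ne_zero (prim_gen hI).ne_zero (prim_gen hJ).ne_zero), idl_mul, mul_mul_mul_comm,
    spart_mul_idl, spart_mul_idl]
theorem absNorm_eq_spart (I : Ideal (𝓞 K)) :
    Ideal.absNorm I = Ideal.absNorm (spart I) * nm (gen I) := by
  rw [← absNorm_idl, ← map_mul, spart_mul_idl]
/-- every nonzero ideal is uniquely an `S`-ideal times an ideal prime to `M` -/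
noncomputable def idealEquiv (K : Type) [Field K] [NumberField K] [Stp K] :
    {s : Ideal (𝓞 K) // SId s} × {n : R K // Prim n} ≃ {I : Ideal (𝓞 K) // I ≠ ⊥} where
  toFun p := ⟨p.1.1 * idl p.2.1, mul_ne_zero p.1.2.ne_bot (idl_ne_bot p.2.2.1)⟩
  invFun I := (⟨spart I.1, sId_spart I.2⟩, ⟨gen I.1, prim_gen I.2⟩)
  left_inv p := Prod.ext (Subtype.ext (spart_eq p.1.2 p.2.2.1))
    (Subtype.ext ((p.1.2.gen_mul_idl _).trans p.2.2.2))
  right_inv I := Subtype.ext (spart_mul_idl I.1)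
theorem finite_sId_mem (a : ℕ) : {s : Ideal (𝓞 K) | (MM K : 𝓞 K) ^ a ∈ s}.Finite := by
  refine (Ideal.finite_setOfPred_absNorm_le (S := 𝓞 K) (Ideal.absNorm (lev K a))).subset
    fun s hs => ?_
  exact Nat.le_of_dvd (Nat.pos_of_ne_zero (mt Ideal.absNorm_eq_zero_iff.1 (sId_lev a).ne_bot))
    (Ideal.absNorm_dvd_absNorm_of_le ((Ideal.span_singleton_le_iff_mem _).2 hs))
omit [Stp K] in
private theorem summable_gen {η : ℝ} (hη : 0 < η) (S : Finset (Ideal (𝓞 K)))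
    (hS : ∀ P ∈ S, Prime P) :
    Summable fun s : {s : Ideal (𝓞 K) // s ≠ ⊥ ∧ ∀ P, Prime P → P ∣ s → P ∈ S} =>
      (Ideal.absNorm s.1 : ℝ) ^ (-η) := by
  classical
  induction S using Finset.induction_on with
  | empty =>
    have : Subsingleton {s : Ideal (𝓞 K) // s ≠ ⊥ ∧ ∀ P, Prime P → P ∣ s →
        P ∈ (∅ : Finset (Ideal (𝓞 K)))} := by
      have key : ∀ s : Ideal (𝓞 K), (s ≠ ⊥ ∧ ∀ P, Prime P → P ∣ s →
          P ∈ (∅ : Finset (Ideal (𝓞 K)))) → s = ⊤ := fun s hs => by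
        by_contra h
        obtain ⟨p, hp, h3⟩ := WfDvdMonoid.exists_irreducible_factor
          (mt Ideal.isUnit_iff.1 h) hs.1
        exact Finset.notMem_empty _ (hs.2 p hp.prime h3)
      exact ⟨fun a b => Subtype.ext ((key _ a.2).trans (key _ b.2).symm)⟩
    exact Summable.of_finite
  | insert P S _ ih =>
    have hP := hS P (Finset.mem_insert_self _ _)
    have h1 : (1 : ℝ) < Ideal.absNorm P := by
      have h2 := mt Ideal.absNorm_eq_zero_iff.1 hP.ne_zero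
      have h3 := mt Ideal.absNorm_eq_one_iff.1 (mt Ideal.isUnit_iff.2 hP.not_isUnit)
      exact_mod_cast (by omega : 1 < Ideal.absNorm P)
    have h2 := (summable_geometric_of_lt_one (Real.rpow_nonneg (Nat.cast_nonneg _) _)
      (Real.rpow_lt_one_of_one_lt_of_neg h1 (neg_lt_zero.2 hη))).mul_of_nonneg
      (ih fun Q hQ => hS Q (Finset.mem_insert_of_mem hQ)) (fun _ => by positivity)
      fun _ => by positivity
    have key : ∀ s : {s : Ideal (𝓞 K) // s ≠ ⊥ ∧ ∀ Q, Prime Q → Q ∣ s → Q ∈ insert P S},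
        ∃ p : ℕ × {s : Ideal (𝓞 K) // s ≠ ⊥ ∧ ∀ Q, Prime Q → Q ∣ s → Q ∈ S},
          s.1 = P ^ p.1 * p.2.1 := by
      rintro ⟨s, hs, hs'⟩
      obtain ⟨j, s', h3, rfl⟩ := WfDvdMonoid.max_power_factor' hs hP.not_isUnit
      refine ⟨(j, ⟨s', right_ne_zero_of_mul hs, fun Q hQ h4 => ?_⟩), rfl⟩
      rcases Finset.mem_insert.1 (hs' Q hQ (h4.mul_left _)) with rfl | h5
      · exact absurd h4 h3
      · exact h5
    choose g hg using key
    refine (h2.comp_injective (i := g) fun a b e => Subtype.ext ?_).congr fun s => ?_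
    · rw [hg, hg, e]
    · rw [hg s, map_mul, map_pow, Nat.cast_mul, Nat.cast_pow,
        Real.mul_rpow (by positivity) (by positivity), ← Real.rpow_natCast,
        ← Real.rpow_mul (by positivity), mul_comm _ (-η), Real.rpow_mul (by positivity),
        Real.rpow_natCast]
      rfl
theorem summable_SId {η : ℝ} (hη : 0 < η) :
    Summable fun s : {s : Ideal (𝓞 K) // SId s} => (Ideal.absNorm s.1 : ℝ) ^ (-η) := by
  classical
  obtain ⟨S, hS⟩ : ∃ S : Finset (Ideal (𝓞 K)), ∀ P, P ∈ S ↔ (MM K : 𝓞 K) ∈ P ∧ Prime P :=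
    ⟨(finite_sId_mem (K := K) 1).toFinset.filter Prime, fun P => by simp⟩
  have key : ∀ s : {s : Ideal (𝓞 K) // SId s}, s.1 ≠ ⊥ ∧ ∀ P, Prime P → P ∣ s.1 → P ∈ S :=
    fun s => ⟨s.2.ne_bot, fun P hP h =>
      (hS P).2 ⟨(sId_iff_prime s.2.ne_bot).1 s.2 P hP h, hP⟩⟩
  have h := (summable_gen hη S fun P hP => ((hS P).1 hP).2).comp_injective
    (i := fun s : {s : Ideal (𝓞 K) // SId s} => ⟨s.1, key s⟩)
    fun a b e => Subtype.ext (by simpa using e)
  exact h.congr fun _ => rfl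
theorem sum_SId_le {η : ℝ} (hη : 0 < η) : ∃ C : ℝ, 0 < C ∧ ∀ T : Finset (Ideal (𝓞 K)),
    (∀ s ∈ T, SId s) → ∑ s ∈ T, (Ideal.absNorm s : ℝ) ^ (-η) ≤ C := by
  classical
  have h := summable_SId (K := K) hη
  refine ⟨1 + ∑' s : {s : Ideal (𝓞 K) // SId s}, (Ideal.absNorm s.1 : ℝ) ^ (-η),
    add_pos_of_pos_of_nonneg one_pos (tsum_nonneg fun _ => by positivity), fun T hT => ?_⟩
  rw [← Finset.sum_subtype_of_mem _ hT]
  exact (h.sum_le_tsum _ fun _ _ => by positivity).trans (le_add_of_nonneg_left zero_le_one)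
theorem card_SId_le {η : ℝ} (hη : 0 < η) : ∃ C : ℝ, 0 < C ∧ ∀ (X : ℝ) (T : Finset (Ideal (𝓞 K))),
    0 ≤ X → (∀ s ∈ T, SId s ∧ (Ideal.absNorm s : ℝ) ≤ X) → (T.card : ℝ) ≤ C * X ^ η := by
  obtain ⟨C, hC, h⟩ := sum_SId_le (K := K) hη
  refine ⟨C, hC, fun X T hX hT => ?_⟩
  refine le_trans ?_ (mul_le_mul_of_nonneg_right (h T fun s hs => (hT s hs).1) (by positivity))
  rw [Finset.sum_mul, Finset.card_eq_sum_ones, Nat.cast_sum]
  refine Finset.sum_le_sum fun s hs => ?_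
  have h1 : (0 : ℝ) < Ideal.absNorm s := by
    exact_mod_cast Nat.pos_of_ne_zero (mt Ideal.absNorm_eq_zero_iff.1 (hT s hs).1.ne_bot)
  rw [Real.rpow_neg h1.le, Nat.cast_one, ← div_eq_inv_mul, one_le_div (by positivity)]
  exact Real.rpow_le_rpow h1.le (hT s hs).2 hη.le

/-- the norm of the `S`-part of the fractional ideal `(x)` -/
noncomputable def NS (x : R K) : ℝ := nK (x : K) / nm x
theorem nK_eq_nm_mul (x : R K) : nK (x : K) = nm x * NS x := by
  by_cases hx : x = 0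
  · simp [hx]
  · rw [NS, mul_div_cancel₀ _ (nm_pos_real hx).ne']
theorem NS_pos {x : R K} (h : x ≠ 0) : 0 < NS x := by
  exact div_pos (nK_pos (coe_ne_zero h)) (nm_pos_real h)
theorem NS_mul (x y : R K) : NS (x * y) = NS x * NS y := by
  rw [NS, NS, NS, map_mul, nK_mul, nm_mul, Nat.cast_mul, mul_div_mul_comm]
theorem NS_int {t : 𝓞 K} (h : t ≠ 0) :
    NS (algebraMap (𝓞 K) (R K) t) = Ideal.absNorm (spart (Ideal.span {t})) := by
  rw [NS, coe_int, nK_int, absNorm_eq_spart, gen_span, nm_pp, Nat.cast_mul,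
    mul_div_cancel_right₀ _ (nm_pos_real (int_ne_zero h)).ne']
theorem NS_unit (u : (R K)ˣ) : NS (u : R K) = nK ((u : R K) : K) := by
  rw [NS, nm_unit, Nat.cast_one, div_one]
theorem one_le_NS {x : R K} (hx : x ≠ 0) (h : SIn 0 (x : K)) : 1 ≤ NS x := by
  obtain ⟨t, rfl⟩ := sIn_R_iff0.1 h
  have ht : t ≠ 0 := fun e => hx (by rw [e, map_zero])
  rw [NS_int ht]
  exact_mod_cast Nat.pos_of_ne_zero (mt Ideal.absNorm_eq_zero_iff.1
    (sId_spart (mt Ideal.span_singleton_eq_bot.1 ht)).ne_bot)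
theorem NS_le_of_sIn {x y : R K} (hx : x ≠ 0) (hy : y ≠ 0) (h : SIn 0 ((y : K) / x)) :
    NS x ≤ NS y := by
  obtain ⟨s, t, hs, e⟩ := h
  rw [pow_zero, one_mul, ← mul_div_assoc, div_eq_iff (coe_ne_zero hx)] at e
  have e' : algebraMap (𝓞 K) (R K) s * y = algebraMap (𝓞 K) (R K) t * x :=
    coe_inj.1 (by rw [map_mul, map_mul, coe_int, coe_int, e])
  have hs0 : algebraMap (𝓞 K) (R K) s ≠ 0 := by
    refine int_ne_zero fun h => not_sIn_one (K := K) ?_
    rw [h, isCoprime_zero_left] at hs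
    rw [← map_one (algebraMap (𝓞 K) K)]
    exact sIn_int_iff.2 (by rw [pow_one]; exact hs.dvd)
  have h1 : NS (algebraMap (𝓞 K) (R K) s) = 1 := by
    rw [NS, coe_int, ← nm_int hs, div_self (nm_pos_real hs0).ne']
  have h2 := one_le_NS (left_ne_zero_of_mul (e' ▸ mul_ne_zero hs0 hy))
    (by rw [coe_int]; exact sIn_int t)
  have h3 := congrArg NS e'
  rw [NS_mul, NS_mul, h1, one_mul] at h3
  rw [h3]
  exact le_mul_of_one_le_left (NS_pos hx).le h2
theorem NS_eq_of_inUq {q : ℕ} {x y : R K} (hq : 1 ≤ q) (h : InUq q ((x : K) / y)) :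
    NS x = NS y := by
  have h0 := div_ne_zero_iff.1 (h.ne_zero hq)
  have hx := mt coe_eq_zero.2 h0.1
  have hy := mt coe_eq_zero.2 h0.2
  exact le_antisymm (NS_le_of_sIn hx hy (h.div_symm hq).sIn) (NS_le_of_sIn hy hx h.sIn)
theorem NS_pow_M (a : ℕ) : NS ((MM K : R K) ^ a) = ((MM K : ℝ) ^ a) ^ Module.finrank ℚ K := by
  rw [NS, isUnit_iff_nm.1 (isUnit_MR.pow a), Nat.cast_one, div_one, map_pow, map_natCast, nK_pow,
    nK_natCast, ← pow_mul, ← pow_mul, mul_comm]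
theorem nm_le_nK {t : 𝓞 K} : (nm (algebraMap (𝓞 K) (R K) t) : ℝ) ≤ nK (t : K) := by
  by_cases ht : t = 0
  · rw [ht, map_zero, nm_zero, Nat.cast_zero]; exact nK_nonneg _
  · rw [← coe_int, nK_eq_nm_mul]
    exact le_mul_of_one_le_right (Nat.cast_nonneg _)
      (one_le_NS (int_ne_zero ht) (by rw [coe_int]; exact sIn_int t))
theorem nK_eq_nm_of_inUq {q : ℕ} {x : R K} (hq : 1 ≤ q) (h : InUq q (x : K)) :
    nK (x : K) = nm x := by
  rw [nK_eq_nm_mul, NS_eq_of_inUq (y := 1) hq (by simpa using h)]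
  simp [NS]
/-- two sided bound for elements of bounded `S`-content -/
theorem exists_NS_bound (a : ℕ) : ∃ C : ℝ, 1 ≤ C ∧ ∀ x : R K, x ≠ 0 →
    (SIn 0 ((MM K : K) ^ a * x) → 1 ≤ C * NS x) ∧ (SIn 0 ((MM K : K) ^ a / x) → NS x ≤ C) := by
  have h0 : (MM K : R K) ^ a ≠ 0 := (isUnit_MR.pow a).ne_zero
  have h1 : (((MM K : R K) ^ a : R K) : K) = (MM K : K) ^ a := by rw [map_pow, map_natCast]
  refine ⟨NS ((MM K : R K) ^ a), one_le_NS h0 (h1 ▸ (sIn_pow_M a).zero), fun x hx =>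
    ⟨fun h => ?_, fun h => NS_le_of_sIn hx h0 (h1 ▸ h)⟩⟩
  rw [← NS_mul]
  exact one_le_NS (mul_ne_zero h0 hx) (by rwa [map_mul, h1])
theorem exists_small : ∃ C : ℝ, 0 < C ∧ ∀ x : R K, x ≠ 0 → ∃ (t : (R K)ˣ) (y : 𝓞 K),
    x * t ^ 6 = algebraMap (𝓞 K) (R K) y ∧ nK (y : K) ≤ C * nm x := by
  obtain ⟨a, ha⟩ := exists_shift (K := K) (k := 6) (by norm_num)
  obtain ⟨C, hC, h⟩ := exists_NS_bound (K := K) a
  refine ⟨C, by linarith, fun x hx => ?_⟩
  obtain ⟨t, h1, h2⟩ := ha x (coe_ne_zero hx)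
  rw [← map_pow, ← map_mul, mul_comm] at h1 h2
  obtain ⟨y, hy⟩ := sIn_R_iff0.1 h1
  refine ⟨t, y, hy, ?_⟩
  rw [← coe_int, ← hy, nK_eq_nm_mul, nm_mul, nm_pow, nm_unit, one_pow, mul_one, mul_comm]
  exact mul_le_mul_of_nonneg_right
    ((h _ (mul_ne_zero hx (pow_ne_zero 6 t.ne_zero))).2 h2) (Nat.cast_nonneg _)

end Vale.Agent.P319
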