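import Vale.Agent.P319.N.LatHP
import Vale.Agent.P319.N.Ideals
import Vale.Agent.P319.N.Ray

/-! # P319 ZETA: the lattice of a ray class (TASK).
PLAN.  `exists_rayId`: `M^k α = t ∈ 𝓞 K` (`exists_pow_mul`), `s = spart (span {t})`, `s * idl α = span {t}` (`spart_mul_idl`, `gen_span`,
`idl_eq_iff`), `J = spanSingleton (M^q / M^k) * s * idl m`.  With `y' = M^k y / M^q`: `y ∈ J ↔ y' ∈ s * idl m = s ⊓ idl m`
(`SId.isCoprime_idl`, `Ideal.inf_eq_mul_of_isCoprime`, `FractionalIdeal.mem_singleton_mul`).  `→`: `mem_idl`; `w ∈ idl α` coprime to `M`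
(`idl_coprime`), `w y' ∈ span {t}`, so `SIn 0 (y'/t)` and `y / α = M^q y'/t`.  `←`: `y' ∈ R ∩ O_S = 𝓞 K` (`SIn.exists_int`), `w y' = t z`
with `w` coprime to `M`, `M^j ∈ s`, Bezout.  Norm: `absNorm_spanSingleton`, `NS_int`, `NS_mul`, `NS_pow_M`, `absNorm_idl`, `nK_natCast`.
`ray_unit_iff`: `(ε - 1) α ∈ J ↔ SIn q (ε - 1) ∧ m ∣ (ε - 1) α`; `SIn.exists_int`, `IsCoprime.dvd_of_dvd_mul_right`, `mem_EI`.
`ray_count`: the map `(𝓞 K)ˣ ⧸ EI .. → T`, `ε ↦` the representative of `ε⁻¹ α`, is injective with image `{x ∈ T | ∃ ε, ε x - α ∈ J}`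
(`J` is stable under units of `𝓞 K`); `Subgroup.index` is `Nat.card` of the quotient. -/

namespace Vale.Agent.P319

open scoped ComplexConjugate Real NumberField nonZeroDivisors Topology

variable {K : Type} [Field K] [NumberField K] [Stp K]

/-- `J = {y ∈ m R | y / α ∈ M^q O_S}` -/
def RayId (q : ℕ) (m α : R K) (J : FI K) : Prop :=
  ∀ y : K, y ∈ J ↔ (∃ z : R K, y = ((m * z : R K) : K)) ∧ SIn q (y / α)

section
omit [NumberField K] [Stp K]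
theorem zra_mul (s t : 𝓞 K) : ((s * t : 𝓞 K) : K) = (s : K) * t := map_mul _ _ _
theorem zra_sub (s t : 𝓞 K) : ((s - t : 𝓞 K) : K) = (s : K) - t := map_sub _ _ _
theorem zra_one : ((1 : 𝓞 K) : K) = 1 := map_one _
theorem zra_ne {t : 𝓞 K} : (t : K) ≠ 0 ↔ t ≠ 0 := NumberField.RingOfIntegers.coe_ne_zero_iff
end

theorem zra_mem_spart {t w : 𝓞 K} (ht : t ≠ 0) :
    w ∈ spart (Ideal.span {t}) ↔ SIn 0 ((w : K) / t) := by
  have ht' : (t : K) ≠ 0 := zra_ne.2 ht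
  have hI : Ideal.span {t} ≠ ⊥ := mt Ideal.span_singleton_eq_bot.1 ht
  constructor
  · intro hw
    obtain ⟨e, he, f, hf⟩ := idl_coprime (prim_gen hI).1
    have h1 := Ideal.mul_mem_mul hw he
    rw [spart_mul_idl] at h1
    obtain ⟨z, hz⟩ := Ideal.mem_span_singleton'.1 h1
    refine ⟨e, z, ⟨1, f, by rw [one_mul, hf]⟩, ?_⟩
    rw [pow_zero, one_mul, mul_div_assoc', mul_comm, ← zra_mul, ← hz, zra_mul,
      mul_div_cancel_right₀ _ ht']
  · rintro ⟨e, z, he, hz⟩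
    obtain ⟨j, hj⟩ := sId_spart hI
    obtain ⟨a, b, hab⟩ := he.pow_right (n := j)
    have h1 : e * w = z * t := by
      rw [pow_zero, one_mul, mul_div_assoc', div_eq_iff ht', ← zra_mul, ← zra_mul] at hz
      exact NumberField.RingOfIntegers.coe_injective hz
    have h2 : t ∈ spart (Ideal.span {t}) := Ideal.mul_le_left (J := idl (gen (Ideal.span {t})))
      (by rw [spart_mul_idl]; exact Ideal.mem_span_singleton_self t)
    have h3 : w = a * z * t + b * w * (MM K : 𝓞 K) ^ j := by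
      linear_combination -w * hab + a * h1
    rw [h3]
    exact add_mem (Ideal.mul_mem_left _ _ h2) (Ideal.mul_mem_left _ _ hj)

omit [Stp K] in
theorem zra_unit_mem {J : FI K} (ε : (𝓞 K)ˣ) {x : K} : ((ε : 𝓞 K) : K) * x ∈ J ↔ x ∈ J := by
  have key : ∀ (ε : (𝓞 K)ˣ) {x : K}, x ∈ J → ((ε : 𝓞 K) : K) * x ∈ J := fun ε _ h =>
    (J : Submodule (𝓞 K) K).smul_mem (ε : 𝓞 K) h
  refine ⟨fun h => ?_, key ε⟩
  have := key ε⁻¹ h
  rwa [← mul_assoc, ← zra_mul, Units.inv_mul, zra_one, one_mul] at this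

theorem exists_rayId (q : ℕ) {m α : R K} (hm : m ≠ 0) (hα : α ≠ 0) :
    ∃ J : FI K, J ≠ 0 ∧ RayId q m α J ∧ ((FractionalIdeal.absNorm J : ℚ) : ℝ) =
      NS α * ((MM K : ℝ) ^ q) ^ Module.finrank ℚ K * nm m := by
  obtain ⟨k, t, ht⟩ := exists_pow_mul α
  have hM := M_ne_zero (K := K)
  have hα' := coe_ne_zero hα
  have htK : (t : K) = (MM K : K) ^ k * α := by rw [← coe_int, ← ht, map_mul, map_pow, map_natCast]
  have ht0 : t ≠ 0 := zra_ne.1 (htK ▸ mul_ne_zero (pow_ne_zero k hM) hα')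
  have hs := sId_spart (mt Ideal.span_singleton_eq_bot.1 ht0)
  have hc : (MM K : K) ^ q / (MM K : K) ^ k ≠ 0 := by positivity
  refine ⟨FractionalIdeal.spanSingleton _ ((MM K : K) ^ q / (MM K : K) ^ k) *
    ((spart (Ideal.span {t}) * idl m : Ideal (𝓞 K)) : FI K), mul_ne_zero
      (FractionalIdeal.spanSingleton_ne_zero_iff.2 hc)
      (FractionalIdeal.coeIdeal_ne_zero.2 (mul_ne_zero hs.ne_bot (idl_ne_bot hm))), fun y => ?_, ?_⟩
  · rw [FractionalIdeal.mem_singleton_mul, Ideal.mul_eq_inf_of_isCoprime (hs.isCoprime_idl hm)]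
    constructor
    · rintro ⟨_, hy, rfl⟩
      obtain ⟨w, ⟨h1, h2⟩, rfl⟩ := (FractionalIdeal.mem_coeIdeal _).1 hy
      obtain ⟨z, hz⟩ := mem_idl.1 h2
      refine ⟨⟨z * MM K ^ q * ((uM K)⁻¹ : (R K)ˣ) ^ k, ?_⟩,
        sIn_iff_exists.2 ⟨_, (zra_mem_spart ht0).1 h1, ?_⟩⟩
      · rw [← NumberField.RingOfIntegers.coe_eq_algebraMap, ← coe_int w, hz]
        simp only [map_mul, map_pow, coe_unit_inv, val_uM, map_natCast, inv_pow]
        field_simp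
      · rw [htK]
        field_simp
    · rintro ⟨⟨z, rfl⟩, h⟩
      obtain ⟨y, h1, h2⟩ := sIn_iff_exists.1 h
      have e : ((m * z * MM K ^ k * ((uM K)⁻¹ : (R K)ˣ) ^ q : R K) : K) = y * t := by
        simp only [map_mul, map_pow, coe_unit_inv, val_uM, map_natCast, inv_pow] at h2 ⊢
        rw [htK, (div_eq_iff hα').1 h2]
        field_simp
      obtain ⟨w, hw⟩ := sIn_R_iff0.1 (e ▸ h1.mul_right (sIn_int t))
      rw [hw, coe_int] at e
      have ht' : (t : K) ≠ 0 := zra_ne.2 ht0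
      refine ⟨w, (FractionalIdeal.mem_coeIdeal _).2 ⟨w, ⟨(zra_mem_spart ht0).2 ?_,
        mem_idl.2 (hw ▸ ((dvd_mul_right m z).mul_right _).mul_right _)⟩, rfl⟩, ?_⟩
      · rwa [e, mul_div_cancel_right₀ _ ht']
      · rw [e, (div_eq_iff hα').1 h2, htK]
        field_simp
  · have h1 := NS_int ht0
    rw [← ht, NS_mul, NS_pow_M] at h1
    have hM' : (0 : ℝ) < MM K := Nat.cast_pos.2 (Nat.pos_of_ne_zero Stp.M_ne)
    rw [map_mul, Rat.cast_mul, absNorm_spanSingleton, FractionalIdeal.coeIdeal_absNorm, map_mul,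
      absNorm_idl, nK_div, nK_pow, nK_pow, nK_natCast]
    push_cast
    rw [← h1, ← pow_mul, ← pow_mul, ← pow_mul, ← pow_mul, mul_comm q, mul_comm k]
    field_simp

theorem RayId.le {q : ℕ} {m α : R K} {I J : FI K} (hI : RayId 0 1 α I) (hJ : RayId q m α J) :
    J ≤ I := by
  intro y hy
  obtain ⟨⟨z, hz⟩, h⟩ := (hJ y).1 hy
  exact (hI y).2 ⟨⟨m * z, by rw [one_mul, hz]⟩, h.zero⟩

theorem ray_unit_iff {q : ℕ} {m α : R K} (hα : α ≠ 0) (h : IsCoprime α m) {J : FI K}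
    (hJ : RayId q m α J) (ε : (𝓞 K)ˣ) :
    ((ε : 𝓞 K) : K) * α - α ∈ J ↔ ε ∈ EI (lev K q ⊓ idl m) := by
  have hα' := coe_ne_zero hα
  have e : ((ε : 𝓞 K) : K) * α - α = ((algebraMap (𝓞 K) (R K) (ε - 1) * α : R K) : K) := by
    rw [map_mul, coe_int, zra_sub, zra_one, sub_mul, one_mul]
  rw [hJ, mem_EI, Ideal.mem_inf, lev, Ideal.mem_span_singleton, ← sIn_int_iff, mem_idl, and_comm,
    e, map_mul, mul_div_cancel_right₀ _ hα', coe_int]
  refine and_congr_right' ⟨fun ⟨z, hz⟩ => h.symm.dvd_of_dvd_mul_right ⟨z, coe_inj.1 ?_⟩,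
    fun ⟨z, hz⟩ => ⟨z * α, ?_⟩⟩
  · rw [← hz, map_mul, coe_int]
  · rw [← mul_assoc, ← hz, map_mul, coe_int]

theorem ray_count {q : ℕ} {m α : R K} (hm : m ≠ 0) (hα : α ≠ 0) (h : IsCoprime α m) {I J : FI K}
    (hI : RayId 0 1 α I) (hJ : RayId q m α J) {T : Finset K} (hT : Reps I J T) :
    ∑ x ∈ T, ind (∃ ε : (𝓞 K)ˣ, ((ε : 𝓞 K) : K) * x - α ∈ J) =
      (EI (lev K q ⊓ idl m)).index := by
  classical
  have hα' := coe_ne_zero hα
  have hαI : (α : K) ∈ I := (hI α).2 ⟨⟨α, by rw [one_mul]⟩, by rw [div_self hα']; exact sIn_one⟩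
  choose rep h1 h2 using fun ε : (𝓞 K)ˣ => hT.2 _ ((zra_unit_mem ε⁻¹).2 hαI)
  have hu : ∀ (ε : (𝓞 K)ˣ) (x : K), (((ε⁻¹ : (𝓞 K)ˣ) : 𝓞 K) : K) * α - x ∈ J ↔
      ((ε : 𝓞 K) : K) * x - α ∈ J := fun ε x => by
    rw [← zra_unit_mem ε, mul_sub, ← mul_assoc, ← zra_mul, Units.mul_inv, zra_one, one_mul,
      ← neg_sub]
    exact (J : Submodule (𝓞 K) K).neg_mem_iff
  have key : ∀ ε ε' : (𝓞 K)ˣ, rep ε = rep ε' ↔ ε⁻¹ * ε' ∈ EI (lev K q ⊓ idl m) := fun ε ε' => by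
    rw [← ray_unit_iff hα h hJ, mul_comm ε⁻¹, Units.val_mul, zra_mul, mul_assoc, ← hu]
    refine ⟨fun e => ?_, fun e => h2 ε' _ ⟨(h1 ε).1, ?_⟩⟩
    · simpa [e] using (J : Submodule (𝓞 K) K).sub_mem (h1 ε').2 (h1 ε).2
    · simpa using (J : Submodule (𝓞 K) K).add_mem e (h1 ε).2
  have e := Nat.card_eq_of_bijective (fun c : (𝓞 K)ˣ ⧸ EI (lev K q ⊓ idl m) =>
    (⟨rep c.out, Finset.mem_filter.2 ⟨(h1 _).1, c.out, (hu _ _).1 (h1 _).2⟩⟩ :
      T.filter fun x => ∃ ε : (𝓞 K)ˣ, ((ε : 𝓞 K) : K) * x - α ∈ J)) ⟨fun c c' e => ?_, fun x => ?_⟩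
  · rw [Subgroup.index, e, Nat.card_eq_finsetCard, Finset.card_filter]
    simp [ind]
  · rw [← c.out_eq, ← c'.out_eq]
    exact QuotientGroup.eq.2 ((key _ _).1 (congrArg Subtype.val e))
  · obtain ⟨hx, ε, hε⟩ := Finset.mem_filter.1 x.2
    refine ⟨ε, Subtype.ext (((key _ ε).2 (QuotientGroup.eq.1 (Quotient.out_eq _))).trans ?_)⟩
    exact (h2 ε _ ⟨hx, (hu _ _).2 hε⟩).symm

end Vale.Agent.P319
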