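import Vale.Agent.P319.N.ZetaSum
import Vale.Agent.P319.N.ZetaRayA

/-! # P319 ZETA: zeta functions of ray classes (TASK).
PLAN.  `ray_mem`: `x - α ∈ J` says `x ∈ R`, `m ∣ x - α`, `InUq q (x / α)`.
`ray_sum`: `hasSum_KQ_ideal I` with `G b = ind (∃ x, x - α ∈ J ∧ b = spanSingleton x) * absNorm b ^ (-s)` (summable by `summable_prin_rpow`);
`spanSingleton x = spanSingleton x'` iff they differ by a unit of `𝓞 K` (`FractionalIdeal.spanSingleton_eq_spanSingleton`); `nK_eq_absNorm`.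
Then `tsum_eq_tsum_of_ne_zero_bij`: a chosen generator `n` with `Ray q m n α` has an associate `x` with `x - α ∈ J`
(`Ray.exists_associated`), send `n` to `spanSingleton x`; injective since `x' = ε x` gives `Associated n n'` (`uOR`); surjective: for `x` take
`n = pp x`; two associates `x, x'` in `α + J` differ by a unit `u` of `R` in `U_q`, hence of `𝓞 K` (`exists_int_unit`);
`absNorm = nK x = nm n * NS α` (`nK_eq_nm_mul`, `NS_eq_of_inUq`).
`zeta`: `κ = c0 VV index / (idx (M^q)^n nm m)`; `exists_rayId` twice, `exists_reps`, `hecke_cont` with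
`f x = ind (∃ ε, ε x - α ∈ J)` (`EU_int` for the invariance), `Z' s = NS α ^ s / idx * Z s`; `finiteIndex_EI`, `idx_pos`, `VV_pos`, `c0_pos`. -/

namespace Vale.Agent.P319

open scoped ComplexConjugate Real NumberField nonZeroDivisors Topology

variable {K : Type} [Field K] [NumberField K] [Stp K]

theorem ray_mem {q : ℕ} {m α : R K} (hα : α ≠ 0) {J : FI K} (hJ : RayId q m α J) {x : K} :
    x - α ∈ J ↔ ∃ y : R K, x = y ∧ m ∣ y - α ∧ InUq q (x / α) := by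
  rw [hJ, sub_div, div_self (coe_ne_zero hα)]
  refine ⟨fun ⟨⟨z, hz⟩, h⟩ => ⟨α + m * z, ?_, ⟨z, add_sub_cancel_left _ _⟩, h⟩,
    fun ⟨y, h1, ⟨z, hz⟩, h⟩ => ⟨⟨z, ?_⟩, h⟩⟩
  · rw [map_add, ← hz, add_sub_cancel]
  · rw [← hz, map_sub, h1]

theorem ray_sum {q : ℕ} (hq : 1 ≤ q) {m α : R K} (hα : α ≠ 0) {I J : FI K} (hI0 : I ≠ 0)
    (hI : RayId 0 1 α I) (hJ : RayId q m α J) {s : ℂ} (hs : 1 < s.re) :
    ∑' x : KQ K, ind (x.out ∈ I ∧ x.out ≠ 0) *
        ind (∃ ε : (𝓞 K)ˣ, ((ε : 𝓞 K) : K) * x.out - α ∈ J) * (nK x.out : ℂ) ^ (-s) =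
      idx K * (NS α : ℂ) ^ (-s) *
        ∑' n : R K, ind (Prim n ∧ Ray q m n α) * (nm n : ℂ) ^ (-s) := by
  have hα' := coe_ne_zero hα
  let G : FI K → ℂ := fun b => ind (∃ x : K, x - α ∈ J ∧ b = FractionalIdeal.spanSingleton _ x) *
    (((FractionalIdeal.absNorm b : ℚ) : ℝ) : ℂ) ^ (-s)
  have hG : Summable fun b : {b : FI K // b ≠ 0 ∧ b ≤ I ∧ (b : Submodule (𝓞 K) K).IsPrincipal} =>
      G b := by
    refine (summable_prin_rpow hI0 hs).of_norm_bounded fun b => ?_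
    rw [norm_mul, Complex.norm_cpow_eq_rpow_re_of_pos (absNorm_FI_pos b.2.1), Complex.neg_re]
    exact mul_le_of_le_one_left (Real.rpow_nonneg (absNorm_FI_pos b.2.1).le _) (norm_ind_le _)
  have e1 : ∀ x : K, ind (∃ ε : (𝓞 K)ˣ, ((ε : 𝓞 K) : K) * x - α ∈ J) * (nK x : ℂ) ^ (-s) =
      G (FractionalIdeal.spanSingleton _ x) := fun x => by
    rw [nK_eq_absNorm]
    refine congrArg (· * _) (ind_congr ⟨fun ⟨ε, h⟩ => ⟨_, h, (span_unit_mul ε x).symm⟩,
      fun ⟨y, h, e⟩ => ?_⟩)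
    obtain ⟨ε, rfl⟩ := FractionalIdeal.spanSingleton_eq_spanSingleton.1 e
    exact ⟨ε, h⟩
  simp only [mul_assoc, e1]
  rw [(hasSum_KQ_ideal I hG).tsum_eq]
  congr 1
  choose X h1 h2 h3 using fun n : {n : R K // Prim n ∧ Ray q m n α} => n.2.2.exists_associated
  have h0 : ∀ n, (X n : K) ≠ 0 := fun n => coe_ne_zero ((h1 n).ne_zero_iff.2 n.2.1.1)
  have hαI : (α : K) ∈ I := (hI α).2 ⟨⟨α, by rw [one_mul]⟩, by rw [div_self hα']; exact sIn_one⟩
  have hX : ∀ n, (X n : K) - α ∈ J := fun n => (ray_mem hα hJ).2 ⟨_, rfl, h3 n, h2 n⟩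
  let i : {n : R K // Prim n ∧ Ray q m n α} →
      {b : FI K // b ≠ 0 ∧ b ≤ I ∧ (b : Submodule (𝓞 K) K).IsPrincipal} := fun n =>
    ⟨FractionalIdeal.spanSingleton _ (X n : K), FractionalIdeal.spanSingleton_ne_zero_iff.2 (h0 n),
      FractionalIdeal.spanSingleton_le_iff_mem.2
        (by simpa using (I : Submodule (𝓞 K) K).add_mem (hI.le hJ (hX n)) hαI),
      ⟨_, FractionalIdeal.coe_spanSingleton _ _⟩⟩
  have hi : Function.Injective i := fun n n' h => by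
    obtain ⟨ε, e⟩ := FractionalIdeal.spanSingleton_eq_spanSingleton.1 (congrArg Subtype.val h)
    have e' : X n * uOR K ε = X n' := coe_inj.1 (by rw [map_mul, coe_uOR, mul_comm]; exact e)
    exact Subtype.ext (n.2.1.eq_of_associated n'.2.1
      (((h1 n).symm.trans ⟨_, e'⟩).trans (h1 n')))
  rw [← hi.tsum_eq, ← (Subtype.val_injective (p := fun n => Prim n ∧ Ray q m n α)).tsum_eq,
    ← tsum_mul_left]
  · refine tsum_congr fun n => ?_
    show ind _ * _ = _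
    rw [ind_of ⟨_, hX n, rfl⟩, ind_of n.2, one_mul, one_mul, ← nK_eq_absNorm, nK_eq_nm_mul,
      NS_eq_of_inUq hq (h2 n), nm_of_associated (h1 n), Complex.ofReal_mul,
      Complex.mul_cpow_ofReal_nonneg (Nat.cast_nonneg _) (NS_pos hα).le, mul_comm,
      Complex.ofReal_natCast]
  · intro n hn
    by_contra h
    exact hn (mul_eq_zero_of_left (ind_of_not fun h' => h ⟨⟨n, h'⟩, rfl⟩) _)
  · intro b hb
    obtain ⟨x, hx, e⟩ : ∃ x : K, x - α ∈ J ∧ b.1 = FractionalIdeal.spanSingleton _ x := by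
      by_contra h
      exact hb (mul_eq_zero_of_left (ind_of_not h) _)
    obtain ⟨y, rfl, h4, h5⟩ := (ray_mem hα hJ).1 hx
    have hr := ray_of_inUq hq h5 h4
    let n : {n : R K // Prim n ∧ Ray q m n α} := ⟨pp y, prim_pp hr.1, ray_pp_left.2 hr⟩
    obtain ⟨u, hu⟩ := (associated_pp y).trans (h1 n).symm
    have h6 := (h2 n).div_trans hq (h5.div_symm hq)
    rw [← hu, map_mul, mul_div_cancel_left₀ _ (coe_ne_zero hr.1)] at h6
    obtain ⟨ε, hε⟩ := exists_int_unit hq h6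
    refine ⟨n, Subtype.ext (Eq.trans ?_ e.symm)⟩
    show FractionalIdeal.spanSingleton _ (X n : K) = _
    rw [← hu, map_mul, hε, coe_int, mul_comm, span_unit_mul]

theorem zeta : ZetaStmt K := by
  intro q m hq hm
  have hM : (0 : ℝ) < MM K := Nat.cast_pos.2 (Nat.pos_of_ne_zero Stp.M_ne)
  have hfin : (EI (lev K q ⊓ idl m)).FiniteIndex := finiteIndex_EI fun h =>
    mul_ne_zero (sId_lev q).ne_bot (idl_ne_bot hm) (le_bot_iff.1 (h ▸ Ideal.mul_le_inf))
  have hidx : (0 : ℝ) < idx K := Nat.cast_pos.2 idx_pos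
  have hind : (0 : ℝ) < (EI (lev K q ⊓ idl m)).index :=
    Nat.cast_pos.2 (Nat.pos_of_ne_zero hfin.index_ne_zero)
  have hm' := nm_pos_real hm
  refine ⟨c0 K * VV K * (EI (lev K q ⊓ idl m)).index /
    (idx K * ((MM K : ℝ) ^ q) ^ Module.finrank ℚ K * nm m), by
      have := c0_pos (K := K)
      have := VV_pos (K := K)
      positivity, fun α hα h => ?_⟩
  obtain ⟨I, hI0, hI, -⟩ := exists_rayId 0 one_ne_zero hα
  obtain ⟨J, hJ0, hJ, hN⟩ := exists_rayId q hm hα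
  obtain ⟨T, hT⟩ := exists_reps (I := I) hJ0
  obtain ⟨Z, h1, h2, h3⟩ := hecke_cont hJ0 (hI.le hJ) hT
    (f := fun x => ind (∃ ε : (𝓞 K)ˣ, ((ε : 𝓞 K) : K) * x - α ∈ J))
    (fun x _ y hy => ind_congr (exists_congr fun ε => by
      rw [mul_add, add_sub_right_comm]
      exact (J : Submodule (𝓞 K) K).add_mem_iff_left ((zra_unit_mem ε).2 hy)))
    (fun u hu x _ => by
      obtain ⟨η, -, e⟩ := EU_int hu
      refine ind_congr ⟨fun ⟨ε, hε⟩ => ⟨ε * η, ?_⟩, fun ⟨ε, hε⟩ => ⟨ε * η⁻¹, ?_⟩⟩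
      · rwa [Units.val_mul, zra_mul, e, mul_assoc]
      · rwa [← e, ← mul_assoc, ← zra_mul, ← Units.val_mul, inv_mul_cancel_right])
  have hN0 : (NS α : ℂ) ≠ 0 := Complex.ofReal_ne_zero.2 (NS_pos hα).ne'
  have hi0 : (idx K : ℂ) ≠ 0 := Nat.cast_ne_zero.2 idx_pos.ne'
  refine ⟨fun s => (NS α : ℂ) ^ s / idx K * Z s,
    ((differentiable_id.const_cpow (Or.inl hN0)).div_const _).mul h1, ?_, fun s hs => ?_⟩
  · have := NS_pos hα
    beta_reduce
    rw [h2, ray_count hm hα h hI hJ hT, hN, Complex.cpow_one, ← Complex.ofReal_natCast,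
      ← Complex.ofReal_natCast, ← Complex.ofReal_div, ← Complex.ofReal_mul, ← Complex.ofReal_mul]
    congr 1
    field_simp
  · beta_reduce
    rw [h3 s hs, ray_sum hq hα hI0 hI hJ hs, Complex.cpow_neg]
    have := (Complex.cpow_ne_zero_iff (y := s)).2 (Or.inl hN0)
    field_simp

end Vale.Agent.P319
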