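import Vale.Agent.P319.N.AngJ
import Vale.Agent.P319.N.Ideals

/-! GAUSS: `angJ` and `ang` agree up to a function of the class modulo `U`: minus the Jacobi sum of `p` and the
relative norm of `p` generate the same ideal of `ℤ[ω][1/M]`. -/

namespace Vale.Agent.P319

open scoped ComplexConjugate Real NumberField
open P026 (O toC toC_injective)

namespace Ang

/-- divides a power of `M` -/
def Sm (M : ℕ) (e : O) : Prop := ∃ k : ℕ, e ∣ (M : O) ^ k

theorem Sm.mul {M : ℕ} {e f : O} (he : Sm M e) (hf : Sm M f) : Sm M (e * f) := by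
  obtain ⟨k, hk⟩ := he
  obtain ⟨j, hj⟩ := hf
  exact ⟨k + j, pow_add (M : O) k j ▸ mul_dvd_mul hk hj⟩

theorem sm_of_prime {M : ℕ} {e : O} (h0 : e ≠ 0) (h : ∀ q, Prime q → q ∣ e → q ∣ (M : O)) :
    Sm M e := by
  induction e using UniqueFactorizationMonoid.induction_on_prime with
  | h₁ => exact absurd rfl h0
  | h₂ u hu => exact ⟨0, hu.dvd⟩
  | h₃ n p hn hp ih =>
    exact Sm.mul ⟨1, by simpa using h p hp (dvd_mul_right _ _)⟩
      (ih hn fun q hq k => h q hq (k.mul_left p))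

theorem eq_of_sm {M : ℕ} {A B E F : O} (hA : P026.Prim A) (hB : P026.Prim B)
    (hA' : IsCoprime A (M : O)) (hB' : IsCoprime B (M : O)) (hE : Sm M E) (hF : Sm M F)
    (h : A * E = B * F) : A = B := by
  obtain ⟨k, hk⟩ := hE
  obtain ⟨j, hj⟩ := hF
  exact hA.eq_of_associated hB (associated_of_dvd_dvd
    ((hA'.pow_right.of_isCoprime_of_dvd_right hj).dvd_of_dvd_mul_right ⟨E, h.symm⟩)
    ((hB'.pow_right.of_isCoprime_of_dvd_right hk).dvd_of_dvd_mul_right ⟨F, h⟩))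

theorem dvd_of_isIntegral {d z : O} {y : ℂ} (hd : d ≠ 0) (hy : IsIntegral ℤ y)
    (h : toC z = toC d * y) : d ∣ z := by
  have h0 : (P026.nm d : ℂ) ≠ 0 := Nat.cast_ne_zero.2 (P026.nm_pos hd).ne'
  have h1 : toC (z * star d) = P026.nm d * y := by
    rw [map_mul, h, ← map_natCast toC, ← P026.mul_star_self, map_mul]
    ring
  have h2 : y = (((z * star d).re / P026.nm d : ℚ) : ℂ) +
      (((z * star d).im / P026.nm d : ℚ) : ℂ) * z3 := by
    rw [toC_eq] at h1
    push_cast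
    field_simp
    linear_combination -h1
  obtain ⟨a, b, ha, hb⟩ := int_of_isIntegral (h2 ▸ hy)
  refine ⟨⟨a, b⟩, toC_injective ?_⟩
  rw [map_mul, h, h2, ha, hb, toC_eq ⟨a, b⟩]
  push_cast
  rfl

variable {K : Type} [Field K] [NumberField K] [Stp K]

/-- the relative norm as a complex number -/
noncomputable def nu (x : K) : ℂ := ∏ v : Pl K, ev v x

theorem nu_mul (x y : K) : nu (x * y) = nu x * nu y := by
  simp only [nu, ev_mul, Finset.prod_mul_distrib]

theorem nu_ne_zero {x : K} (h : x ≠ 0) : nu x ≠ 0 :=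
  Finset.prod_ne_zero_iff.2 fun v _ => ev_ne_zero v h

theorem nu_pow_M (k : ℕ) : nu ((MM K : K) ^ k) = (MM K : ℂ) ^ (k * Fintype.card (Pl K)) := by
  simp only [nu, ev_pow, ev_natCast, Finset.prod_const, Finset.card_univ, pow_mul]

/-- the relative norm as an Eisenstein integer -/
noncomputable def NO (t : 𝓞 K) : O := ⟨(prod_ev_int t).choose, (prod_ev_int t).choose_spec.choose⟩

theorem toC_NO (t : 𝓞 K) : toC (NO t) = nu (t : K) := by
  rw [toC_eq]
  exact (prod_ev_int t).choose_spec.choose_spec.symm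

theorem NO_mul (s t : 𝓞 K) : NO (s * t) = NO s * NO t :=
  toC_injective (by rw [map_mul, toC_NO, toC_NO, toC_NO, ← nu_mul]; simp)

theorem nm_NO (t : 𝓞 K) : P026.nm (NO t) = Ideal.absNorm (Ideal.span {t}) := by
  have h := P026.norm_toC_sq (NO t)
  rw [toC_NO, nu, norm_prod, ← Finset.prod_pow, prod_norm_ev, nK_int] at h
  exact_mod_cast h.symm

theorem dvd_NO {c d : O} (hd : d ≠ 0) (α : 𝓞 K) :
    d ∣ NO (io K c + io K d * α) - c ^ Fintype.card (Pl K) := by
  have hi : ∀ (v : Pl K) (t : 𝓞 K), IsIntegral ℤ (ev v (t : K)) := fun v t =>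
    t.isIntegral_coe.map v.1.toIntAlgHom
  obtain ⟨v0⟩ : Nonempty (Pl K) := inferInstance
  have hc : IsIntegral ℤ (toC c) := ev_io v0 c ▸ hi v0 _
  have hd' : IsIntegral ℤ (toC d) := ev_io v0 d ▸ hi v0 _
  have key : ∀ s : Finset (Pl K), ∃ y : ℂ, IsIntegral ℤ y ∧
      ∏ v ∈ s, (toC c + toC d * ev v (α : K)) = toC c ^ s.card + toC d * y := fun s => by
    induction s using Finset.induction_on with
    | empty => exact ⟨0, isIntegral_zero, by simp⟩
    | insert v s hv ih =>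
      obtain ⟨y, hy, e⟩ := ih
      refine ⟨toC c * y + ev v α * toC c ^ s.card + toC d * (y * ev v α),
        ((hc.mul hy).add ((hi v α).mul (hc.pow _))).add (hd'.mul (hy.mul (hi v α))), ?_⟩
      rw [Finset.prod_insert hv, e, Finset.card_insert_of_notMem hv]
      ring
  obtain ⟨y, hy, e⟩ := key Finset.univ
  refine dvd_of_isIntegral hd hy ?_
  rw [map_sub, map_pow, toC_NO, sub_eq_iff_eq_add', ← Finset.card_univ, ← e]
  refine Finset.prod_congr rfl fun v _ => ?_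
  rw [← ev_io v, ← ev_io v, ← ev_mul, ← ev_add]
  simp

theorem NO_one_add (α : 𝓞 K) : P026.Prim (NO (1 + (MM K : 𝓞 K) * α)) ∧
    IsCoprime (NO (1 + (MM K : 𝓞 K) * α)) (MM K : O) := by
  have h := dvd_NO (c := 1) (d := MM K) (Nat.cast_ne_zero.2 Stp.M_ne) α
  rw [map_one, map_natCast, one_pow] at h
  refine ⟨(Nat.cast_dvd_cast (α := O) three_dvd_M).trans h, ?_⟩
  obtain ⟨c, hc⟩ := h
  exact ⟨1, -c, by linear_combination hc⟩

/-- the inductive statement -/
def Q (x : R K) : Prop :=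
  ∃ (a : ℕ) (j e : O), toC j = angJ x * (√(nm x) : ℝ) ∧ P026.Prim j ∧ IsCoprime j (MM K : O) ∧
    Sm (MM K) e ∧ (MM K : ℂ) ^ a * nu (x : K) = toC (j * e)

theorem exists_NO (x : R K) : ∃ (a k : ℕ) (t : 𝓞 K), (MM K : R K) ^ k * x = algebraMap _ _ t ∧
    (MM K : ℂ) ^ a * nu (x : K) = toC (NO t) := by
  obtain ⟨k, t, h⟩ := exists_pow_mul x
  refine ⟨k * Fintype.card (Pl K), k, t, h, ?_⟩
  rw [toC_NO, ← coe_int, ← h, map_mul, map_pow, map_natCast, nu_mul, nu_pow_M]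

theorem q_unit {u : R K} (hu : IsUnit u) : Q u := by
  obtain ⟨a, k, t, h1, h2⟩ := exists_NO u
  obtain ⟨j, s, hs⟩ := (isUnit_int_iff t).1 (h1 ▸ (isUnit_MR.pow k).mul hu)
  refine ⟨a, 1, NO t, by simp [angJ_unit hu, isUnit_iff_nm.1 hu], P026.prim_one,
    isCoprime_one_left, ⟨j * Fintype.card (Pl K), NO s, toC_injective ?_⟩, by rwa [one_mul]⟩
  rw [← NO_mul, ← hs, toC_NO, map_pow, map_natCast, ← nu_pow_M]
  simp

theorem q_prime {p : R K} (hp : Prime p) : Q p := by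
  have := Fact.mk hp
  obtain ⟨ϖ, l, h1, h2, hl, hM, h3, h4⟩ := exists_below p
  obtain ⟨a, k, t, e1, e2⟩ := exists_NO p
  have hpt : Associated p (algebraMap _ _ t) := e1 ▸ associated_unit_mul_right _ _ (isUnit_MR.pow k)
  have ht : t ≠ 0 := fun e => hp.ne_zero (hpt.eq_zero_iff.2 (by rw [e, map_zero]))
  have hN : NO t ≠ 0 := fun e => nu_ne_zero (x := (t : K)) (by simpa using ht)
    (by rw [← toC_NO, e, map_zero])
  have hJ : JO p ≠ 0 := prim_JO.ne_zero
  obtain ⟨i, e, he, e3⟩ := WfDvdMonoid.max_power_factor hN h1.irreducible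
  obtain ⟨j, u, hu, e4⟩ := WfDvdMonoid.max_power_factor hJ h1.irreducible
  have he0 : e ≠ 0 := right_ne_zero_of_mul (e3 ▸ hN)
  have hu' : IsUnit u := by
    by_contra h
    obtain ⟨q, hq, h5⟩ := WfDvdMonoid.exists_irreducible_factor h (right_ne_zero_of_mul (e4 ▸ hJ))
    exact hu ((h4 q hq.prime (e4 ▸ h5.mul_left _)).trans h5)
  have hS : Sm (MM K) e := sm_of_prime he0 fun q hq h5 => by
    have h6 : ¬p ∣ iR K q := fun h => he (((h2 q).1 h).trans h5)
    obtain ⟨α, β, h7⟩ := (coprime_of_not_dvd hp h6).of_isCoprime_of_dvd_right hpt.symm.dvd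
    obtain ⟨k₁, α', h8⟩ := exists_pow_mul α
    obtain ⟨k₂, β', h9⟩ := exists_pow_mul β
    have h10 : t * (MM K ^ k₁ * β') = io K (MM K ^ (k₁ + k₂)) + io K q * -(MM K ^ k₂ * α') := by
      apply algebraMap_R_injective K
      simp only [map_mul, map_add, map_neg, map_pow, map_natCast, ← h8, ← h9]
      rw [iR, RingHom.comp_apply] at h7
      linear_combination (MM K : R K) ^ (k₁ + k₂) * h7
    have h11 := dvd_NO (c := MM K ^ (k₁ + k₂)) hq.ne_zero (-(MM K ^ k₂ * α') : 𝓞 K)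
    rw [← h10, NO_mul, e3] at h11
    exact hq.dvd_of_dvd_pow (hq.dvd_of_dvd_pow
      ((dvd_iff_dvd_of_dvd_sub h11).1 ((h5.mul_left _).mul_right _)))
  have hc : (P026.nm ϖ).Coprime (MM K) :=
    (((Nat.Prime.coprime_iff_not_dvd hl).2 hM).pow_left 2).coprime_dvd_left h3
  have n1 : nm p = P026.nm ϖ ^ j := by
    rw [← nm_JO, e4, P026.nm_mul, P026.nm_pow, P026.isUnit_iff_nm.1 hu', mul_one]
  have n2 := nm_NO t
  rw [absNorm_eq_spart, gen_span, nm_pp, ← nm_of_associated hpt, n1, e3, P026.nm_mul,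
    P026.nm_pow] at n2
  obtain ⟨c, hc1⟩ := sId_spart (K := K) (mt Ideal.span_singleton_eq_bot.1 ht)
  have n3 := Ideal.absNorm_dvd_absNorm_of_le ((Ideal.span_singleton_le_iff_mem _).2 hc1)
  rw [← Nat.cast_pow, Ideal.absNorm_span_natCast] at n3
  obtain ⟨c', hc2⟩ := id hS
  have n4 := P026.nm_dvd hc2
  rw [← Nat.cast_pow, P026.nm_natCast] at n4
  have n5 : 1 < P026.nm ϖ := by
    have := P026.nm_pos h1.ne_zero
    have := mt P026.isUnit_iff_nm.2 h1.not_isUnit
    omega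
  obtain rfl : i = j := le_antisymm
    ((Nat.pow_dvd_pow_iff_le_right n5).1 ((((hc.pow_right _).pow_right _).coprime_dvd_right n3
      |>.pow_left i).dvd_of_dvd_mul_left ⟨_, n2.symm⟩))
    ((Nat.pow_dvd_pow_iff_le_right n5).1 ((((hc.pow_right _).pow_right _).coprime_dvd_right n4
      |>.pow_left j).dvd_of_dvd_mul_right ⟨_, n2.trans (mul_comm _ _)⟩))
  obtain ⟨u, rfl⟩ := hu'
  refine ⟨a, JO p, (u⁻¹ : Oˣ) * e, ?_, prim_JO, ?_, Sm.mul ⟨0, (Units.isUnit _).dvd⟩ hS, ?_⟩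
  · rw [toC_JO, angJ_prime hp, div_mul_cancel₀ _ (G2.sqrt_nm_ne hp.ne_zero)]
  · refine IsCoprime.of_isCoprime_of_dvd_left ?_ ⟨_, (P026.mul_star_self _).symm⟩
    rw [nm_JO]
    simpa using (Nat.isCoprime_iff_coprime.2 (nm_coprime_M hp.ne_zero)).map (Int.castRingHom O)
  · rw [e2, e3, e4, mul_assoc, Units.mul_inv_cancel_left]

theorem q_all {x : R K} (hx : x ≠ 0) : Q x := by
  induction x using UniqueFactorizationMonoid.induction_on_prime with
  | h₁ => exact absurd rfl hx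
  | h₂ u hu => exact q_unit hu
  | h₃ n p hn hp ih =>
    obtain ⟨a, j, e, h1, h2, h3, h4, h5⟩ := q_prime hp
    obtain ⟨a', j', e', k1, k2, k3, k4, k5⟩ := ih hn
    refine ⟨a + a', j * j', e * e', ?_, h2.mul k2, h3.mul_left k3, h4.mul k4, ?_⟩
    · rw [map_mul, h1, k1, angJ_mul hp.ne_zero hn, G2.sqrt_nm_mul, Complex.ofReal_mul]
      ring
    · rw [mul_mul_mul_comm j, map_mul toC, ← h5, ← k5, map_mul, nu_mul]
      ring

theorem eq_of_norm {z w : ℂ} {r s : ℝ} (hz : ‖z‖ = 1) (hw : ‖w‖ = 1) (hr : 0 < r) (hs : 0 < s)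
    (h : z * r = w * s) : z = w := by
  have h1 := congrArg norm h
  rw [norm_mul, norm_mul, hz, hw, one_mul, one_mul, Complex.norm_of_nonneg hr.le,
    Complex.norm_of_nonneg hs.le] at h1
  subst h1
  exact mul_right_cancel₀ (Complex.ofReal_ne_zero.2 hr.ne') h

end Ang

open Ang

variable {K : Type} [Field K] [NumberField K] [Stp K]

theorem angJ_mul_ang {x y : R K} (h : InU ((y : K) / x)) : angJ y * ang x = angJ x * ang y := by
  have h0 := h.ne_zero (by norm_num)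
  have hx : x ≠ 0 := fun e => h0 (by simp [e])
  have hy : y ≠ 0 := fun e => h0 (by simp [e])
  have hx' := coe_ne_zero hx
  obtain ⟨s, t, ⟨c, d, h1⟩, h2⟩ := h.mono (show 1 ≤ 10 by norm_num)
  have h3 : ((1 + MM K * -d : 𝓞 K) : K) * y = ((1 + MM K * (c * t - d) : 𝓞 K) : K) * x := by
    have h4 := congrArg (algebraMap (𝓞 K) K) h1
    simp only [map_add, map_mul, map_natCast, map_one, map_neg, map_sub] at h4 ⊢
    field_simp at h2
    linear_combination (algebraMap (𝓞 K) K c) * h2 + ((x : K) - y) * h4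
  obtain ⟨a, j, e, p1, p2, p3, p4, p5⟩ := q_all hx
  obtain ⟨a', j', e', k1, k2, k3, k4, k5⟩ := q_all hy
  obtain ⟨n1, n2⟩ := NO_one_add (K := K) (-d)
  obtain ⟨m1, m2⟩ := NO_one_add (K := K) (c * t - d)
  have h4 := congrArg nu h3
  rw [nu_mul, nu_mul, ← toC_NO, ← toC_NO] at h4
  generalize NO (1 + (MM K : 𝓞 K) * -d) = A at *
  generalize NO (1 + (MM K : 𝓞 K) * (c * t - d)) = B at *
  have h5 := eq_of_sm (n1.mul k2) (m1.mul p2) (n2.mul_left k3) (m2.mul_left p3)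
    (Sm.mul ⟨a, dvd_rfl⟩ k4) (Sm.mul ⟨a', dvd_rfl⟩ p4) (toC_injective (by
      simp only [map_mul, map_pow, map_natCast] at p5 k5 ⊢
      linear_combination (MM K : ℂ) ^ (a + a') * h4 - toC A * (MM K : ℂ) ^ a * k5 +
        toC B * (MM K : ℂ) ^ a' * p5))
  have h6 := congrArg toC h5
  rw [map_mul, map_mul, p1, k1] at h6
  have hA : toC A ≠ 0 := mt P026.toC_eq_zero.1 n1.ne_zero
  have b1 := Real.sqrt_pos.2 (nK_pos hx')
  have b2 := Real.sqrt_pos.2 (nK_pos (coe_ne_zero hy))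
  refine eq_of_norm (r := √(nm y) * √(nK (x : K))) (s := √(nm x) * √(nK (y : K)))
    (by rw [norm_mul, norm_angJ, norm_ang hx, one_mul])
    (by rw [norm_mul, norm_angJ, norm_ang hy, one_mul])
    (mul_pos (Real.sqrt_pos.2 (nm_pos_real hy)) b1) (mul_pos (Real.sqrt_pos.2 (nm_pos_real hx)) b2) ?_
  have b3 := Complex.ofReal_ne_zero.2 b1.ne'
  have b4 := Complex.ofReal_ne_zero.2 b2.ne'
  rw [ang_eq, ang_eq, Complex.ofReal_mul, Complex.ofReal_mul]
  unfold nu at h4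
  field_simp
  refine mul_left_cancel₀ hA ?_
  linear_combination (∏ v : Pl K, ev v (x : K)) * h6 - angJ x * (√(nm x) : ℝ) * h4

end Vale.Agent.P319
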