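import Vale.Agent.P319.N.Jac
import Vale.Agent.P026.Basic

/-! GAUSS: the cubic Jacobi sum as an Eisenstein integer: it is `-1 mod 3` and a power of the prime below `p`. -/

namespace Vale.Agent.P319

open scoped ComplexConjugate Real NumberField
open P026 (O toC toC_injective)
open Jac

namespace Ang

theorem toC_eq (z : O) : toC z = z.re + z.im * z3 := by
  apply Complex.ext <;> simp [toC, z3_re, z3_im]
  ring

theorem toC_om : toC P026.om = z3 := by simp [toC_eq, P026.om]

theorem not_dvd_choose {l a : ℕ} (hl : l.Prime) (ha : l = 3 * a + 1) (f : ℕ) :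
    ∀ m, 3 * m + 1 = l ^ f → ¬l ∣ (2 * m).choose m := by
  have := Fact.mk hl
  induction f with
  | zero =>
    intro m hm
    obtain rfl : m = 0 := by simpa using hm
    simpa using hl.ne_one
  | succ f ih =>
    intro m hm h
    have h1 : l ^ f % 3 = 1 := by rw [Nat.pow_mod, show l % 3 = 1 by omega]; simp
    obtain ⟨n, hn⟩ : ∃ n, 3 * n + 1 = l ^ f := ⟨l ^ f / 3, by omega⟩
    obtain rfl : m = a + l * n := by
      rw [pow_succ, ← hn] at hm
      have : 3 * m = 3 * (a + l * n) := by rw [ha] at hm ⊢; linarith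
      omega
    have h2 := Choose.choose_modEq_choose_mod_mul_choose_div_nat (n := 2 * (a + l * n))
      (k := a + l * n) (p := l)
    have hl0 := hl.pos
    rw [show 2 * (a + l * n) = 2 * a + l * (2 * n) by ring, Nat.add_mul_mod_self_left,
      Nat.add_mul_mod_self_left, Nat.add_mul_div_left _ _ hl0, Nat.add_mul_div_left _ _ hl0,
      Nat.mod_eq_of_lt (by omega), Nat.mod_eq_of_lt (by omega), Nat.div_eq_of_lt (by omega),
      Nat.div_eq_of_lt (by omega), zero_add, zero_add] at h2
    rw [show 2 * (a + l * n) = 2 * a + l * (2 * n) by ring] at h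
    rcases hl.dvd_mul.1 ((h2.dvd_iff dvd_rfl).1 h) with h3 | h3
    · have h4 := hl.dvd_factorial.1 (h3.trans ⟨_, by
        rw [← Nat.choose_mul_factorial_mul_factorial (show a ≤ 2 * a by omega), mul_assoc]⟩)
      omega
    · exact ih n hn h3

theorem sum_pow_mul {F : Type*} [Field F] [Fintype F] {m : ℕ} (hm : 3 * m + 1 = Fintype.card F) :
    ∑ x : F, x ^ (2 * m) * (1 - x) ^ (2 * m) = -((-1) ^ m * ((2 * m).choose m : F)) := by
  classical
  have h1 : 1 < Fintype.card F := Fintype.one_lt_card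
  have e : ∀ i, i ≠ 0 → ∑ x : F, x ^ i = if 3 * m ∣ i then -1 else 0 := fun i hi => by
    rw [show 3 * m = Fintype.card F - 1 by omega, ← FiniteField.sum_pow_units,
      Fintype.sum_eq_add_sum_subtype_ne _ 0, zero_pow hi, zero_add]
    exact (Fintype.sum_equiv unitsEquivNeZero _ _ fun _ => rfl).symm
  have e2 : ∀ k, ∀ x : F, x ^ (2 * m) * ((-x) ^ k * ((2 * m).choose k : F)) =
      ((-1) ^ k * ((2 * m).choose k : F)) * x ^ (2 * m + k) := fun k x => by
    rw [neg_pow]
    ring
  simp only [sub_eq_neg_add, add_pow, one_pow, mul_one, Finset.mul_sum, e2]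
  rw [Finset.sum_comm, Finset.sum_eq_single_of_mem m (Finset.mem_range.2 (by omega)),
    ← Finset.mul_sum, e _ (by omega), if_pos ⟨1, by omega⟩, mul_neg, mul_one]
  intro k hk hne
  have hk' := Finset.mem_range.1 hk
  rw [← Finset.mul_sum, e _ (by omega), if_neg, mul_zero]
  rintro ⟨c, hc⟩
  rcases c with _ | _ | c
  · omega
  · omega
  · nlinarith

variable {K : Type} [Field K] [NumberField K] [Stp K]

/-- the embedding of the Eisenstein integers -/
noncomputable def io (K : Type) [Field K] [NumberField K] [Stp K] : O →+* 𝓞 K :=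
  (QuadraticAlgebra.lift (R := ℤ) (a := -1) (b := -1) (A := 𝓞 K) ⟨Stp.om, by
    simp only [neg_smul, one_smul]
    linear_combination Stp.om_eq (K := K)⟩).toRingHom

theorem io_eq (z : O) : io K z = (z.re : 𝓞 K) + (z.im : 𝓞 K) * Stp.om := by
  simp [io]

theorem ev_io (v : Pl K) (z : O) : ev v (io K z : K) = toC z := by
  rw [io_eq, toC_eq, ← ev_om v, coe_om]
  simp [ev]

/-- the embedding into `R` -/
noncomputable def iR (K : Type) [Field K] [NumberField K] [Stp K] : O →+* R K :=
  (algebraMap (𝓞 K) (R K)).comp (io K)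

theorem iR_om : iR K P026.om = om := by simp [iR, io_eq, P026.om, om]

/-- the cubic symbol with values in `O` -/
noncomputable def cubO (a p : R K) : O :=
  open Classical in
  if p ∣ a ^ ((nm p - 1) / 3) - 1 then 1
  else if p ∣ a ^ ((nm p - 1) / 3) - om then P026.om
  else if p ∣ a ^ ((nm p - 1) / 3) - om ^ 2 then P026.om ^ 2 else 0

variable {p : R K} [hp : Fact (Prime p)]

theorem toC_cubO (a : R K) : toC (cubO a p) = cub a p := by
  rw [cub_prime hp.1, cubO, cubP]
  split_ifs <;> simp [toC_om]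

variable (p) in
/-- the cubic character with values in `O` -/
noncomputable def chiO : MulChar (Fq p) O :=
  mc p (fun a => cubO a p)
    (fun _ _ h => toC_injective (by rw [toC_cubO, toC_cubO, cub_congr h]))
    (fun _ _ => toC_injective (by rw [map_mul, toC_cubO, toC_cubO, toC_cubO, cub_mul_left]))
    (toC_injective (by rw [toC_cubO, map_zero, cub_eq_zero_of_dvd hp.1 (dvd_zero p)]))
    (toC_injective (by rw [toC_cubO, map_one, cub_one_left]))

theorem toC_chiO (x : Fq p) : toC (chiO p x) = chi p x := by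
  obtain ⟨a, rfl⟩ := Ideal.Quotient.mk_surjective x
  rw [chi_red, ← toC_cubO]
  exact congrArg _ (mc_red ..)

theorem red_chiO (x : Fq p) : red p (iR K (chiO p x)) = x ^ ((nm p - 1) / 3) := by
  obtain ⟨a, rfl⟩ := Ideal.Quotient.mk_surjective x
  by_cases h : p ∣ a
  · have := seven_le_nm hp.1.ne_zero hp.1.not_isUnit
    rw [red_eq_zero.2 h, MulChar.map_zero, map_zero, map_zero, zero_pow (by omega)]
  · obtain ⟨j, -, h1, h2⟩ := exists_cub_prime hp.1 h
    have e : chiO p (red p a) = P026.om ^ j :=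
      toC_injective (by rw [toC_chiO, chi_red, h2, map_pow, toC_om])
    rw [e, map_pow, iR_om, ← map_pow, eq_comm, red_eq_iff]
    exact h1

variable (p) in
/-- minus the Jacobi sum -/
noncomputable def JO : O := -jacobiSum (chiO p) (chiO p)

theorem toC_JO : toC (JO p) = -Jc p := by
  rw [JO, map_neg, Jc_eq, jacobiSum, jacobiSum, map_sum]
  simp only [map_mul, toC_chiO]

theorem nm_JO : P026.nm (JO p) = nm p := by
  have h := P026.norm_toC_sq (JO p)
  rw [toC_JO, norm_neg, norm_Jc hp.1] at h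
  exact_mod_cast h.symm

theorem prim_JO : P026.Prim (JO p) := by
  have h3 := nm_mod_three hp.1.ne_zero
  have : Fact (Nat.Prime 3) := ⟨Nat.prime_three⟩
  have h1 : chiO p ^ 3 = 1 := MulChar.ext fun x => toC_injective (by
    rw [MulChar.pow_apply_coe, map_pow, toC_chiO, ← MulChar.pow_apply_coe, chi_pow_three,
      MulChar.one_apply_coe, MulChar.one_apply_coe, map_one])
  obtain ⟨z, -, hz⟩ := exists_jacobiSum_eq_neg_one_add (n := 3) (by norm_num) h1 h1
    (by rw [card_Fq]; omega) (μ := P026.om) (by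
      rw [← orderOf_eq_prime P026.om_cube (by decide)]
      exact IsPrimitiveRoot.orderOf _)
  refine ⟨z * P026.om, ?_⟩
  rw [JO, hz]
  linear_combination (-z) * P026.om_sq_add

theorem not_dvd_star {l : ℕ} (hl : l.Prime) (h3 : l % 3 = 1) (h : p ∣ (l : R K)) :
    ¬p ∣ iR K (star (JO p)) := by
  have hm : 3 * ((nm p - 1) / 3) + 1 = Fintype.card (Fq p) := by
    have := nm_mod_three hp.1.ne_zero
    rw [card_Fq]
    omega
  have := Fact.mk hl
  have hc : CharP (Fq p) l := (CharP.charP_iff_prime_eq_zero hl).2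
    (by rw [← map_natCast (red p), red_eq_zero]; exact h)
  obtain ⟨f, -, hf⟩ := FiniteField.card (Fq p) l
  have e : ∀ x, star (chiO p x) = chiO p x ^ 2 := fun x => toC_injective (by
    obtain ⟨a, rfl⟩ := Ideal.Quotient.mk_surjective x
    rw [P026.toC_star, map_pow, toC_chiO, chi_red, conj_cub])
  rw [← red_eq_zero, JO, star_neg, map_neg, map_neg, neg_eq_zero, jacobiSum, star_sum, map_sum,
    map_sum]
  simp only [star_mul', e, map_mul, map_pow, red_chiO, ← pow_mul']
  rw [sum_pow_mul hm, neg_eq_zero, mul_eq_zero, CharP.cast_eq_zero_iff _ l]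
  exact not_or.2 ⟨pow_ne_zero _ (neg_ne_zero.2 one_ne_zero),
    not_dvd_choose hl (a := l / 3) (by omega) f _ (hm.trans hf)⟩

variable (p) in
/-- the prime of `O` below `p` -/
theorem exists_below : ∃ (ϖ : O) (l : ℕ), Prime ϖ ∧ (∀ z, p ∣ iR K z ↔ ϖ ∣ z) ∧ l.Prime ∧
    ¬l ∣ MM K ∧ P026.nm ϖ ∣ l ^ 2 ∧ ∀ q, Prime q → q ∣ JO p → ϖ ∣ q := by
  obtain ⟨l, f, hl, hM, -, h1, h2⟩ := nm_prime hp.1
  obtain ⟨ϖ, hϖ⟩ := (IsPrincipalIdealRing.principal
    ((Ideal.span {p}).comap (iR K))).principal
  have e : ∀ z, p ∣ iR K z ↔ ϖ ∣ z := fun z => by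
    rw [← Ideal.mem_span_singleton, ← Ideal.mem_comap, hϖ, Ideal.submodule_span_eq,
      Ideal.mem_span_singleton]
  have h3 : ϖ ∣ (l : O) := (e _).1 (by rwa [map_natCast])
  have h4 : ϖ ≠ 0 := ne_zero_of_dvd_ne_zero (Nat.cast_ne_zero.2 hl.ne_zero) h3
  have h5 : Prime ϖ := ⟨h4, fun h => hp.1.not_dvd_one (by rw [← map_one (iR K), e]; exact h.dvd),
    fun a b h => by
      rw [← e, map_mul] at h
      exact (hp.1.dvd_or_dvd h).imp (e _).1 (e _).1⟩
  have h6 := P026.nm_dvd h3
  rw [P026.nm_natCast] at h6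
  refine ⟨ϖ, l, h5, e, hl, hM, h6, fun q hq h => ?_⟩
  have h7 : q ∣ (l : O) := hq.dvd_of_dvd_pow (n := f) (by
    rw [← Nat.cast_pow, ← h2, ← nm_JO, ← P026.mul_star_self]
    exact h.mul_right _)
  obtain ⟨l', hl', h8, h9⟩ := P026.nm_prime h5
  obtain rfl : l = l' := by
    by_contra hne
    exact h5.not_isUnit ((Nat.isCoprime_iff_coprime.2 ((Nat.coprime_primes hl hl').2 hne)).map
      (Int.castRingHom O) |>.isUnit_of_dvd' (by simpa using h3) (by simpa using h8))
  rcases h9 with h9 | ⟨-, h9⟩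
  · rw [← h9, ← P026.mul_star_self] at h7
    refine (hq.dvd_or_dvd h7).elim (fun k => (hq.associated_of_dvd h5 k).symm.dvd) fun k => ?_
    have h10 : Prime (star ϖ) := (MulEquiv.prime_iff (starRingAut (R := O)).toMulEquiv).2 h5
    have h11 : ϖ ∣ star (JO p) := by
      simpa [starRingEnd_apply] using
        map_dvd (starRingEnd O) ((hq.associated_of_dvd h10 k).symm.dvd.trans h)
    refine absurd ((e _).2 h11) (not_dvd_star hl ?_ h1)
    have h12 := P026.nm_mod_three_ne_two ϖ
    have h13 : ¬3 ∣ l := fun k => hM (((Nat.prime_dvd_prime_iff_eq Nat.prime_three hl).1 k) ▸ three_dvd_M)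
    omega
  · exact (hq.associated_of_dvd h5 (h7.trans h9.symm.dvd)).symm.dvd

end Ang

end Vale.Agent.P319
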