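import Vale.Agent.P319.N.Ideals

/-! BASE: counting chosen generators, divisor bound, sums of powers of the norm
(port of P026 Count and RecAux; all sums run over finsets of `Prim` elements).
PLAN for the ideal counts: `NumberField.Ideal.tendsto_norm_le_div_atTop₀` (positive limit: `regulator_pos`, `classNumber_pos`),
`Ideal.finite_setOfPred_absNorm_le₀`; for bounded `X` use monotonicity, `⊤` has norm one and no nonzero ideal has norm `< 1`.
`card_pball_ge`: a nonzero ideal of norm `≤ X` is determined by `(spart I, gen I)`, both of norm `≤ X` (`absNorm_eq_spart`,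
`card_SId_le`).  `summable_ideal_rpow`: `idealEquiv`, `summable_SId`, `summable_rpow`, `summable_mul_of_summable_norm`
needs `Stp`; directly: dyadic blocks from `card_ideals_le` as in `sum_dyadic`. -/

namespace Vale.Agent.P319

open scoped ComplexConjugate Real NumberField nonZeroDivisors

variable {K : Type} [Field K] [NumberField K] [Stp K]

omit [Stp K] in
private theorem exists_ideal_ball : ∃ T : ℝ → Finset (Ideal (𝓞 K)),
    (∀ X I, I ∈ T X ↔ I ≠ ⊥ ∧ (Ideal.absNorm I : ℝ) ≤ X) ∧ ∃ L : ℝ, 0 < L ∧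
      Filter.Tendsto (fun X : ℝ => ((T X).card : ℝ) / X) Filter.atTop (nhds L) := by
  have hf : ∀ X : ℝ, {I : Ideal (𝓞 K) | I ≠ ⊥ ∧ (Ideal.absNorm I : ℝ) ≤ X}.Finite := fun X =>
    (Ideal.finite_setOfPred_absNorm_le ⌊X⌋₊).subset fun I hI => Nat.le_floor hI.2
  refine ⟨fun X => (hf X).toFinset, fun X I => (hf X).mem_toFinset, _, ?_,
    (NumberField.Ideal.tendsto_norm_le_div_atTop₀ K).congr fun X => ?_⟩
  · have h1 := NumberField.Units.regulator_pos K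
    have h2 := NumberField.classNumber_pos K
    have h3 := NumberField.Units.torsionOrder_pos K
    have h4 : (NumberField.discr K : ℝ) ≠ 0 := Int.cast_ne_zero.2 (NumberField.discr_ne_zero K)
    positivity
  · rw [Nat.card_congr (Equiv.subtypeSubtypeEquivSubtypeInter (fun I => I ∈ (Ideal (𝓞 K))⁰)
      (fun I => (Ideal.absNorm I : ℝ) ≤ X)), Nat.subtype_card (hf X).toFinset]
    intro I
    rw [(hf X).mem_toFinset, mem_nonZeroDivisors_iff_ne_zero]
    rfl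
omit [Stp K] in
private theorem one_le_absNorm {I : Ideal (𝓞 K)} (h : I ≠ ⊥) : (1 : ℝ) ≤ Ideal.absNorm I := by
  exact_mod_cast Nat.one_le_iff_ne_zero.2 (mt Ideal.absNorm_eq_zero_iff.1 h)
omit [Stp K] in
theorem card_ideals_le : ∃ C : ℝ, 0 < C ∧ ∀ (X : ℝ) (s : Finset (Ideal (𝓞 K))), 0 ≤ X →
    (∀ I ∈ s, I ≠ ⊥ ∧ (Ideal.absNorm I : ℝ) ≤ X) → (s.card : ℝ) ≤ C * X := by
  obtain ⟨T, hT, L, hL, h⟩ := exists_ideal_ball (K := K)
  obtain ⟨X₀, hX₀⟩ := Filter.eventually_atTop.1 (h.eventually (ge_mem_nhds (lt_add_one L)))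
  refine ⟨L + 1 + (T X₀).card, by positivity, fun X s hX hs => ?_⟩
  rcases s.eq_empty_or_nonempty with rfl | ⟨I, hI⟩
  · rw [Finset.card_empty, Nat.cast_zero]
    positivity
  have h1 : 1 ≤ X := (one_le_absNorm (hs I hI).1).trans (hs I hI).2
  have h0 : (0 : ℝ) ≤ (T X₀).card := Nat.cast_nonneg _
  rcases le_total X X₀ with h2 | h2
  · have h3 : (s.card : ℝ) ≤ (T X₀).card := by
      exact_mod_cast Finset.card_le_card fun J hJ => (hT _ _).2 ⟨(hs J hJ).1, (hs J hJ).2.trans h2⟩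
    nlinarith
  · have h3 : (s.card : ℝ) ≤ (T X).card := by
      exact_mod_cast Finset.card_le_card fun J hJ => (hT _ _).2 (hs J hJ)
    have h4 := (div_le_iff₀ (by linarith)).1 (hX₀ X h2)
    nlinarith
omit [Stp K] in
theorem card_ideals_ge : ∃ c : ℝ, 0 < c ∧ ∀ X : ℝ, 1 ≤ X → ∃ s : Finset (Ideal (𝓞 K)),
    (∀ I ∈ s, I ≠ ⊥ ∧ (Ideal.absNorm I : ℝ) ≤ X) ∧ c * X ≤ s.card := by
  obtain ⟨T, hT, L, hL, h⟩ := exists_ideal_ball (K := K)
  obtain ⟨X₀, hX₀⟩ := Filter.eventually_atTop.1 (h.eventually (le_mem_nhds (half_lt_self hL)))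
  have h0 : 0 < max X₀ 1 := lt_max_of_lt_right one_pos
  refine ⟨min (L / 2) (max X₀ 1)⁻¹, by positivity, fun X hX =>
    ⟨T X, fun I hI => (hT _ _).1 hI, ?_⟩⟩
  rcases le_total X X₀ with h2 | h2
  · have h3 : (1 : ℝ) ≤ (T X).card := by
      exact_mod_cast Finset.card_pos.2 ⟨⊤, (hT _ _).2 ⟨top_ne_bot, by simpa using hX⟩⟩
    refine (mul_le_mul (min_le_right _ _) (h2.trans (le_max_left _ 1)) (by linarith)
      (by positivity)).trans ?_
    rwa [inv_mul_cancel₀ h0.ne']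
  · exact (mul_le_mul_of_nonneg_right (min_le_left _ _) (by linarith)).trans
      ((le_div_iff₀ (by linarith)).1 (hX₀ X h2))
theorem card_pball_le : ∃ C : ℝ, 0 < C ∧ ∀ X : ℝ, 0 ≤ X → ((pball K X).card : ℝ) ≤ C * X := by
  classical
  obtain ⟨C, hC, h⟩ := card_ideals_le (K := K)
  refine ⟨C, hC, fun X hX => le_trans (le_of_eq ?_) (h X ((pball K X).image idl) hX fun I hI => ?_)⟩
  · rw [Finset.card_image_of_injOn fun a ha b hb e =>
      (mem_pball.1 ha).1.eq_of_associated (mem_pball.1 hb).1 (idl_eq_iff.1 e)]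
  · obtain ⟨n, hn, rfl⟩ := Finset.mem_image.1 hI
    exact ⟨idl_ne_bot (mem_pball.1 hn).1.1, absNorm_idl n ▸ (mem_pball.1 hn).2⟩
theorem card_pball_le' : ∃ C : ℝ, 0 < C ∧ ∀ X : ℝ, 0 ≤ X → ((pball K X).card : ℝ) ≤ C * (1 + X) := by
  obtain ⟨C, hC, h⟩ := card_pball_le (K := K)
  exact ⟨C, hC, fun X hX => (h X hX).trans (by gcongr; linarith)⟩
theorem card_pball_ge {ε : ℝ} (hε : 0 < ε) :
    ∃ C : ℝ, 0 < C ∧ ∀ X : ℝ, 1 ≤ X → X ^ (1 - ε) ≤ C * (pball K X).card := by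
  classical
  obtain ⟨c, hc, h1⟩ := card_ideals_ge (K := K)
  obtain ⟨C, hC, h2⟩ := card_SId_le (K := K) hε
  refine ⟨C / c, by positivity, fun X hX => ?_⟩
  obtain ⟨s, hs, hs'⟩ := h1 X hX
  have hX0 : 0 < X := by linarith
  have key : ∀ I ∈ s, (Ideal.absNorm (spart I) : ℝ) ≤ X ∧ (nm (gen I) : ℝ) ≤ X := by
    intro I hI
    have h3 := (hs I hI).2
    rw [absNorm_eq_spart, Nat.cast_mul] at h3
    have h4 := one_le_absNorm (sId_spart (hs I hI).1).ne_bot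
    have h5 := one_le_nm (prim_gen (hs I hI).1).1
    constructor <;> nlinarith
  have h3 := h2 X (s.image spart) hX0.le fun J hJ => by
    obtain ⟨I, hI, rfl⟩ := Finset.mem_image.1 hJ
    exact ⟨sId_spart (hs I hI).1, (key I hI).1⟩
  have h4 : s.card ≤ (s.image spart ×ˢ pball K X).card := by
    refine Finset.card_le_card_of_injOn (fun I => (spart I, gen I)) (fun I hI => ?_) ?_
    · exact Finset.mem_coe.2 (Finset.mem_product.2 ⟨Finset.mem_image_of_mem _ hI,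
        mem_pball.2 ⟨prim_gen (hs I hI).1, (key I hI).2⟩⟩)
    · intro I _ J _ hIJ
      obtain ⟨e1, e2⟩ := Prod.ext_iff.1 hIJ
      rw [← spart_mul_idl I, ← spart_mul_idl J]
      exact congrArg₂ (fun a b => a * idl b) e1 e2
  rw [Finset.card_product] at h4
  have h5 : (s.card : ℝ) ≤ (s.image spart).card * (pball K X).card := by exact_mod_cast h4
  have h6 := hs'.trans (h5.trans (mul_le_mul_of_nonneg_right h3 (Nat.cast_nonneg _)))
  rw [Real.rpow_sub hX0, Real.rpow_one, div_mul_eq_mul_div,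
    div_le_div_iff₀ (Real.rpow_pos_of_pos hX0 ε) hc]
  linarith
/-- a set of chosen generators of norm at most `Z` -/
theorem card_le_of_nm : ∃ C : ℝ, 0 < C ∧ ∀ (Z : ℝ) (s : Finset (R K)), 0 ≤ Z →
    (∀ n ∈ s, Prim n ∧ (nm n : ℝ) ≤ Z) → (s.card : ℝ) ≤ C * Z := by
  obtain ⟨C, hC, h⟩ := card_pball_le (K := K)
  refine ⟨C, hC, fun Z s hZ hs => le_trans ?_ (h Z hZ)⟩
  exact_mod_cast Finset.card_le_card fun n hn => mem_pball.2 (hs n hn)
theorem countable_prim : {n : R K | Prim n}.Countable :=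
  (Set.countable_iUnion fun k : ℕ => (finite_prim_le (K := K) k).countable).mono
    fun n hn => Set.mem_iUnion.2 ⟨nm n, And.intro hn le_rfl⟩

theorem card_pdiv_step {p m : R K} (hp : Prime p) (hp' : Prim p) (hm : m ≠ 0) (k : ℕ) :
    (pdiv (p ^ k * m)).card ≤ (k + 1) * (pdiv m).card := by
  classical
  have h0 : p ^ k * m ≠ 0 := mul_ne_zero (pow_ne_zero _ hp.ne_zero) hm
  have h1 : pdiv (p ^ k * m) ⊆ (Finset.range (k + 1) ×ˢ pdiv m).image fun q => p ^ q.1 * q.2 := by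
    intro d hd
    obtain ⟨hd1, hd2⟩ := (mem_pdiv h0).1 hd
    obtain ⟨a, b, ha, hb, rfl⟩ := exists_dvd_and_dvd_of_dvd_mul hd2
    obtain ⟨i, hi, hu⟩ := (dvd_prime_pow hp k).1 ha
    refine Finset.mem_image.2 ⟨(i, pp b), ?_, ?_⟩
    · simp only [Finset.mem_product, Finset.mem_range, mem_pdiv hm]
      exact ⟨by omega, prim_pp (right_ne_zero_of_mul hd1.1), pp_dvd_iff.2 hb⟩
    · rw [← hd1.2, pp_mul, pp_eq_of_associated hu, (hp'.pow i).2]
  refine (Finset.card_le_card h1).trans (Finset.card_image_le.trans ?_)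
  rw [Finset.card_product, Finset.card_range]

open Classical in
theorem card_pdiv_le (ε : ℝ) (hε : 0 < ε) : ∃ C : ℝ, 0 < C ∧ ∀ n : R K, n ≠ 0 →
    ((pdiv n).card : ℝ) ≤ C * (nm n : ℝ) ^ ε := by
  obtain ⟨η, hη, he⟩ : ∃ η : ℝ, 0 < η ∧ (2 : ℝ) ^ ε = 1 + η :=
    ⟨2 ^ ε - 1, sub_pos.2 (Real.one_lt_rpow one_lt_two hε), by ring⟩
  obtain ⟨A, hK, hK'⟩ : ∃ A : ℝ, 1 ≤ A ∧ 1 ≤ A * η :=
    ⟨1 + η⁻¹, by simp [hη.le], by rw [add_mul, inv_mul_cancel₀ hη.ne']; linarith⟩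
  have key : ∀ (N : ℕ) (n : R K), nm n = N → n ≠ 0 → ((pdiv n).card : ℝ) ≤
      (pball K 1).card * A ^ ((pball K (2 ^ ε⁻¹)).filter fun p => Prime p ∧ p ∣ n).card *
        (nm n : ℝ) ^ ε := by
    intro N
    induction N using Nat.strong_induction_on with
    | _ N ih =>
    intro n hN hn
    by_cases hu : IsUnit n
    · rw [pdiv, isUnit_iff_nm.1 hu, Nat.cast_one, Real.one_rpow, mul_one]
      refine le_trans ?_ (le_mul_of_one_le_right (Nat.cast_nonneg _) (one_le_pow₀ hK))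
      exact_mod_cast Finset.card_filter_le _ _
    obtain ⟨p, hp, hp', hpn⟩ : ∃ p : R K, Irreducible p ∧ Prim p ∧ p ∣ n := by
      obtain ⟨p, hp, hpn⟩ := WfDvdMonoid.exists_irreducible_factor hu hn
      exact ⟨pp p, (associated_pp p).irreducible hp, prim_pp hp.ne_zero, pp_dvd_iff.2 hpn⟩
    obtain ⟨k, m, hm, rfl⟩ := WfDvdMonoid.max_power_factor hn hp
    have hm0 : m ≠ 0 := right_ne_zero_of_mul hn
    have hk : k ≠ 0 := by
      rintro rfl
      exact hm (by simpa using hpn)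
    have hp2 : 2 ≤ nm p := by
      have h1 := nm_pos hp.ne_zero
      have h2 := mt isUnit_iff_nm.2 hp.not_isUnit
      omega
    have hlt : nm m < N := by
      rw [← hN, nm_mul, nm_pow]
      exact lt_mul_of_one_lt_left (nm_pos hm0) (Nat.one_lt_pow hk hp2)
    have h1 := ih _ hlt m rfl hm0
    have h2 : ((pdiv (p ^ k * m)).card : ℝ) ≤
        (k + 1) * (pdiv m).card := by
      exact_mod_cast card_pdiv_step hp.prime hp' hm0 k
    have h3 : ((nm (p ^ k * m) : ℕ) : ℝ) ^ ε = ((nm p : ℝ) ^ ε) ^ k * (nm m : ℝ) ^ ε := by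
      rw [nm_mul, nm_pow, Nat.cast_mul, Nat.cast_pow,
        Real.mul_rpow (by positivity) (by positivity), ← Real.rpow_natCast,
        ← Real.rpow_mul (by positivity), mul_comm (k : ℝ), Real.rpow_mul (by positivity),
        Real.rpow_natCast]
    have hsub : ((pball K (2 ^ ε⁻¹)).filter fun q => Prime q ∧ q ∣ m) ⊆
        (pball K (2 ^ ε⁻¹)).filter fun q => Prime q ∧ q ∣ p ^ k * m := fun q hq => by
      rw [Finset.mem_filter] at hq ⊢
      exact ⟨hq.1, hq.2.1, hq.2.2.mul_left _⟩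
    have h4 : (k + 1 : ℝ) * A ^ ((pball K (2 ^ ε⁻¹)).filter fun q => Prime q ∧ q ∣ m).card ≤
        A ^ ((pball K (2 ^ ε⁻¹)).filter fun q => Prime q ∧ q ∣ p ^ k * m).card *
          ((nm p : ℝ) ^ ε) ^ k := by
      by_cases hs : (nm p : ℝ) ≤ 2 ^ ε⁻¹
      · have h5 := Finset.card_lt_card (Finset.ssubset_iff_of_subset hsub |>.2
          ⟨p, Finset.mem_filter.2 ⟨mem_pball.2 ⟨hp', hs⟩, hp.prime, hpn⟩,
            fun h => hm (Finset.mem_filter.1 h).2.2⟩)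
        have h6 : 1 + η ≤ (nm p : ℝ) ^ ε := by
          rw [← he]
          exact Real.rpow_le_rpow (by norm_num) (by exact_mod_cast hp2) hε.le
        have h7 : 1 + k * η ≤ ((nm p : ℝ) ^ ε) ^ k :=
          (one_add_mul_le_pow (by linarith) k).trans (pow_le_pow_left₀ (by linarith) h6 k)
        have h8 : (k + 1 : ℝ) ≤ A * ((nm p : ℝ) ^ ε) ^ k := by
          have : (k : ℝ) * 1 ≤ k * (A * η) := by gcongr
          nlinarith
        calc _ ≤ A * ((nm p : ℝ) ^ ε) ^ k *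
              A ^ ((pball K (2 ^ ε⁻¹)).filter fun q => Prime q ∧ q ∣ m).card := by gcongr
          _ = A ^ (((pball K (2 ^ ε⁻¹)).filter fun q => Prime q ∧ q ∣ m).card + 1) *
              ((nm p : ℝ) ^ ε) ^ k := by ring
          _ ≤ _ := by gcongr; exact h5
      · have h6 : 1 + 1 ≤ (nm p : ℝ) ^ ε := by
          have := Real.rpow_le_rpow (by positivity) (not_le.1 hs).le hε.le
          rwa [← Real.rpow_mul (by norm_num), inv_mul_cancel₀ hε.ne', Real.rpow_one,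
            ← one_add_one_eq_two] at this
        have h7 : 1 + k * 1 ≤ ((nm p : ℝ) ^ ε) ^ k :=
          (one_add_mul_le_pow (by linarith) k).trans (pow_le_pow_left₀ (by linarith) h6 k)
        rw [mul_comm]
        gcongr
        linarith
    rw [h3]
    calc _ ≤ (k + 1 : ℝ) * ((pball K 1).card *
          A ^ ((pball K (2 ^ ε⁻¹)).filter fun q => Prime q ∧ q ∣ m).card * (nm m : ℝ) ^ ε) :=
          h2.trans (by gcongr)
      _ = (pball K 1).card * ((k + 1 : ℝ) *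
          A ^ ((pball K (2 ^ ε⁻¹)).filter fun q => Prime q ∧ q ∣ m).card) * (nm m : ℝ) ^ ε := by ring
      _ ≤ (pball K 1).card * (A ^ ((pball K (2 ^ ε⁻¹)).filter fun q => Prime q ∧ q ∣ p ^ k * m).card *
          ((nm p : ℝ) ^ ε) ^ k) * (nm m : ℝ) ^ ε := by gcongr
      _ = _ := by ring
  refine ⟨((pball K 1).card + 1) * A ^ (pball K (2 ^ ε⁻¹)).card, by positivity, fun n hn =>
    (key _ n rfl hn).trans ?_⟩
  gcongr
  · linarith
  · exact Finset.filter_subset _ _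
theorem card_pdiv_mono {m n : R K} (hn : n ≠ 0) (h : m ∣ n) : (pdiv m).card ≤ (pdiv n).card := by
  refine Finset.card_le_card fun e he => ?_
  have h1 := (mem_pdiv (ne_zero_of_dvd_ne_zero hn h)).1 he
  exact (mem_pdiv hn).2 ⟨h1.1, h1.2.trans h⟩
theorem card_pdiv_prime_mul {p n : R K} (hp : Prime p) (hp' : Prim p) (hn : n ≠ 0) (h : ¬p ∣ n) :
    (pdiv (p * n)).card = 2 * (pdiv n).card := by
  classical
  have h0 : p * n ≠ 0 := mul_ne_zero hp.ne_zero hn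
  have h1 : pdiv (p * n) = pdiv n ∪ (pdiv n).image (p * ·) := by
    ext e
    simp only [Finset.mem_union, Finset.mem_image, mem_pdiv h0, mem_pdiv hn]
    constructor
    · rintro ⟨h1, h2⟩
      by_cases h3 : p ∣ e
      · obtain ⟨c, rfl⟩ := h3
        exact Or.inr ⟨c, ⟨hp'.of_mul h1, (mul_dvd_mul_iff_left hp.ne_zero).1 h2⟩, rfl⟩
      · exact Or.inl ⟨h1, (hp.irreducible.coprime_iff_not_dvd.2 h3).symm.dvd_of_dvd_mul_left h2⟩
    · rintro (⟨h1, h2⟩ | ⟨c, ⟨h1, h2⟩, rfl⟩)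
      · exact ⟨h1, h2.mul_left _⟩
      · exact ⟨hp'.mul h1, mul_dvd_mul_left p h2⟩
  rw [h1, Finset.card_union_of_disjoint,
    Finset.card_image_of_injective _ (mul_right_injective₀ hp.ne_zero), two_mul]
  refine Finset.disjoint_left.2 fun e he he' => h ?_
  obtain ⟨c, -, rfl⟩ := Finset.mem_image.1 he'
  exact (dvd_mul_right p c).trans ((mem_pdiv hn).1 he).2

theorem tau_nonneg (n : R K) : 0 ≤ tau n := Nat.cast_nonneg _
theorem one_le_tau {n : R K} (hn : n ≠ 0) : 1 ≤ tau n := by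
  unfold tau
  exact_mod_cast Finset.card_pos.2 ⟨1, (mem_pdiv hn).2 ⟨prim_one, one_dvd _⟩⟩
theorem tau_mono {m n : R K} (hn : n ≠ 0) (h : m ∣ n) : tau m ≤ tau n := by
  unfold tau
  exact_mod_cast card_pdiv_mono hn h
theorem tau_one : tau (1 : R K) = 1 := by simp [tau, pdiv_one]
theorem tau_associated {m n : R K} (h : Associated m n) : tau m = tau n := by
  rw [tau, tau, pdiv_associated h]
theorem tau_mul_le {m n : R K} (hm : m ≠ 0) (hn : n ≠ 0) : tau (m * n) ≤ tau m * tau n := by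
  classical
  have h1 : pdiv (m * n) ⊆ (pdiv m ×ˢ pdiv n).image fun q => q.1 * q.2 := by
    intro d hd
    obtain ⟨hd1, hd2⟩ := (mem_pdiv (mul_ne_zero hm hn)).1 hd
    obtain ⟨a, b, ha, hb, rfl⟩ := exists_dvd_and_dvd_of_dvd_mul hd2
    refine Finset.mem_image.2 ⟨(pp a, pp b), ?_, by rw [← pp_mul, hd1.2]⟩
    simp only [Finset.mem_product, mem_pdiv hm, mem_pdiv hn]
    exact ⟨⟨prim_pp (left_ne_zero_of_mul hd1.1), pp_dvd_iff.2 ha⟩,
      prim_pp (right_ne_zero_of_mul hd1.1), pp_dvd_iff.2 hb⟩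
  have h2 := (Finset.card_le_card h1).trans Finset.card_image_le
  rw [Finset.card_product] at h2
  unfold tau
  exact_mod_cast h2
theorem tau_pow_le (j : ℕ) {ε : ℝ} (hε : 0 < ε) : ∃ C : ℝ, 0 < C ∧ ∀ n : R K, n ≠ 0 →
    tau n ^ j ≤ C * (nm n : ℝ) ^ ε := by
  obtain ⟨C, hC, h⟩ := card_pdiv_le (K := K) (ε / (j + 1)) (by positivity)
  refine ⟨C ^ j, by positivity, fun n hn => ?_⟩
  refine (pow_le_pow_left₀ (tau_nonneg n) (h n hn) j).trans ?_
  rw [mul_pow, ← Real.rpow_mul_natCast (Nat.cast_nonneg _)]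
  gcongr
  · exact one_le_nm hn
  · rw [div_mul_eq_mul_div, div_le_iff₀ (by positivity)]
    nlinarith

theorem sum_dyadic : ∃ C : ℝ, 0 < C ∧ ∀ (σ : ℝ) (s : Finset (R K)) (J : Finset ℕ), 0 < σ →
    (∀ n ∈ s, Prim n ∧ Nat.log 2 (nm n) ∈ J) →
    ∑ n ∈ s, (nm n : ℝ) ^ (-σ) ≤ C * ∑ j ∈ J, ((2 : ℝ) ^ (1 - σ)) ^ j := by
  classical
  obtain ⟨C, hC, h⟩ := card_pball_le (K := K)
  refine ⟨2 * C, by positivity, fun σ s J hσ hJ => ?_⟩
  rw [← Finset.sum_fiberwise_of_maps_to (g := fun n => Nat.log 2 (nm n)) (t := J)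
    (fun n hn => (hJ n hn).2), Finset.mul_sum]
  refine Finset.sum_le_sum fun j _ => ?_
  have h1 : ∀ n ∈ s.filter fun n => Nat.log 2 (nm n) = j,
      (nm n : ℝ) ^ (-σ) ≤ ((2 : ℝ) ^ j) ^ (-σ) := by
    intro n hn
    obtain ⟨h1, rfl⟩ := Finset.mem_filter.1 hn
    refine Real.rpow_le_rpow_of_nonpos (by positivity) ?_ (by linarith)
    exact_mod_cast Nat.pow_log_le_self 2 (nm_pos (hJ n h1).1.1).ne'
  have h2 : (s.filter fun n => Nat.log 2 (nm n) = j) ⊆ pball K (2 ^ (j + 1)) := by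
    intro n hn
    obtain ⟨h4, rfl⟩ := Finset.mem_filter.1 hn
    exact mem_pball.2 ⟨(hJ n h4).1, by exact_mod_cast (Nat.lt_pow_succ_log_self one_lt_two _).le⟩
  have h3 : ((s.filter fun n => Nat.log 2 (nm n) = j).card : ℝ) ≤ 2 * C * 2 ^ j := by
    refine (Nat.cast_le.2 (Finset.card_le_card h2)).trans ((h _ (by positivity)).trans_eq ?_)
    ring
  refine (Finset.sum_le_card_nsmul _ _ _ h1).trans ?_
  rw [nsmul_eq_mul]
  refine (mul_le_mul_of_nonneg_right h3 (by positivity)).trans_eq ?_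
  rw [mul_assoc, sub_eq_add_neg, Real.rpow_add two_pos, Real.rpow_one, mul_pow,
    ← Real.rpow_natCast ((2 : ℝ) ^ (-σ)), ← Real.rpow_mul two_pos.le, mul_comm (-σ),
    Real.rpow_mul two_pos.le, Real.rpow_natCast]

theorem log_mem_range {X : ℝ} {n : R K} (h : n ∈ pball K X) :
    Nat.log 2 (nm n) ∈ Finset.range (Nat.log 2 ⌊X⌋₊ + 1) :=
  Finset.mem_range.2 (Nat.lt_succ_of_le (Nat.log_mono_right (Nat.le_floor (mem_pball.1 h).2)))

theorem pow_log_floor_le {X : ℝ} (hX : 1 ≤ X) : (2 : ℝ) ^ Nat.log 2 ⌊X⌋₊ ≤ X := by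
  refine le_trans ?_ (Nat.floor_le (by linarith))
  exact_mod_cast Nat.pow_log_le_self 2 (Nat.floor_pos.2 hX).ne'

theorem rpow_pow_comm (a : ℝ) (j : ℕ) : ((2 : ℝ) ^ a) ^ j = ((2 : ℝ) ^ j) ^ a := by
  rw [← Real.rpow_natCast, ← Real.rpow_mul two_pos.le, mul_comm, Real.rpow_mul two_pos.le,
    Real.rpow_natCast]

theorem sum_inv_nm_le : ∃ C : ℝ, 0 < C ∧ ∀ X : ℝ, 1 ≤ X →
    ∑ n ∈ pball K X, (nm n : ℝ)⁻¹ ≤ C * (1 + Real.log X) := by
  obtain ⟨C, hC, h⟩ := sum_dyadic (K := K)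
  refine ⟨2 * C, by positivity, fun X hX => ?_⟩
  have h1 := h 1 (pball K X) _ one_pos fun n hn => ⟨(mem_pball.1 hn).1, log_mem_range hn⟩
  simp only [Real.rpow_neg_one, sub_self, Real.rpow_zero, one_pow, Finset.sum_const,
    Finset.card_range, nsmul_eq_mul, mul_one] at h1
  have h2 := Real.log_le_log (by positivity) (pow_log_floor_le hX)
  rw [Real.log_pow] at h2
  have h3 := Real.log_two_gt_d9
  have h4 : (0 : ℝ) ≤ Nat.log 2 ⌊X⌋₊ := Nat.cast_nonneg _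
  push_cast at h1
  have h5 : (Nat.log 2 ⌊X⌋₊ : ℝ) + 1 ≤ 2 * (1 + Real.log X) := by nlinarith
  nlinarith
theorem sum_rpow_le {σ : ℝ} (hσ : σ < 1) (h0 : 0 < σ) : ∃ C : ℝ, 0 < C ∧ ∀ X : ℝ, 0 < X →
    ∑ n ∈ pball K X, (nm n : ℝ) ^ (-σ) ≤ C * X ^ (1 - σ) := by
  obtain ⟨C, hC, h⟩ := sum_dyadic (K := K)
  have hr : 1 < (2 : ℝ) ^ (1 - σ) := Real.one_lt_rpow one_lt_two (by linarith)
  have hr' := sub_pos.2 hr
  refine ⟨C * (2 ^ (1 - σ) / (2 ^ (1 - σ) - 1)), by positivity, fun X hX => ?_⟩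
  by_cases h1 : 1 ≤ X
  · refine (h σ (pball K X) _ h0 fun n hn => ⟨(mem_pball.1 hn).1, log_mem_range hn⟩).trans ?_
    rw [geom_sum_eq hr.ne', mul_assoc, div_mul_eq_mul_div, pow_succ', rpow_pow_comm]
    have := Real.rpow_le_rpow (by positivity) (pow_log_floor_le h1) (sub_pos.2 hσ).le
    gcongr
    nlinarith
  · rw [pball_eq_empty (not_le.1 h1), Finset.sum_empty]
    positivity
theorem sum_rpow_tail {σ : ℝ} (hσ : 1 < σ) : ∃ C : ℝ, 0 < C ∧ ∀ (D : ℝ) (s : Finset (R K)), 0 < D →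
    (∀ n ∈ s, Prim n ∧ D < nm n) → ∑ n ∈ s, (nm n : ℝ) ^ (-σ) ≤ C * D ^ (1 - σ) := by
  obtain ⟨C, hC, h⟩ := sum_dyadic (K := K)
  have hr : (2 : ℝ) ^ (1 - σ) < 1 := Real.rpow_lt_one_of_one_lt_of_neg one_lt_two (by linarith)
  have hr' := sub_pos.2 hr
  have hr0 : 0 < (2 : ℝ) ^ (1 - σ) := by positivity
  refine ⟨C * ((2 ^ (1 - σ))⁻¹ / (1 - 2 ^ (1 - σ))), by positivity, fun D s hD hs => ?_⟩
  refine (h σ s (Finset.Ico (Nat.log 2 ⌊D⌋₊) (s.sup (fun n => Nat.log 2 (nm n)) + 1))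
    (by linarith) fun n hn => ⟨(hs n hn).1, ?_⟩).trans ?_
  · refine Finset.mem_Ico.2 ⟨Nat.log_mono_right (Nat.floor_le_of_le (hs n hn).2.le), ?_⟩
    exact Nat.lt_succ_of_le (Finset.le_sup (f := fun n => Nat.log 2 (nm n)) hn)
  · have h1 : D ≤ 2 ^ (Nat.log 2 ⌊D⌋₊ + 1) := by
      refine (Nat.lt_floor_add_one D).le.trans ?_
      exact_mod_cast Nat.lt_pow_succ_log_self one_lt_two ⌊D⌋₊
    have h2 := Real.rpow_le_rpow_of_nonpos hD h1 (sub_nonpos.2 hσ.le)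
    rw [← rpow_pow_comm, pow_succ'] at h2
    rw [mul_assoc, div_mul_eq_mul_div]
    refine mul_le_mul_of_nonneg_left ((geom_sum_Ico_le_of_lt_one hr0.le hr).trans ?_) hC.le
    gcongr
    rwa [le_inv_mul_iff₀ hr0]
theorem sum_rpow_le_const {σ : ℝ} (hσ : 1 < σ) : ∃ C : ℝ, 0 < C ∧ ∀ s : Finset (R K),
    (∀ n ∈ s, Prim n) → ∑ n ∈ s, (nm n : ℝ) ^ (-σ) ≤ C := by
  obtain ⟨C, hC, h⟩ := sum_rpow_tail (K := K) hσ
  exact ⟨C * (1 / 2) ^ (1 - σ), by positivity, fun s hs =>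
    h _ s (by norm_num) fun n hn => ⟨hs n hn, by linarith [one_le_nm (hs n hn).1]⟩⟩
theorem summable_rpow {σ : ℝ} (hσ : 1 < σ) :
    Summable fun n : {n : R K // Prim n} => (nm n.1 : ℝ) ^ (-σ) := by
  classical
  obtain ⟨C, -, h⟩ := sum_rpow_le_const (K := K) hσ
  refine summable_of_sum_le (c := C) (fun n => by positivity) fun s => ?_
  have h1 := h (s.image Subtype.val) fun n hn => by
    obtain ⟨m, -, rfl⟩ := Finset.mem_image.1 hn
    exact m.2
  rwa [Finset.sum_image fun _ _ _ _ e => Subtype.ext e] at h1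
/-- the form with an indicator, summed over all of `R` -/
theorem summable_ind_rpow {σ : ℝ} (hσ : 1 < σ) :
    Summable fun n : R K => ‖ind (Prim n)‖ * (nm n : ℝ) ^ (-σ) := by
  have h1 := (summable_subtype_iff_indicator (f := fun n : R K => (nm n : ℝ) ^ (-σ))
    (s := {n | Prim n})).1 (summable_rpow hσ)
  refine h1.congr fun n => ?_
  by_cases h : Prim n
  · rw [Set.indicator_of_mem (show n ∈ {n | Prim n} from h), ind_of h, norm_one, one_mul]
  · rw [Set.indicator_of_notMem (show n ∉ {n | Prim n} from h), ind_of_not h, norm_zero, zero_mul]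
theorem summable_exp {y : ℝ} (hy : 0 < y) :
    Summable fun n : {n : R K // Prim n} => Real.exp (-(y * nm n.1)) := by
  refine Summable.of_norm_bounded ((summable_rpow one_lt_two).mul_left (2 / y ^ 2)) fun n => ?_
  have h1 : (0 : ℝ) < nm n.1 := nm_pos_real n.2.1
  have h2 := Real.quadratic_le_exp_of_nonneg (mul_pos hy h1).le
  have h3 := mul_pos hy h1
  rw [Real.norm_of_nonneg (Real.exp_pos _).le, Real.exp_neg, Real.rpow_neg h1.le, Real.rpow_two]
  calc _ ≤ ((y * nm n.1) ^ 2 / 2)⁻¹ := inv_anti₀ (by positivity) (by linarith)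
    _ = _ := by field_simp
omit [Stp K] in
theorem summable_ideal_rpow {σ : ℝ} (hσ : 1 < σ) :
    Summable fun I : Ideal (𝓞 K) => (Ideal.absNorm I : ℝ) ^ (-σ) := by
  classical
  obtain ⟨C, hC, h⟩ := card_ideals_le (K := K)
  have hr : (2 : ℝ) ^ (1 - σ) < 1 := Real.rpow_lt_one_of_one_lt_of_neg one_lt_two (by linarith)
  have hr0 : 0 < (2 : ℝ) ^ (1 - σ) := by positivity
  refine summable_of_sum_le (c := 2 * C * ∑' j : ℕ, ((2 : ℝ) ^ (1 - σ)) ^ j)
    (fun I => by positivity) fun s₀ => ?_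
  rw [← Finset.sum_filter_of_ne (p := fun I => I ≠ ⊥) fun I _ hI e => hI (by
    rw [e, Ideal.absNorm_bot, Nat.cast_zero, Real.zero_rpow (by linarith)])]
  obtain ⟨s, hs⟩ : ∃ s, s = s₀.filter fun I => I ≠ ⊥ := ⟨_, rfl⟩
  have hs' : ∀ I ∈ s, I ≠ ⊥ := fun I hI => by
    rw [hs] at hI
    exact (Finset.mem_filter.1 hI).2
  rw [← hs, ← Finset.sum_fiberwise_of_maps_to (g := fun I => Nat.log 2 (Ideal.absNorm I))
    (t := s.image fun I => Nat.log 2 (Ideal.absNorm I)) fun I hI => Finset.mem_image_of_mem _ hI]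
  refine le_trans ?_ (mul_le_mul_of_nonneg_left ((summable_geometric_of_lt_one hr0.le hr).sum_le_tsum
    (s.image fun I => Nat.log 2 (Ideal.absNorm I)) fun _ _ => by positivity) (by positivity))
  rw [Finset.mul_sum]
  refine Finset.sum_le_sum fun j _ => ?_
  have h1 : ∀ I ∈ s.filter fun I => Nat.log 2 (Ideal.absNorm I) = j,
      (Ideal.absNorm I : ℝ) ^ (-σ) ≤ ((2 : ℝ) ^ j) ^ (-σ) := by
    intro I hI
    obtain ⟨h1, rfl⟩ := Finset.mem_filter.1 hI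
    refine Real.rpow_le_rpow_of_nonpos (by positivity) ?_ (by linarith)
    exact_mod_cast Nat.pow_log_le_self 2 (mt Ideal.absNorm_eq_zero_iff.1 (hs' I h1))
  have h3 : ((s.filter fun I => Nat.log 2 (Ideal.absNorm I) = j).card : ℝ) ≤ 2 * C * 2 ^ j := by
    refine (h (2 ^ (j + 1)) _ (by positivity) fun I hI => ?_).trans_eq (by ring)
    obtain ⟨h4, rfl⟩ := Finset.mem_filter.1 hI
    exact ⟨hs' I h4, by exact_mod_cast (Nat.lt_pow_succ_log_self one_lt_two _).le⟩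
  refine (Finset.sum_le_card_nsmul _ _ _ h1).trans ?_
  rw [nsmul_eq_mul]
  refine (mul_le_mul_of_nonneg_right h3 (by positivity)).trans_eq ?_
  rw [mul_assoc, sub_eq_add_neg, Real.rpow_add two_pos, Real.rpow_one, mul_pow,
    ← Real.rpow_natCast ((2 : ℝ) ^ (-σ)), ← Real.rpow_mul two_pos.le, mul_comm (-σ),
    Real.rpow_mul two_pos.le, Real.rpow_natCast]
theorem sum_inv_le_rpow {ε : ℝ} (hε : 0 < ε) : ∃ C : ℝ, 0 < C ∧ ∀ (Z : ℝ) (s : Finset (R K)), 1 ≤ Z →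
    (∀ n ∈ s, Prim n ∧ (nm n : ℝ) ≤ Z) → ∑ n ∈ s, (nm n : ℝ)⁻¹ ≤ C * Z ^ ε := by
  obtain ⟨C, hC, h⟩ := sum_inv_nm_le (K := K)
  refine ⟨C * (1 + 1 / ε), by positivity, fun Z s hZ hs => ?_⟩
  refine (Finset.sum_le_sum_of_subset_of_nonneg (fun n hn => mem_pball.2 (hs n hn))
    fun _ _ _ => by positivity).trans ((h Z hZ).trans ?_)
  have h1 := Real.log_le_rpow_div (by linarith : 0 ≤ Z) hε
  have h2 := Real.one_le_rpow hZ hε.le
  rw [mul_assoc]
  gcongr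
  rw [add_mul, div_mul_eq_mul_div]
  simp only [one_mul]
  linarith

theorem Adm.bound {B : ℝ} {V : ℝ → ℝ} (h : Adm B V) : ∃ C : ℝ, 0 < C ∧ ∀ x, |V x| ≤ C := by
  obtain ⟨C, hC⟩ := (isCompact_Icc (a := 1 / B) (b := B)).exists_bound_of_continuousOn
    h.2.1.continuous.continuousOn
  refine ⟨|C| + 1, by positivity, fun x => ?_⟩
  by_cases hx : V x = 0
  · rw [hx, abs_zero]
    positivity
  · linarith [hC x (h.2.2 x hx), le_abs_self C, Real.norm_eq_abs (V x)]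
theorem Adm.eq_zero_of_le {B x : ℝ} {V : ℝ → ℝ} (h : Adm B V) (hx : B ≤ x) : V x = 0 := by
  have : Set.Ici B ⊆ {y | V y = 0} := by
    rw [← closure_Ioi]
    refine closure_minimal (fun y hy => ?_) (isClosed_eq h.2.1.continuous continuous_const)
    by_contra hy'
    exact absurd (h.2.2 y hy').2 (not_le.2 hy)
  exact this hx
theorem Adm.mul_deriv {B : ℝ} {V : ℝ → ℝ} (h : Adm B V) : Adm B fun u => u * deriv V u := by
  refine ⟨h.1, contDiff_id.mul (contDiff_infty_iff_deriv.1 h.2.1).2, fun x hx => ?_⟩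
  exact closure_minimal (fun y hy => h.2.2 y hy) isClosed_Icc
    (support_deriv_subset (right_ne_zero_of_mul hx))
/-- the range of summation may be enlarged -/
theorem Adm.sum_sball {B N Z : ℝ} {V : ℝ → ℝ} (h : Adm B V) (hN : 0 < N) (hZ : B * N ≤ Z)
    (a c : R K → ℂ) : ∑ n ∈ sball K (B * N), a n * V (nm n / N) * c n =
      ∑ n ∈ sball K Z, a n * V (nm n / N) * c n := by
  refine Finset.sum_subset (fun n hn => mem_sball.2
    ⟨(mem_sball.1 hn).1, (mem_sball.1 hn).2.trans hZ⟩) fun n hn hn' => ?_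
  rw [h.eq_zero_of_le ((le_div_iff₀ hN).2 (not_le.1 fun h' =>
    hn' (mem_sball.2 ⟨(mem_sball.1 hn).1, h'⟩)).le)]
  simp
theorem Adm.sum_pball {B N Z : ℝ} {V : ℝ → ℝ} (h : Adm B V) (hN : 0 < N) (hZ : B * N ≤ Z)
    (a c : R K → ℂ) : ∑ n ∈ pball K (B * N), a n * V (nm n / N) * c n =
      ∑ n ∈ pball K Z, a n * V (nm n / N) * c n := by
  refine Finset.sum_subset (pball_mono hZ) fun n hn hn' => ?_
  rw [h.eq_zero_of_le ((le_div_iff₀ hN).2 (not_le.1 fun h' =>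
    hn' (mem_pball.2 ⟨(mem_pball.1 hn).1, h'⟩)).le)]
  simp
/-- multiples of `f` in `sball` -/
theorem sum_sball_dvd {f : R K} (hf : IsS f) (Z : ℝ) (a : R K → ℂ) :
    ∑ m ∈ sball K Z, ind (f ∣ m) * a m =
      ∑ m ∈ sball K (Z / nm f), ind (IsCoprime m f) * a (f * m) := by
  classical
  have hf0 := hf.ne_zero
  have nf : (0 : ℝ) < nm f := by exact_mod_cast nm_pos hf0
  have e1 : ∀ (p : R K → Prop) (s : Finset (R K)) (b : R K → ℂ),
      ∑ m ∈ s, ind (p m) * b m = ∑ m ∈ s.filter p, b m := fun p s b => by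
    rw [Finset.sum_filter]
    refine Finset.sum_congr rfl fun m _ => ?_
    by_cases h : p m
    · rw [ind_of h, if_pos h, one_mul]
    · rw [ind_of_not h, if_neg h, zero_mul]
  rw [e1 (f ∣ ·), e1 (IsCoprime · f)]
  symm
  refine Finset.sum_bij (fun m _ => f * m) (fun m hm => ?_) (fun m _ m' _ h => ?_)
    (fun m hm => ?_) fun _ _ => rfl
  · obtain ⟨h1, h2⟩ := Finset.mem_filter.1 hm
    obtain ⟨h3, h4⟩ := mem_sball.1 h1
    refine Finset.mem_filter.2 ⟨mem_sball.2 ⟨hf.mul h3 h2.symm, ?_⟩, dvd_mul_right _ _⟩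
    rw [nm_mul, Nat.cast_mul, mul_comm]
    exact (le_div_iff₀ nf).1 h4
  · exact mul_left_cancel₀ hf0 h
  · obtain ⟨h1, m', rfl⟩ := Finset.mem_filter.1 hm
    obtain ⟨h3, h4⟩ := mem_sball.1 h1
    refine ⟨m', Finset.mem_filter.2 ⟨mem_sball.2 ⟨h3.of_dvd (hf.1.of_mul h3.1)
      (dvd_mul_left _ _), ?_⟩, h3.coprime.symm⟩, rfl⟩
    rw [le_div_iff₀ nf, mul_comm]
    exact_mod_cast nm_mul f m' ▸ h4
/-- multiples of `f` in `pball` -/
theorem sum_pball_dvd {f : R K} (hf : Prim f) (Z : ℝ) (a : R K → ℂ) :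
    ∑ m ∈ pball K Z, ind (f ∣ m) * a m = ∑ m ∈ pball K (Z / nm f), a (f * m) := by
  classical
  have nf : (0 : ℝ) < nm f := nm_pos_real hf.1
  have e1 : ∑ m ∈ pball K Z, ind (f ∣ m) * a m = ∑ m ∈ (pball K Z).filter (f ∣ ·), a m := by
    rw [Finset.sum_filter]
    refine Finset.sum_congr rfl fun m _ => ?_
    by_cases h : f ∣ m
    · rw [ind_of h, if_pos h, one_mul]
    · rw [ind_of_not h, if_neg h, zero_mul]
  rw [e1]
  symm
  refine Finset.sum_bij (fun m _ => f * m) (fun m hm => ?_) (fun m _ m' _ h => ?_)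
    (fun m hm => ?_) fun _ _ => rfl
  · obtain ⟨h3, h4⟩ := mem_pball.1 hm
    refine Finset.mem_filter.2 ⟨mem_pball.2 ⟨hf.mul h3, ?_⟩, dvd_mul_right _ _⟩
    rw [nm_mul, Nat.cast_mul, mul_comm]
    exact (le_div_iff₀ nf).1 h4
  · exact mul_left_cancel₀ hf.1 h
  · obtain ⟨h1, m', rfl⟩ := Finset.mem_filter.1 hm
    obtain ⟨h3, h4⟩ := mem_pball.1 h1
    refine ⟨m', mem_pball.2 ⟨hf.of_mul h3, ?_⟩, rfl⟩
    rw [le_div_iff₀ nf, mul_comm]
    exact_mod_cast nm_mul f m' ▸ h4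

theorem exp_le_weight {A : ℝ} (hA : 0 ≤ A) : ∃ C : ℝ, 0 < C ∧ ∀ x : ℝ, 0 ≤ x →
    Real.exp (-x) ≤ C * (1 + x) ^ (-A) := by
  refine ⟨Real.exp 1 * (⌈A⌉₊).factorial, by positivity, fun x hx => ?_⟩
  have h1 : (1 + x) ^ A ≤ (1 + x) ^ ⌈A⌉₊ := by
    rw [← Real.rpow_natCast]
    exact Real.rpow_le_rpow_of_exponent_le (by linarith) (Nat.le_ceil A)
  have h2 := Real.pow_div_factorial_le_exp (1 + x) (by linarith) ⌈A⌉₊
  rw [div_le_iff₀ (by positivity), Real.exp_add] at h2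
  rw [Real.rpow_neg (by linarith), Real.exp_neg, ← div_eq_mul_inv, le_div_iff₀ (by positivity),
    inv_mul_le_iff₀ (Real.exp_pos x)]
  linarith
theorem one_add_abs_add_le {A : ℝ} (hA : 0 ≤ A) (t t' : ℝ) :
    (1 + |t + t'|) ^ A ≤ (1 + |t|) ^ A * (1 + |t'|) ^ A := by
  rw [← Real.mul_rpow (by positivity) (by positivity)]
  refine Real.rpow_le_rpow (by positivity) ?_ hA
  nlinarith [abs_add_le t t', mul_nonneg (abs_nonneg t) (abs_nonneg t')]
theorem dyadic_weight {A p : ℝ} (hp : 0 ≤ p) (hA : p < A) : ∃ C : ℝ, 0 < C ∧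
    ∀ (F : R K → ℝ) (Y D : ℝ) (s : Finset (R K)), (∀ k ∈ s, 0 ≤ F k) → 0 < Y →
      (∀ y : ℝ, 1 ≤ y → ∑ k ∈ s with (nm k : ℝ) ≤ y * Y, F k ≤ D * y ^ p) →
      ∑ k ∈ s, (1 + (nm k : ℝ) / Y) ^ (-A) * F k ≤ C * D := by
  have hr : (2 : ℝ) ^ (p - A) < 1 := Real.rpow_lt_one_of_one_lt_of_neg one_lt_two (by linarith)
  have hr0 : (0 : ℝ) < 2 ^ (p - A) := by positivity
  refine ⟨2 ^ A * (1 - 2 ^ (p - A))⁻¹, mul_pos (by positivity) (inv_pos.2 (by linarith)),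
    fun F Y D s hF hK h => ?_⟩
  have hD : 0 ≤ D := by
    have h1 := h 1 le_rfl
    rw [Real.one_rpow, mul_one] at h1
    exact (Finset.sum_nonneg fun k hk => hF k (Finset.mem_filter.1 hk).1).trans h1
  have hj : ∀ k : R K, ∃ j : ℕ, (nm k : ℝ) ≤ 2 ^ j * Y ∧
      (1 + (nm k : ℝ) / Y) ^ (-A) ≤ 2 ^ A * ((2 : ℝ) ^ (-A)) ^ j := fun k => by
    have hx : (0 : ℝ) ≤ nm k / Y := by positivity
    obtain ⟨n, h1, h2⟩ := exists_nat_pow_near (show 1 ≤ 1 + (nm k : ℝ) / Y by linarith) one_lt_two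
    refine ⟨n + 1, (div_le_iff₀ hK).1 (by linarith), ?_⟩
    refine (Real.rpow_le_rpow_of_nonpos (by positivity) h1 (by linarith)).trans_eq ?_
    rw [pow_succ', ← mul_assoc, ← Real.rpow_add two_pos, add_neg_cancel, Real.rpow_zero, one_mul,
      ← Real.rpow_natCast_mul zero_le_two, ← Real.rpow_mul_natCast zero_le_two, mul_comm]
  choose j hj1 hj2 using hj
  calc _ ≤ ∑ k ∈ s, ∑ i ∈ Finset.range (s.sup j + 1),
        if (nm k : ℝ) ≤ 2 ^ i * Y then 2 ^ A * ((2 : ℝ) ^ (-A)) ^ i * F k else 0 := by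
        refine Finset.sum_le_sum fun k hk => le_trans ?_ (Finset.single_le_sum
          (f := fun i => if (nm k : ℝ) ≤ 2 ^ i * Y then 2 ^ A * ((2 : ℝ) ^ (-A)) ^ i * F k else 0)
          (fun i _ => ?_) (Finset.mem_range.2 (Nat.lt_succ_of_le (Finset.le_sup hk))))
        · rw [if_pos (hj1 k)]
          exact mul_le_mul_of_nonneg_right (hj2 k) (hF k hk)
        · split_ifs
          exacts [mul_nonneg (by positivity) (hF k hk), le_rfl]
    _ ≤ ∑ i ∈ Finset.range (s.sup j + 1), 2 ^ A * D * ((2 : ℝ) ^ (p - A)) ^ i := by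
        rw [Finset.sum_comm]
        refine Finset.sum_le_sum fun i _ => ?_
        rw [← Finset.sum_filter, ← Finset.mul_sum]
        refine (mul_le_mul_of_nonneg_left (h _ (one_le_pow₀ one_le_two)) (by positivity)).trans_eq ?_
        rw [← Real.rpow_natCast_mul zero_le_two, mul_comm (i : ℝ), Real.rpow_mul_natCast zero_le_two,
          sub_eq_add_neg, Real.rpow_add two_pos, mul_pow]
        ring
    _ ≤ _ := by
        rw [← Finset.mul_sum, mul_right_comm]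
        gcongr
        rw [← tsum_geometric_of_lt_one hr0.le hr]
        exact (summable_geometric_of_lt_one hr0.le hr).sum_le_tsum _ fun _ _ => by positivity
/-- weighted Cauchy-Schwarz -/
theorem sq_sum_le_weight {ι : Type*} (s : Finset ι) (w x : ι → ℝ) (hw : ∀ i ∈ s, 0 < w i) :
    (∑ i ∈ s, x i) ^ 2 ≤ (∑ i ∈ s, w i) * ∑ i ∈ s, x i ^ 2 / w i := by
  rcases s.eq_empty_or_nonempty with rfl | hs
  · simp
  have h1 := Finset.sq_sum_div_le_sum_sq_div s x hw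
  rwa [div_le_iff₀' (Finset.sum_pos hw hs)] at h1
theorem sum_le_sum_cover {ι κ : Type*} (s : Finset κ) (I : Finset ι) (σ : ι → κ) (F : κ → ℝ)
    (hF : ∀ k, 0 ≤ F k) (h : ∀ k ∈ s, ∃ i ∈ I, σ i = k) :
    ∑ k ∈ s, F k ≤ ∑ i ∈ I, F (σ i) := by
  classical
  refine (Finset.sum_le_sum_of_subset_of_nonneg (fun k hk => ?_) fun k _ _ => hF k).trans
    (Finset.sum_image_le_of_nonneg (s := I) (g := σ) fun k _ => hF k)
  exact Finset.mem_image.2 (h k hk)

theorem exists_sq_mul_sqf {k : R K} (hk : k ≠ 0) : ∃ a l : R K, l ^ 2 * a = k ∧ Squarefree a := by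
  induction hn : nm k using Nat.strong_induction_on generalizing k with
  | _ n ih =>
    by_cases h : Squarefree k
    · exact ⟨k, 1, by ring, h⟩
    simp only [Squarefree, not_forall] at h
    obtain ⟨x, ⟨y, rfl⟩, hx⟩ := h
    have hx0 : x ≠ 0 := fun h => hk (by simp [h])
    have hy0 : y ≠ 0 := fun h => hk (by simp [h])
    have h1 : 1 < nm x := lt_of_le_of_ne (nm_pos hx0) fun h => hx (isUnit_iff_nm.2 h.symm)
    obtain ⟨a, l, h2, h3⟩ := ih (nm y) (by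
      rw [← hn, nm_mul, nm_mul]
      exact lt_mul_of_one_lt_left (nm_pos hy0) (one_lt_mul'' h1 h1)) hy0 rfl
    exact ⟨a, x * l, by rw [← h2]; ring, h3⟩
/-- `k = l² a` for chosen generators -/
theorem exists_sq_mul_isS {k : R K} (hk : Prim k) :
    ∃ a l : R K, IsS a ∧ Prim l ∧ k = l ^ 2 * a := by
  obtain ⟨a, l, h, ha⟩ := exists_sq_mul_sqf hk.1
  have hl : l ≠ 0 := fun e => hk.1 (by simp [← h, e])
  exact ⟨pp a, pp l, ⟨prim_pp ha.ne_zero, (associated_pp a).squarefree_iff.1 ha⟩, prim_pp hl,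
    by rw [← hk.2, ← h, pp_mul, pp_pow]⟩
theorem sq_decomp_unique {a l a' l' : R K} (ha : IsS a) (hl : Prim l) (ha' : IsS a') (hl' : Prim l')
    (h : l ^ 2 * a = l' ^ 2 * a') : a = a' ∧ l = l' := by
  have key : ∀ {a l a' l' : R K}, l ≠ 0 → Squarefree a → l ^ 2 * a = l' ^ 2 * a' → l' ∣ l := by
    intro a l a' l' hl hs h
    obtain ⟨c, b, g, hab, rfl, rfl⟩ := UniqueFactorizationMonoid.exists_reduced_factors l hl l'
    have hg : g ≠ 0 := left_ne_zero_of_mul hl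
    have h1 : a * c ^ 2 = b * b * a' :=
      mul_left_cancel₀ (pow_ne_zero 2 hg) (by linear_combination h)
    have h2 : IsRelPrime (b * b) (c ^ 2) := (hab.symm.mul_left hab.symm).pow_right
    have h3 : IsUnit b := hs b (h2.dvd_of_dvd_mul_right ⟨_, h1⟩)
    exact mul_dvd_mul_left g h3.dvd
  obtain rfl : l = l' := hl.eq_of_associated hl'
    (associated_of_dvd_dvd (key hl'.1 ha'.2 h.symm) (key hl.1 ha.2 h))
  exact ⟨mul_left_cancel₀ (pow_ne_zero 2 hl.1) h, rfl⟩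
/-- all factors are chosen generators -/
theorem k_decomp {k L : R K} (hk : Prim k) (hL : L ≠ 0) : ∃ l b k₁ : R K, Prim l ∧ IsS b ∧
    b ∣ L * l ∧ IsS k₁ ∧ IsCoprime k₁ (L * l) ∧ k = b * l ^ 2 * k₁ := by
  obtain ⟨a, l, ha, hl, rfl⟩ := exists_sq_mul_isS hk
  obtain ⟨b, hb, ⟨a', ha'⟩, h2, h3⟩ := exists_prim_gcd (L * l) ha.1
  have h4 : Prim a' := hb.of_mul (ha' ▸ ha.1)
  refine ⟨l, b, a', hl, ha.of_dvd hb ⟨a', ha'⟩, h2, ha.of_dvd h4 ⟨b, by rw [ha', mul_comm]⟩,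
    isRelPrime_iff_isCoprime.1 fun p h5 h6 => ha.2 p ?_, by rw [ha']; ring⟩
  rw [ha']
  exact mul_dvd_mul (h3 p (ha' ▸ h5.mul_left _) h6) h5

/-- a quotient `a / b` in `R` (meaningful if `b ∣ a`, `b ≠ 0`) -/
noncomputable def rdv (a b : R K) : R K := open Classical in if h : b ∣ a then h.choose else 0
theorem mul_rdv {a b : R K} (h : b ∣ a) : b * rdv a b = a := by
  rw [rdv, dif_pos h]
  exact h.choose_spec.symm
theorem rdv_mul {b : R K} (hb : b ≠ 0) (c : R K) : rdv (b * c) b = c :=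
  mul_left_cancel₀ hb (mul_rdv (dvd_mul_right b c))
theorem Prim.rdv {a b : R K} (ha : Prim a) (hb : Prim b) (h : b ∣ a) : Prim (rdv a b) :=
  hb.of_mul ((mul_rdv h).symm ▸ ha)
theorem nm_rdv {a b : R K} (hb : b ≠ 0) (h : b ∣ a) : (nm (rdv a b) : ℝ) = nm a / nm b := by
  rw [eq_div_iff (nm_pos_real hb).ne', mul_comm, ← Nat.cast_mul, ← nm_mul, mul_rdv h]

theorem fiber_sum (W : R K → ℝ) (hW : ∀ h, 0 ≤ W h) {e : R K} (he : Prim e) (Ds s : Finset (R K))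
    (hD : ∀ Δ ∈ Ds, Prim Δ) (hs : ∀ h ∈ s, Prim h) : ∃ s' : Finset (R K), (∀ h ∈ s', Prim h) ∧
      ∑ Δ ∈ Ds, ∑ e' ∈ pdiv Δ, ∑ h ∈ s, tau Δ * W (h * e * Δ * rdv Δ e') ≤
        ∑ h ∈ s', tau h ^ 3 * W h := by
  classical
  let σ : (Σ _ : R K, Σ _ : R K, R K) → R K := fun x => x.2.2 * e * x.1 * rdv x.1 x.2.1
  let I : Finset (Σ _ : R K, Σ _ : R K, R K) := Ds.sigma fun Δ => (pdiv Δ).sigma fun _ => s
  have hI : ∀ x ∈ I, Prim x.1 ∧ Prim x.2.1 ∧ x.2.1 ∣ x.1 ∧ e * x.1 * rdv x.1 x.2.1 ≠ 0 ∧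
      Prim (σ x) := fun x hx => by
    obtain ⟨h1, h2⟩ := Finset.mem_sigma.1 hx
    obtain ⟨h2, h3⟩ := Finset.mem_sigma.1 h2
    obtain ⟨h5, h6⟩ := (mem_pdiv (hD _ h1).1).1 h2
    have h7 := (hD _ h1).rdv h5 h6
    exact ⟨hD _ h1, h5, h6, ((he.mul (hD _ h1)).mul h7).1,
      (((hs _ h3).mul he).mul (hD _ h1)).mul h7⟩
  refine ⟨I.image σ, fun h hh => ?_, ?_⟩
  · obtain ⟨x, hx, rfl⟩ := Finset.mem_image.1 hh
    exact (hI x hx).2.2.2.2
  have e1 : ∑ Δ ∈ Ds, ∑ e' ∈ pdiv Δ, ∑ h ∈ s, tau Δ * W (h * e * Δ * rdv Δ e') =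
      ∑ x ∈ I, tau x.1 * W (σ x) := by
    simp only [I, σ, Finset.sum_sigma]
  rw [e1, ← Finset.sum_fiberwise_of_maps_to (fun x hx => Finset.mem_image_of_mem σ hx)]
  refine Finset.sum_le_sum fun h hh => ?_
  have h0 : h ≠ 0 := by
    obtain ⟨x, hx, rfl⟩ := Finset.mem_image.1 hh
    exact (hI x hx).2.2.2.2.1
  have hd : ∀ x ∈ I.filter (σ · = h), x.1 ∣ h := fun x hx =>
    (Finset.mem_filter.1 hx).2 ▸ (dvd_mul_left _ _).mul_right _
  refine (Finset.sum_le_card_nsmul _ _ (tau h * W h) fun x hx => ?_).trans ?_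
  · rw [(Finset.mem_filter.1 hx).2]
    exact mul_le_mul_of_nonneg_right (tau_mono h0 (hd x hx)) (hW h)
  have hc : (I.filter (σ · = h)).card ≤ (pdiv h ×ˢ pdiv h).card := by
    refine Finset.card_le_card_of_injOn (fun x => (x.1, x.2.1)) (fun x hx => ?_) ?_
    · obtain ⟨h1, h2, h3, -⟩ := hI x (Finset.mem_filter.1 hx).1
      exact Finset.mem_coe.2 (Finset.mem_product.2 ⟨(mem_pdiv h0).2 ⟨h1, hd x hx⟩,
        (mem_pdiv h0).2 ⟨h2, h3.trans (hd x hx)⟩⟩)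
    · rintro ⟨a, b, c⟩ hx ⟨a', b', c'⟩ hy hxy
      obtain ⟨rfl, rfl⟩ := Prod.ext_iff.1 hxy
      obtain ⟨hx1, hx2⟩ := Finset.mem_filter.1 hx
      have h1 : c * (e * a * rdv a b) = c' * (e * a * rdv a b) := by
        have := hx2.trans (Finset.mem_filter.1 hy).2.symm
        simp only [σ] at this
        linear_combination this
      rw [mul_right_cancel₀ (hI _ hx1).2.2.2.1 h1]
  rw [Finset.card_product] at hc
  rw [nsmul_eq_mul]
  refine (mul_le_mul_of_nonneg_right (show _ ≤ tau h * tau h by unfold tau; exact_mod_cast hc)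
    (mul_nonneg (tau_nonneg h) (hW h))).trans_eq (by ring)

end Vale.Agent.P319
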