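import Vale.Agent.P319.N.Res

/-! BASE: cubic, quadratic and sextic symbols, formal properties (port of P026 Sym; no reciprocity).
All primes of `R` are good.  The symbols with lower entry `0` are `1` (empty product). -/

namespace Vale.Agent.P319

open scoped ComplexConjugate Real NumberField

variable {K : Type} [Field K] [NumberField K] [Stp K]

namespace SymAux

open UniqueFactorizationMonoid

/-- product of `f` over the prime factors -/
noncomputable def sy (f : R K → ℂ) (n : R K) : ℂ := ((factors n).map f).prod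

theorem sy_zero (f : R K → ℂ) : sy f 0 = 1 := by simp [sy]

theorem sy_eq {f : R K → ℂ} (hf : ∀ p q, Associated p q → f p = f q) {n : R K} (hn : n ≠ 0)
    {s : Multiset (R K)} (hs : ∀ x ∈ s, Irreducible x) (h : Associated s.prod n) :
    sy f n = (s.map f).prod := by
  have h1 := factors_unique (irreducible_of_factor (a := n)) hs ((factors_prod hn).trans h.symm)
  have h2 : Multiset.Rel (· = ·) ((factors n).map f) (s.map f) :=
    Multiset.rel_map.2 (h1.mono fun a _ b _ hab => hf a b hab)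
  rw [sy, Multiset.rel_eq.1 h2]

theorem sy_prime {f : R K → ℂ} (hf : ∀ p q, Associated p q → f p = f q) {p : R K} (hp : Prime p) :
    sy f p = f p := by
  rw [sy_eq hf hp.ne_zero (s := {p}) (by simpa using hp.irreducible) (by simp)]
  simp

theorem sy_unit {f : R K → ℂ} (hf : ∀ p q, Associated p q → f p = f q) {u : R K} (hu : IsUnit u) :
    sy f u = 1 := by
  rw [sy_eq hf hu.ne_zero (s := 0) (by simp) (by simpa using (associated_one_iff_isUnit.2 hu).symm)]
  simp

theorem sy_mul {f : R K → ℂ} (hf : ∀ p q, Associated p q → f p = f q) {m n : R K} (hm : m ≠ 0)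
    (hn : n ≠ 0) : sy f (m * n) = sy f m * sy f n := by
  rw [sy_eq hf (mul_ne_zero hm hn) (s := factors m + factors n)
    (fun x hx => (Multiset.mem_add.1 hx).elim (irreducible_of_factor x) (irreducible_of_factor x))
    (by rw [Multiset.prod_add]; exact (factors_prod hm).mul_mul (factors_prod hn))]
  simp [sy]

theorem sy_associated {f : R K → ℂ} (hf : ∀ p q, Associated p q → f p = f q) {m n : R K}
    (h : Associated m n) : sy f m = sy f n := by
  by_cases hm : m = 0
  · subst hm
    rw [(associated_zero_iff_eq_zero n).1 h.symm]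
  · obtain ⟨u, rfl⟩ := h
    rw [sy_mul hf hm u.ne_zero, sy_unit hf u.isUnit, mul_one]

theorem sy_congr {f g : R K → ℂ} {n : R K} (h : ∀ p, Prime p → p ∣ n → f p = g p) :
    sy f n = sy g n := by
  rw [sy, sy, Multiset.map_congr rfl fun p hp => h p (prime_of_factor p hp) (dvd_of_mem_factors hp)]

theorem sy_mul_fun (f g : R K → ℂ) (n : R K) : sy (fun p => f p * g p) n = sy f n * sy g n := by
  simp [sy, Multiset.prod_map_mul]

theorem sy_one (n : R K) : sy (fun _ => 1) n = 1 := by simp [sy]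

theorem sy_pow (f : R K → ℂ) (n : R K) (k : ℕ) : sy (fun p => f p ^ k) n = sy f n ^ k := by
  simp [sy, Multiset.prod_map_pow]

theorem sy_conj (f : R K → ℂ) (n : R K) : conj (sy f n) = sy (fun p => conj (f p)) n := by
  simp [sy, map_multiset_prod, Multiset.map_map]

theorem norm_sy_le {f : R K → ℂ} (h : ∀ p, ‖f p‖ ≤ 1) (n : R K) : ‖sy f n‖ ≤ 1 := by
  unfold sy
  induction factors n using Multiset.induction_on with
  | empty => simp
  | cons a s ih =>
    rw [Multiset.map_cons, Multiset.prod_cons, norm_mul]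
    exact mul_le_one₀ (h a) (norm_nonneg _) ih

theorem sy_eq_zero {f : R K → ℂ} {a n : R K} (hn : n ≠ 0) (h : ¬IsCoprime a n)
    (hf : ∀ p, Prime p → p ∣ n → p ∣ a → f p = 0) : sy f n = 0 := by
  by_contra h0
  refine h ((isCoprime_of_irreducible_dvd (by simp [hn]) fun z hz hza hzn => ?_))
  obtain ⟨q, hq, hzq⟩ := exists_mem_factors_of_dvd hn hz hzn
  refine h0 (Multiset.prod_eq_zero (Multiset.mem_map.2 ⟨q, hq, ?_⟩))
  exact hf q (prime_of_factor q hq) (dvd_of_mem_factors hq) (hzq.symm.dvd.trans hza)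

theorem field_facts {p : R K} (hp : Prime p) :
    (∀ a, ¬p ∣ a → p ∣ a ^ (nm p - 1) - 1) ∧
    (∀ k, k ≠ 0 → k < nm p - 1 → ∃ a, ¬p ∣ a ∧ ¬p ∣ a ^ k - 1) ∧
    (¬p ∣ 2 → ∀ a, ¬p ∣ a → (p ∣ a ^ (nm p / 2) - 1 ↔ ∃ x, p ∣ a - x ^ 2)) := by
  have hmax : (Ideal.span {p}).IsMaximal :=
    PrincipalIdealRing.isMaximal_of_irreducible hp.irreducible
  let _ : Field (R K ⧸ Ideal.span {p}) := Ideal.Quotient.field _
  have hc := card_quot p
  have : Finite (R K ⧸ Ideal.span {p}) :=
    Nat.finite_of_card_ne_zero (by rw [hc]; exact (nm_pos hp.ne_zero).ne')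
  let _ : Fintype (R K ⧸ Ideal.span {p}) := Fintype.ofFinite _
  have hc' : Fintype.card (R K ⧸ Ideal.span {p}) = nm p := by rw [← hc, Nat.card_eq_fintype_card]
  have hz : ∀ x : R K, p ∣ x ↔ Ideal.Quotient.mk (Ideal.span {p}) x = 0 := fun x => by
    rw [Ideal.Quotient.eq_zero_iff_mem, Ideal.mem_span_singleton]
  refine ⟨fun a ha => ?_, fun k hk hlt => ?_, fun h2 a ha => ?_⟩
  · rw [hz] at ha ⊢
    rw [map_sub, map_pow, map_one, ← hc', FiniteField.pow_card_sub_one_eq_one _ ha, sub_self]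
  · obtain ⟨u, hu⟩ := exists_pow_ne_one_of_isCyclic (G := (R K ⧸ Ideal.span {p})ˣ) hk
      (by rw [Nat.card_units, hc]; exact hlt)
    obtain ⟨a, ha⟩ := Ideal.Quotient.mk_surjective (u : R K ⧸ Ideal.span {p})
    refine ⟨a, ?_, ?_⟩
    · rw [hz, ha]; exact u.ne_zero
    · rw [hz, map_sub, map_pow, map_one, ha, sub_eq_zero]
      exact fun h => hu (Units.ext (by simpa using h))
  · have hF : ringChar (R K ⧸ Ideal.span {p}) ≠ 2 := by
      intro h
      refine h2 ((hz 2).2 ?_)
      have := (ringChar.spec (R K ⧸ Ideal.span {p}) 2).2 (by rw [h])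
      rw [map_ofNat]
      exact_mod_cast this
    rw [hz] at ha
    rw [hz, map_sub, map_pow, map_one, sub_eq_zero, ← hc', ← FiniteField.isSquare_iff hF ha]
    constructor
    · rintro ⟨y, hy⟩
      obtain ⟨x, rfl⟩ := Ideal.Quotient.mk_surjective y
      exact ⟨x, by rw [hz, map_sub, map_pow, hy, pow_two, sub_self]⟩
    · rintro ⟨x, hx⟩
      rw [hz, map_sub, map_pow, sub_eq_zero] at hx
      exact ⟨_, by rw [hx, pow_two]⟩

theorem cubP_assoc (a : R K) (p q : R K) (h : Associated p q) : cubP a p = cubP a q := by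
  classical
  simp only [cubP, nm_of_associated h, h.dvd_iff_dvd_left]

theorem quadP_assoc (a : R K) (p q : R K) (h : Associated p q) : quadP a p = quadP a q := by
  classical
  simp only [quadP, nm_of_associated h, h.dvd_iff_dvd_left]

theorem pow_congr {p a b : R K} (h : p ∣ a - b) (k : ℕ) : p ∣ a ^ k - b ^ k :=
  h.trans (sub_dvd_pow_sub_pow a b k)

theorem dvd_congr {p x y c : R K} (h : p ∣ x - y) : p ∣ x - c ↔ p ∣ y - c := by
  constructor
  · intro h'
    have := dvd_sub h' h
    rwa [show x - c - (x - y) = y - c by ring] at this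
  · intro h'
    have := dvd_add h' h
    rwa [show y - c + (x - y) = x - c by ring] at this

theorem sub_congr {p x c d : R K} (h : p ∣ x - c) (h' : p ∣ x - d) : p ∣ c - d := by
  have := dvd_sub h' h
  rwa [sub_sub_sub_cancel_left] at this

theorem mul_congr {p x y c d : R K} (h : p ∣ x - c) (h' : p ∣ y - d) : p ∣ x * y - c * d := by
  have := dvd_add (h.mul_right y) (h'.mul_left c)
  rwa [show (x - c) * y + c * (y - d) = x * y - c * d by ring] at this

end SymAux

open SymAux

theorem isUnit_one_sub_om : IsUnit (1 - om : R K) :=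
  isUnit_of_dvd_unit ⟨1 - om ^ 2, by linear_combination om_sq_add (K := K) - om_cube (K := K)⟩ isUnit_three
/-- the cube roots of unity are distinct modulo a prime -/
theorem z3_pow_congr {p : R K} (hp : Prime p) {i j : ℕ} (h : p ∣ om ^ i - om ^ j) :
    z3 ^ i = z3 ^ j := by
  rw [pow_eq_pow_mod i om_cube, pow_eq_pow_mod j om_cube] at h
  rw [pow_eq_pow_mod i z3_cube, pow_eq_pow_mod j z3_cube]
  have key : ∀ x : R K, (1 - om) * x = om ^ (i % 3) - om ^ (j % 3) → IsUnit x → False :=
    fun x e hx => Prime.not_dvd_unit hp (isUnit_one_sub_om.mul hx) (e ▸ h)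
  have h1 : IsUnit (om : R K) := isUnit_om
  have hi : i % 3 < 3 := Nat.mod_lt _ (by norm_num)
  have hj : j % 3 < 3 := Nat.mod_lt _ (by norm_num)
  have e := om_sq_add (K := K)
  interval_cases i % 3 <;> interval_cases j % 3
  · rfl
  · exact (key 1 (by ring) isUnit_one).elim
  · exact (key (-om ^ 2) (by linear_combination (om - 1) * e) (h1.pow 2).neg).elim
  · exact (key (-1) (by ring) isUnit_one.neg).elim
  · rfl
  · exact (key om (by ring) h1).elim
  · exact (key (om ^ 2) (by linear_combination (1 - om) * e) (h1.pow 2)).elim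
  · exact (key (-om) (by ring) h1.neg).elim
  · rfl
theorem cubP_cases (a p : R K) :
    cubP a p = 0 ∨ cubP a p = 1 ∨ cubP a p = z3 ∨ cubP a p = z3 ^ 2 := by
  unfold cubP
  split_ifs <;> simp
theorem cubP_of_dvd {p a : R K} (hp : Prime p) {j : ℕ} (h : p ∣ a ^ ((nm p - 1) / 3) - om ^ j) :
    cubP a p = z3 ^ j := by
  unfold cubP
  split_ifs with c1 c2 c3
  · rw [← z3_pow_congr hp (i := 0) (sub_congr (by rwa [pow_zero]) h), pow_zero]
  · rw [← z3_pow_congr hp (i := 1) (sub_congr (by rwa [pow_one]) h), pow_one]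
  · exact z3_pow_congr hp (sub_congr c3 h)
  · rw [pow_eq_pow_mod j om_cube] at h
    have hj : j % 3 < 3 := Nat.mod_lt _ (by norm_num)
    interval_cases j % 3
    · exact absurd (by rwa [pow_zero] at h) c1
    · exact absurd (by rwa [pow_one] at h) c2
    · exact absurd h c3
theorem cubP_eq_zero {p a : R K} (hp : Prime p) (h : p ∣ a) : cubP a p = 0 := by
  have h7 := seven_le_nm hp.ne_zero hp.not_isUnit
  have h1 : p ∣ a ^ ((nm p - 1) / 3) - 0 := by rw [sub_zero]; exact dvd_pow h (by omega)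
  have key : ∀ u : R K, IsUnit u → ¬p ∣ a ^ ((nm p - 1) / 3) - u := fun u hu h2 =>
    Prime.not_dvd_unit hp hu (by simpa using sub_congr h2 h1)
  rw [cubP, if_neg (key _ isUnit_one), if_neg (key _ isUnit_om), if_neg (key _ (isUnit_om.pow 2))]
theorem exists_cubP {p a : R K} (hp : Prime p) (ha : ¬p ∣ a) :
    ∃ j < 3, p ∣ a ^ ((nm p - 1) / 3) - om ^ j ∧ cubP a p = z3 ^ j := by
  have h3 := nm_mod_three hp.ne_zero
  have h := (field_facts hp).1 a ha
  have e : nm p - 1 = (nm p - 1) / 3 * 3 := by omega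
  rw [e, pow_mul] at h
  have e2 : ∀ y : R K, y ^ 3 - 1 = (y - om ^ 0) * ((y - om ^ 1) * (y - om ^ 2)) := fun y => by
    linear_combination (y ^ 2 - y) * om_sq_add (K := K) + (1 - y) * om_cube (K := K)
  rw [e2] at h
  rcases hp.dvd_or_dvd h with h | h
  · exact ⟨0, by norm_num, h, cubP_of_dvd hp h⟩
  · rcases hp.dvd_or_dvd h with h | h
    · exact ⟨1, by norm_num, h, cubP_of_dvd hp h⟩
    · exact ⟨2, by norm_num, h, cubP_of_dvd hp h⟩
theorem cub_prime {p : R K} (hp : Prime p) (a : R K) : cub a p = cubP a p :=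
  sy_prime (cubP_assoc a) hp
theorem cub_prime_of_dvd {p a : R K} (hp : Prime p) {j : ℕ}
    (h : p ∣ a ^ ((nm p - 1) / 3) - om ^ j) : cub a p = z3 ^ j := by
  rw [cub_prime hp, cubP_of_dvd hp h]
theorem exists_cub_prime {p a : R K} (hp : Prime p) (ha : ¬p ∣ a) :
    ∃ j < 3, p ∣ a ^ ((nm p - 1) / 3) - om ^ j ∧ cub a p = z3 ^ j := by
  rw [cub_prime hp]
  exact exists_cubP hp ha
@[simp] theorem cub_zero_right (a : R K) : cub a 0 = 1 := sy_zero _
theorem cub_unit_right {u : R K} (hu : IsUnit u) (a : R K) : cub a u = 1 := sy_unit (cubP_assoc a) hu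
@[simp] theorem cub_one_right (a : R K) : cub a 1 = 1 := cub_unit_right isUnit_one a
theorem cub_mul_right {m n : R K} (hm : m ≠ 0) (hn : n ≠ 0) (a : R K) :
    cub a (m * n) = cub a m * cub a n := sy_mul (cubP_assoc a) hm hn
theorem cub_pow_right {n : R K} (hn : n ≠ 0) (a : R K) (k : ℕ) : cub a (n ^ k) = cub a n ^ k := by
  induction k with
  | zero => simp
  | succ k ih => rw [pow_succ, cub_mul_right (pow_ne_zero _ hn) hn, ih, pow_succ]
theorem cub_associated {m n : R K} (h : Associated m n) (a : R K) : cub a m = cub a n :=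
  sy_associated (cubP_assoc a) h
theorem cub_pp (a n : R K) : cub a (pp n) = cub a n := (cub_associated (associated_pp n) a).symm
theorem cub_unit_mul_right (u : (R K)ˣ) (a n : R K) : cub a ((u : R K) * n) = cub a n :=
  cub_associated (associated_unit_mul_left _ _ u.isUnit) a
theorem SymAux.cubP_mul {p : R K} (hp : Prime p) (a b : R K) :
    cubP (a * b) p = cubP a p * cubP b p := by
  by_cases ha : p ∣ a
  · rw [cubP_eq_zero hp ha, cubP_eq_zero hp (ha.mul_right b), zero_mul]
  by_cases hb : p ∣ b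
  · rw [cubP_eq_zero hp hb, cubP_eq_zero hp (hb.mul_left a), mul_zero]
  obtain ⟨i, -, h1, h2⟩ := exists_cubP hp ha
  obtain ⟨j, -, h3, h4⟩ := exists_cubP hp hb
  rw [h2, h4, ← pow_add]
  exact cubP_of_dvd hp (by rw [mul_pow, pow_add]; exact mul_congr h1 h3)
theorem cub_mul_left (a b n : R K) : cub (a * b) n = cub a n * cub b n :=
  (sy_congr fun _ hp _ => cubP_mul hp a b).trans (sy_mul_fun (cubP a) (cubP b) n)
@[simp] theorem cub_one_left (n : R K) : cub 1 n = 1 := by
  refine Eq.trans ?_ (sy_one n)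
  exact sy_congr fun p _ _ => by simp [cubP]
theorem cub_pow_left (a n : R K) (k : ℕ) : cub (a ^ k) n = cub a n ^ k := by
  induction k with
  | zero => simp
  | succ k ih => rw [pow_succ, cub_mul_left, ih, pow_succ]
theorem cub_congr {a b n : R K} (h : n ∣ a - b) : cub a n = cub b n := by
  refine sy_congr fun p _ hpn => ?_
  classical
  simp only [cubP, dvd_congr (pow_congr (hpn.trans h) ((nm p - 1) / 3))]
theorem cub_per (n : R K) : Per n fun a => cub a n := fun _ _ h => cub_congr h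
theorem cub_cube {a n : R K} (h : IsCoprime a n) : cub a n ^ 3 = 1 := by
  refine (sy_pow (cubP a) n 3).symm.trans (Eq.trans ?_ (sy_one n))
  refine sy_congr fun p hp hpn => ?_
  obtain ⟨j, -, -, h2⟩ := exists_cubP hp fun hpa => hp.not_isUnit (h.isUnit_of_dvd' hpa hpn)
  rw [h2, ← pow_mul, mul_comm, pow_mul, z3_cube, one_pow]
theorem cub_neg_left (a n : R K) : cub (-a) n = cub a n := by
  have h1 : cub (-1) n = 1 := by
    rw [show (-1 : R K) = (-1) ^ 3 by norm_num, cub_pow_left]
    exact cub_cube isCoprime_one_left.neg_left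
  rw [← neg_one_mul, cub_mul_left, h1, one_mul]
theorem norm_cub {a n : R K} (h : IsCoprime a n) : ‖cub a n‖ = 1 := by
  have := congrArg norm (cub_cube h)
  rw [norm_pow, norm_one] at this
  exact (pow_eq_one_iff_of_nonneg (norm_nonneg _) (by norm_num)).1 this
theorem cub_ne_zero {a n : R K} (h : IsCoprime a n) : cub a n ≠ 0 :=
  norm_ne_zero_iff.1 (by rw [norm_cub h]; exact one_ne_zero)
theorem norm_cub_le (a n : R K) : ‖cub a n‖ ≤ 1 := by
  refine norm_sy_le (fun p => ?_) n
  rcases cubP_cases a p with h | h | h | h <;> simp [h, norm_z3]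
theorem conj_cub (a n : R K) : conj (cub a n) = cub a n ^ 2 := by
  refine (sy_conj _ n).trans (Eq.trans ?_ (sy_pow (cubP a) n 2))
  refine sy_congr fun p _ _ => ?_
  rcases cubP_cases a p with h | h | h | h <;> simp [h, conj_z3]
theorem cub_mul_conj {a n : R K} (h : IsCoprime a n) : cub a n * conj (cub a n) = 1 := by
  rw [conj_cub, ← pow_succ', cub_cube h]
theorem cub_cases {a n : R K} (h : IsCoprime a n) :
    cub a n = 1 ∨ cub a n = z3 ∨ cub a n = z3 ^ 2 := by
  have h1 : (cub a n - 1) * (cub a n ^ 2 + cub a n + 1) = 0 := by linear_combination cub_cube h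
  exact (mul_eq_zero.1 h1).imp sub_eq_zero.1 eq_z3_or
theorem cub_eq_zero {a n : R K} (hn : n ≠ 0) (h : ¬IsCoprime a n) : cub a n = 0 :=
  sy_eq_zero hn h fun _ hp _ hpa => cubP_eq_zero hp hpa
theorem cub_cube_left {n : R K} (hn : n ≠ 0) (a : R K) : cub (a ^ 3) n = ind (IsCoprime a n) := by
  rw [cub_pow_left]
  by_cases h : IsCoprime a n
  · rw [cub_cube h, ind_of h]
  · rw [cub_eq_zero hn h, ind_of_not h]; simp
theorem cub_cube_right {n : R K} (hn : n ≠ 0) (a : R K) : cub a (n ^ 3) = ind (IsCoprime a n) := by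
  rw [cub_pow_right hn, ← cub_pow_left, cub_cube_left hn]
theorem isCoprime_unit (u : (R K)ˣ) (n : R K) : IsCoprime (u : R K) n :=
  ⟨(u⁻¹ : (R K)ˣ), 0, by simp⟩
theorem cub_unit_cube (u : (R K)ˣ) (n : R K) : cub ((u : R K) ^ 3) n = 1 := by
  rw [cub_pow_left, cub_cube (isCoprime_unit u n)]
theorem cub_unit_inv (u : (R K)ˣ) (n : R K) : cub ((u⁻¹ : (R K)ˣ) : R K) n = conj (cub u n) := by
  refine mul_left_cancel₀ (cub_ne_zero (isCoprime_unit u n)) ?_
  rw [← cub_mul_left, Units.mul_inv, cub_one_left, cub_mul_conj (isCoprime_unit u n)]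
theorem exists_cub_ne_one {p : R K} (hp : Prime p) : ∃ a, IsCoprime a p ∧ cub a p ≠ 1 := by
  have h7 := seven_le_nm hp.ne_zero hp.not_isUnit
  obtain ⟨a, ha, h⟩ := (field_facts hp).2.1 ((nm p - 1) / 3) (by omega) (by omega)
  refine ⟨a, (hp.irreducible.coprime_iff_not_dvd.2 ha).symm, fun h1 => h ?_⟩
  obtain ⟨j, hj, h2, h3⟩ := exists_cub_prime hp ha
  rw [h1] at h3
  interval_cases j
  · rwa [pow_zero] at h2
  · exact absurd (by rw [h3, pow_one]) z3_ne_one
  · exact absurd h3.symm z3_sq_ne_one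
theorem cub_prime_eq_one_iff_dvd {p a : R K} (hp : Prime p) :
    cub a p = 1 ↔ p ∣ a ^ ((nm p - 1) / 3) - 1 := by
  refine ⟨fun h1 => ?_, fun h => by rw [cub_prime_of_dvd hp (j := 0) (by rwa [pow_zero]), pow_zero]⟩
  have ha : ¬p ∣ a := fun h => by
    rw [cub_prime hp, cubP_eq_zero hp h] at h1
    exact zero_ne_one h1
  obtain ⟨j, hj, h2, h3⟩ := exists_cub_prime hp ha
  rw [h1] at h3
  interval_cases j
  · rwa [pow_zero] at h2
  · exact absurd (by rw [h3, pow_one]) z3_ne_one
  · exact absurd h3.symm z3_sq_ne_one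
theorem cub_prime_eq_one_iff {p a : R K} (hp : Prime p) (h : ¬p ∣ a) :
    cub a p = 1 ↔ ∃ x, p ∣ a - x ^ 3 := by
  refine ⟨fun h1 => ?_, fun ⟨x, hx⟩ => ?_⟩
  · have hmax : (Ideal.span {p}).IsMaximal :=
      PrincipalIdealRing.isMaximal_of_irreducible hp.irreducible
    let _ : Field (R K ⧸ Ideal.span {p}) := Ideal.Quotient.field _
    have := finite_quot hp.ne_zero
    have hz : ∀ x : R K, p ∣ x ↔ Ideal.Quotient.mk (Ideal.span {p}) x = 0 := fun x => by
      rw [Ideal.Quotient.eq_zero_iff_mem, Ideal.mem_span_singleton]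
    obtain ⟨g, hg⟩ := IsCyclic.exists_monoid_generator (α := (R K ⧸ Ideal.span {p})ˣ)
    have ho := orderOf_eq_card_of_forall_mem_powers hg
    rw [Nat.card_units, card_quot] at ho
    obtain ⟨k, hk⟩ := hg (Units.mk0 _ (mt (hz a).2 h))
    have hk' : (g : R K ⧸ Ideal.span {p}) ^ k = Ideal.Quotient.mk _ a := by
      simpa using congrArg Units.val hk
    rw [cub_prime_eq_one_iff_dvd hp, hz, map_sub, map_pow, map_one, sub_eq_zero, ← hk',
      ← pow_mul, ← Units.val_pow_eq_pow_val, Units.val_eq_one, ← orderOf_dvd_iff_pow_eq_one,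
      ho] at h1
    have h7 := seven_le_nm hp.ne_zero hp.not_isUnit
    obtain ⟨s, hs⟩ : ∃ s, nm p = 3 * s + 1 := ⟨nm p / 3, by have := nm_mod_three hp.ne_zero; omega⟩
    rw [hs, Nat.add_sub_cancel, Nat.mul_div_cancel_left _ three_pos] at h1
    obtain ⟨j, rfl⟩ := Nat.dvd_of_mul_dvd_mul_right (by omega) h1
    obtain ⟨x, hx⟩ := Ideal.Quotient.mk_surjective ((g : R K ⧸ Ideal.span {p}) ^ j)
    exact ⟨x, by rw [hz, map_sub, map_pow, hx, ← hk', ← pow_mul, mul_comm, sub_self]⟩
  · rw [cub_congr hx, cub_cube_left hp.ne_zero, ind_of]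
    refine (hp.irreducible.coprime_iff_not_dvd.2 fun h2 => h ?_).symm
    simpa using dvd_add hx (dvd_pow h2 three_ne_zero)
theorem cub_om {n : R K} (hn : n ≠ 0) : cub om n = z3 ^ ((nm n - 1) / 3) := by
  induction n using UniqueFactorizationMonoid.induction_on_prime with
  | h₁ => exact absurd rfl hn
  | h₂ u hu => rw [cub_unit_right hu, isUnit_iff_nm.1 hu]; simp
  | h₃ n p h0 hp ih =>
    rw [cub_mul_right hp.ne_zero h0, ih h0, cub_prime_of_dvd hp (j := (nm p - 1) / 3) (by simp),
      ← pow_add, pow_eq_pow_mod _ z3_cube, pow_eq_pow_mod ((nm (p * n) - 1) / 3) z3_cube]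
    congr 1
    obtain ⟨s, hs⟩ : ∃ s, nm p = 3 * s + 1 := ⟨nm p / 3, by have := nm_mod_three hp.ne_zero; omega⟩
    obtain ⟨t, ht⟩ : ∃ t, nm n = 3 * t + 1 := ⟨nm n / 3, by have := nm_mod_three h0; omega⟩
    rw [nm_mul, hs, ht, show (3 * s + 1) * (3 * t + 1) = 9 * (s * t) + 3 * s + 3 * t + 1 by ring]
    omega

theorem quadP_cases (a p : R K) : quadP a p = 0 ∨ quadP a p = 1 ∨ quadP a p = -1 := by
  unfold quadP
  split_ifs <;> simp
theorem quadP_of_dvd {p a : R K} (hp : Prime p) {j : ℕ}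
    (h : p ∣ a ^ ((nm p - 1) / 2) - (-1) ^ j) : quadP a p = (-1) ^ j := by
  rcases neg_one_pow_eq_or (R K) j with e | e
  · have e' : (-1 : ℂ) ^ j = 1 := by
      rcases Nat.even_or_odd j with h1 | h1
      · exact h1.neg_one_pow
      · rw [h1.neg_one_pow] at e
        exact absurd (show (2 : R K) = 0 by linear_combination -e) isUnit_two.ne_zero
    rw [e] at h
    rw [quadP, if_pos h, e']
  · have e' : (-1 : ℂ) ^ j = -1 := by
      rcases Nat.even_or_odd j with h1 | h1
      · rw [h1.neg_one_pow] at e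
        exact absurd (show (2 : R K) = 0 by linear_combination e) isUnit_two.ne_zero
      · exact h1.neg_one_pow
    rw [e] at h
    rw [quadP, if_neg fun h1 => Prime.not_dvd_unit hp isUnit_two
      (by simpa [one_add_one_eq_two] using sub_congr h1 h), if_pos (by rwa [sub_neg_eq_add] at h), e']
theorem quadP_eq_zero {p a : R K} (hp : Prime p) (h : p ∣ a) : quadP a p = 0 := by
  have h7 := seven_le_nm hp.ne_zero hp.not_isUnit
  have h1 : p ∣ a ^ ((nm p - 1) / 2) - 0 := by rw [sub_zero]; exact dvd_pow h (by omega)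
  have key : ∀ u : R K, IsUnit u → ¬p ∣ a ^ ((nm p - 1) / 2) - u := fun u hu h2 =>
    Prime.not_dvd_unit hp hu (by simpa using sub_congr h2 h1)
  rw [quadP, if_neg (key _ isUnit_one), if_neg (by simpa using key _ isUnit_one.neg)]
theorem exists_quadP {p a : R K} (hp : Prime p) (ha : ¬p ∣ a) :
    ∃ j < 2, p ∣ a ^ ((nm p - 1) / 2) - (-1) ^ j ∧ quadP a p = (-1) ^ j := by
  have h3 := nm_mod_two hp.ne_zero
  have h := (field_facts hp).1 a ha
  have e : nm p - 1 = (nm p - 1) / 2 * 2 := by omega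
  rw [e, pow_mul] at h
  have e2 : ∀ y : R K, y ^ 2 - 1 = (y - (-1) ^ 0) * (y - (-1) ^ 1) := fun y => by ring
  rw [e2] at h
  rcases hp.dvd_or_dvd h with h | h
  · exact ⟨0, by norm_num, h, quadP_of_dvd hp h⟩
  · exact ⟨1, by norm_num, h, quadP_of_dvd hp h⟩
theorem quad_prime {p : R K} (hp : Prime p) (a : R K) : quad a p = quadP a p :=
  sy_prime (quadP_assoc a) hp
theorem quad_prime_of_dvd {p a : R K} (hp : Prime p) {j : ℕ}
    (h : p ∣ a ^ ((nm p - 1) / 2) - (-1) ^ j) : quad a p = (-1) ^ j := by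
  rw [quad_prime hp, quadP_of_dvd hp h]
theorem quad_prime_eq_one_iff_dvd {p a : R K} (hp : Prime p) :
    quad a p = 1 ↔ p ∣ a ^ ((nm p - 1) / 2) - 1 := by
  refine ⟨fun h1 => ?_, fun h => by rw [quad_prime_of_dvd hp (j := 0) (by rwa [pow_zero]), pow_zero]⟩
  rw [quad_prime hp] at h1
  by_contra h2
  rw [quadP, if_neg h2] at h1
  split_ifs at h1 <;> norm_num at h1
theorem quad_prime_eq_one_iff {p a : R K} (hp : Prime p) (h : ¬p ∣ a) :
    quad a p = 1 ↔ ∃ x, p ∣ a - x ^ 2 := by
  have h3 := nm_mod_two hp.ne_zero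
  rw [← (field_facts hp).2.2 (Prime.not_dvd_unit hp isUnit_two) a h,
    show nm p / 2 = (nm p - 1) / 2 by omega, quad_prime_eq_one_iff_dvd hp]
@[simp] theorem quad_zero_right (a : R K) : quad a 0 = 1 := sy_zero _
theorem quad_unit_right {u : R K} (hu : IsUnit u) (a : R K) : quad a u = 1 :=
  sy_unit (quadP_assoc a) hu
@[simp] theorem quad_one_right (a : R K) : quad a 1 = 1 := quad_unit_right isUnit_one a
theorem quad_mul_right {m n : R K} (hm : m ≠ 0) (hn : n ≠ 0) (a : R K) :
    quad a (m * n) = quad a m * quad a n := sy_mul (quadP_assoc a) hm hn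
theorem quad_associated {m n : R K} (h : Associated m n) (a : R K) : quad a m = quad a n :=
  sy_associated (quadP_assoc a) h
theorem quad_pow_right {n : R K} (hn : n ≠ 0) (a : R K) (k : ℕ) : quad a (n ^ k) = quad a n ^ k := by
  induction k with
  | zero => simp
  | succ k ih => rw [pow_succ, quad_mul_right (pow_ne_zero _ hn) hn, ih, pow_succ]
theorem quad_pp (a n : R K) : quad a (pp n) = quad a n := (quad_associated (associated_pp n) a).symm
theorem quad_unit_mul_right (u : (R K)ˣ) (a n : R K) : quad a ((u : R K) * n) = quad a n :=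
  quad_associated (associated_unit_mul_left _ _ u.isUnit) a
theorem SymAux.quadP_mul {p : R K} (hp : Prime p) (a b : R K) :
    quadP (a * b) p = quadP a p * quadP b p := by
  by_cases ha : p ∣ a
  · rw [quadP_eq_zero hp ha, quadP_eq_zero hp (ha.mul_right b), zero_mul]
  by_cases hb : p ∣ b
  · rw [quadP_eq_zero hp hb, quadP_eq_zero hp (hb.mul_left a), mul_zero]
  obtain ⟨i, -, h1, h2⟩ := exists_quadP hp ha
  obtain ⟨j, -, h3, h4⟩ := exists_quadP hp hb
  rw [h2, h4, ← pow_add]
  exact quadP_of_dvd hp (by rw [mul_pow, pow_add]; exact mul_congr h1 h3)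
theorem quad_mul_left (a b n : R K) : quad (a * b) n = quad a n * quad b n :=
  (sy_congr fun _ hp _ => quadP_mul hp a b).trans (sy_mul_fun (quadP a) (quadP b) n)
@[simp] theorem quad_one_left (n : R K) : quad 1 n = 1 := by
  refine Eq.trans ?_ (sy_one n)
  exact sy_congr fun p _ _ => by simp [quadP]
theorem quad_pow_left (a n : R K) (k : ℕ) : quad (a ^ k) n = quad a n ^ k := by
  induction k with
  | zero => simp
  | succ k ih => rw [pow_succ, quad_mul_left, ih, pow_succ]
theorem quad_congr {a b n : R K} (h : n ∣ a - b) : quad a n = quad b n := by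
  refine sy_congr fun p _ hpn => ?_
  classical
  simp only [quadP, ← sub_neg_eq_add, dvd_congr (pow_congr (hpn.trans h) ((nm p - 1) / 2))]
theorem quad_per (n : R K) : Per n fun a => quad a n := fun _ _ h => quad_congr h
theorem quad_sq {a n : R K} (h : IsCoprime a n) : quad a n ^ 2 = 1 := by
  refine (sy_pow (quadP a) n 2).symm.trans (Eq.trans ?_ (sy_one n))
  refine sy_congr fun p hp hpn => ?_
  obtain ⟨j, -, -, h2⟩ := exists_quadP hp fun hpa => hp.not_isUnit (h.isUnit_of_dvd' hpa hpn)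
  rw [h2, ← pow_mul, mul_comm, pow_mul, neg_one_sq, one_pow]
theorem quad_mul_self {a n : R K} (h : IsCoprime a n) : quad a n * quad a n = 1 := by
  rw [← sq, quad_sq h]
theorem quad_cases {a n : R K} (h : IsCoprime a n) : quad a n = 1 ∨ quad a n = -1 :=
  mul_self_eq_one_iff.1 (quad_mul_self h)
theorem norm_quad {a n : R K} (h : IsCoprime a n) : ‖quad a n‖ = 1 := by
  rcases quad_cases h with e | e <;> simp [e]
theorem quad_ne_zero {a n : R K} (h : IsCoprime a n) : quad a n ≠ 0 :=
  norm_ne_zero_iff.1 (by rw [norm_quad h]; exact one_ne_zero)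
theorem norm_quad_le (a n : R K) : ‖quad a n‖ ≤ 1 := by
  refine norm_sy_le (fun p => ?_) n
  rcases quadP_cases a p with h | h | h <;> simp [h]
theorem conj_quad (a n : R K) : conj (quad a n) = quad a n := by
  refine (sy_conj _ n).trans (sy_congr fun p _ _ => ?_)
  rcases quadP_cases a p with h | h | h <;> simp [h]
theorem quad_eq_zero {a n : R K} (hn : n ≠ 0) (h : ¬IsCoprime a n) : quad a n = 0 :=
  sy_eq_zero hn h fun _ hp _ hpa => quadP_eq_zero hp hpa
theorem quad_sq_left {n : R K} (hn : n ≠ 0) (a : R K) : quad (a ^ 2) n = ind (IsCoprime a n) := by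
  rw [quad_pow_left]
  by_cases h : IsCoprime a n
  · rw [quad_sq h, ind_of h]
  · rw [quad_eq_zero hn h, ind_of_not h]; simp
theorem quad_sq_right {n : R K} (hn : n ≠ 0) (a : R K) : quad a (n ^ 2) = ind (IsCoprime a n) := by
  rw [quad_pow_right hn, ← quad_pow_left, quad_sq_left hn]
theorem quad_unit_sq (u : (R K)ˣ) (n : R K) : quad ((u : R K) ^ 2) n = 1 := by
  rw [quad_pow_left, quad_sq (isCoprime_unit u n)]
theorem quad_unit_inv (u : (R K)ˣ) (n : R K) : quad ((u⁻¹ : (R K)ˣ) : R K) n = quad u n := by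
  refine mul_left_cancel₀ (quad_ne_zero (isCoprime_unit u n)) ?_
  rw [← quad_mul_left, Units.mul_inv, quad_one_left, quad_mul_self (isCoprime_unit u n)]
theorem exists_quad_ne_one {p : R K} (hp : Prime p) : ∃ a, IsCoprime a p ∧ quad a p = -1 := by
  have h7 := seven_le_nm hp.ne_zero hp.not_isUnit
  obtain ⟨a, ha, h⟩ := (field_facts hp).2.1 ((nm p - 1) / 2) (by omega) (by omega)
  have hc := (hp.irreducible.coprime_iff_not_dvd.2 ha).symm
  exact ⟨a, hc, (quad_cases hc).resolve_left fun h1 => h ((quad_prime_eq_one_iff_dvd hp).1 h1)⟩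
theorem quad_neg_one {n : R K} (hn : n ≠ 0) : quad (-1) n = (-1) ^ ((nm n - 1) / 2) := by
  induction n using UniqueFactorizationMonoid.induction_on_prime with
  | h₁ => exact absurd rfl hn
  | h₂ u hu => rw [quad_unit_right hu, isUnit_iff_nm.1 hu]; simp
  | h₃ n p h0 hp ih =>
    rw [quad_mul_right hp.ne_zero h0, ih h0, quad_prime_of_dvd hp (j := (nm p - 1) / 2) (by simp),
      ← pow_add, pow_eq_pow_mod _ neg_one_sq, pow_eq_pow_mod ((nm (p * n) - 1) / 2) neg_one_sq]
    congr 1
    obtain ⟨s, hs⟩ : ∃ s, nm p = 2 * s + 1 := ⟨nm p / 2, by have := nm_mod_two hp.ne_zero; omega⟩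
    obtain ⟨t, ht⟩ : ∃ t, nm n = 2 * t + 1 := ⟨nm n / 2, by have := nm_mod_two h0; omega⟩
    rw [nm_mul, hs, ht, show (2 * s + 1) * (2 * t + 1) = 4 * (s * t) + 2 * s + 2 * t + 1 by ring]
    omega
theorem quad_int {n : R K} (hn : n ≠ 0) (a : ℤ) : quad a n = jacobiSym a (nm n) := by
  induction n using UniqueFactorizationMonoid.induction_on_prime with
  | h₁ => exact absurd rfl hn
  | h₂ u hu => rw [quad_unit_right hu, isUnit_iff_nm.1 hu]; simp
  | h₃ n p h0 hp ih =>
    rw [quad_mul_right hp.ne_zero h0, ih h0, nm_mul,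
      jacobiSym.mul_right' a (nm_pos hp.ne_zero).ne' (nm_pos h0).ne', Int.cast_mul]
    congr 1
    obtain ⟨l, f, h1, h2, -, h3, h4⟩ := nm_prime hp
    have : Fact l.Prime := ⟨h1⟩
    obtain ⟨s, hs⟩ : Odd l := h1.odd_of_ne_two fun h => h2 (h ▸ two_dvd_M)
    have key : ∀ f : ℕ, ∃ e, l ^ f = 2 * e + 1 ∧
        (a : ZMod l) ^ e = (legendreSym l a : ZMod l) ^ f := fun f => by
      induction f with
      | zero => exact ⟨0, by simp⟩
      | succ f ih =>
        obtain ⟨e, e1, e2⟩ := ih
        refine ⟨e * l + l / 2, ?_, ?_⟩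
        · rw [pow_succ, e1, show l / 2 = s by omega]
          linear_combination hs
        · rw [pow_add, pow_mul, ZMod.pow_card, e2, ← legendreSym.eq_pow, pow_succ]
    obtain ⟨e, e1, e2⟩ := key f
    have h5 : p ∣ (a : R K) ^ ((nm p - 1) / 2) - (jacobiSym a (nm p) : ℤ) := by
      rw [h4, jacobiSym.pow_right, ← jacobiSym.legendreSym.to_jacobiSym,
        show (l ^ f - 1) / 2 = e by omega]
      have h6 := (ZMod.intCast_eq_intCast_iff_dvd_sub (legendreSym l a ^ f) (a ^ e) l).1
        (by push_cast; exact e2.symm)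
      exact h3.trans (by exact_mod_cast Int.cast_dvd_cast (α := R K) _ _ h6)
    rcases jacobiSym.trichotomy a (nm p) with h | h | h <;> rw [h] at h5 ⊢
    · rw [quad_prime hp, quadP_eq_zero hp (hp.dvd_of_dvd_pow (by simpa using h5)), Int.cast_zero]
    · rw [quad_prime_of_dvd hp (j := 0) (by simpa using h5)]; simp
    · rw [quad_prime_of_dvd hp (j := 1) (by simpa using h5)]; simp

theorem sex_mul_right {m n : R K} (hm : m ≠ 0) (hn : n ≠ 0) (a : R K) :
    sex a (m * n) = sex a m * sex a n := by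
  simp only [sex, quad_mul_right hm hn, cub_mul_right hm hn, map_mul]
  ring
theorem sex_mul_left (a b n : R K) : sex (a * b) n = sex a n * sex b n := by
  simp only [sex, quad_mul_left, cub_mul_left, map_mul]
  ring
@[simp] theorem sex_one_right (a : R K) : sex a 1 = 1 := by simp [sex]
@[simp] theorem sex_one_left (n : R K) : sex 1 n = 1 := by simp [sex]
theorem sex_congr {a b n : R K} (h : n ∣ a - b) : sex a n = sex b n := by
  rw [sex, sex, quad_congr h, cub_congr h]
@[simp] theorem sex_zero_right (a : R K) : sex a 0 = 1 := by simp [sex]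
theorem sex_per (n : R K) : Per n fun a => sex a n := fun _ _ h => sex_congr h
theorem sex_associated {m n : R K} (h : Associated m n) (a : R K) : sex a m = sex a n := by
  rw [sex, sex, quad_associated h, cub_associated h]
theorem sex_unit_right {u : R K} (hu : IsUnit u) (a : R K) : sex a u = 1 := by
  simp [sex, quad_unit_right hu, cub_unit_right hu]
theorem sex_pp (a n : R K) : sex a (pp n) = sex a n := (sex_associated (associated_pp n) a).symm
theorem sex_pow_left (a n : R K) (k : ℕ) : sex (a ^ k) n = sex a n ^ k := by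
  rw [sex, sex, quad_pow_left, cub_pow_left, map_pow, mul_pow]
theorem sex_pow_right {n : R K} (hn : n ≠ 0) (a : R K) (k : ℕ) : sex a (n ^ k) = sex a n ^ k := by
  rw [sex, sex, quad_pow_right hn, cub_pow_right hn, map_pow, mul_pow]
theorem norm_sex {a n : R K} (h : IsCoprime a n) : ‖sex a n‖ = 1 := by
  rw [sex, norm_mul, Complex.norm_conj, norm_quad h, norm_cub h, one_mul]
theorem norm_sex_le (a n : R K) : ‖sex a n‖ ≤ 1 := by
  rw [sex, norm_mul, Complex.norm_conj]
  exact mul_le_one₀ (norm_quad_le a n) (norm_nonneg _) (norm_cub_le a n)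
theorem sex_eq_zero {a n : R K} (hn : n ≠ 0) (h : ¬IsCoprime a n) : sex a n = 0 := by
  rw [sex, quad_eq_zero hn h, zero_mul]
theorem sex_six {a n : R K} (h : IsCoprime a n) : sex a n ^ 6 = 1 := by
  rw [sex, mul_pow, ← map_pow, show 6 = 2 * 3 from rfl, pow_mul, quad_sq h, mul_comm 2, pow_mul,
    cub_cube h]
  simp
theorem sex_pow_six {n : R K} (hn : n ≠ 0) (a : R K) : sex (a ^ 6) n = ind (IsCoprime a n) := by
  rw [sex_pow_left]
  by_cases h : IsCoprime a n
  · rw [sex_six h, ind_of h]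
  · rw [sex_eq_zero hn h, ind_of_not h]; simp
theorem sex_unit_six (u : (R K)ˣ) (n : R K) : sex ((u : R K) ^ 6) n = 1 := by
  rw [sex_pow_left, sex_six (isCoprime_unit u n)]
theorem conj_sex (a n : R K) : conj (sex a n) = quad a n * cub a n := by
  rw [sex, map_mul, conj_quad, Complex.conj_conj]
theorem sex_mul_conj {a n : R K} (h : IsCoprime a n) : sex a n * conj (sex a n) = 1 := by
  rw [Complex.mul_conj', norm_sex h]
  simp

end Vale.Agent.P319
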