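import Vale.Agent.P319.N.Ray
import Vale.Agent.P319.N.Sym
import Vale.Agent.P319.N.Count

/-! BASE: the whole library (Loc, SRing, Hensel, Places, Basic, Val, Ideals, Ray, Res, Sym, Count). -/
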