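import Vale.Agent.P319.N.Loc

/-! BASE: complex places, the absolute norm `nK`, the characters `ecc`, `eTr`; existence of `Stp`.
PLAN.  Every `φ : K →+* ℂ` sends `om` to a root of `X² + X + 1`, i.e. to `z3` or `conj z3 = z3 ^ 2 ≠ z3`; so
`Pl K ⊕ Pl K ≃ (K →+* ℂ)`, `inl v ↦ v.1`, `inr v ↦ ComplexEmbedding.conjugate v.1` (`sum_emb`, `prod_emb`), and
`NumberField.Embeddings.card`.  Norm and trace: `Algebra.norm_eq_prod_embeddings ℚ ℂ`, `Algebra.trace_eq_sum_embeddings ℂ`,
`RingHom.equivRatAlgHom`.  `nK_int`: `Ideal.absNorm_span_singleton`, `Algebra.coe_norm_int`.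
`exists_stp`: `M = 6 * |disc| * ∏ c, absNorm (I c)` (`ClassGroup.mk0_surjective`, `Ideal.absNorm_mem`).
`prod_ev_rat`: `L = ℚ⟮om⟯`, `Algebra L ℂ` through `v0` restricted to `L`; `Pl K ≃ (K →ₐ[L] ℂ)`,
`Algebra.norm_eq_prod_embeddings L ℂ`; elements of `L` are `a + b om`.  `int_of_isIntegral`: trace `2a - b` and norm
`a² - ab + b²` are rational algebraic integers (complex conjugation preserves `IsIntegral ℤ`), so is the trace of
`z3 (a + b z3)`, which is `-a - b`; hence `3a, 3b ∈ ℤ`; finish modulo 3 and 9. -/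

namespace Vale.Agent.P319

open scoped ComplexConjugate Real NumberField nonZeroDivisors

theorem z3_sq_add : z3 ^ 2 + z3 + 1 = 0 := by
  have h : IsPrimitiveRoot z3 3 := by simpa [z3] using Complex.isPrimitiveRoot_exp 3 (by norm_num)
  have := h.geom_sum_eq_zero (by norm_num)
  simp only [Finset.sum_range_succ, Finset.sum_range_zero] at this
  linear_combination this
theorem z3_cube : z3 ^ 3 = 1 := by
  linear_combination (z3 - 1) * z3_sq_add
theorem z3_ne_one : z3 ≠ 1 := by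
  intro h
  have := z3_sq_add
  rw [h] at this
  norm_num at this
theorem z3_sq_ne_one : z3 ^ 2 ≠ 1 := by
  intro h
  exact z3_ne_one (by linear_combination z3_cube - z3 * h)
theorem z3_sq_ne : z3 ^ 2 ≠ z3 := by
  intro h
  exact z3_sq_ne_one (by linear_combination z3_cube - z3 * h)
theorem z3_ne_zero : z3 ≠ 0 := by
  exact Complex.exp_ne_zero _
theorem norm_z3 : ‖z3‖ = 1 := by
  have h : z3 = Complex.exp ((2 * π / 3 : ℝ) * Complex.I) := by
    rw [z3]; congr 1; push_cast; ring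
  rw [h, Complex.norm_exp_ofReal_mul_I]
theorem conj_z3 : conj z3 = z3 ^ 2 := by
  have h := Complex.mul_conj' z3
  rw [norm_z3] at h
  refine mul_left_cancel₀ z3_ne_zero ?_
  rw [h]
  push_cast
  linear_combination -z3_cube
theorem z3_re : z3.re = -1 / 2 := by
  have h := Complex.add_conj z3
  rw [conj_z3] at h
  have h2 : ((2 * z3.re : ℝ) : ℂ) = ((-1 : ℝ) : ℂ) := by
    rw [← h]; push_cast; linear_combination z3_sq_add
  have := Complex.ofReal_injective h2
  linarith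
theorem z3_im : z3.im = √3 / 2 := by
  have h : z3 = Complex.exp ((2 * π / 3 : ℝ) * Complex.I) := by
    rw [z3]; congr 1; push_cast; ring
  rw [h, Complex.exp_ofReal_mul_I_im, show 2 * π / 3 = π - π / 3 by ring, Real.sin_pi_sub,
    Real.sin_pi_div_three]
theorem isPrimitiveRoot_z3 : IsPrimitiveRoot z3 3 := by
  simpa [z3] using Complex.isPrimitiveRoot_exp 3 (by norm_num)
theorem eq_z3_or {z : ℂ} (h : z ^ 2 + z + 1 = 0) : z = z3 ∨ z = z3 ^ 2 := by
  have : (z - z3) * (z - z3 ^ 2) = 0 := by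
    linear_combination h - z * z3_sq_add + z3_cube
  rcases mul_eq_zero.1 this with h | h
  · exact Or.inl (sub_eq_zero.1 h)
  · exact Or.inr (sub_eq_zero.1 h)
theorem int_of_isIntegral {a b : ℚ} (h : IsIntegral ℤ ((a : ℂ) + b * z3)) :
    ∃ a' b' : ℤ, a = a' ∧ b = b' := by
  have key : ∀ q : ℚ, IsIntegral ℤ (q : ℂ) → ∃ k : ℤ, q = k := fun q hq => by
    obtain ⟨k, hk⟩ := IsIntegrallyClosed.isIntegral_iff.1
      ((isIntegral_algebraMap_iff (algebraMap ℚ ℂ).injective).1 hq)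
    exact ⟨k, hk.symm⟩
  have hz : IsIntegral ℤ z3 := isPrimitiveRoot_z3.isIntegral (by norm_num)
  have hc : IsIntegral ℤ ((a : ℂ) + b * z3 ^ 2) := by
    have := h.map (starRingEnd ℂ).toIntAlgHom
    simpa [conj_z3] using this
  obtain ⟨m, hm⟩ := key (2 * a - b) (by
    refine (congrArg _ ?_).mp (h.add hc)
    push_cast
    linear_combination b * z3_sq_add)
  obtain ⟨n, hn⟩ := key (-a - b) (by
    refine (congrArg _ ?_).mp ((hz.mul h).add ((hz.pow 2).mul hc))
    push_cast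
    linear_combination (a + b : ℂ) * z3_sq_add + b * z3 * z3_cube)
  obtain ⟨N, hN⟩ := key (a ^ 2 - a * b + b ^ 2) (by
    refine (congrArg _ ?_).mp (h.mul hc)
    push_cast
    linear_combination a * b * z3_sq_add + (b : ℂ) ^ 2 * z3_cube)
  have h3 : (m - n) ^ 2 = 3 * (N - n ^ 2 - (m - n) * n) := by
    have : ((m : ℚ) - n) ^ 2 = 3 * (N - n ^ 2 - (m - n) * n) := by
      rw [← hm, ← hn, ← hN]; ring
    exact_mod_cast this
  obtain ⟨c, hc⟩ := Int.prime_three.dvd_of_dvd_pow ⟨_, h3⟩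
  have hc' : (m : ℚ) - n = 3 * c := by exact_mod_cast hc
  exact ⟨c, -n - c, by linarith, by push_cast; linarith⟩

theorem ecc_add (z w : ℂ) : ecc (z + w) = ecc z * ecc w := by
  rw [ecc, ecc, ecc, ← Complex.exp_add, Complex.add_re]
  congr 1
  push_cast
  ring
@[simp] theorem ecc_zero : ecc 0 = 1 := by
  simp [ecc]
theorem norm_ecc (z : ℂ) : ‖ecc z‖ = 1 := by
  rw [ecc, show 2 * π * Complex.I * ((2 * z.re : ℝ) : ℂ) =
    ((2 * π * (2 * z.re) : ℝ) : ℂ) * Complex.I by push_cast; ring, Complex.norm_exp_ofReal_mul_I]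
theorem conj_ecc (z : ℂ) : conj (ecc z) = ecc (-z) := by
  rw [ecc, ecc, ← Complex.exp_conj]
  congr 1
  simp [map_ofNat]
theorem continuous_ecc : Continuous ecc := by
  unfold ecc
  fun_prop

theorem exists_stp_dvd' {F : Type} [Field F] [NumberField F] (w : 𝓞 F) (h : w ^ 2 + w + 1 = 0)
    {N : ℕ} (hN : N ≠ 0) : ∃ S : Stp F, S.om = w ∧ N ∣ S.M := by
  classical
  choose I hI using ClassGroup.mk0_surjective (R := 𝓞 F)
  have hd : (NumberField.discr F).natAbs ≠ 0 :=
    Int.natAbs_ne_zero.2 (NumberField.discr_ne_zero F)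
  have hI0 : ∀ c, Ideal.absNorm (I c).1 ≠ 0 := fun c =>
    mt Ideal.absNorm_eq_zero_iff.1 (nonZeroDivisors.ne_zero (I c).2)
  refine ⟨⟨w, h, N * 6 * (NumberField.discr F).natAbs * ∏ c, Ideal.absNorm (I c).1,
    by simp [hN, hd, Finset.prod_eq_zero_iff, hI0], ((dvd_mul_left 6 N).mul_right _).mul_right _,
    ?_, fun c => ⟨I c, hI c, ?_⟩⟩, rfl, ((dvd_mul_right N 6).mul_right _).mul_right _⟩
  · rw [← Int.natAbs_dvd, Int.natCast_dvd_natCast]
    exact (dvd_mul_left _ _).mul_right _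
  · exact Ideal.mem_of_dvd _ (Nat.cast_dvd_cast
      ((Finset.dvd_prod_of_mem _ (Finset.mem_univ c)).mul_left _)) (Ideal.absNorm_mem _)
theorem exists_stp {F : Type} [Field F] [NumberField F] (h : ∃ w : F, w ^ 2 + w + 1 = 0) :
    Nonempty (Stp F) := by
  obtain ⟨w, hw⟩ := h
  have hi : IsIntegral ℤ w := IsIntegral.of_pow (n := 3) (by norm_num)
    (by rw [show w ^ 3 = 1 by linear_combination (w - 1) * hw]; exact isIntegral_one)
  obtain ⟨S, -⟩ := exists_stp_dvd' (⟨w, hi⟩ : 𝓞 F) (Subtype.ext hw) one_ne_zero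
  exact ⟨S⟩
/-- `M` may be taken divisible by a given nonzero integer, with a prescribed `om` -/
theorem exists_stp_dvd {F : Type} [Field F] [NumberField F] (w : 𝓞 F) (h : w ^ 2 + w + 1 = 0)
    {N : ℕ} (hN : N ≠ 0) : ∃ S : Stp F, S.om = w ∧ N ∣ S.M := by
  exact exists_stp_dvd' w h hN

variable {K : Type} [Field K] [NumberField K] [Stp K]

theorem om_sq_add : (om : R K) ^ 2 + om + 1 = 0 := by
  have h := congrArg (algebraMap (𝓞 K) (R K)) (Stp.om_eq (K := K))
  simpa [om] using h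
theorem om_cube : (om : R K) ^ 3 = 1 := by
  linear_combination (om - 1 : R K) * om_sq_add (K := K)
theorem isUnit_om : IsUnit (om : R K) := by
  exact IsUnit.of_pow_eq_one om_cube (by norm_num)
theorem coe_om : ((om : R K) : K) = ((Stp.om : 𝓞 K) : K) := coe_int _

@[simp] theorem ev_zero (v : Pl K) : ev v 0 = 0 := map_zero v.1
@[simp] theorem ev_one (v : Pl K) : ev v 1 = 1 := map_one v.1
theorem ev_add (v : Pl K) (x y : K) : ev v (x + y) = ev v x + ev v y := map_add v.1 x y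
theorem ev_sub (v : Pl K) (x y : K) : ev v (x - y) = ev v x - ev v y := map_sub v.1 x y
theorem ev_neg (v : Pl K) (x : K) : ev v (-x) = -ev v x := map_neg v.1 x
theorem ev_mul (v : Pl K) (x y : K) : ev v (x * y) = ev v x * ev v y := map_mul v.1 x y
theorem ev_div (v : Pl K) (x y : K) : ev v (x / y) = ev v x / ev v y := map_div₀ v.1 x y
theorem ev_inv (v : Pl K) (x : K) : ev v x⁻¹ = (ev v x)⁻¹ := map_inv₀ v.1 x
theorem ev_pow (v : Pl K) (x : K) (k : ℕ) : ev v (x ^ k) = ev v x ^ k := map_pow v.1 x k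
theorem ev_natCast (v : Pl K) (k : ℕ) : ev v (k : K) = k := map_natCast v.1 k
theorem ev_intCast (v : Pl K) (k : ℤ) : ev v (k : K) = k := map_intCast v.1 k
theorem ev_eq_zero {v : Pl K} {x : K} : ev v x = 0 ↔ x = 0 := map_eq_zero v.1
theorem ev_ne_zero (v : Pl K) {x : K} (h : x ≠ 0) : ev v x ≠ 0 := mt ev_eq_zero.1 h
theorem ev_om (v : Pl K) : ev v ((om : R K) : K) = z3 := by rw [coe_om]; exact v.2
theorem emb_apply (x : K) (v : Pl K) : emb x v = ev v x := rfl
theorem emb_zero : emb (0 : K) = 0 := funext ev_zero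
theorem emb_add (x y : K) : emb (x + y) = emb x + emb y := funext fun v => ev_add v x y
theorem emb_sub (x y : K) : emb (x - y) = emb x - emb y := funext fun v => ev_sub v x y
theorem emb_neg (x : K) : emb (-x) = -emb x := funext fun v => ev_neg v x
theorem emb_mul (x y : K) : emb (x * y) = emb x * emb y := funext fun v => ev_mul v x y

theorem emb_bijective : Function.Bijective (Sum.elim (fun v : Pl K => v.1)
    fun v : Pl K => NumberField.ComplexEmbedding.conjugate v.1) := by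
  have hc : ∀ φ : K →+* ℂ, φ (Stp.om : 𝓞 K) = z3 →
      NumberField.ComplexEmbedding.conjugate φ (Stp.om : 𝓞 K) = z3 ^ 2 := fun φ h => by
    rw [NumberField.ComplexEmbedding.conjugate_coe_eq, h, conj_z3]
  refine ⟨?_, fun φ => ?_⟩
  · rintro (v | v) (w | w) h <;> simp only [Sum.elim_inl, Sum.elim_inr] at h
    · exact congrArg _ (Subtype.ext h)
    · exact absurd ((hc _ w.2).symm.trans (h ▸ v.2)) z3_sq_ne
    · exact absurd ((hc _ v.2).symm.trans (h ▸ w.2)) z3_sq_ne
    · exact congrArg _ (Subtype.ext (star_injective h))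
  · have h : φ (Stp.om : 𝓞 K) ^ 2 + φ (Stp.om : 𝓞 K) + 1 = 0 := by
      have := congrArg (φ.comp (algebraMap (𝓞 K) K)) (Stp.om_eq (K := K))
      simpa using this
    rcases eq_z3_or h with h | h
    · exact ⟨Sum.inl ⟨φ, h⟩, rfl⟩
    · refine ⟨Sum.inr ⟨NumberField.ComplexEmbedding.conjugate φ, ?_⟩, star_star φ⟩
      rw [NumberField.ComplexEmbedding.conjugate_coe_eq, h, map_pow, conj_z3]
      show _ = z3
      linear_combination z3 * z3_cube
theorem sum_emb {A : Type*} [AddCommMonoid A] (f : (K →+* ℂ) → A) : ∑ φ, f φ =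
    ∑ v : Pl K, (f v.1 + f (NumberField.ComplexEmbedding.conjugate v.1)) := by
  rw [← emb_bijective.sum_comp f, Fintype.sum_sum_type, Finset.sum_add_distrib]
  rfl
theorem prod_emb {A : Type*} [CommMonoid A] (f : (K →+* ℂ) → A) : ∏ φ, f φ =
    ∏ v : Pl K, (f v.1 * f (NumberField.ComplexEmbedding.conjugate v.1)) := by
  rw [← emb_bijective.prod_comp f, Fintype.prod_sum_type, Finset.prod_mul_distrib]
  rfl
theorem two_mul_card_Pl : 2 * Fintype.card (Pl K) = Module.finrank ℚ K := by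
  rw [← NumberField.Embeddings.card K ℂ, ← Fintype.card_of_bijective emb_bijective,
    Fintype.card_sum, two_mul]
theorem card_Pl_pos : 0 < Fintype.card (Pl K) := by
  have := two_mul_card_Pl (K := K)
  have := Module.finrank_pos (R := ℚ) (M := K)
  omega
instance : Nonempty (Pl K) := Fintype.card_pos_iff.1 card_Pl_pos
theorem emb_injective : Function.Injective (emb : K → Pl K → ℂ) := by
  intro x y h
  obtain ⟨v⟩ : Nonempty (Pl K) := inferInstance
  exact v.1.injective (congrFun h v)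
theorem isTotallyComplex : NumberField.IsTotallyComplex K := by
  refine ⟨fun w => ?_⟩
  rw [NumberField.InfinitePlace.isComplex_iff, NumberField.ComplexEmbedding.isReal_iff]
  intro h
  obtain ⟨v | v, hv⟩ := emb_bijective.2 w.embedding
  · have : Sum.inr v = (Sum.inl v : Pl K ⊕ Pl K) := emb_bijective.1 (by
      simp only [Sum.elim_inl, Sum.elim_inr] at hv ⊢
      rw [hv, h])
    cases this
  · have : Sum.inr v = (Sum.inl v : Pl K ⊕ Pl K) := emb_bijective.1 (by
      simp only [Sum.elim_inl, Sum.elim_inr] at hv ⊢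
      rw [hv, ← h, ← hv]
      exact star_star _)
    cases this
/-- `Pl K` is in bijection with the infinite places -/
theorem place_bijective :
    Function.Bijective fun v : Pl K => NumberField.InfinitePlace.mk v.1 := by
  refine ⟨fun v w h => ?_, fun w => ?_⟩
  · rcases NumberField.InfinitePlace.mk_eq_iff.1 h with h | h
    · exact Subtype.ext h
    · have : Sum.inr v = (Sum.inl w : Pl K ⊕ Pl K) := emb_bijective.1 h
      cases this
  · obtain ⟨v | v, hv⟩ := emb_bijective.2 w.embedding <;> refine ⟨v, ?_⟩ <;>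
      simp only [Sum.elim_inl, Sum.elim_inr] at hv ⊢
    · rw [hv, NumberField.InfinitePlace.mk_embedding]
    · rw [← NumberField.InfinitePlace.mk_conjugate_eq, hv, NumberField.InfinitePlace.mk_embedding]
theorem card_Pl_eq : Fintype.card (Pl K) = NumberField.InfinitePlace.nrComplexPlaces K := by
  have := isTotallyComplex (K := K)
  have h1 := two_mul_card_Pl (K := K)
  have h2 := NumberField.IsTotallyComplex.finrank K
  omega

theorem norm_eq_nK' (x : K) : ((Algebra.norm ℚ x : ℚ) : ℝ) = ∏ v : Pl K, ‖ev v x‖ ^ 2 := by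
  have h := Algebra.norm_eq_prod_embeddings ℚ ℂ x
  rw [← Fintype.prod_equiv (RingHom.equivRatAlgHom K ℂ) (fun φ : K →+* ℂ => φ x) _ fun _ => rfl,
    prod_emb] at h
  apply Complex.ofReal_injective
  rw [Complex.ofReal_ratCast, ← eq_ratCast (algebraMap ℚ ℂ), h, Complex.ofReal_prod]
  refine Finset.prod_congr rfl fun v _ => (Complex.mul_conj' _).trans ?_
  rw [Complex.ofReal_pow]
  rfl
theorem prod_norm_ev (x : K) : ∏ v : Pl K, ‖ev v x‖ ^ 2 = nK x := by
  rw [← abs_of_nonneg (Finset.prod_nonneg fun v _ => sq_nonneg ‖ev v x‖),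
    nK, Rat.cast_abs, norm_eq_nK']
theorem trace_eq_sum (x : K) :
    ((Algebra.trace ℚ K x : ℚ) : ℝ) = ∑ v : Pl K, 2 * (ev v x).re := by
  have h := trace_eq_sum_embeddings ℂ (K := ℚ) (x := x)
  rw [← Fintype.sum_equiv (RingHom.equivRatAlgHom K ℂ) (fun φ : K →+* ℂ => φ x) _ fun _ => rfl,
    sum_emb] at h
  apply Complex.ofReal_injective
  rw [Complex.ofReal_ratCast, ← eq_ratCast (algebraMap ℚ ℂ), h, Complex.ofReal_sum]
  exact Finset.sum_congr rfl fun v _ => Complex.add_conj _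
theorem eTr_eq_prod (x : K) : eTr x = ∏ v : Pl K, ecc (ev v x) := by
  rw [eTr, ← Complex.ofReal_ratCast, trace_eq_sum, Complex.ofReal_sum, Finset.mul_sum,
    Complex.exp_sum]
  rfl
/-- the norm of `K / ℚ` is positive -/
theorem norm_eq_nK (x : K) : ((Algebra.norm ℚ x : ℚ) : ℝ) = nK x := by
  rw [norm_eq_nK', prod_norm_ev]
theorem prod_ev_rat (x : K) : ∃ a b : ℚ, ∏ v : Pl K, ev v x = a + b * z3 := by
  obtain ⟨v0⟩ : Nonempty (Pl K) := inferInstance
  set w : K := ((Stp.om : 𝓞 K) : K) with hw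
  have hw2 : w ^ 2 + w + 1 = 0 := by
    simpa using congrArg (algebraMap (𝓞 K) K) (Stp.om_eq (K := K))
  let L := IntermediateField.adjoin ℚ {w}
  have key : ∀ y : L, ∃ a b : ℚ, (y : K) = a + b * w := fun ⟨y, hy⟩ => by
    have hy' : y ∈ Algebra.adjoin ℚ {w} := by
      rw [← IntermediateField.adjoin_simple_toSubalgebra_of_isAlgebraic
        (Algebra.IsAlgebraic.isAlgebraic w)]
      exact hy
    show ∃ a b : ℚ, y = a + b * w
    clear hy
    induction hy' using Algebra.adjoin_induction with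
    | mem x hx => exact ⟨0, 1, by simpa using hx⟩
    | algebraMap r => exact ⟨r, 0, by simp⟩
    | add x y _ _ hx hy =>
      obtain ⟨a, b, rfl⟩ := hx
      obtain ⟨c, d, rfl⟩ := hy
      exact ⟨a + c, b + d, by push_cast; ring⟩
    | mul x y _ _ hx hy =>
      obtain ⟨a, b, rfl⟩ := hx
      obtain ⟨c, d, rfl⟩ := hy
      exact ⟨a * c - b * d, a * d + b * c - b * d, by push_cast; linear_combination b * d * hw2⟩
  have hv : ∀ (v : Pl K) (a b : ℚ), v.1 (a + b * w) = a + b * z3 := fun v a b => by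
    rw [map_add, map_mul, map_ratCast, map_ratCast, show v.1 w = z3 from v.2]
  letI : Algebra L ℂ := (v0.1.comp (algebraMap L K)).toAlgebra
  let e : Pl K → (K →ₐ[L] ℂ) := fun v => ⟨v.1, fun y => by
    obtain ⟨a, b, h⟩ := key y
    show v.1 (y : K) = v0.1 (y : K)
    rw [h, hv, hv]⟩
  have he : Function.Bijective e := by
    refine ⟨fun v v' h => Subtype.ext (congrArg (fun f : K →ₐ[L] ℂ => (f : K →+* ℂ)) h),
      fun f => ⟨⟨f, ?_⟩, rfl⟩⟩
    exact (f.commutes ⟨w, IntermediateField.mem_adjoin_simple_self ℚ w⟩).trans v0.2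
  obtain ⟨a, b, h⟩ := key (Algebra.norm L x)
  refine ⟨a, b, ?_⟩
  rw [← hv v0, ← h]
  exact ((Algebra.norm_eq_prod_embeddings L ℂ x).trans (he.prod_comp fun f => f x).symm).symm
theorem prod_ev_int (t : 𝓞 K) : ∃ a b : ℤ, ∏ v : Pl K, ev v (t : K) = a + b * z3 := by
  obtain ⟨a, b, h⟩ := prod_ev_rat (t : K)
  obtain ⟨a', b', rfl, rfl⟩ := int_of_isIntegral (h ▸ IsIntegral.prod _ fun v _ =>
    (t.isIntegral_coe.map v.1.toIntAlgHom : IsIntegral ℤ (ev v (t : K))))
  exact ⟨a', b', by rw [h]; push_cast; rfl⟩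
theorem prod_ev_congr (t : 𝓞 K) (m : ℕ) :
    ∃ a b : ℤ, ∏ v : Pl K, ev v (1 + m * t) = 1 + m * (a + b * z3) := by
  rcases eq_or_ne m 0 with rfl | hm
  · exact ⟨0, 0, by simp⟩
  have key : ∀ s : Finset (Pl K), ∃ y : ℂ, IsIntegral ℤ y ∧
      ∏ v ∈ s, ev v (1 + m * t) = 1 + m * y := fun s => by
    induction s using Finset.induction_on with
    | empty => exact ⟨0, isIntegral_zero, by simp⟩
    | insert v s hv ih =>
      obtain ⟨y, hy, e⟩ := ih
      have ht : IsIntegral ℤ (ev v (t : K)) := t.isIntegral_coe.map v.1.toIntAlgHom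
      refine ⟨y + ev v t + m * (y * ev v t),
        (hy.add ht).add ((isIntegral_natCast m).mul (hy.mul ht)), ?_⟩
      rw [Finset.prod_insert hv, e, ev_add, ev_mul, ev_one, ev_natCast]
      ring
  obtain ⟨y, hy, e⟩ := key Finset.univ
  obtain ⟨a, b, h⟩ := prod_ev_rat (1 + m * (t : K))
  have hm' : (m : ℂ) ≠ 0 := Nat.cast_ne_zero.2 hm
  have hy2 : y = (((a - 1) / m : ℚ) : ℂ) + ((b / m : ℚ) : ℂ) * z3 := by
    push_cast
    field_simp
    linear_combination h - e
  obtain ⟨a', b', h1, h2⟩ := int_of_isIntegral (hy2 ▸ hy)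
  exact ⟨a', b', by rw [e, hy2, h1, h2]; push_cast; rfl⟩

omit [Stp K] in
theorem nK_nonneg (x : K) : 0 ≤ nK x := by
  unfold nK; positivity
omit [Stp K] in
theorem nK_pos {x : K} (h : x ≠ 0) : 0 < nK x := by
  unfold nK
  exact_mod_cast abs_pos.2 (Algebra.norm_ne_zero_iff.2 h)
omit [Stp K] in
@[simp] theorem nK_zero : nK (0 : K) = 0 := by
  simp [nK]
omit [Stp K] in
@[simp] theorem nK_one : nK (1 : K) = 1 := by
  simp [nK]
omit [Stp K] in
theorem nK_neg (x : K) : nK (-x) = nK x := by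
  have h : |Algebra.norm ℚ (-1 : K)| = 1 := by
    have h1 : Algebra.norm ℚ (-1 : K) * Algebra.norm ℚ (-1 : K) = 1 := by
      rw [← map_mul]; simp
    rcases mul_self_eq_one_iff.1 h1 with h | h <;> simp [h]
  rw [nK, nK, ← neg_one_mul, map_mul, abs_mul, h, one_mul]
omit [Stp K] in
theorem nK_mul (x y : K) : nK (x * y) = nK x * nK y := by
  simp [nK, abs_mul]
omit [Stp K] in
theorem nK_pow (x : K) (k : ℕ) : nK (x ^ k) = nK x ^ k := by
  simp [nK, abs_pow]
omit [Stp K] in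
theorem nK_inv (x : K) : nK x⁻¹ = (nK x)⁻¹ := by
  simp [nK, Algebra.norm_inv, abs_inv]
omit [Stp K] in
theorem nK_div (x y : K) : nK (x / y) = nK x / nK y := by
  rw [div_eq_mul_inv, nK_mul, nK_inv, div_eq_mul_inv]
omit [Stp K] in
theorem nK_natCast (k : ℕ) : nK (k : K) = k ^ Module.finrank ℚ K := by
  simp [nK, Algebra.norm_natCast]
omit [Stp K] in
theorem nK_int (t : 𝓞 K) : nK (t : K) = Ideal.absNorm (Ideal.span {t}) := by
  rw [Ideal.absNorm_span_singleton, nK, ← Algebra.coe_norm_int, Nat.cast_natAbs]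
  simp
omit [Stp K] in
theorem one_le_nK {t : 𝓞 K} (h : t ≠ 0) : 1 ≤ nK (t : K) := by
  rw [nK_int]
  exact_mod_cast Nat.one_le_iff_ne_zero.2
    (mt Ideal.absNorm_eq_zero_iff.1 (mt Ideal.span_singleton_eq_bot.1 h))
omit [Stp K] in
theorem nK_unit (u : (𝓞 K)ˣ) : nK ((u : 𝓞 K) : K) = 1 := by
  rw [nK_int, Ideal.span_singleton_eq_top.2 u.isUnit]
  simp
omit [Stp K] in
theorem absNorm_spanSingleton (x : K) :
    ((FractionalIdeal.absNorm (FractionalIdeal.spanSingleton (𝓞 K)⁰ x) : ℚ) : ℝ) = nK x := by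
  rw [FractionalIdeal.absNorm_span_singleton, nK]
theorem nm_int {t : 𝓞 K} (h : IsCoprime t (MM K : 𝓞 K)) :
    (nm (algebraMap (𝓞 K) (R K) t) : ℝ) = nK (t : K) := by
  rw [← absNorm_idl, idl_int h, nK_int]

omit [Stp K] in
theorem eTr_add (x y : K) : eTr (x + y) = eTr x * eTr y := by
  rw [eTr, eTr, eTr, ← Complex.exp_add, map_add]
  congr 1
  push_cast
  ring
omit [Stp K] in
@[simp] theorem eTr_zero : eTr (0 : K) = 1 := by
  simp [eTr]
omit [Stp K] in
theorem norm_eTr (x : K) : ‖eTr x‖ = 1 := by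
  rw [eTr, show 2 * π * Complex.I * ((Algebra.trace ℚ K x : ℚ) : ℂ) =
    ((2 * π * (Algebra.trace ℚ K x : ℚ) : ℝ) : ℂ) * Complex.I by push_cast; ring,
    Complex.norm_exp_ofReal_mul_I]
omit [Stp K] in
theorem conj_eTr (x : K) : conj (eTr x) = eTr (-x) := by
  rw [eTr, eTr, ← Complex.exp_conj]
  congr 1
  simp [map_ofNat]
omit [Stp K] in
theorem eTr_eq_one_iff {x : K} : eTr x = 1 ↔ ∃ k : ℤ, Algebra.trace ℚ K x = k := by
  rw [eTr, Complex.exp_eq_one_iff]
  refine exists_congr fun k => ?_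
  have h : (2 * π * Complex.I : ℂ) ≠ 0 := Complex.two_pi_I_ne_zero
  rw [mul_comm (k : ℂ), mul_right_inj' h]
  exact_mod_cast Iff.rfl
omit [Stp K] in
theorem eTr_int (t : 𝓞 K) : eTr (t : K) = 1 := by
  exact eTr_eq_one_iff.2 ⟨Algebra.trace ℤ (𝓞 K) t, (Algebra.coe_trace_int t).symm⟩
omit [Stp K] in
/-- membership in the dual of a nonzero fractional ideal -/
theorem mem_dual_iff {I : FractionalIdeal (𝓞 K)⁰ K} (hI : I ≠ 0) {ξ : K} :
    ξ ∈ FractionalIdeal.dual ℤ ℚ I ↔ ∀ x ∈ I, eTr (ξ * x) = 1 := by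
  rw [FractionalIdeal.mem_dual hI]
  refine forall₂_congr fun x _ => ?_
  rw [eTr_eq_one_iff, Algebra.traceForm_apply]
  exact ⟨fun ⟨k, hk⟩ => ⟨k, hk.symm⟩, fun ⟨k, hk⟩ => ⟨k, hk.symm⟩⟩
/-- the inverse different is contained in `M⁻¹ 𝓞 K` -/
theorem exists_int_of_eTr {ξ : K} (h : ∀ t : 𝓞 K, eTr (ξ * t) = 1) :
    ∃ t : 𝓞 K, (MM K : K) * ξ = t := by
  have h0 : (1 : FractionalIdeal (𝓞 K)⁰ K) ≠ 0 := @one_ne_zero (FractionalIdeal (𝓞 K)⁰ K) _ _ _
  have h1 : ξ ∈ FractionalIdeal.dual ℤ ℚ (1 : FractionalIdeal (𝓞 K)⁰ K) :=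
    (mem_dual_iff h0).2 fun x hx => by
      obtain ⟨t, rfl⟩ := (FractionalIdeal.mem_one_iff _).1 hx
      exact h t
  have h2 : ((NumberField.discr K : 𝓞 K) : K) ∈
      (FractionalIdeal.dual ℤ ℚ (1 : FractionalIdeal (𝓞 K)⁰ K))⁻¹ := by
    rw [← coeIdeal_differentIdeal ℤ ℚ K (𝓞 K)]
    exact FractionalIdeal.mem_coeIdeal_of_mem _ (NumberField.discr_mem_differentIdeal K (𝓞 K))
  have h3 := FractionalIdeal.mul_mem_mul h2 h1
  rw [inv_mul_cancel₀ (FractionalIdeal.dual_ne_zero ℤ ℚ h0)] at h3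
  obtain ⟨t, ht⟩ := (FractionalIdeal.mem_one_iff _).1 h3
  obtain ⟨c, hc⟩ := Stp.disc_dvd (K := K)
  refine ⟨c * t, ?_⟩
  have hM : (MM K : K) = (NumberField.discr K : K) * c := by exact_mod_cast congrArg (Int.cast (R := K)) hc
  rw [hM]
  simp only [map_mul, map_intCast] at ht ⊢
  rw [ht]
  ring

end Vale.Agent.P319
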