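import Vale.Agent.P319.N.CftLoc
import Vale.Agent.P026.Cubic

/-! The reciprocity law in `ℚ(ω)`, from P026.
Plan.  `ι : P026.O →+* F`, `⟨a, b⟩ ↦ a + b w`, is injective, every element of `F` is `ι a / m`, and an element of `F` integral
over `ℤ` lies in the image (`O` is principal, so integrally closed in its fraction field `F`).  Use `Idf` with `R = O`, `M = 3`
(`Nq p = P026.nm p` for primes, see `field_facts` in P026/Sym.lean; a prime dividing `3` is associated to `lam`, `Nq = 3`,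
`lg = 0`).  `P026.cub a n = e3 (Lg om a n)` for coprime `a, n` (`prod_factors_eq_e3`, `GP.tri`, `toC om = e3 1`).  Hence
`D (ι a) (ι b) = 0` for coprime primary `a, b` (`cub_recip`), then for all primary `a, b` (`Prim.induction` twice, `Alt.self`),
and `D (ι u) (ι a) = D (ι lam) (ι a) = 0` if `9 ∣ a - 1` (`cub_unit_congr`, `cub_lam_of_nine`).  For `U3 2 x` write
`x = 1 + 9 ι c / s`; `± x s^3 = ι a` with `9 ∣ a - 1`; every `b ≠ 0` is `u * lam^j * c` with `c` primary. -/

namespace Vale.Agent.P319.Cft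

open Vale.Agent.P026 (O)

section base

variable {F : Type} [Field F] [NumberField F] {w : F}

/-- the embedding of the Eisenstein integers -/
def baseMap (hw : w ^ 2 + w + 1 = 0) : O →+* F where
  toFun x := (x.re : F) + (x.im : F) * w
  map_one' := by simp [QuadraticAlgebra.re_one, QuadraticAlgebra.im_one]
  map_zero' := by simp
  map_add' x y := by
    simp only [QuadraticAlgebra.re_add, QuadraticAlgebra.im_add]
    push_cast
    ring
  map_mul' x y := by
    simp only [QuadraticAlgebra.re_mul, QuadraticAlgebra.im_mul]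
    push_cast
    linear_combination (-(x.im : F) * y.im) * hw

omit [NumberField F] in
theorem baseMap_apply (hw : w ^ 2 + w + 1 = 0) (x : O) :
    baseMap hw x = (x.re : F) + (x.im : F) * w := rfl

omit [NumberField F] in
theorem baseMap_om (hw : w ^ 2 + w + 1 = 0) : baseMap hw P026.om = w := by
  simp [baseMap_apply, P026.om]

theorem baseMap_injective (hw : w ^ 2 + w + 1 = 0) : Function.Injective (baseMap hw) := by
  rw [injective_iff_map_eq_zero]
  intro x hx
  have h := congrArg (baseMap hw) (P026.mul_star_self x)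
  rw [map_mul, hx, zero_mul, map_natCast] at h
  exact P026.nm_eq_zero.1 (Nat.cast_eq_zero.1 h.symm)

theorem baseMap_surj (hw : w ^ 2 + w + 1 = 0) (hF : ∀ x : F, ∃ a b : ℚ, x = a + b * w) (x : F) :
    ∃ (m : ℕ) (r : O), m ≠ 0 ∧ (m : F) * x = baseMap hw r := by
  obtain ⟨a, b, rfl⟩ := hF x
  refine ⟨a.den * b.den, ⟨a.num * b.den, b.num * a.den⟩, mul_ne_zero a.den_nz b.den_nz, ?_⟩
  have ha : (a : F) * a.den = a.num := by exact_mod_cast congrArg (Rat.cast : ℚ → F) a.mul_den_eq_num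
  have hb : (b : F) * b.den = b.num := by exact_mod_cast congrArg (Rat.cast : ℚ → F) b.mul_den_eq_num
  rw [baseMap_apply]
  push_cast
  rw [← ha, ← hb]
  ring

theorem baseMap_int (hw : w ^ 2 + w + 1 = 0) (hF : ∀ x : F, ∃ a b : ℚ, x = a + b * w) (x : F) :
    IsIntegral ℤ x ↔ ∃ r : O, x = baseMap hw r := by
  constructor
  · intro h
    letI := (baseMap hw).toAlgebra
    haveI : FaithfulSMul O F := (faithfulSMul_iff_algebraMap_injective _ _).2 (baseMap_injective hw)
    haveI : IsFractionRing O F := IsFractionRing.of_field O F fun z => by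
      obtain ⟨m, r, hm, h⟩ := baseMap_surj hw hF z
      refine ⟨r, m, ?_⟩
      rw [map_natCast, eq_div_iff (Nat.cast_ne_zero.2 hm), mul_comm]
      exact h
    obtain ⟨r, hr⟩ := IsIntegrallyClosed.isIntegral_iff.1 (h.tower_top (A := O))
    exact ⟨r, hr.symm⟩
  · rintro ⟨r, rfl⟩
    have h1 : IsIntegral ℤ w := ⟨Polynomial.X ^ 2 + Polynomial.X + 1, by monicity!, by simpa using hw⟩
    exact (isIntegral_intCast _).add ((isIntegral_intCast _).mul h1)

end base

theorem base_toC_om : P026.toC P026.om = Complex.exp (2 * Real.pi * Complex.I / 3) := by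
  have h : (2 * Real.pi * Complex.I / 3 : ℂ) = ((Real.pi - Real.pi / 3 : ℝ) : ℂ) * Complex.I := by
    push_cast; ring
  rw [h]
  apply Complex.ext
  · rw [Complex.exp_ofReal_mul_I_re, Real.cos_pi_sub, Real.cos_pi_div_three]
    simp [P026.toC, P026.om]
  · rw [Complex.exp_ofReal_mul_I_im, Real.sin_pi_sub, Real.sin_pi_div_three]
    simp [P026.toC, P026.om]

theorem base_finite {p : O} (hp : Prime p) : Finite (O ⧸ Ideal.span {p}) :=
  Nat.finite_of_card_ne_zero (by
    rw [P026.card_quot hp.ne_zero]; exact (P026.nm_pos hp.ne_zero).ne')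

theorem base_lg_three {p : O} (hp : Prime p) (h : p ∣ 3) (a : O) : lg P026.om a p = 0 := by
  have h1 : P026.lam ∣ p := by
    by_contra hl
    exact P026.SymAux.not_dvd_three hp hl h
  have h2 : Nq p = 3 := by
    rw [Nq, P026.card_quot hp.ne_zero,
      ← P026.nm_of_associated (P026.prime_lam.associated_of_dvd hp h1), P026.nm_lam]
  simp [lg, h2]

theorem base_cub {a n : O} (h : IsCoprime a n) : P026.cub a n = e3 (Lg P026.om a n) := by
  refine prod_factors_eq_e3 _ _ _ _ fun p hp hd => ?_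
  by_cases h3 : p ∣ 3
  · have h1 : P026.lam ∣ p := by
      by_contra hl
      exact P026.SymAux.not_dvd_three hp hl h3
    rw [base_lg_three hp h3, P026.SymAux.cubP_lam hp h1, map_one, e3_zero]
  · have h1 := GP.tri P026.om_sq_add ⟨hp, base_finite hp, h3⟩ (not_dvd_of_cop h hp hd)
    have h2 : Nq p = P026.nm p := P026.card_quot hp.ne_zero
    unfold P026.cubP lg
    rw [h2] at h1 ⊢
    split_ifs with c1 c2 c3
    · rw [map_one, e3_zero]
    · rw [base_toC_om, e3_one]
    · rw [map_pow, base_toC_om, e3_two]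
    · exact (c3 ((h1.resolve_left c1).resolve_left c2)).elim

theorem rec_base {D : Fam} (hD : Fml D) (hI : Idf D) {F : Type} [Field F] [NumberField F] {w : F}
    (hw : w ^ 2 + w + 1 = 0) (hF : ∀ x : F, ∃ a b : ℚ, x = a + b * w) : Rec D F w := by
  obtain ⟨ι, hι⟩ : ∃ ι, ι = baseMap hw := ⟨_, rfl⟩
  have hinj : Function.Injective ι := hι ▸ baseMap_injective hw
  have h0 : ∀ {a : O}, a ≠ 0 → ι a ≠ 0 := fun h => (map_ne_zero_iff _ hinj).2 h
  have hA := hD.alt F w hw
  have hint : ∀ x : F, IsIntegral ℤ x ↔ ∃ r : O, x = ι r := hι ▸ baseMap_int hw hF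
  have key : ∀ a b : O, a ≠ 0 → b ≠ 0 → IsCoprime a b → P026.cub a b = P026.cub b a →
      D F w (ι a) (ι b) = 0 := by
    intro a b ha hb hab h
    have h1 := hI F O ι P026.om 3 hinj P026.om_sq_add dvd_rfl
      (fun l _ _ x => ⟨fun ⟨s, hs, hx⟩ => by
          obtain ⟨r, hr⟩ := (hint _).1 hx
          exact ⟨s, r, hs, hr⟩,
        fun ⟨s, r, hs, hr⟩ => ⟨s, hs, (hint _).2 ⟨r, hr⟩⟩⟩)
      (fun p hp => base_finite hp) (fun p hp hd => base_lg_three hp (by simpa using hd))
      a b ha hb hab fun l hl hd h3 =>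
        (h3 ((Nat.prime_dvd_prime_iff_eq hl Nat.prime_three).1 hd)).elim
    rw [base_cub hab, base_cub hab.symm] at h
    rw [hι, baseMap_om, ← hι] at h1
    rw [h1, e3_injective h, sub_self]
  have k1 : ∀ p : O, Prime p → P026.Prim p → ∀ a : O, P026.Prim a → D F w (ι p) (ι a) = 0 := by
    intro p hp hp' a ha
    refine P026.Prim.induction (P := fun a => D F w (ι p) (ι a) = 0) ?_ ?_ ha
    · rw [map_one]
      exact hA.one_right (h0 hp.ne_zero)
    · intro q n hq hq' hn ih
      rw [map_mul, hA.mul_right (h0 hp.ne_zero) (h0 hq.ne_zero) (h0 hn.ne_zero), ih, add_zero]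
      by_cases h : p ∣ q
      · rw [P026.prim_eq_of_dvd hp hp' hq hq' h]
        exact hA.self (h0 hq.ne_zero)
      · exact key p q hp.ne_zero hq.ne_zero (hp.coprime_iff_not_dvd.2 h) (P026.cub_recip hp' hq')
  have k2 : ∀ a : O, P026.Prim a → ∀ c : O, P026.Prim c → D F w (ι c) (ι a) = 0 := by
    intro a ha c hc
    refine P026.Prim.induction (P := fun c => D F w (ι c) (ι a) = 0) ?_ ?_ hc
    · rw [map_one]
      exact hA.one_left (h0 ha.ne_zero)
    · intro q n hq hq' hn ih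
      rw [map_mul, hA.mul_left _ _ _ (h0 hq.ne_zero) (h0 hn.ne_zero) (h0 ha.ne_zero), ih,
        k1 q hq hq' a ha, add_zero]
  have k3 : ∀ a : O, (9 : O) ∣ a - 1 → ∀ b : O, b ≠ 0 → D F w (ι b) (ι a) = 0 := by
    intro a h9 b hb
    have ha : P026.Prim a := Dvd.dvd.trans ⟨3, by norm_num⟩ h9
    obtain ⟨u, j, c, hu, hc, rfl⟩ := P026.exists_decomp hb
    have hl := P026.prime_lam.ne_zero
    have e1 : D F w (ι u) (ι a) = 0 := by
      obtain ⟨v, rfl⟩ := hu
      refine key _ a v.ne_zero ha.ne_zero ⟨(v⁻¹ : Oˣ), 0, by simp⟩ ?_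
      rw [P026.cub_unit_right v.isUnit, P026.cub_unit_congr v.isUnit ha (n' := 1)
        (P026.lam_cube_dvd_nine.trans h9), P026.cub_unit_right isUnit_one]
    have e2 : D F w (ι P026.lam) (ι a) = 0 :=
      key _ a hl ha.ne_zero (P026.coprime_lam ha)
        (by rw [P026.cub_lam_of_nine h9, P026.cub_lam_right])
    rw [map_mul, map_mul, map_pow,
      hA.mul_left _ _ _ (mul_ne_zero (h0 hu.ne_zero) (pow_ne_zero _ (h0 hl))) (h0 hc.ne_zero)
        (h0 ha.ne_zero),
      hA.mul_left _ _ _ (h0 hu.ne_zero) (pow_ne_zero _ (h0 hl)) (h0 ha.ne_zero),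
      hA.pow_left (h0 hl) (h0 ha.ne_zero), e1, e2, k2 a ha c hc]
    ring
  intro x y hx hy
  obtain ⟨s, hs, hs'⟩ := hx
  obtain ⟨c, hc⟩ := (hint _).1 hs'
  have hs0 : (s : F) ≠ 0 := Nat.cast_ne_zero.2 fun h => hs (h ▸ dvd_zero 3)
  have h9 : (9 : ℤ) ∣ (s : ℤ) ^ 6 - 1 := by
    have h1 : s % 9 < 9 := Nat.mod_lt _ (by norm_num)
    have h2 : ((s : ℤ) ^ 6 - 1) % 9 = ((((s % 9 : ℕ) : ℤ)) ^ 6 - 1) % 9 := by
      push_cast
      exact Int.ModEq.sub ((Int.mod_modEq _ _).symm.pow 6) rfl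
    have h3 : ¬3 ∣ s % 9 := by omega
    refine Int.dvd_of_emod_eq_zero (h2.trans ?_)
    generalize s % 9 = t at *
    interval_cases t <;> simp_all
  obtain ⟨k, hk⟩ := h9
  have hk' : (s : F) ^ 6 - 1 = 9 * k := by exact_mod_cast congrArg (Int.cast : ℤ → F) hk
  have e : x * ((s : F) ^ 2) ^ 3 = ι (1 + 9 * ((k : O) + (s : O) ^ 5 * c)) := by
    simp only [map_add, map_mul, map_one, map_pow, map_natCast, map_intCast, map_ofNat, ← hc]
    linear_combination hk'
  have h9' : (9 : O) ∣ 1 + 9 * ((k : O) + (s : O) ^ 5 * c) - 1 := ⟨_, add_sub_cancel_left _ _⟩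
  have ha0 := h0 (P026.Prim.ne_zero (Dvd.dvd.trans ⟨3, by norm_num⟩ h9'))
  have hx0 : x ≠ 0 := fun h => ha0 (by rw [← e, h, zero_mul])
  obtain ⟨m, b, hm, hb⟩ := baseMap_surj hw hF y
  rw [← hι] at hb
  have hm0 : (m : F) ≠ 0 := Nat.cast_ne_zero.2 hm
  have hb0 : b ≠ 0 := fun h => mul_ne_zero hm0 hy (by rw [hb, h, map_zero])
  have e1 := k3 _ h9' b hb0
  have e2 := k3 _ h9' m (Nat.cast_ne_zero.2 hm)
  rw [map_natCast] at e2
  rw [← hb, hA.mul_left _ _ _ hm0 hy ha0, e2, zero_add, ← e,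
    hA.mul_right hy hx0 (pow_ne_zero _ (pow_ne_zero _ hs0)), hA.cube_right hy (pow_ne_zero _ hs0),
    add_zero] at e1
  exact e1

end Vale.Agent.P319.Cft
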