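import Vale.Agent.P319.N.CftGlob

/-! The global symbol in terms of Jacobi symbols.
Plan.  `idf`: for `l ∣ M`, `l ≠ 3` the term vanishes (`IsSym.eq_zero`, `BL_prime_dvd`); for `l ∤ M` let `j : R →+* BL l E` be the
restriction of `ι`; the term is `Lg (j w) (j x) (j y) - Lg (j w) (j y) (j x)`, and
`∑ᶠ l ∤ M, Lg (j w) (j a) (j n) = Lg w a n` by induction on `n ≠ 0`: a prime `p` of `R` divides a rational prime `l₀`
(the characteristic of `R / p`); for `l ≠ l₀` the element `j p` is a unit; for `l = l₀ ∤ M` the map `R / p → BL / j p` is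
bijective (`p ∣ r ↔ j p ∣ j r`, and every element of `BL` is congruent to some `j r` mod `l`), so `j p` is prime, `Nq` agrees
and `lg (j w) (j a) (j p) = lg w a p`; for `l₀ ∣ M` both sides are zero. -/

namespace Vale.Agent.P319.Cft

/-- transfer of the symbol along a map that is bijective modulo `p` -/
private theorem Lg_map {R B : Type} [CommRing R] [CommRing B] [IsDomain B] [IsPrincipalIdealRing B]
    (j : R →+* B) {p : R} (hp : Prime p) (h0 : j p ≠ 0) (h1 : ∀ r, j p ∣ j r ↔ p ∣ r)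
    (h2 : ∀ b, ∃ r, j p ∣ b - j r) (w a : R) : Lg (j w) (j a) (j p) = lg w a p := by
  have hq : Prime (j p) := by
    refine ⟨h0, fun h => hp.not_dvd_one ((h1 1).1 h.dvd), fun b c h => ?_⟩
    obtain ⟨r, hr⟩ := h2 b
    obtain ⟨r', hr'⟩ := h2 c
    have h3 : j p ∣ j (r * r') := by
      convert (h.sub (hr.mul_right c)).sub (hr'.mul_left (j r)) using 1
      rw [map_mul]; ring
    refine (hp.dvd_or_dvd ((h1 _).1 h3)).imp (fun h4 => ?_) fun h4 => ?_
    · simpa using hr.add ((h1 _).2 h4)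
    · simpa using hr'.add ((h1 _).2 h4)
  have hN : Nq p = Nq (j p) := by
    have hle : Ideal.span {p} ≤ (Ideal.span {j p}).comap j := fun r hr =>
      Ideal.mem_span_singleton.2 ((h1 r).2 (Ideal.mem_span_singleton.1 hr))
    refine Nat.card_eq_of_bijective (Ideal.quotientMap _ j hle)
      ⟨Ideal.quotientMap_injective' fun r hr =>
        Ideal.mem_span_singleton.2 ((h1 r).1 (Ideal.mem_span_singleton.1 hr)), fun b => ?_⟩
    obtain ⟨b, rfl⟩ := Ideal.Quotient.mk_surjective b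
    obtain ⟨r, hr⟩ := h2 b
    exact ⟨Ideal.Quotient.mk _ r, (Ideal.Quotient.eq.2 (Ideal.mem_span_singleton.2 hr)).symm⟩
  have e1 := h1 (a ^ ((Nq p - 1) / 3) - 1)
  have e2 := h1 (a ^ ((Nq p - 1) / 3) - w)
  rw [map_sub, map_pow] at e1 e2
  rw [map_one] at e1
  rw [Lg_prime hq, lg, lg, ← hN, e1, e2]

private theorem exists_char {R : Type} [CommRing R] {p : R} (hp : Prime p)
    (hf : Finite (R ⧸ Ideal.span {p})) : ∃ l : ℕ, l.Prime ∧ p ∣ (l : R) := by
  have := (Ideal.span_singleton_prime hp.ne_zero).2 hp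
  refine ⟨ringChar (R ⧸ Ideal.span {p}), CharP.char_is_prime (R ⧸ Ideal.span {p}) _, ?_⟩
  rw [← Ideal.mem_span_singleton, ← Ideal.Quotient.eq_zero_iff_mem, map_natCast]
  exact ringChar.Nat.cast_ringChar

section

variable {E : Type} [Field E] [NumberField E] {R : Type} [CommRing R] [IsDomain R]
  [IsPrincipalIdealRing R] {ι : R →+* E} {l : ℕ} [hl : Fact l.Prime] {j : R →+* BL l E}

omit [IsDomain R] [IsPrincipalIdealRing R] in
private theorem Lg_loc (hi : Function.Injective ι) (hj : ∀ r, (j r : E) = ι r)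
    (hL : ∀ x : E, LInt l x → ∃ (s : ℕ) (r : R), ¬l ∣ s ∧ (s : E) * x = ι r) {p : R}
    (hp : Prime p) (hpl : p ∣ (l : R)) (w a : R) : Lg (j w) (j a) (j p) = lg w a p := by
  have hc : ∀ s : ℕ, ¬l ∣ s → IsCoprime (s : R) (l : R) := fun s hs =>
    Nat.Coprime.cast ((Nat.coprime_comm.1 (hl.out.coprime_iff_not_dvd.2 hs)))
  refine Lg_map j hp (fun h => hp.ne_zero (hi ?_)) (fun r => ⟨?_, map_dvd j⟩) (fun b => ?_) w a
  · rw [← hj, h, map_zero]; rfl
  · rintro ⟨b, hb⟩
    obtain ⟨s, r', hs, e⟩ := hL b b.2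
    have h1 : (s : R) * r = p * r' := hi (by
      rw [map_mul, map_mul, map_natCast, ← e, ← hj r, hb, Subring.coe_mul, hj]; ring)
    exact (hp.dvd_or_dvd ⟨_, h1⟩).resolve_left fun h =>
      hp.not_isUnit ((hc s hs).isUnit_of_dvd' h hpl)
  · obtain ⟨s, r', hs, e⟩ := hL b b.2
    obtain ⟨u, v, huv⟩ := hc s hs
    have e' : (s : BL l E) * b = j r' := Subtype.ext (by rw [hj, ← e]; simp)
    have h1 := congrArg j huv
    rw [map_add, map_mul, map_mul, map_natCast, map_natCast, map_one] at h1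
    refine ⟨u * r', (show j p ∣ (l : BL l E) by simpa using map_dvd j hpl).trans ⟨j v * b, ?_⟩⟩
    rw [map_mul]
    linear_combination (-b) * h1 + j u * e'

omit [IsDomain R] [IsPrincipalIdealRing R] in
private theorem Lg_away {p : R} {l₀ : ℕ} (h : ¬l ∣ l₀) (hp : p ∣ (l₀ : R)) (w a : BL l E) :
    Lg w a (j p) = 0 := by
  refine Lg_unit (isUnit_of_dvd_unit (map_dvd j hp) ?_) w a
  rw [map_natCast]
  refine IsUnit.of_mul_eq_one ⟨(l₀ : E)⁻¹, LInt.inv_natCast h⟩ (Subtype.ext ?_)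
  have : (l₀ : E) ≠ 0 := Nat.cast_ne_zero.2 fun e => h (e ▸ dvd_zero _)
  simp [this]

end

theorem idf : Idf DD := by
  intro E _ _ R _ _ _ ι w M hi hw h3 hL hfin hM x y hx hy hxy hx1
  have hj : ∀ l : P3, ¬l.1 ∣ M → ∃ j : R →+* BL l.1 E, ∀ r, (j r : E) = ι r := fun l h =>
    ⟨ι.codRestrict _ fun r => (hL l.1 l.2.1 h _).2 ⟨1, r, l.2.1.not_dvd_one, by simp⟩,
      fun _ => rfl⟩
  choose j hj using hj
  have hj0 : ∀ l h {r : R}, r ≠ 0 → j l h r ≠ 0 := fun l h r hr e =>
    hr (hi (by rw [← hj l h, e, map_zero]; rfl))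
  obtain ⟨t, ht⟩ : ∃ t : R → R → P3 → ZMod 3, ∀ a n l, t a n l =
      if h : l.1 ∣ M then 0 else Lg (j l h w) (j l h a) (j l h n) := ⟨_, fun _ _ _ => rfl⟩
  have hA : ∀ a n, n ≠ 0 → (Function.support (t a n)).Finite ∧ ∑ᶠ l, t a n l = Lg w a n := by
    intro a n hn
    induction n using UniqueFactorizationMonoid.induction_on_prime with
    | h₁ => exact absurd rfl hn
    | h₂ u hu =>
      have : t a u = fun _ => 0 := funext fun l => by
        rw [ht]
        split_ifs with h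
        exacts [rfl, Lg_unit (hu.map _) _ _]
      simp [this, Lg_unit hu]
    | h₃ n p h0 hp ih =>
      obtain ⟨l₀, hl₀, hpl⟩ := exists_char hp (hfin p hp)
      have h1 : ∀ l : P3, l.1 ≠ l₀ → t a p l = 0 := fun l e => by
        rw [ht]
        split_ifs with h
        exacts [rfl, Lg_away (mt (Nat.prime_dvd_prime_iff_eq l.2.1 hl₀).1 e) hpl _ _]
      have h2 : (Function.support (t a p)).Finite :=
        Set.Finite.of_finite_image (f := Subtype.val) ((Set.finite_singleton l₀).subset (by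
          rintro _ ⟨l, hl, rfl⟩
          exact by_contra fun e => hl (h1 l e))) Subtype.val_injective.injOn
      have h4 : ∑ᶠ l, t a p l = lg w a p := by
        by_cases h : l₀ ∣ M
        · rw [hM p hp (hpl.trans (Nat.cast_dvd_cast h))]
          refine finsum_eq_zero_of_forall_eq_zero fun l => ?_
          by_cases e : l.1 = l₀
          · rw [ht, dif_pos (e ▸ h)]
          · exact h1 l e
        · obtain ⟨l, rfl⟩ : ∃ l : P3, l.1 = l₀ := ⟨⟨l₀, hl₀, fun e => h (e ▸ h3)⟩, rfl⟩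
          rw [finsum_eq_single _ l fun l' e => h1 l' fun e' => e (Subtype.ext e'), ht, dif_neg h]
          exact Lg_loc hi (hj l h) (fun z => (hL _ hl₀ h z).1) hp hpl w a
      have h5 : t a (p * n) = fun l => t a p l + t a n l := funext fun l => by
        rw [ht, ht, ht]
        split_ifs with h
        · simp
        · rw [map_mul, Lg_mul_right (hj0 l h hp.ne_zero) (hj0 l h h0)]
      rw [h5, finsum_add_distrib h2 (ih h0).1, h4, (ih h0).2, Lg_mul_right hp.ne_zero h0,
        Lg_prime hp]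
      exact ⟨(h2.union (ih h0).1).subset (Function.support_add _ _), rfl⟩
  have hw' : ι w ^ 2 + ι w + 1 = 0 := by simpa using congrArg ι hw
  rw [← (hA x y hy).2, ← (hA y x hx).2, ← finsum_sub_distrib (hA x y hy).1 (hA y x hx).1]
  refine finsum_congr fun l => ?_
  rw [ht, ht]
  split_ifs with h
  · have h1 := sL_isSym l (w := ⟨ι w, om_mem_BL hw'⟩) (Subtype.ext hw')
    have h2 : (l.1 : E) ≠ 0 := Nat.cast_ne_zero.2 l.2.1.ne_zero
    obtain ⟨z, hz⟩ : ∃ z : BL l.1 E, ((1 + l.1 * z : BL l.1 E) : E) = ι x :=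
      ⟨⟨_, hx1 l.1 l.2.1 h l.2.2⟩, by push_cast; field_simp; ring⟩
    rw [sub_zero, ← hz]
    refine h1.eq_zero (a := 1 + l.1 * z) (fun e => hx (hi ?_)) (fun π hπ => ?_)
      ((map_ne_zero_iff _ hi).2 hy)
    · rw [← hz, e, map_zero]; rfl
    · rw [add_sub_cancel_left]
      exact (BL_prime_dvd hπ).mul_right _
  · have h1 := sL_isSym l (w := j l h w) (by simpa using congrArg (j l h) hw)
    rw [← hj l h, ← hj l h, ← hj l h]
    exact h1.cop _ _ (hj0 l h hx) (hj0 l h hy) (hxy.map _)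

end Vale.Agent.P319.Cft
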