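import Vale.Agent.P319.N.CftSym

/-! The semilocal rings `BL l E`.
Plan.  `BL l E` is the localisation of `𝓞 E` at the image of `(span {l}).primeCompl ⊆ ℤ` (prove `IsLocalization` by hand,
algebra map `𝓞 E → BL l E` by `RingHom.codRestrict`), so it is Dedekind (`IsLocalization.isDedekindDomain`) and principal
(`IsDedekindDomain.isPrincipalIdealRing_localization_over_prime`).  `BL / l` is a quotient of `𝓞 E / l` (a natural number
prime to `l` is invertible mod `l`), hence finite.  A prime `π = a / s` divides a nonzero integer (the norm of `a`), which is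
`l ^ k` times a unit of `BL`, so `π ∣ l`.  `BL l E'` is spanned over `BL l E` by an integral basis of `E'`. -/

namespace Vale.Agent.P319.Cft

open scoped NumberField

variable {l : ℕ} [hl : Fact l.Prime] {E E' : Type} [Field E] [Field E']

omit hl in
theorem LInt.map (φ : E →+* E') {x : E} (h : LInt l x) : LInt l (φ x) := by
  obtain ⟨s, hs, h'⟩ := h
  exact ⟨s, hs, by simpa using map_isIntegral_int φ h'⟩

theorem LInt.of_isIntegral {x : E} (h : IsIntegral ℤ x) : LInt l x := by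
  exact ⟨1, hl.out.not_dvd_one, by simpa using h⟩

theorem LInt.inv_natCast [CharZero E] {s : ℕ} (h : ¬l ∣ s) : LInt l (s : E)⁻¹ := by
  have h0 : (s : E) ≠ 0 := by
    rw [Nat.cast_ne_zero]
    rintro rfl
    exact h (dvd_zero _)
  exact ⟨s, h, by rw [mul_inv_cancel₀ h0]; exact isIntegral_one⟩

/-- the inclusion of semilocal rings -/
def blMap (l : ℕ) [Fact l.Prime] (φ : E →+* E') : BL l E →+* BL l E' :=
  φ.restrict (BL l E) (BL l E') fun _ h => LInt.map φ h

theorem blMap_coe (φ : E →+* E') (x : BL l E) : (blMap l φ x : E') = φ x := rfl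

/-- the algebra structure given by the inclusion -/
@[reducible] def blAlg (l : ℕ) [Fact l.Prime] (E E' : Type) [Field E] [Field E'] [Algebra E E'] :
    Algebra (BL l E) (BL l E') := (blMap l (algebraMap E E')).toAlgebra

theorem blAlg_tower (l : ℕ) [Fact l.Prime] (E E' : Type) [Field E] [Field E'] [Algebra E E'] :
    letI := blAlg l E E'
    IsScalarTower (BL l E) (BL l E') E' :=
  letI := blAlg l E E'
  IsScalarTower.of_algebraMap_eq fun _ => rfl

variable [NumberField E] [NumberField E']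

omit hl in
theorem loc_den (x : E) : ∃ m : ℕ, m ≠ 0 ∧ IsIntegral ℤ ((m : E) * x) := by
  have h : IsAlgebraic ℤ x :=
    (IsFractionRing.isAlgebraic_iff ℤ ℚ E).2 (Algebra.IsAlgebraic.isAlgebraic x)
  obtain ⟨m, a, hm, ha⟩ := h.exists_nsmul_eq (𝓞 E)
  refine ⟨m, hm, ?_⟩
  rw [← nsmul_eq_mul, ha]
  exact a.isIntegral_coe

omit hl in
theorem LInt.finite_not (x : E) : {l : ℕ | l.Prime ∧ ¬LInt l x}.Finite := by
  obtain ⟨m, hm, h⟩ := loc_den x
  refine (Set.finite_Iic m).subset fun l hl => ?_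
  by_contra hc
  exact hl.2 ⟨m, fun hd => hc (Nat.le_of_dvd (Nat.pos_of_ne_zero hm) hd), h⟩

theorem LInt.exists_pow (x : E) : ∃ k : ℕ, LInt l ((l : E) ^ k * x) := by
  obtain ⟨m, hm, h⟩ := loc_den x
  obtain ⟨k, s, hs, rfl⟩ := Nat.exists_eq_pow_mul_and_not_dvd hm l hl.out.ne_one
  refine ⟨k, s, hs, ?_⟩
  rwa [show ((l ^ k * s : ℕ) : E) * x = s * (l ^ k * x) by push_cast; ring] at h

/-- the inclusion of the ring of integers -/
noncomputable def locInc (l : ℕ) [Fact l.Prime] (E : Type) [Field E] : 𝓞 E →+* BL l E :=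
  (algebraMap (𝓞 E) E).codRestrict (BL l E) fun x => LInt.of_isIntegral x.isIntegral_coe

theorem loc_unit {s : ℕ} (h : ¬l ∣ s) : IsUnit (s : BL l E) := by
  have h0 : (s : E) ≠ 0 := by
    rw [Nat.cast_ne_zero]
    rintro rfl
    exact h (dvd_zero _)
  refine IsUnit.of_mul_eq_one ⟨(s : E)⁻¹, LInt.inv_natCast h⟩ (Subtype.ext ?_)
  simp [h0]

instance : IsPrincipalIdealRing (BL l E) := by
  let : Algebra (𝓞 E) (BL l E) := (locInc l E).toAlgebra
  have hp : Prime (l : ℤ) := Nat.prime_iff_prime_int.1 hl.out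
  have : (Ideal.span {(l : ℤ)}).IsPrime := (Ideal.span_singleton_prime hp.ne_zero).2 hp
  have hM : Algebra.algebraMapSubmonoid (𝓞 E) (Ideal.span {(l : ℤ)}).primeCompl ≤
      nonZeroDivisors (𝓞 E) :=
    map_le_nonZeroDivisors_of_injective _ (FaithfulSMul.algebraMap_injective _ _)
      (Ideal.primeCompl_le_nonZeroDivisors _)
  have : IsLocalization (Algebra.algebraMapSubmonoid (𝓞 E) (Ideal.span {(l : ℤ)}).primeCompl)
      (BL l E) := by
    rw [isLocalization_iff]
    refine ⟨?_, ?_, ?_⟩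
    · rintro ⟨_, n, hn, rfl⟩
      have h1 : ¬l ∣ n.natAbs := fun h =>
        hn (Ideal.mem_span_singleton.2 (Int.natCast_dvd.2 h))
      have h2 := loc_unit (E := E) h1
      have h3 : IsUnit (n : BL l E) := by
        rcases Int.natAbs_eq n with h | h <;> rw [h] <;> simpa using h2
      simpa using h3
    · rintro ⟨z, s, hs, h⟩
      refine ⟨⟨⟨_, h⟩, ⟨(s : 𝓞 E), (s : ℤ), fun hn => hs ?_, by simp⟩⟩, Subtype.ext ?_⟩
      · exact Int.natCast_dvd_natCast.1 (Ideal.mem_span_singleton.1 hn)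
      · change z * algebraMap (𝓞 E) E (s : 𝓞 E) = (s : E) * z
        simp [mul_comm]
    · intro x y h
      refine ⟨1, ?_⟩
      have : x = y := NumberField.RingOfIntegers.ext (congrArg (fun z : BL l E => (z : E)) h)
      rw [this]
  have := IsLocalization.isDedekindDomain (𝓞 E) hM (BL l E)
  exact IsDedekindDomain.isPrincipalIdealRing_localization_over_prime (𝓞 E)
    (Ideal.span {(l : ℤ)}) (by simpa using hl.out.ne_zero)

instance : IsFractionRing (BL l E) E := by
  refine IsFractionRing.of_field _ _ fun z => ?_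
  obtain ⟨m, hm, h⟩ := loc_den z
  refine ⟨⟨_, LInt.of_isIntegral h⟩, (m : BL l E), ?_⟩
  have : (m : E) ≠ 0 := Nat.cast_ne_zero.2 hm
  change z = (m : E) * z / ((m : BL l E) : E)
  simp [this]

theorem BL_prime_dvd {π : BL l E} (hπ : Prime π) : π ∣ (l : BL l E) := by
  have h0 : (π : E) ≠ 0 := fun h => hπ.ne_zero (Subtype.ext h)
  obtain ⟨k, hk⟩ := LInt.exists_pow (l := l) (π : E)⁻¹
  refine hπ.dvd_of_dvd_pow (n := k) ⟨⟨_, hk⟩, Subtype.ext ?_⟩
  simp
  field_simp

theorem BL_finite {π : BL l E} (hπ : Prime π) : Finite (BL l E ⧸ Ideal.span {π}) := by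
  have hπl : (l : BL l E) ∈ Ideal.span {π} := Ideal.mem_span_singleton.2 (BL_prime_dvd hπ)
  have : Finite (𝓞 E ⧸ Ideal.span {(l : 𝓞 E)}) :=
    Ideal.finiteQuotientOfFreeOfNeBot _ (by simpa using hl.out.ne_zero)
  let f : 𝓞 E ⧸ Ideal.span {(l : 𝓞 E)} →+* BL l E ⧸ Ideal.span {π} :=
    Ideal.Quotient.lift _ ((Ideal.Quotient.mk _).comp (locInc l E)) fun a ha => by
      obtain ⟨b, rfl⟩ := Ideal.mem_span_singleton.1 ha
      rw [RingHom.comp_apply, Ideal.Quotient.eq_zero_iff_mem, map_mul, map_natCast]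
      exact Ideal.mul_mem_right _ _ hπl
  refine Finite.of_surjective f fun z => ?_
  obtain ⟨z, rfl⟩ := Ideal.Quotient.mk_surjective z
  obtain ⟨s, hs, h⟩ := z.2
  obtain ⟨u, v, huv⟩ := Nat.isCoprime_iff_coprime.2 ((Nat.Prime.coprime_iff_not_dvd hl.out).2 hs)
  obtain ⟨a, ha⟩ : ∃ a : 𝓞 E, algebraMap (𝓞 E) E a = (s : E) * z := ⟨⟨_, h⟩, rfl⟩
  refine ⟨Ideal.Quotient.mk _ ((v : 𝓞 E) * a), ?_⟩
  have e1 : locInc l E a = (s : BL l E) * z := Subtype.ext (ha.trans (by simp))
  have e2 : (u : BL l E) * l + v * s = 1 := by exact_mod_cast congrArg (Int.cast : ℤ → BL l E) huv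
  simp only [f, Ideal.Quotient.lift_mk, RingHom.comp_apply]
  rw [Ideal.Quotient.eq, map_mul, map_intCast, e1]
  have : (v : BL l E) * (s * z) - z = l * (-u * z) := by linear_combination z * e2
  rw [this]
  exact Ideal.mul_mem_right _ _ hπl

theorem BL_good (h3 : l ≠ 3) {w : BL l E} (hw : w ^ 2 + w + 1 = 0) : Good w := by
  refine ⟨hw, fun p hp => ⟨hp, BL_finite hp, fun h => hp.not_isUnit ?_⟩⟩
  have h1 : ¬l ∣ 3 := fun hd => h3 ((Nat.prime_dvd_prime_iff_eq hl.out Nat.prime_three).1 hd)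
  exact isUnit_of_dvd_unit (by exact_mod_cast h) (loc_unit (E := E) h1)

omit [NumberField E] in
theorem om_mem_BL {w : E} (hw : w ^ 2 + w + 1 = 0) : w ∈ BL l E := by
  refine LInt.of_isIntegral (IsIntegral.of_pow (n := 3) (by norm_num) ?_)
  rw [show w ^ 3 = 1 by linear_combination (w - 1) * hw]
  exact isIntegral_one

theorem LInt.one_add {x : E} (h : LInt l x) :
    1 + (l : E) * x ≠ 0 ∧ LInt l (1 + (l : E) * x)⁻¹ := by
  have hl0 : (l : E) ≠ 0 := Nat.cast_ne_zero.2 hl.out.ne_zero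
  have h0 : 1 + (l : E) * x ≠ 0 := by
    intro h0
    obtain ⟨s, hs, h⟩ := h
    have e : (s : E) * x = algebraMap ℚ E (-(s / l)) := by
      simp
      field_simp
      linear_combination s * h0
    rw [e, isIntegral_algebraMap_iff (algebraMap ℚ E).injective,
      IsIntegrallyClosed.isIntegral_iff] at h
    obtain ⟨y, hy⟩ := h
    have hl1 : (l : ℚ) ≠ 0 := Nat.cast_ne_zero.2 hl.out.ne_zero
    have : (s : ℚ) = l * (-y : ℤ) := by
      simp at hy
      push_cast
      rw [hy]
      field_simp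
    have : (s : ℤ) = l * (-y) := by exact_mod_cast this
    exact hs (Int.natCast_dvd_natCast.1 ⟨_, this⟩)
  refine ⟨h0, ?_⟩
  set y : BL l E := 1 + (l : BL l E) * ⟨x, h⟩ with hy
  have hy' : (y : E) = 1 + (l : E) * x := by simp [hy]
  have hu : IsUnit y := by
    by_contra hu
    obtain ⟨p, hp, hd⟩ := WfDvdMonoid.exists_irreducible_factor hu
      (fun h => h0 (by rw [← hy', h]; rfl))
    have hp' := hp.prime
    exact hp'.not_dvd_one ((dvd_add_left ((BL_prime_dvd hp').mul_right _)).1 hd)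
  obtain ⟨z, hz⟩ := hu.exists_right_inv
  have : (1 + (l : E) * x) * z = 1 := by
    rw [← hy']
    exact_mod_cast congrArg Subtype.val hz
  rw [← eq_inv_of_mul_eq_one_right this]
  exact z.2

theorem LInt.of_integral {x : E} (h : IsIntegral (BL l E) x) : LInt l x := by
  obtain ⟨y, rfl⟩ := IsIntegrallyClosed.isIntegral_iff.1 h
  exact y.2

theorem loc_ind (P : E → Prop) (h0 : P 0) (hadd : ∀ x y, P x → P y → P (x + y))
    (hz : ∀ (n : ℤ) x, P x → P (n * x)) (hs : ∀ (s : ℕ) x, ¬l ∣ s → P x → P ((s : E)⁻¹ * x))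
    (hb : ∀ i, P (algebraMap (𝓞 E) E (NumberField.RingOfIntegers.basis E i))) {t : E}
    (ht : LInt l t) : P t := by
  obtain ⟨s, hs', h⟩ := ht
  have h0' : (s : E) ≠ 0 := by
    rw [Nat.cast_ne_zero]
    rintro rfl
    exact hs' (dvd_zero _)
  have key : ∀ a : 𝓞 E, P (algebraMap (𝓞 E) E a) := by
    intro a
    have ha := (NumberField.RingOfIntegers.basis E).mem_span a
    induction ha using Submodule.span_induction with
    | mem x hx =>
      obtain ⟨i, rfl⟩ := hx
      exact hb i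
    | zero => simpa using h0
    | add x y _ _ hx hy => simpa using hadd _ _ hx hy
    | smul n x _ hx => simpa using hz n _ hx
  obtain ⟨a, ha⟩ : ∃ a : 𝓞 E, algebraMap (𝓞 E) E a = (s : E) * t := ⟨⟨_, h⟩, rfl⟩
  have := hs s _ hs' (key a)
  rwa [ha, inv_mul_cancel_left₀ h0'] at this

theorem blAlg_finite (l : ℕ) [Fact l.Prime] (E E' : Type) [Field E] [Field E'] [NumberField E]
    [NumberField E'] [Algebra E E'] :
    letI := blAlg l E E'
    Module.Finite (BL l E) (BL l E') := by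
  let := blAlg l E E'
  set N := Submodule.span (BL l E)
    (Set.range fun i => locInc l E' (NumberField.RingOfIntegers.basis E' i)) with hN
  refine ⟨Submodule.fg_def.2 ⟨_, Set.finite_range
    fun i => locInc l E' (NumberField.RingOfIntegers.basis E' i), ?_⟩⟩
  rw [eq_top_iff]
  rintro ⟨t, ht⟩ -
  have : ∃ y ∈ N, (y : E') = t := by
    refine loc_ind (l := l) (fun t => ∃ y ∈ N, (y : E') = t) ⟨0, N.zero_mem, rfl⟩ ?_ ?_ ?_ ?_ ht
    · rintro _ _ ⟨x, hx, rfl⟩ ⟨y, hy, rfl⟩
      exact ⟨x + y, N.add_mem hx hy, rfl⟩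
    · rintro n _ ⟨x, hx, rfl⟩
      exact ⟨n • x, zsmul_mem hx n, by simp⟩
    · rintro s _ hs ⟨x, hx, rfl⟩
      refine ⟨(⟨(s : E)⁻¹, LInt.inv_natCast hs⟩ : BL l E) • x, N.smul_mem _ hx, ?_⟩
      change algebraMap E E' (s : E)⁻¹ * (x : E') = _
      simp
    · intro i
      exact ⟨_, Submodule.subset_span ⟨i, rfl⟩, rfl⟩
  obtain ⟨y, hy, rfl⟩ := this
  exact hy

theorem blAlg_free (l : ℕ) [Fact l.Prime] (E E' : Type) [Field E] [Field E'] [NumberField E]
    [NumberField E'] [Algebra E E'] :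
    letI := blAlg l E E'
    Module.Free (BL l E) (BL l E') := by
  let := blAlg l E E'
  have := blAlg_finite l E E'
  have : Module.IsTorsionFree (BL l E) (BL l E') := by
    rw [Module.isTorsionFree_iff_algebraMap_injective]
    intro x y h
    exact Subtype.ext ((algebraMap E E').injective (congrArg Subtype.val h))
  exact Module.free_of_finite_type_torsion_free'

/-- bounded denominators of the coordinates -/
theorem LInt.exists_coord [Algebra E E'] (φ : E' →ₗ[E] E) :
    ∃ c : ℕ, ∀ t : E', LInt l t → LInt l ((l : E) ^ c * φ t) := by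
  choose k hk using fun i => LInt.exists_pow (l := l)
    (φ (algebraMap (𝓞 E') E' (NumberField.RingOfIntegers.basis E' i)))
  refine ⟨∑ i, k i, fun t ht => ?_⟩
  refine loc_ind (l := l) (fun t => (l : E) ^ (∑ i, k i) * φ t ∈ BL l E) (by simp) ?_ ?_ ?_ ?_ ht
  · intro x y hx hy
    rw [map_add, mul_add]
    exact add_mem hx hy
  · intro n x hx
    rw [← zsmul_eq_mul, map_zsmul, mul_smul_comm]
    exact zsmul_mem hx n
  · intro s x hs hx
    have e : ((s : E')⁻¹ * x) = (s : E)⁻¹ • x := by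
      rw [Algebra.smul_def]
      simp
    rw [e, map_smul, mul_smul_comm, smul_eq_mul]
    exact mul_mem (LInt.inv_natCast hs) hx
  · intro i
    obtain ⟨c, hc⟩ := Nat.exists_eq_add_of_le'
      (Finset.single_le_sum (f := k) (fun _ _ => Nat.zero_le _) (Finset.mem_univ i))
    rw [hc, pow_add, mul_assoc]
    exact mul_mem (pow_mem (natCast_mem _ l) c) (hk i)

end Vale.Agent.P319.Cft
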