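import Vale.Agent.P319.N.CftDet

/-! The projection formula for a finite free extension of principal ideal domains.
Plan.  Both sides are additive in `x` and in `y`; write `x = a / c`, `y = b / d` (`IsFractionRing.div_surjective`), so
`x = a ∈ A`, `y = b ∈ B`, and `norm E b = norm A b` (`norm_frac`: `Algebra.norm_localization`, `E'` is the localisation of
`B` at the image of `A⁰` because `B` is integral over `A`).  Induct on `a` and on `b`
(`UniqueFactorizationMonoid.induction_on_prime`): each is a unit or a prime.  Every prime `π` of `B` divides a prime `ϖ`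
of `A` (`π` divides its norm, which is a nonzero nonunit).  If `a, b` are coprime in `B` use `IsSym.cop` on both sides and
`norm_cop`, `norm_prime`.  If `a = ϖ = π^(e+1) z`, `b = π`: left side `s' z π = lg z π - Lg π z`, right side
`s ϖ (ϖ^f u) = s ϖ u = - lg u ϖ`. -/

namespace Vale.Agent.P319.Cft

variable {A B : Type} [CommRing A] [IsDomain A] [IsPrincipalIdealRing A] [CommRing B] [IsDomain B]
  [IsPrincipalIdealRing B] [Algebra A B] [Module.Free A B] [Module.Finite A B]
  {E E' : Type} [Field E] [Field E'] [Algebra A E] [IsFractionRing A E] [Algebra B E']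
  [IsFractionRing B E'] [Algebra E E'] [Algebra A E'] [IsScalarTower A E E'] [IsScalarTower A B E']

theorem norm_frac (b : B) :
    Algebra.norm E (algebraMap B E' b) = algebraMap A E (Algebra.norm A b) := by
  haveI : Module.IsTorsionFree A E' := .trans_faithfulSMul A E E'
  haveI : Algebra.IsAlgebraic A E' :=
    (IsFractionRing.isAlgebraic_iff' A B E').1 inferInstance
  haveI : Algebra.IsAlgebraic E E' := Algebra.IsAlgebraic.extendScalars (IsFractionRing.injective A E)
  haveI : IsLocalization (Algebra.algebraMapSubmonoid B (nonZeroDivisors A)) E' :=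
    IsIntegralClosure.isLocalization A E E' B
  exact Algebra.norm_localization A (nonZeroDivisors A) b

omit [Module.Free A B] [IsPrincipalIdealRing B] in
theorem exists_prime_below {π : B} (hπ : Prime π) : ∃ ϖ : A, Prime ϖ ∧ π ∣ algebraMap A B ϖ := by
  haveI := (Ideal.span_singleton_prime hπ.ne_zero).2 hπ
  have h := Ideal.comap_ne_bot_of_integral_mem (R := A) hπ.ne_zero
    (Ideal.mem_span_singleton_self π) (Algebra.IsIntegral.isIntegral π)
  exact ⟨_, Submodule.IsPrincipal.prime_generator_of_isPrime _ h,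
    Ideal.mem_span_singleton.1 (Submodule.IsPrincipal.generator_mem
      ((Ideal.span {π}).comap (algebraMap A B)))⟩

theorem norm_prime' {w : A} (hA : Good w) (hB : Good (algebraMap A B w)) {ϖ : A} (hϖ : Prime ϖ)
    {π : B} (hπ : Prime π) (hd : π ∣ algebraMap A B ϖ) :
    ∃ (e f : ℕ) (z : B) (u : A), algebraMap A B ϖ = π ^ (e + 1) * z ∧ ¬π ∣ z ∧
      Algebra.norm A π = ϖ ^ f * u ∧ IsUnit u ∧
      lg w u ϖ = Lg (algebraMap A B w) π z - lg (algebraMap A B w) z π ∧
      ∀ a : A, ¬ϖ ∣ a → lg (algebraMap A B w) (algebraMap A B a) π = f * lg w a ϖ := by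
  have h0 : algebraMap A B ϖ ≠ 0 :=
    (map_ne_zero_iff _ (FaithfulSMul.algebraMap_injective A B)).2 hϖ.ne_zero
  obtain ⟨n, z, hz, he⟩ := WfDvdMonoid.max_power_factor' h0 hπ.not_unit
  rcases n with _ | e
  · rw [he, pow_zero, one_mul] at hd
    exact (hz hd).elim
  · obtain ⟨f, u, h⟩ := norm_prime hA hB hϖ hπ he hz
    exact ⟨e, f, z, u, he, hz, h⟩

theorem Lg_norm_left {w : A} (hA : Good w) (hB : Good (algebraMap A B w)) (b : B) (a : A) :
    a ≠ 0 → IsCoprime b (algebraMap A B a) → IsCoprime (Algebra.norm A b) a ∧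
      Lg w (Algebra.norm A b) a = Lg (algebraMap A B w) b (algebraMap A B a) := by
  have hinj := FaithfulSMul.algebraMap_injective A B
  induction a using UniqueFactorizationMonoid.induction_on_prime with
  | h₁ => exact fun h => (h rfl).elim
  | h₂ u hu =>
    intro _ _
    obtain ⟨u, rfl⟩ := hu
    exact ⟨⟨0, (u⁻¹ : Aˣ), by simp⟩, by rw [Lg_unit u.isUnit, Lg_unit (u.isUnit.map _)]⟩
  | h₃ a p ha hp ih =>
    intro _ hc
    rw [map_mul] at hc
    obtain ⟨h1, h2⟩ := ih ha hc.of_mul_right_right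
    obtain ⟨h3, h4⟩ := norm_cop hA hB hp hc.of_mul_right_left
    refine ⟨(hp.coprime_iff_not_dvd.2 h3).symm.mul_right h1, ?_⟩
    rw [map_mul, Lg_mul_right hp.ne_zero ha, Lg_mul_right ((map_ne_zero_iff _ hinj).2 hp.ne_zero)
      ((map_ne_zero_iff _ hinj).2 ha), Lg_prime hp, h2, h4]

theorem pf_prime {w : A} (hA : Good w) (hB : Good (algebraMap A B w)) {s : E → E → ZMod 3}
    {s' : E' → E' → ZMod 3} (hs : IsSym w E s) (hs' : IsSym (algebraMap A B w) E' s')
    {a : A} {b : B} (ha : IsUnit a ∨ Prime a) (hb : IsUnit b ∨ Prime b) :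
    s' (algebraMap B E' (algebraMap A B a)) (algebraMap B E' b) =
      s (algebraMap A E a) (algebraMap A E (Algebra.norm A b)) := by
  have hinj := FaithfulSMul.algebraMap_injective A B
  have hA0 : ∀ {x : A}, x ≠ 0 → algebraMap A E x ≠ 0 :=
    fun h => (map_ne_zero_iff _ (IsFractionRing.injective A E)).2 h
  have hB0 : ∀ {x : B}, x ≠ 0 → algebraMap B E' x ≠ 0 :=
    fun h => (map_ne_zero_iff _ (IsFractionRing.injective B E')).2 h
  have ha0 : a ≠ 0 := ha.elim IsUnit.ne_zero Prime.ne_zero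
  have hb0 : b ≠ 0 := hb.elim IsUnit.ne_zero Prime.ne_zero
  by_cases hc : IsCoprime b (algebraMap A B a)
  · obtain ⟨h1, h2⟩ := Lg_norm_left hA hB b a ha0 hc
    rw [hs'.cop _ _ ((map_ne_zero_iff _ hinj).2 ha0) hb0 hc.symm,
      hs.cop _ _ ha0 (Algebra.norm_ne_zero_iff.2 hb0) h1.symm, h2]
    congr 1
    rcases hb with hb | hb
    · rw [Lg_unit hb, Lg_unit (hb.map _)]
    · obtain ⟨ϖ, hϖ, hd⟩ := exists_prime_below (A := A) hb
      obtain ⟨e, f, z, u, -, -, h3, h4, -, h5⟩ := norm_prime' hA hB hϖ hb hd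
      have h6 : ¬ϖ ∣ a := fun h =>
        hb.not_unit (hc.isUnit_of_dvd' dvd_rfl (hd.trans (map_dvd _ h)))
      rw [h3, Lg_mul_right (pow_ne_zero _ hϖ.ne_zero) h4.ne_zero, Lg_unit h4,
        Lg_pow_right hϖ.ne_zero, Lg_prime hϖ, Lg_prime hb, h5 a h6, add_zero]
  · have hb' : Prime b := hb.resolve_left fun ⟨u, hu⟩ => hc ⟨(u⁻¹ : Bˣ), 0, by simp [← hu]⟩
    have ha' : Prime a := ha.resolve_left fun h => by
      obtain ⟨u, hu⟩ := h.map (algebraMap A B)
      exact hc ⟨0, (u⁻¹ : Bˣ), by simp [← hu]⟩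
    have hd : b ∣ algebraMap A B a := by
      by_contra h
      exact hc (hb'.coprime_iff_not_dvd.2 h)
    obtain ⟨e, f, z, u, h1, h2, h3, h4, h5, -⟩ := norm_prime' hA hB ha' hb' hd
    have hz0 : z ≠ 0 := fun h => h2 (h ▸ dvd_zero b)
    obtain ⟨u, rfl⟩ := h4
    rw [h1, h3, map_mul, map_mul, map_pow, map_pow,
      hs'.alt.mul_left _ _ _ (pow_ne_zero _ (hB0 hb0)) (hB0 hz0) (hB0 hb0),
      hs'.alt.pow_left (hB0 hb0) (hB0 hb0), hs'.alt.self (hB0 hb0),
      hs.alt.mul_right (hA0 ha0) (pow_ne_zero _ (hA0 ha0)) (hA0 u.ne_zero),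
      hs.alt.pow_right (hA0 ha0) (hA0 ha0), hs.alt.self (hA0 ha0),
      hs'.cop _ _ hz0 hb0 (hb'.coprime_iff_not_dvd.2 h2).symm,
      hs.cop _ _ ha0 u.ne_zero ⟨0, (u⁻¹ : Aˣ), by simp⟩, Lg_unit u.isUnit, Lg_prime ha',
      Lg_prime hb', h5]
    ring

theorem pf_pid {w : A} (hA : Good w) (hB : Good (algebraMap A B w)) {s : E → E → ZMod 3}
    {s' : E' → E' → ZMod 3} (hs : IsSym w E s) (hs' : IsSym (algebraMap A B w) E' s')
    {x : E} {y : E'} (hx : x ≠ 0) (hy : y ≠ 0) :
    s' (algebraMap E E' x) y = s x (Algebra.norm E y) := by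
  have hinj := FaithfulSMul.algebraMap_injective A B
  have hA0 : ∀ {x : A}, x ≠ 0 → algebraMap A E x ≠ 0 :=
    fun h => (map_ne_zero_iff _ (IsFractionRing.injective A E)).2 h
  have hB0 : ∀ {x : B}, x ≠ 0 → algebraMap B E' x ≠ 0 :=
    fun h => (map_ne_zero_iff _ (IsFractionRing.injective B E')).2 h
  have hAB : ∀ {x : A}, x ≠ 0 → algebraMap B E' (algebraMap A B x) ≠ 0 :=
    fun h => hB0 ((map_ne_zero_iff _ hinj).2 h)
  have hN : ∀ {x : B}, x ≠ 0 → algebraMap A E (Algebra.norm A x) ≠ 0 :=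
    fun h => hA0 (Algebra.norm_ne_zero_iff.2 h)
  have k1 : ∀ b : B, IsUnit b ∨ Prime b → ∀ a : A, a ≠ 0 →
      s' (algebraMap B E' (algebraMap A B a)) (algebraMap B E' b) =
        s (algebraMap A E a) (algebraMap A E (Algebra.norm A b)) := by
    intro b hb a
    have hb0 : b ≠ 0 := hb.elim IsUnit.ne_zero Prime.ne_zero
    induction a using UniqueFactorizationMonoid.induction_on_prime with
    | h₁ => exact fun h => (h rfl).elim
    | h₂ u hu => exact fun _ => pf_prime hA hB hs hs' (Or.inl hu) hb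
    | h₃ a p ha hp ih =>
      intro _
      rw [map_mul, map_mul, map_mul, hs'.alt.mul_left _ _ _ (hAB hp.ne_zero) (hAB ha) (hB0 hb0),
        hs.alt.mul_left _ _ _ (hA0 hp.ne_zero) (hA0 ha) (hN hb0), ih ha,
        pf_prime hA hB hs hs' (Or.inr hp) hb]
  have k2 : ∀ a : A, a ≠ 0 → ∀ b : B, b ≠ 0 →
      s' (algebraMap B E' (algebraMap A B a)) (algebraMap B E' b) =
        s (algebraMap A E a) (algebraMap A E (Algebra.norm A b)) := by
    intro a ha b
    induction b using UniqueFactorizationMonoid.induction_on_prime with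
    | h₁ => exact fun h => (h rfl).elim
    | h₂ u hu => exact fun _ => k1 u (Or.inl hu) a ha
    | h₃ b p hb hp ih =>
      intro _
      rw [map_mul, map_mul, map_mul, hs'.alt.mul_right (hAB ha) (hB0 hp.ne_zero) (hB0 hb),
        hs.alt.mul_right (hA0 ha) (hN hp.ne_zero) (hN hb), ih hb, k1 p (Or.inr hp) a ha]
  obtain ⟨a, c, hc, rfl⟩ := IsFractionRing.div_surjective (A := A) x
  obtain ⟨b, d, hd, rfl⟩ := IsFractionRing.div_surjective (A := B) y
  have hc0 := nonZeroDivisors.ne_zero hc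
  have hd0 := nonZeroDivisors.ne_zero hd
  have ha0 : a ≠ 0 := fun h => hx (by rw [h, map_zero, zero_div])
  have hb0 : b ≠ 0 := fun h => hy (by rw [h, map_zero, zero_div])
  have e1 : ∀ t : A, algebraMap E E' (algebraMap A E t) = algebraMap B E' (algebraMap A B t) :=
    fun t => by rw [← IsScalarTower.algebraMap_apply, ← IsScalarTower.algebraMap_apply]
  have e2 : Algebra.norm E (algebraMap B E' b / algebraMap B E' d) =
      algebraMap A E (Algebra.norm A b) / algebraMap A E (Algebra.norm A d) := by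
    rw [eq_div_iff (hN hd0), ← norm_frac (E' := E'), ← norm_frac (E' := E'), ← map_mul,
      div_mul_cancel₀ _ (hB0 hd0)]
  rw [e2, map_div₀, e1, e1, hs'.alt.div_left (hAB ha0) (hAB hc0) hy,
    hs'.alt.div_right (hAB ha0) (hB0 hb0) (hB0 hd0),
    hs'.alt.div_right (hAB hc0) (hB0 hb0) (hB0 hd0),
    hs.alt.div_left (hA0 ha0) (hA0 hc0) (div_ne_zero (hN hb0) (hN hd0)),
    hs.alt.div_right (hA0 ha0) (hN hb0) (hN hd0), hs.alt.div_right (hA0 hc0) (hN hb0) (hN hd0),
    k2 a ha0 b hb0, k2 a ha0 d hd0, k2 c hc0 b hb0, k2 c hc0 d hd0]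

end Vale.Agent.P319.Cft
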