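import Vale.Agent.P319.N.CftRT
import Vale.Agent.P319.N.CftPF
import Vale.Agent.P319.N.CftLoc

/-! The reciprocity law goes up in finite extensions.
Plan.  `U3.hensel`: `x = 1 + 3^N t`, `z = 1 + 3^(N-1) t`.  `U3.norm`: `x = 1 + 3^N t` in `BL 3 E'`, which is finite free over
`BL 3 E`; the determinant of `1 + c M` is `1` mod `c` (`norm_frac`).
`rec_up`: strong induction on `d`: for all `E`, `y ≠ 0` with `(minpoly F y).natDegree ≤ d` and `U3 2 x`, `D E w y x = 0`.
Replace `y` by `y * (3^k)^3` to get `LInt 3 y` (same degree), by `pf` and `U3.norm` go down to `E₁ = F⟮y⟯` with its power basis,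
`g = minpoly F y` has `LInt 3` coefficients (or multiply by powers of 3: `LInt.exists_pow` for each coefficient is enough).
By `U3.hensel` it suffices to treat `U3 N x` for one large `N`.  Then `x = aeval y f`, `f = 1 + 3^N' h`, `h` of degree `< d` with
`LInt 3` coefficients (`LInt.exists_coord`).  For a monic irreducible factor `q` of `f` with root `β` in `AdjoinRoot q`:
`β ≠ 0`, `β⁻¹ / 3^k` is integral over `BL 3` (divide `f β = 0` by `β^(d-1)`; `f.coeff 0` is a unit by `LInt.one_add`), so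
`aeval β g = β^d * u` with `U3 2 u`, and `D β (aeval β g) = 0` by the induction hypothesis.  `rt` gives
`D y (q y) = D F (N y) (q.coeff 0)` (`PowerBasis.norm_gen_eq_coeff_zero_minpoly`, signs do not matter); by induction over the
factorisation of `f` (constants: `pf`) `D y (f y) = D F (N y) (f.coeff 0) = 0` by `Rec D F w`. -/

namespace Vale.Agent.P319.Cft

open Polynomial

private instance ind_fact : Fact (Nat.Prime 3) := ⟨Nat.prime_three⟩

section basic

variable {E : Type} [Field E]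

theorem ind_three : LInt 3 (3 : E) := by
  have := natCast_mem (BL 3 E) 3
  rwa [Nat.cast_ofNat] at this

theorem ind_pow3 {x : E} (h : LInt 3 x) (k : ℕ) : LInt 3 (3 ^ k * x) :=
  (BL 3 E).mul_mem ((BL 3 E).pow_mem (mem_BL.2 ind_three) k) h

variable [NumberField E]

theorem U3.mono {N M : ℕ} (hN : N ≤ M) {x : E} (h : U3 M x) : U3 N x := by
  obtain ⟨k, rfl⟩ := Nat.exists_eq_add_of_le hN
  have := ind_pow3 h k
  unfold U3
  convert this using 1
  field_simp
  ring

theorem U3.of_eq {N : ℕ} {x t : E} (ht : LInt 3 t) (h : x = 1 + 3 ^ N * t) : U3 N x := by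
  unfold U3
  convert ht using 1
  rw [h]; field_simp; ring

theorem U3.eq (N : ℕ) (x : E) : x = 1 + 3 ^ N * ((x - 1) / 3 ^ N) := by field_simp; ring

end basic

theorem U3.ne_zero {E : Type} [Field E] [NumberField E] {N : ℕ} (hN : 1 ≤ N) {x : E}
    (h : U3 N x) : x ≠ 0 := by
  have := (LInt.one_add (l := 3) (h.mono hN)).1
  rw [U3.eq 1 x]
  simpa using this

theorem U3.hensel {E : Type} [Field E] [NumberField E] {x : E} (h : U3 2 x) (N : ℕ) :
    ∃ z : E, z ≠ 0 ∧ U3 N (x / z ^ 3) := by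
  suffices H : ∃ z : E, z ≠ 0 ∧ U3 (N + 2) (x / z ^ 3) by
    obtain ⟨z, h1, h2⟩ := H
    exact ⟨z, h1, h2.mono (by omega)⟩
  induction N with
  | zero => exact ⟨1, one_ne_zero, by simpa using h⟩
  | succ N ih =>
    obtain ⟨z, hz, hy⟩ := ih
    have e := U3.eq (N + 2) (x / z ^ 3)
    unfold U3 at hy
    generalize (x / z ^ 3 - 1) / 3 ^ (N + 2) = t at hy e
    obtain ⟨h1, h2⟩ := LInt.one_add (l := 3) (ind_pow3 hy N)
    rw [Nat.cast_ofNat] at h1 h2
    refine ⟨z * (1 + 3 * (3 ^ N * t)), mul_ne_zero hz h1, U3.of_eq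
      (t := -(3 ^ N * t ^ 2 + 3 ^ (2 * N) * t ^ 3) * ((1 + 3 * (3 ^ N * t))⁻¹) ^ 3) ?_ ?_⟩
    · exact (BL 3 E).mul_mem ((BL 3 E).neg_mem ((BL 3 E).add_mem
        (ind_pow3 ((BL 3 E).pow_mem hy 2) _) (ind_pow3 ((BL 3 E).pow_mem hy 3) _)))
        ((BL 3 E).pow_mem h2 3)
    · rw [mul_pow, ← div_div, e, div_eq_mul_inv, ← inv_pow]
      have e3 : (1 + 3 * (3 ^ N * t)) ^ 3 * (1 + 3 * (3 ^ N * t))⁻¹ ^ 3 = 1 := by
        rw [← mul_pow, mul_inv_cancel₀ h1, one_pow]
      linear_combination e3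

theorem U3.norm {E E' : Type} [Field E] [NumberField E] [Field E'] [NumberField E'] [Algebra E E']
    {N : ℕ} {x : E'} (h : U3 N x) : U3 N (Algebra.norm E x) := by
  classical
  letI := blAlg 3 E E'
  haveI := blAlg_tower 3 E E'
  haveI := blAlg_finite 3 E E'
  haveI := blAlg_free 3 E E'
  let t : BL 3 E' := ⟨_, h⟩
  have e : x = algebraMap (BL 3 E') E' (1 + ((3 : BL 3 E) ^ N) • t) := by
    rw [Algebra.smul_def, map_pow, map_ofNat, map_add, map_one, map_mul, map_pow, map_ofNat]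
    exact U3.eq N x
  rw [e, norm_frac (A := BL 3 E), Algebra.norm_eq_matrix_det (Module.Free.chooseBasis _ _), map_add,
    map_one, map_smul, Matrix.det_one_add_smul, add_assoc, pow_two, ← mul_assoc, ← add_mul,
    mul_comm]
  have key : ∀ r : BL 3 E, U3 N (algebraMap (BL 3 E) E (1 + 3 ^ N * r)) := fun r =>
    U3.of_eq r.2 (by rw [map_add, map_one, map_mul, map_pow, map_ofNat]; rfl)
  exact key _

theorem ind_integral {L : Type} [Field L] [NumberField L] {s : L} {d : ℕ} (c : ℕ → L)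
    (hc : ∀ i, LInt 3 (c i)) (h : s ^ d + ∑ i ∈ Finset.range d, c i * s ^ i = 0) : LInt 3 s := by
  refine LInt.of_integral ⟨X ^ d + ∑ i : Fin d, C (⟨c i, hc i⟩ : BL 3 L) * X ^ (i : ℕ),
    monic_X_pow_add (degree_sum_fin_lt _), ?_⟩
  rw [← aeval_def, ← h, ← Fin.sum_univ_eq_sum_range (fun i => c i * s ^ i)]
  simp only [map_add, map_pow, aeval_X, map_sum, map_mul, aeval_C]
  rfl

theorem ind_inv {L : Type} [Field L] [NumberField L] {γ u : L} {d : ℕ} (e : ℕ → L)
    (he : ∀ i, LInt 3 (e i)) (hu : u ≠ 0) (hu' : LInt 3 u⁻¹)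
    (h : u + ∑ i ∈ Finset.range d, e i * γ ^ (i + 1) = 0) : γ ≠ 0 ∧ LInt 3 γ⁻¹ := by
  have hγ : γ ≠ 0 := by
    rintro rfl
    exact hu (by simpa using h)
  refine ⟨hγ, ind_integral (d := d) (fun j => u⁻¹ * e (d - 1 - j))
    (fun j => (BL 3 L).mul_mem hu' (he _)) ?_⟩
  have e1 : ∑ j ∈ Finset.range d, u⁻¹ * e (d - 1 - j) * γ⁻¹ ^ j =
      u⁻¹ * γ⁻¹ ^ d * ∑ i ∈ Finset.range d, e i * γ ^ (i + 1) := by
    rw [← Finset.sum_range_reflect (fun i => e i * γ ^ (i + 1)), Finset.mul_sum]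
    refine Finset.sum_congr rfl fun j hj => ?_
    have hj' := Finset.mem_range.1 hj
    have e2 : γ⁻¹ ^ d = γ⁻¹ ^ j * γ⁻¹ ^ (d - 1 - j + 1) := by
      rw [← pow_add]; congr 1; omega
    have e3 : γ⁻¹ ^ (d - 1 - j + 1) * γ ^ (d - 1 - j + 1) = 1 := by
      rw [← mul_pow, inv_mul_cancel₀ hγ, one_pow]
    rw [e2]
    linear_combination (-(u⁻¹ * e (d - 1 - j) * γ⁻¹ ^ j)) * e3
  rw [e1]
  linear_combination (u⁻¹ * γ⁻¹ ^ d) * h - γ⁻¹ ^ d * inv_mul_cancel₀ hu

/-- roots of `1 + 3 ^ (k d + 1) h` are large -/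
theorem ind_root {L : Type} [Field L] [NumberField L] {β : L} {d k : ℕ} (c : ℕ → L)
    (hc : ∀ i, LInt 3 (c i))
    (h : 1 + 3 ^ (k * d + 1) * ∑ i ∈ Finset.range (d + 1), c i * β ^ i = 0) :
    β ≠ 0 ∧ LInt 3 (3 ^ k * β)⁻¹ := by
  obtain ⟨h1, h2⟩ := LInt.one_add (l := 3) (ind_pow3 (hc 0) (k * d))
  rw [Nat.cast_ofNat] at h1 h2
  have := ind_inv (γ := 3 ^ k * β) (d := d) (fun i => 3 ^ (k * (d - 1 - i) + 1) * c (i + 1))
    (fun i => ind_pow3 (hc _) _) h1 h2 (by
      rw [← h, Finset.sum_range_succ', mul_add, Finset.mul_sum]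
      have e : ∑ i ∈ Finset.range d, 3 ^ (k * (d - 1 - i) + 1) * c (i + 1) * (3 ^ k * β) ^ (i + 1) =
          ∑ i ∈ Finset.range d, 3 ^ (k * d + 1) * (c (i + 1) * β ^ (i + 1)) := by
        refine Finset.sum_congr rfl fun i hi => ?_
        have hi' := Finset.mem_range.1 hi
        obtain ⟨j, rfl⟩ : ∃ j, d = i + 1 + j := Nat.exists_eq_add_of_le hi'
        rw [show i + 1 + j - 1 - i = j by omega]
        ring
      rw [e]; ring)
  exact ⟨right_ne_zero_of_mul this.1, this.2⟩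

/-- a monic polynomial at a large element -/
theorem ind_eval {L : Type} [Field L] [NumberField L] {β : L} {d k : ℕ} (c : ℕ → L)
    (hc : ∀ i, LInt 3 (3 ^ k * c i)) (hβ : β ≠ 0) (h : LInt 3 (3 ^ (k + 2) * β)⁻¹) :
    ∃ u, U3 2 u ∧ β ^ d + ∑ i ∈ Finset.range d, c i * β ^ i = β ^ d * u := by
  refine ⟨1 + 3 ^ 2 * ∑ i ∈ Finset.range d, 3 ^ ((k + 2) * (d - 1 - i)) * (3 ^ k * c i) *
    (3 ^ (k + 2) * β)⁻¹ ^ (d - i), U3.of_eq ((BL 3 L).sum_mem fun i _ =>
      (BL 3 L).mul_mem (ind_pow3 (hc i) _) ((BL 3 L).pow_mem h _)) rfl, ?_⟩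
  rw [mul_add, mul_one, Finset.mul_sum, Finset.mul_sum]
  congr 1
  refine Finset.sum_congr rfl fun i hi => ?_
  have hi' := Finset.mem_range.1 hi
  obtain ⟨j, rfl⟩ : ∃ j, d = i + 1 + j := Nat.exists_eq_add_of_le hi'
  rw [show i + 1 + j - 1 - i = j by omega, show i + 1 + j - i = j + 1 by omega]
  have e3 : (3 ^ (k + 2) * β) ^ (j + 1) * (3 ^ (k + 2) * β)⁻¹ ^ (j + 1) = 1 := by
    rw [← mul_pow, mul_inv_cancel₀ (mul_ne_zero (pow_ne_zero _ three_ne_zero) hβ), one_pow]
  generalize (3 ^ (k + 2) * β)⁻¹ ^ (j + 1) = T at e3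
  generalize (3 : L) = a at e3 ⊢
  linear_combination (-(c i * β ^ i)) * e3

theorem ind_unif {E ι : Type} [Field E] (t : Finset ι) (P : ι → E → Prop)
    (h : ∀ i, ∃ c : ℕ, ∀ x, P i x → LInt 3 (3 ^ c * x)) :
    ∃ c : ℕ, ∀ i ∈ t, ∀ x, P i x → LInt 3 (3 ^ c * x) := by
  choose c hc using h
  refine ⟨t.sup c, fun i hi x hx => ?_⟩
  obtain ⟨j, hj⟩ := Nat.exists_eq_add_of_le (Finset.le_sup (f := c) hi)
  have := ind_pow3 (hc i x hx) j
  rwa [← mul_assoc, ← pow_add, add_comm, ← hj] at this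

section step

variable {D : Fam} (hD : Fml D) {F : Type} [Field F] [NumberField F] {w : F}
  (hw : w ^ 2 + w + 1 = 0)

omit [NumberField F] in
include hw in
theorem ind_w (E : Type) [Field E] [Algebra F E] :
    algebraMap F E w ^ 2 + algebraMap F E w + 1 = 0 := by
  simpa using congrArg (algebraMap F E) hw

include hD hw in
theorem ind_fac {E : Type} [Field E] [NumberField E] [Algebra F E] {α : E} (hα : α ≠ 0) {f : F[X]}
    (h1 : aeval α f ≠ 0) (h0 : f.coeff 0 ≠ 0)
    (hq : ∀ q : F[X], q.Monic → Irreducible q → q ∣ f →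
      D E (algebraMap F E w) α (aeval α q) = D F w (Algebra.norm F α) (q.coeff 0)) :
    D E (algebraMap F E w) α (aeval α f) = D F w (Algebra.norm F α) (f.coeff 0) := by
  have hE := hD.alt E _ (ind_w hw E)
  have hF := hD.alt F w hw
  have hN : Algebra.norm F α ≠ 0 := Algebra.norm_ne_zero_iff.2 hα
  have hC : ∀ c : F, c ≠ 0 → D E (algebraMap F E w) α (algebraMap F E c) =
      D F w (Algebra.norm F α) c := fun c hc => by
    rw [hE.swap _ _ hα (by simpa using hc), hD.pf F E w hw _ _ hc hα, hF.swap _ _ hN hc]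
  have n1 : ∀ r, r ∣ f → aeval α r ≠ 0 := fun r ⟨s, e⟩ h => h1 (by rw [e, map_mul, h, zero_mul])
  have n0 : ∀ r, r ∣ f → r.coeff 0 ≠ 0 := fun r ⟨s, e⟩ h => h0 (by
    rw [e, mul_coeff_zero, h, zero_mul])
  have hmul : ∀ r s, r * s ∣ f →
      D E (algebraMap F E w) α (aeval α r) = D F w (Algebra.norm F α) (r.coeff 0) →
      D E (algebraMap F E w) α (aeval α s) = D F w (Algebra.norm F α) (s.coeff 0) →
      D E (algebraMap F E w) α (aeval α (r * s)) = D F w (Algebra.norm F α) ((r * s).coeff 0) := by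
    intro r s h e1 e2
    have d1 := dvd_of_mul_right_dvd h
    have d2 := dvd_of_mul_left_dvd h
    rw [map_mul, mul_coeff_zero, hE.mul_right hα (n1 r d1) (n1 s d2),
      hF.mul_right hN (n0 r d1) (n0 s d2), e1, e2]
  have hCC : ∀ c : F, c ≠ 0 → D E (algebraMap F E w) α (aeval α (C c)) =
      D F w (Algebra.norm F α) ((C c).coeff 0) := fun c hc => by
    rw [aeval_C, coeff_C_zero, hC c hc]
  have key : ∀ r : F[X], r ∣ f →
      D E (algebraMap F E w) α (aeval α r) = D F w (Algebra.norm F α) (r.coeff 0) := by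
    intro r
    induction r using UniqueFactorizationMonoid.induction_on_prime with
    | h₁ => exact fun h => absurd (coeff_zero 0) (n0 _ h)
    | h₂ r hr =>
      obtain ⟨c, hc, rfl⟩ := Polynomial.isUnit_iff.1 hr
      exact fun _ => hCC c hc.ne_zero
    | h₃ r p hr hp ih =>
      intro h
      refine hmul _ _ h ?_ (ih (dvd_of_mul_left_dvd h))
      have hl : p.leadingCoeff ≠ 0 := leadingCoeff_ne_zero.2 hp.ne_zero
      have e : p = p * C p.leadingCoeff⁻¹ * C p.leadingCoeff := by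
        rw [mul_assoc, ← C_mul, inv_mul_cancel₀ hl, C_1, mul_one]
      have hd : p * C p.leadingCoeff⁻¹ * C p.leadingCoeff ∣ f := e ▸ dvd_of_mul_right_dvd h
      rw [e]
      exact hmul _ _ hd (hq _ (monic_mul_leadingCoeff_inv hp.ne_zero)
        (irreducible_mul_leadingCoeff_inv.2 hp.irreducible) (dvd_of_mul_right_dvd hd)) (hCC _ hl)
  exact key f dvd_rfl

include hD hw in
theorem ind_pb (hF : Rec D F w) {E : Type} [Field E] [NumberField E] [Algebra F E]
    (p : PowerBasis F E) (hα : p.gen ≠ 0)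
    (ih : ∀ (L : Type) [Field L] [NumberField L] [Algebra F L] (y x : L), y ≠ 0 →
      (minpoly F y).natDegree < p.dim → U3 2 x → D L (algebraMap F L w) y x = 0)
    {x : E} (hx : U3 2 x) : D E (algebraMap F E w) p.gen x = 0 := by
  classical
  have hE := hD.alt E _ (ind_w hw E)
  obtain ⟨d, hd⟩ : ∃ d, p.dim = d + 1 := Nat.exists_eq_add_one.2 p.dim_pos
  obtain ⟨k, hk⟩ := ind_unif (Finset.range (p.dim + 1)) (fun i x => x = (minpoly F p.gen).coeff i)
    fun i => by
      obtain ⟨c, hc⟩ := LInt.exists_pow (l := 3) ((minpoly F p.gen).coeff i)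
      exact ⟨c, fun x e => by rw [e]; simpa using hc⟩
  have hk' : ∀ i, LInt 3 (3 ^ k * (minpoly F p.gen).coeff i) := fun i => by
    by_cases hi : i < p.dim + 1
    · exact hk i (Finset.mem_range.2 hi) _ rfl
    · rw [coeff_eq_zero_of_natDegree_lt (by rw [p.natDegree_minpoly]; omega), mul_zero]
      exact (BL 3 F).zero_mem
  obtain ⟨c, hc⟩ := ind_unif Finset.univ
    (fun (i : Fin p.dim) x => ∃ t, LInt 3 t ∧ x = p.basis.repr t i) fun i => by
      obtain ⟨c, hc⟩ := LInt.exists_coord (l := 3) (p.basis.coord i)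
      exact ⟨c, fun x ⟨t, ht, e⟩ => by rw [e]; simpa using hc t ht⟩
  obtain ⟨z, hz, hy⟩ := hx.hensel (c + ((k + 2) * d + 2))
  have hy0 := hy.ne_zero (by omega)
  have ex : x = x / z ^ 3 * z ^ 3 := by field_simp
  rw [ex, hE.mul_right hα hy0 (pow_ne_zero _ hz), hE.cube_right hα hz, add_zero]
  have ey := U3.eq (c + ((k + 2) * d + 2)) (x / z ^ 3)
  unfold U3 at hy
  generalize (x / z ^ 3 - 1) / 3 ^ (c + ((k + 2) * d + 2)) = t at hy ey
  let e : ℕ → F := fun i => if h : i < p.dim then 3 * (3 ^ c * p.basis.repr t ⟨i, h⟩) else 0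
  have he : ∀ i, ∃ r, LInt 3 r ∧ e i = 3 * r := fun i => by
    by_cases h : i < p.dim
    · exact ⟨_, hc ⟨i, h⟩ (Finset.mem_univ _) _ ⟨t, hy, rfl⟩, dif_pos h⟩
    · exact ⟨0, (BL 3 F).zero_mem, by rw [mul_zero]; exact dif_neg h⟩
  have he' : ∀ i, LInt 3 (e i) := fun i => by
    obtain ⟨r, hr, e1⟩ := he i
    rw [e1]; exact (BL 3 F).mul_mem ind_three hr
  let f : F[X] := 1 + C (3 ^ ((k + 2) * d + 1)) * ∑ i ∈ Finset.range (d + 1), C (e i) * X ^ i
  have hf : ∀ (L : Type) [Field L] [Algebra F L] (β : L), aeval β f =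
      1 + 3 ^ ((k + 2) * d + 1) * ∑ i ∈ Finset.range (d + 1), algebraMap F L (e i) * β ^ i := by
    intro L _ _ β
    simp only [f, map_add, map_one, map_mul, aeval_C, map_sum, map_pow, aeval_X, map_ofNat]
  have hfx : aeval p.gen f = x / z ^ 3 := by
    have e1 : ∑ i ∈ Finset.range (d + 1), algebraMap F E (e i) * p.gen ^ i = 3 * (3 ^ c * t) := by
      rw [← hd, ← Fin.sum_univ_eq_sum_range (fun i => algebraMap F E (e i) * p.gen ^ i)]
      conv_rhs => rw [← p.basis.sum_repr t, Finset.mul_sum, Finset.mul_sum]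
      refine Finset.sum_congr rfl fun i _ => ?_
      simp only [e, dif_pos i.2, p.basis_eq_pow, Algebra.smul_def, map_mul, map_pow, map_ofNat]
      ring
    rw [hf, e1, ey]; ring
  have hf0 : U3 2 (f.coeff 0) := by
    obtain ⟨r, hr, e1⟩ := he 0
    refine U3.of_eq (ind_pow3 hr ((k + 2) * d)) ?_
    rw [coeff_zero_eq_aeval_zero, hf, Finset.sum_range_succ']
    simp only [pow_succ, mul_zero, Finset.sum_const_zero, Algebra.algebraMap_self,
      RingHom.id_apply, e1]
    ring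
  have hdeg : f.natDegree ≤ d := by
    refine (natDegree_add_le _ _).trans (max_le (by simp) ((natDegree_C_mul_le _ _).trans ?_))
    refine natDegree_sum_le_of_forall_le _ _ fun i hi => (natDegree_C_mul_X_pow_le _ _).trans ?_
    exact Nat.lt_succ_iff.1 (Finset.mem_range.1 hi)
  have hfne : f ≠ 0 := fun h => hf0.ne_zero (by norm_num) (by rw [h, coeff_zero])
  have hN : Algebra.norm F p.gen ≠ 0 := Algebra.norm_ne_zero_iff.2 hα
  rw [← hfx, ind_fac hD hw hα (hfx ▸ hy0) (hf0.ne_zero (by norm_num)), hF _ _ hf0 hN]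
  intro q hm hq hqf
  haveI := Fact.mk hq
  let p₂ := AdjoinRoot.powerBasis hm.ne_zero
  haveI : Module.Finite F (AdjoinRoot q) := p₂.finite
  haveI : NumberField (AdjoinRoot q) := NumberField.of_module_finite F _
  have hmin : minpoly F p₂.gen = q := AdjoinRoot.minpoly_powerBasis_gen_of_monic hm
  have hroot : aeval p₂.gen f = 0 := by
    obtain ⟨s, e1⟩ := hqf
    have := minpoly.aeval F p₂.gen
    rw [hmin] at this
    rw [e1, map_mul, this, zero_mul]
  rw [hf] at hroot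
  obtain ⟨hβ, hβ'⟩ := ind_root _ (fun i => LInt.map _ (he' i)) hroot
  obtain ⟨u, hu, eu⟩ := ind_eval (d := p.dim) (k := k)
    (fun i => algebraMap F (AdjoinRoot q) ((minpoly F p.gen).coeff i))
    (fun i => by
      have := LInt.map (algebraMap F (AdjoinRoot q)) (hk' i)
      rwa [map_mul, map_pow, map_ofNat] at this) hβ hβ'
  have eg : aeval p₂.gen (minpoly F p.gen) = p₂.gen ^ p.dim * u := by
    rw [← eu]
    conv_lhs => rw [(minpoly.monic p.isIntegral_gen).as_sum, p.natDegree_minpoly]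
    simp only [map_add, map_pow, aeval_X, map_sum, map_mul, aeval_C]
  have hu0 := hu.ne_zero (by norm_num)
  have hL := hD.alt _ _ (ind_w hw (AdjoinRoot q))
  have h12 : aeval p.gen (minpoly F p₂.gen) ≠ 0 := by
    obtain ⟨s, e1⟩ := hqf
    rw [hmin]
    intro h
    exact hy0 (by rw [← hfx, e1, map_mul, h, zero_mul])
  have hq0 : q.coeff 0 ≠ 0 := by
    obtain ⟨s, e1⟩ := hqf
    intro h
    exact hf0.ne_zero (by norm_num) (by rw [e1, mul_coeff_zero, h, zero_mul])
  have r := rt hD hw p p₂ hα hβ h12 (eg ▸ mul_ne_zero (pow_ne_zero _ hβ) hu0)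
  rw [eg, hL.mul_right hβ (pow_ne_zero _ hβ) hu0, hL.pow_right hβ hβ, hL.self hβ, mul_zero,
    ih _ _ _ hβ (by rw [hmin]; have := natDegree_le_of_dvd hqf hfne; omega) hu,
    Algebra.PowerBasis.norm_gen_eq_coeff_zero_minpoly p₂, hmin] at r
  rw [r, add_zero, zero_add]
  rcases neg_one_pow_eq_or F p₂.dim with h | h
  · rw [h, one_mul]
  · rw [h, neg_one_mul, (hD.alt F w hw).neg_right hN hq0]

end step

theorem rec_up {D : Fam} (hD : Fml D) {F : Type} [Field F] [NumberField F] {w : F}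
    (hw : w ^ 2 + w + 1 = 0) (hF : Rec D F w) (E : Type) [Field E] [NumberField E] [Algebra F E] :
    Rec D E (algebraMap F E w) := by
  have key : ∀ d : ℕ, ∀ (L : Type) [Field L] [NumberField L] [Algebra F L] (y x : L), y ≠ 0 →
      (minpoly F y).natDegree < d → U3 2 x → D L (algebraMap F L w) y x = 0 := by
    intro d
    induction d with
    | zero => intro L _ _ _ y x _ h; omega
    | succ d ih =>
      intro L _ _ _ y x hy hd hx
      have hi : IsIntegral F y := Algebra.IsIntegral.isIntegral y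
      let p := IntermediateField.adjoin.powerBasis hi
      have hg : algebraMap _ L p.gen = y := rfl
      have hp : p.gen ≠ 0 := fun h => hy (by rw [← hg, h, map_zero])
      have hdim : p.dim = (minpoly F y).natDegree := rfl
      rw [← hg, IsScalarTower.algebraMap_apply F (IntermediateField.adjoin F {y}) L,
        hD.pf _ L _ (ind_w hw _) _ _ hp (hx.ne_zero (by norm_num))]
      exact ind_pb hD hw hF p hp (fun L' _ _ _ y' x' h1 h2 h3 => ih L' y' x' h1 (by omega) h3)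
        hx.norm
  exact fun x y hx hy => key _ E y x hy (Nat.lt_succ_self _) hx

end Vale.Agent.P319.Cft
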