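import Vale.Agent.P319.N.SRing
import Vale.Agent.P319.N.CftIdf
import Vale.Agent.P319.N.CftInd
import Vale.Agent.P319.N.CftBase

/-! Cubic reciprocity in `K`.
Plan.  `rec_all`: `F = ℚ⟮w⟯` (elements are `a + b w`: the minimal polynomial has degree at most two), `rec_base`, `rec_up`.
`cubic`: `Idf` with `R = R K`, `M = MM K`, `ι = algebraMap`; `InU x` gives `U3 2 x` and `LInt l ((x - 1) / l)` for `l ∣ M`
(an element `s` of `𝓞 K` coprime to `M` divides a natural number coprime to `M`: `s` is a unit in `BL l K`);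
`cub a n = e3 (Lg om a n)` for coprime `a, n`. -/

namespace Vale.Agent.P319

open scoped NumberField IntermediateField

theorem Cft.rec_all (E : Type) [Field E] [NumberField E] {w : E} (hw : w ^ 2 + w + 1 = 0) :
    Cft.Rec Cft.DD E w := by
  have hw' : IntermediateField.AdjoinSimple.gen ℚ w ^ 2 + IntermediateField.AdjoinSimple.gen ℚ w
      + 1 = 0 := Subtype.ext hw
  refine Cft.rec_up Cft.fml hw' (Cft.rec_base Cft.fml Cft.idf hw' fun x => ?_) E
  obtain ⟨f, rfl⟩ := (IntermediateField.adjoin.powerBasis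
    (Algebra.IsIntegral.isIntegral (R := ℚ) w)).exists_eq_aeval' x
  rw [IntermediateField.adjoin.powerBasis_gen]
  induction f using Polynomial.induction_on with
  | C a => exact ⟨a, 0, by simp⟩
  | add p q hp hq =>
    obtain ⟨a, b, h⟩ := hp
    obtain ⟨a', b', h'⟩ := hq
    exact ⟨a + a', b + b', by rw [map_add, h, h']; push_cast; ring⟩
  | monomial n c ih =>
    obtain ⟨a, b, h⟩ := ih
    refine ⟨-b, a - b, ?_⟩
    rw [pow_succ, ← mul_assoc, map_mul, h, Polynomial.aeval_X]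
    push_cast
    linear_combination (b : ℚ⟮w⟯) * hw'

section

variable {K : Type} [Field K] [NumberField K] [Stp K]

private theorem lInt_of_sIn {l : ℕ} (hl : l.Prime) (h : l ∣ MM K) {z : K} (hz : SIn 0 z) :
    Cft.LInt l z := by
  have := Fact.mk hl
  obtain ⟨s, t, ⟨u, v, huv⟩, e⟩ := hz
  obtain ⟨c, hc⟩ := h
  have h1 : (u : K) * s = 1 + l * ((-(v * c) : 𝓞 K) : K) := by
    have h2 := congrArg (algebraMap (𝓞 K) K) huv
    rw [hc] at h2
    simp only [map_add, map_mul, map_one, map_natCast, Nat.cast_mul] at h2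
    simp only [NumberField.RingOfIntegers.coe_eq_algebraMap, map_neg, map_mul, map_natCast]
    linear_combination h2
  have hI : ∀ y : 𝓞 K, (y : K) ∈ Cft.BL l K := fun y => Cft.LInt.of_isIntegral y.isIntegral_coe
  obtain ⟨h2, h3⟩ := Cft.LInt.one_add (l := l) (hI (-(v * c)))
  rw [← h1] at h2 h3
  have h4 := mul_mem (Cft.mem_BL.2 h3) (mul_mem (hI u) (hI t))
  rw [pow_zero, one_mul] at e
  rwa [← e, ← mul_assoc (u : K), inv_mul_cancel_left₀ h2] at h4

private theorem om_sq : (om : R K) ^ 2 + om + 1 = 0 := by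
  simpa [om] using congrArg (algebraMap (𝓞 K) (R K)) Stp.om_eq

private theorem cub_eq {a n : R K} (h : IsCoprime a n) : cub a n = Cft.e3 (Cft.Lg om a n) := by
  refine Cft.prod_factors_eq_e3 om a n _ fun p hp hn => ?_
  have h1 := Cft.GP.tri om_sq ⟨hp, finite_quot hp.ne_zero,
    fun e => hp.not_isUnit (isUnit_of_dvd_unit e isUnit_three)⟩ (Cft.not_dvd_of_cop h hp hn)
  rw [show Cft.Nq p = nm p from rfl] at h1
  rw [cubP, Cft.lg, show Cft.Nq p = nm p from rfl]
  split_ifs with h2 h3 h4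
  · exact Cft.e3_zero.symm
  · exact Cft.e3_one.symm
  · exact Cft.e3_two.symm
  · exact absurd h1 (by tauto)

end

theorem cubic {K : Type} [Field K] [NumberField K] [Stp K] : CubStmt K := by
  intro x y hx hy hxy
  have h3 : 3 ∣ MM K := Dvd.dvd.trans ⟨2, rfl⟩ Stp.six_dvd
  have hx0 := hx.ne_zero (by norm_num)
  have hw : ((om : R K) : K) ^ 2 + (om : R K) + 1 = 0 := by
    simpa using congrArg (algebraMap (R K) K) om_sq
  have h1 := Cft.idf K (R K) (algebraMap (R K) K) om (MM K) coe_injective om_sq h3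
    (fun l hl h z => ⟨?_, ?_⟩) (fun p hp => finite_quot hp.ne_zero)
    (fun p hp h => absurd (isUnit_of_dvd_unit h isUnit_MR) hp.not_isUnit) x y
    (mt coe_eq_zero.2 hx0) hy hxy
    fun l hl h _ => lInt_of_sIn hl h (SIn.div_nat h (SIn.mono hx (by norm_num)))
  · have h2 := Cft.rec_all K hw x y (lInt_of_sIn Nat.prime_three h3 (by
      have := SIn.div_nat h3 (SIn.div_nat (a := 1) h3 (SIn.mono hx (by norm_num)))
      rwa [div_div, ← sq, Nat.cast_ofNat] at this)) (coe_ne_zero hy)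
    rw [(Cft.fml.alt K _ hw).swap _ _ hx0 (coe_ne_zero hy), h2, neg_zero, eq_comm,
      sub_eq_zero] at h1
    rw [cub_eq hxy, cub_eq hxy.symm, h1]
  · rintro ⟨s, hs, h⟩
    obtain ⟨t, ht⟩ : ∃ t : 𝓞 K, (t : K) = s * z := ⟨⟨_, h⟩, rfl⟩
    exact ⟨s, algebraMap _ _ t, hs, by rw [coe_int, ht]⟩
  · rintro ⟨s, r, hs, e⟩
    obtain ⟨k, t, ht⟩ := (mem_RS_iff_pow _).1 (coe_mem r)
    refine ⟨MM K ^ k * s, fun h' => (hl.dvd_mul.1 h').elim (fun h'' => h (hl.dvd_of_dvd_pow h'')) hs,
      ?_⟩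
    rw [Nat.cast_mul, Nat.cast_pow, mul_assoc, e, ht]
    exact t.isIntegral_coe

end Vale.Agent.P319
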