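import Mathlib

/-! # P319, part CFT (cubic reciprocity in a number field): definitions.  See `notes/P319Cft.md`. -/

namespace Vale.Agent.P319.Cft

section sym

variable {B : Type} [CommRing B]

/-- the size of the residue ring -/
noncomputable def Nq (p : B) : ℕ := Nat.card (B ⧸ Ideal.span {p})

open Classical in
/-- the cubic residue symbol at a prime, written additively -/
noncomputable def lg (w a p : B) : ZMod 3 :=
  if p ∣ a ^ ((Nq p - 1) / 3) - 1 then 0 else if p ∣ a ^ ((Nq p - 1) / 3) - w then 1 else 2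

/-- the cubic Jacobi symbol, written additively -/
noncomputable def Lg [IsDomain B] [IsPrincipalIdealRing B] (w a n : B) : ZMod 3 :=
  ((UniqueFactorizationMonoid.factors n).map fun p => lg w a p).sum

/-- a prime with finite residue field, not above `3` -/
def GP (p : B) : Prop := Prime p ∧ Finite (B ⧸ Ideal.span {p}) ∧ ¬p ∣ 3

/-- `w` is a cube root of unity and all primes are good -/
def Good (w : B) : Prop := w ^ 2 + w + 1 = 0 ∧ ∀ p : B, Prime p → GP p

/-- `exp (2πik/3)` -/
noncomputable def e3 (k : ZMod 3) : ℂ := Complex.exp (2 * Real.pi * Complex.I / 3) ^ k.val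

end sym

/-- alternating bimultiplicative maps on the nonzero elements of a field -/
structure Alt {E : Type} [Field E] (s : E → E → ZMod 3) : Prop where
  mul_left : ∀ x x' y, x ≠ 0 → x' ≠ 0 → y ≠ 0 → s (x * x') y = s x y + s x' y
  swap : ∀ x y, x ≠ 0 → y ≠ 0 → s x y = -s y x

/-- the tame symbol of a principal ideal domain -/
structure IsSym {B : Type} [CommRing B] [IsDomain B] [IsPrincipalIdealRing B] (w : B)
    (E : Type) [Field E] [Algebra B E] (s : E → E → ZMod 3) : Prop where
  alt : Alt s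
  cop : ∀ a b : B, a ≠ 0 → b ≠ 0 → IsCoprime a b →
    s (algebraMap B E a) (algebraMap B E b) = Lg w a b - Lg w b a

/-- `x` is integral at the rational prime `l` -/
def LInt (l : ℕ) {E : Type} [Field E] (x : E) : Prop :=
  ∃ s : ℕ, ¬l ∣ s ∧ IsIntegral ℤ ((s : E) * x)

/-- the ring of elements integral at `l` -/
def BL (l : ℕ) [hl : Fact l.Prime] (E : Type) [Field E] : Subring E where
  carrier := {x | LInt l x}
  one_mem' := ⟨1, hl.out.not_dvd_one, by simpa using isIntegral_one⟩
  zero_mem' := ⟨1, hl.out.not_dvd_one, by simpa using isIntegral_zero⟩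
  neg_mem' := fun ⟨s, h, h'⟩ => ⟨s, h, by simpa using h'.neg⟩
  mul_mem' := fun {a b} ⟨s, h, h'⟩ ⟨t, k, k'⟩ =>
    ⟨s * t, fun hd => (hl.out.dvd_mul.1 hd).elim h k, by
      have := h'.mul k'
      rwa [show (s : E) * a * ((t : E) * b) = ((s * t : ℕ) : E) * (a * b) by
        push_cast; ring] at this⟩
  add_mem' := fun {a b} ⟨s, h, h'⟩ ⟨t, k, k'⟩ =>
    ⟨s * t, fun hd => (hl.out.dvd_mul.1 hd).elim h k, by
      have := ((isIntegral_natCast (R := ℤ) t).mul h').add ((isIntegral_natCast (R := ℤ) s).mul k')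
      rwa [show (t : E) * ((s : E) * a) + (s : E) * ((t : E) * b) =
        ((s * t : ℕ) : E) * (a + b) by push_cast; ring] at this⟩

theorem mem_BL {l : ℕ} [Fact l.Prime] {E : Type} [Field E] {x : E} : x ∈ BL l E ↔ LInt l x :=
  Iff.rfl

/-- `x ≡ 1 mod 3 ^ N` at the primes above `3` -/
def U3 (N : ℕ) {E : Type} [Field E] (x : E) : Prop := LInt 3 ((x - 1) / 3 ^ N)

/-- a family of symbols, one for each number field with a chosen element -/
abbrev Fam : Type 1 := ∀ (E : Type) [Field E] [NumberField E], E → E → E → ZMod 3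

/-- the formal properties of the global symbol -/
structure Fml (D : Fam) : Prop where
  alt : ∀ (E : Type) [Field E] [NumberField E] (w : E), w ^ 2 + w + 1 = 0 → Alt (D E w)
  st : ∀ (E : Type) [Field E] [NumberField E] (w : E), w ^ 2 + w + 1 = 0 →
    ∀ x : E, x ≠ 0 → 1 - x ≠ 0 → D E w x (1 - x) = 0
  pf : ∀ (E E' : Type) [Field E] [NumberField E] [Field E'] [NumberField E'] [Algebra E E']
    (w : E), w ^ 2 + w + 1 = 0 → ∀ (x : E) (y : E'), x ≠ 0 → y ≠ 0 →
    D E' (algebraMap E E' w) (algebraMap E E' x) y = D E w x (Algebra.norm E y)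

/-- the global symbol is computed by Jacobi symbols in any principal ring `R` that agrees with the
ring of integers away from `M` -/
def Idf (D : Fam) : Prop :=
  ∀ (E : Type) [Field E] [NumberField E] (R : Type) [CommRing R] [IsDomain R]
    [IsPrincipalIdealRing R] (ι : R →+* E) (w : R) (M : ℕ), Function.Injective ι →
    w ^ 2 + w + 1 = 0 → 3 ∣ M →
    (∀ l : ℕ, l.Prime → ¬l ∣ M → ∀ x : E, LInt l x ↔ ∃ (s : ℕ) (r : R), ¬l ∣ s ∧ (s : E) * x = ι r) →
    (∀ p : R, Prime p → Finite (R ⧸ Ideal.span {p})) →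
    (∀ p : R, Prime p → p ∣ (M : R) → ∀ a, lg w a p = 0) →
    ∀ x y : R, x ≠ 0 → y ≠ 0 → IsCoprime x y →
      (∀ l : ℕ, l.Prime → l ∣ M → l ≠ 3 → LInt l ((ι x - 1) / l)) →
      D E (ι w) (ι x) (ι y) = Lg w x y - Lg w y x

/-- the reciprocity law -/
def Rec (D : Fam) (E : Type) [Field E] [NumberField E] (w : E) : Prop :=
  ∀ x y : E, U3 2 x → y ≠ 0 → D E w y x = 0

end Vale.Agent.P319.Cft
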