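import Vale.Agent.P319.N.CftSym

/-! Norms modulo a prime: the linear algebra behind the projection formula. -/

namespace Vale.Agent.P319.Cft

open Module

section fam

variable {A B : Type} [CommRing A] [CommRing B] [Algebra A B] {ι κ : Type} [Fintype ι] [Fintype κ]
  {ϖ : A}

/-- `v` is a basis of `B / c` over `A / ϖ` -/
def Bs (ϖ : A) (c : B) (v : ι → B) : Prop :=
  (∀ y : B, ∃ a : ι → A, c ∣ y - ∑ i, a i • v i) ∧
    ∀ a : ι → A, c ∣ ∑ i, a i • v i → ∀ i, ϖ ∣ a i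

/-- `M` expresses `u` in terms of `v` modulo `c` -/
def Rp (c : B) (v u : ι → B) (M : Matrix ι ι A) : Prop :=
  ∀ j, c ∣ u j - ∑ i, M i j • v i

theorem dvd_sum_smul {a : ι → A} (h : ∀ i, ϖ ∣ a i) (v : ι → B) :
    algebraMap A B ϖ ∣ ∑ i, a i • v i :=
  Finset.dvd_sum fun i _ => by
    rw [Algebra.smul_def]
    exact (map_dvd _ (h i)).mul_right _

theorem sum_smul_mul (a : ι → A) (c : B) (v : ι → B) :
    ∑ i, a i • (c * v i) = c * ∑ i, a i • v i := by
  rw [Finset.mul_sum]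
  exact Finset.sum_congr rfl fun i _ => (mul_smul_comm _ _ _).symm

theorem Bs.mul [IsDomain B] {a b : B} (ha : a ≠ 0) (hab : a * b ∣ algebraMap A B ϖ) {v : ι → B}
    {v' : κ → B} (h1 : Bs ϖ a v) (h2 : Bs ϖ b v') :
    Bs ϖ (a * b) (Sum.elim v fun j => a * v' j) := by
  constructor
  · intro y
    obtain ⟨x, y', hy⟩ := h1.1 y
    obtain ⟨x', y'', hy'⟩ := h2.1 y'
    refine ⟨Sum.elim x x', y'', ?_⟩
    simp only [Fintype.sum_sum_type, Sum.elim_inl, Sum.elim_inr, sum_smul_mul]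
    linear_combination hy + a * hy'
  · intro x hx
    simp only [Fintype.sum_sum_type, Sum.elim_inl, Sum.elim_inr, sum_smul_mul] at hx
    have h3 : ∀ i, ϖ ∣ x (Sum.inl i) :=
      h1.2 _ ((dvd_add_left (dvd_mul_right a _)).1 ((dvd_mul_right a b).trans hx))
    have h4 : ∀ i, ϖ ∣ x (Sum.inr i) :=
      h2.2 _ ((mul_dvd_mul_iff_left ha).1
        ((dvd_add_right (hab.trans (dvd_sum_smul h3 v))).1 hx))
    rintro (i | i)
    exacts [h3 i, h4 i]

theorem Rp.mul {a b : B} {v u : ι → B} {v' u' : κ → B} {M : Matrix ι ι A} {M' : Matrix κ κ A}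
    (h2 : Bs ϖ b v') (h : Rp a v u M) (h' : Rp b v' u' M') :
    ∃ C, Rp (a * b) (Sum.elim v fun j => a * v' j) (Sum.elim u fun j => a * u' j)
      (Matrix.fromBlocks M 0 C M') := by
  choose y hy using h
  choose C z hz using fun j => h2.1 (y j)
  refine ⟨Matrix.of fun l j => C j l, ?_⟩
  rintro (j | j)
  · refine ⟨z j, ?_⟩
    simp only [Fintype.sum_sum_type, Sum.elim_inl, Sum.elim_inr, sum_smul_mul,
      Matrix.fromBlocks_apply₁₁, Matrix.fromBlocks_apply₂₁, Matrix.of_apply]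
    linear_combination hy j + a * hz j
  · obtain ⟨t, ht⟩ := h' j
    refine ⟨t, ?_⟩
    simp only [Fintype.sum_sum_type, Sum.elim_inl, Sum.elim_inr, sum_smul_mul,
      Matrix.fromBlocks_apply₁₂, Matrix.fromBlocks_apply₂₂, Matrix.zero_apply, zero_smul,
      Finset.sum_const_zero]
    linear_combination a * ht

theorem Rp.refl [DecidableEq ι] (c : B) (v : ι → B) : Rp c v v (1 : Matrix ι ι A) := by
  intro j
  simp [Matrix.one_apply]

theorem Bs.exists_rp {c : B} {v : ι → B} (h : Bs ϖ c v) (u : ι → B) :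
    ∃ M : Matrix ι ι A, Rp c v u M := by
  choose a ha using fun j => h.1 (u j)
  exact ⟨Matrix.of fun i j => a j i, ha⟩

omit [Fintype κ] in
theorem dvd_repr (e : Basis κ A B) {y : B} (h : algebraMap A B ϖ ∣ y) (i : κ) : ϖ ∣ e.repr y i := by
  obtain ⟨t, rfl⟩ := h
  rw [← Algebra.smul_def, map_smul]
  exact dvd_mul_right _ _

theorem map_eq_of_dvd {m n : Type} {M M' : Matrix m n A} (h : ∀ i j, ϖ ∣ M i j - M' i j) :
    M.map (Ideal.Quotient.mk (Ideal.span {ϖ})) = M'.map (Ideal.Quotient.mk (Ideal.span {ϖ})) := by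
  ext i j
  exact Ideal.Quotient.eq.2 (Ideal.mem_span_singleton.2 (h i j))

theorem Bs.exists_inv [DecidableEq ι] [DecidableEq κ] {v : ι → B}
    (h : Bs ϖ (algebraMap A B ϖ) v) (e : Basis κ A B) :
    ∃ R : Matrix ι κ A,
      (e.toMatrix v).map (Ideal.Quotient.mk (Ideal.span {ϖ})) *
        R.map (Ideal.Quotient.mk (Ideal.span {ϖ})) = 1 ∧
      R.map (Ideal.Quotient.mk (Ideal.span {ϖ})) *
        (e.toMatrix v).map (Ideal.Quotient.mk (Ideal.span {ϖ})) = 1 := by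
  choose a ha using fun j => h.1 (e j)
  refine ⟨Matrix.of fun i j => a j i, ?_, ?_⟩
  · rw [← Matrix.map_mul, ← Matrix.map_one (Ideal.Quotient.mk (Ideal.span {ϖ})) (map_zero _)
      (map_one _)]
    refine map_eq_of_dvd fun i j => ?_
    have := dvd_repr e (ha j) i
    rw [dvd_sub_comm]
    convert this using 1
    simp [Matrix.mul_apply, Basis.toMatrix_apply, Matrix.one_apply, Finsupp.single_apply,
      mul_comm, eq_comm]
  · rw [← Matrix.map_mul, ← Matrix.map_one (Ideal.Quotient.mk (Ideal.span {ϖ})) (map_zero _)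
      (map_one _)]
    refine map_eq_of_dvd fun i j => h.2
      (fun i => ((Matrix.of fun i j => a j i) * e.toMatrix v) i j - (1 : Matrix ι ι A) i j) ?_ i
    have h1 : ∑ i, ((Matrix.of fun i j => a j i) * e.toMatrix v) i j • v i =
        ∑ l, e.repr (v j) l • ∑ i, a l i • v i := by
      simp only [Matrix.mul_apply, Matrix.of_apply, Basis.toMatrix_apply, Finset.sum_smul,
        Finset.smul_sum, smul_smul]
      rw [Finset.sum_comm]
      simp only [mul_comm]
    have h2 : ∑ i, (1 : Matrix ι ι A) i j • v i = ∑ l, e.repr (v j) l • e l := by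
      simp [Matrix.one_apply]
    simp only [sub_smul, Finset.sum_sub_distrib]
    rw [h1, h2, ← Finset.sum_sub_distrib]
    refine Finset.dvd_sum fun l _ => ?_
    rw [← smul_sub, Algebra.smul_def]
    exact (dvd_sub_comm.1 (ha l)).mul_left _

theorem Bs.exists_basis [DecidableEq ι] [Module.Free A B] [Module.Finite A B] (hϖ : Prime ϖ)
    {v : ι → B} (h : Bs ϖ (algebraMap A B ϖ) v) : ∃ e : Basis ι A B, ¬ϖ ∣ e.det v := by
  classical
  haveI : Nontrivial (A ⧸ Ideal.span {ϖ}) :=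
    Ideal.Quotient.nontrivial_iff.2 (mt Ideal.span_singleton_eq_top.1 hϖ.not_unit)
  obtain ⟨R, h1, h2⟩ := h.exists_inv (Module.Free.chooseBasis A B)
  obtain ⟨e⟩ : Nonempty (Basis ι A B) :=
    ⟨(Module.Free.chooseBasis A B).reindex (Matrix.indexEquivOfInv h1 h2)⟩
  obtain ⟨R', h3, -⟩ := h.exists_inv e
  refine ⟨e, fun hd => ?_⟩
  have h4 := congrArg Matrix.det h3
  rw [Matrix.det_mul, Matrix.det_one, ← RingHom.mapMatrix_apply, ← RingHom.map_det,
    ← Basis.det_apply, Ideal.Quotient.eq_zero_iff_mem.2 (Ideal.mem_span_singleton.2 hd),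
    zero_mul] at h4
  exact zero_ne_one h4

theorem Rp.det [DecidableEq ι] {v u : ι → B} {M : Matrix ι ι A}
    (h : Rp (algebraMap A B ϖ) v u M) (e : Basis ι A B) : ϖ ∣ e.det u - e.det v * M.det := by
  have h1 : (e.toMatrix u).map (Ideal.Quotient.mk (Ideal.span {ϖ})) =
      (e.toMatrix v * M).map (Ideal.Quotient.mk (Ideal.span {ϖ})) := by
    refine map_eq_of_dvd fun i j => ?_
    convert dvd_repr e (h j) i using 1
    simp [Matrix.mul_apply, Basis.toMatrix_apply, mul_comm]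
  have h2 := congrArg Matrix.det h1
  rw [← RingHom.mapMatrix_apply, ← RingHom.mapMatrix_apply, ← RingHom.map_det, ← RingHom.map_det,
    Matrix.det_mul, ← Basis.det_apply, ← Basis.det_apply] at h2
  exact Ideal.mem_span_singleton.1 (Ideal.Quotient.eq.1 h2)

theorem det_mul_fam [DecidableEq ι] (e : Basis ι A B) (y : B) (v : ι → B) :
    e.det (fun j => y * v j) = Algebra.norm A y * e.det v :=
  e.det_comp (Algebra.lmul A B y) v

theorem exists_shift [IsDomain B] {π : B} (hπ : π ≠ 0) {b : ι → B} (hb : Bs ϖ π b) (n : ℕ)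
    (hn : π ^ n ∣ algebraMap A B ϖ) :
    ∃ (μ : Type) (_ : Fintype μ) (γ : μ → B) (σ : Equiv.Perm (μ ⊕ ι)), Bs ϖ (π ^ n) γ ∧
      (Sum.elim (fun x => π * γ x) b) = (Sum.elim γ fun i => π ^ n * b i) ∘ σ := by
  induction n with
  | zero =>
    refine ⟨Empty, inferInstance, Empty.elim, 1, ⟨fun y => ⟨Empty.elim, by simp⟩,
      fun _ _ i => i.elim⟩, ?_⟩
    funext r
    rcases r with r | r
    · exact r.elim
    · simp
  | succ n ih =>
    obtain ⟨μ, _, γ, σ, h1, h2⟩ := ih ((pow_dvd_pow π n.le_succ).trans hn)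
    rw [pow_succ] at hn
    refine ⟨μ ⊕ ι, inferInstance, Sum.elim γ fun i => π ^ n * b i,
      (((Equiv.sumAssoc μ ι ι).trans ((Equiv.refl μ).sumCongr (Equiv.sumComm ι ι))).trans
        (Equiv.sumAssoc μ ι ι).symm).trans (σ.sumCongr (Equiv.refl ι)), ?_, ?_⟩
    · rw [pow_succ]
      exact h1.mul (pow_ne_zero _ hπ) hn hb
    · funext r
      rcases r with (r | r) | r
      · exact congrFun h2 (Sum.inl r)
      · show π * (π ^ n * b r) = π ^ (n + 1) * b r
        ring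
      · exact congrFun h2 (Sum.inr r)

end fam

variable {A B : Type} [CommRing A] [IsDomain A] [IsPrincipalIdealRing A] [CommRing B] [IsDomain B]
  [IsPrincipalIdealRing B] [Algebra A B] {w ϖ : A}

theorem prime_bs (hϖ : Prime ϖ) {π : B} (hπ : GP π) (hd : π ∣ algebraMap A B ϖ) :
    ∃ (f : ℕ) (v : Fin f → B), Bs ϖ π v ∧ Nq ϖ - 1 ∣ Nq π - 1 ∧
      ∀ (y : B) (M : Matrix (Fin f) (Fin f) A), Rp π v (fun j => y * v j) M →
        π ∣ algebraMap A B M.det - y ^ ((Nq π - 1) / (Nq ϖ - 1)) := by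
  haveI := PrincipalIdealRing.isMaximal_of_irreducible hϖ.irreducible
  haveI := PrincipalIdealRing.isMaximal_of_irreducible hπ.1.irreducible
  haveI := hπ.2.1
  letI : Field (A ⧸ Ideal.span {ϖ}) := Ideal.Quotient.field _
  letI : Field (B ⧸ Ideal.span {π}) := Ideal.Quotient.field _
  have hle : Ideal.span {ϖ} ≤ (Ideal.span {π}).comap (algebraMap A B) :=
    (Ideal.span_singleton_le_iff_mem _).2 (Ideal.mem_span_singleton.2 hd)
  letI : Algebra (A ⧸ Ideal.span {ϖ}) (B ⧸ Ideal.span {π}) :=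
    (Ideal.quotientMap (Ideal.span {π}) (algebraMap A B) hle).toAlgebra
  have hal : ∀ a : A, algebraMap (A ⧸ Ideal.span {ϖ}) (B ⧸ Ideal.span {π})
      (Ideal.Quotient.mk _ a) = Ideal.Quotient.mk _ (algebraMap A B a) := fun a => rfl
  have b := Module.finBasis (A ⧸ Ideal.span {ϖ}) (B ⧸ Ideal.span {π})
  choose v hv using fun i => Ideal.Quotient.mk_surjective (b i)
  have hsum : ∀ a : Fin _ → A, Ideal.Quotient.mk (Ideal.span {π}) (∑ i, a i • v i) =
      ∑ i, Ideal.Quotient.mk (Ideal.span {ϖ}) (a i) • b i := by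
    intro a
    rw [map_sum]
    refine Finset.sum_congr rfl fun i _ => ?_
    rw [Algebra.smul_def, Algebra.smul_def, map_mul, hv, hal]
  refine ⟨_, v, ⟨fun y => ?_, fun a ha i => ?_⟩, ?_, fun y M hM => ?_⟩
  · choose a ha using fun i =>
      Ideal.Quotient.mk_surjective (b.repr (Ideal.Quotient.mk (Ideal.span {π}) y) i)
    refine ⟨a, Ideal.mem_span_singleton.1 (Ideal.Quotient.eq.1 ?_)⟩
    rw [hsum]
    simp only [ha, Basis.sum_repr]
  · have h1 := Ideal.Quotient.eq_zero_iff_mem.2 (Ideal.mem_span_singleton.2 ha)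
    rw [hsum] at h1
    exact Ideal.mem_span_singleton.1 (Ideal.Quotient.eq_zero_iff_mem.1
      (Fintype.linearIndependent_iff.1 b.linearIndependent _ h1 i))
  · haveI := Finite.of_injective _
      (algebraMap (A ⧸ Ideal.span {ϖ}) (B ⧸ Ideal.span {π})).injective
    have h1 : Nq π = Nq ϖ ^ finrank (A ⧸ Ideal.span {ϖ}) (B ⧸ Ideal.span {π}) :=
      Module.natCard_eq_pow_finrank
    rw [h1]
    exact Nat.sub_one_dvd_pow_sub_one _ _
  · refine Ideal.mem_span_singleton.1 (Ideal.Quotient.eq.1 ?_)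
    have h1 : Algebra.leftMulMatrix b (Ideal.Quotient.mk (Ideal.span {π}) y) =
        M.map (Ideal.Quotient.mk (Ideal.span {ϖ})) := by
      ext i j
      have h2 := Ideal.Quotient.eq.2 (Ideal.mem_span_singleton.2 (hM j))
      rw [hsum, map_mul, hv] at h2
      rw [Algebra.leftMulMatrix_eq_repr_mul, h2, Basis.repr_sum_self, Matrix.map_apply]
    rw [← hal, map_pow, RingHom.map_det, RingHom.mapMatrix_apply, ← h1,
      ← Algebra.norm_eq_matrix_det]
    exact FiniteField.algebraMap_norm_eq_pow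

theorem prime_bs_lg (hA : Good w) (hB : Good (algebraMap A B w)) (hϖ : Prime ϖ) {π : B}
    (hπ : Prime π) (hd : π ∣ algebraMap A B ϖ) :
    ∃ (f : ℕ) (v : Fin f → B), Bs ϖ π v ∧
      ∀ (y : B) (M : Matrix (Fin f) (Fin f) A), ¬π ∣ y → Rp π v (fun j => y * v j) M →
        ¬ϖ ∣ M.det ∧ lg w M.det ϖ = lg (algebraMap A B w) y π := by
  obtain ⟨f, v, h1, ⟨m, hm⟩, h3⟩ := prime_bs hϖ (hB.2 π hπ) hd
  refine ⟨f, v, h1, fun y M hy hM => ?_⟩
  have h4 := h3 y M hM
  have h5 : ¬ϖ ∣ M.det := fun h =>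
    hy (hπ.dvd_of_dvd_pow ((dvd_sub_right (hd.trans (map_dvd _ h))).1 h4))
  refine ⟨h5, ?_⟩
  have h6 := hd.trans (map_dvd (algebraMap A B) ((hA.2 ϖ hϖ).lg_spec hA.1 h5))
  obtain ⟨k, hk⟩ := (hA.2 ϖ hϖ).three_dvd hA.1
  have hk0 : 0 < Nq ϖ - 1 := by
    haveI := (hA.2 ϖ hϖ).2.1
    haveI : Nontrivial (A ⧸ Ideal.span {ϖ}) :=
      Ideal.Quotient.nontrivial_iff.2 (mt Ideal.span_singleton_eq_top.1 hϖ.not_unit)
    exact Nat.sub_pos_of_lt Finite.one_lt_card
  have e1 : (Nq π - 1) / (Nq ϖ - 1) = m := by rw [hm, Nat.mul_div_cancel_left _ hk0]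
  have e2 : (Nq ϖ - 1) / 3 = k := by omega
  have e3 : (Nq π - 1) / 3 = m * k := by
    rw [hm, hk, mul_assoc, Nat.mul_div_cancel_left _ (by norm_num), mul_comm]
  rw [e1] at h4
  rw [e2, map_sub, map_pow, map_pow] at h6
  have h7 : π ∣ y ^ ((Nq π - 1) / 3) - algebraMap A B w ^ (lg w M.det ϖ).val := by
    rw [e3, pow_mul]
    have h8 := h4.trans (sub_dvd_pow_sub_pow _ _ k)
    convert dvd_sub h6 h8 using 1
    ring
  rw [(hB.2 π hπ).lg_eq hB.1 h7, ZMod.natCast_zmod_val]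

theorem exists_gd (hA : Good w) (hB : Good (algebraMap A B w)) (hϖ : Prime ϖ)
    (h0 : algebraMap A B ϖ ≠ 0) (y c : B) :
    c ∣ algebraMap A B ϖ → IsCoprime y c →
      ∃ (ι : Type) (_ : Fintype ι) (_ : DecidableEq ι) (v : ι → B) (M : Matrix ι ι A),
        Bs ϖ c v ∧ Rp c v (fun j => y * v j) M ∧ ¬ϖ ∣ M.det ∧
          lg w M.det ϖ = Lg (algebraMap A B w) y c := by
  induction c using UniqueFactorizationMonoid.induction_on_prime with
  | h₁ => exact fun h => (h0 (zero_dvd_iff.1 h)).elim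
  | h₂ u hu =>
    intro _ _
    refine ⟨Empty, inferInstance, inferInstance, Empty.elim, 1,
      ⟨fun y => ⟨Empty.elim, hu.dvd⟩, fun _ _ i => i.elim⟩, fun j => j.elim, ?_, ?_⟩
    · rw [Matrix.det_one]
      exact hϖ.not_dvd_one
    · rw [Matrix.det_one, lg_one, Lg_unit hu]
  | h₃ a p ha hp ih =>
    intro hd hc
    obtain ⟨ι, _, _, v, M, h1, h2, h3, h4⟩ := ih ((dvd_mul_left a p).trans hd) hc.of_mul_right_right
    obtain ⟨f, b, hb, hb'⟩ := prime_bs_lg hA hB hϖ hp ((dvd_mul_right p a).trans hd)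
    obtain ⟨Z, hZ⟩ := hb.exists_rp fun j => y * b j
    obtain ⟨h5, h6⟩ := hb' y Z (hp.coprime_iff_not_dvd.1 hc.of_mul_right_left.symm) hZ
    obtain ⟨C, hC⟩ := Rp.mul h1 hZ h2
    refine ⟨Fin f ⊕ ι, inferInstance, inferInstance, _, Matrix.fromBlocks Z 0 C M,
      hb.mul hp.ne_zero hd h1, ?_, ?_, ?_⟩
    · convert hC using 1
      funext r
      rcases r with r | r
      · rfl
      · exact mul_left_comm _ _ _
    · rw [Matrix.det_fromBlocks_zero₁₂]
      exact fun h => (hϖ.dvd_or_dvd h).elim h5 h3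
    · rw [Matrix.det_fromBlocks_zero₁₂, (hA.2 ϖ hϖ).lg_mul hA.1 h5 h3, h6, h4,
        Lg_mul_right hp.ne_zero ha, Lg_prime hp]

variable [Module.Free A B] [Module.Finite A B]

theorem norm_cop (hA : Good w) (hB : Good (algebraMap A B w)) {ϖ : A} (hϖ : Prime ϖ) {b : B}
    (hb : IsCoprime b (algebraMap A B ϖ)) :
    ¬ϖ ∣ Algebra.norm A b ∧
      lg w (Algebra.norm A b) ϖ = Lg (algebraMap A B w) b (algebraMap A B ϖ) := by
  have h0 : algebraMap A B ϖ ≠ 0 :=
    (map_ne_zero_iff _ (FaithfulSMul.algebraMap_injective A B)).2 hϖ.ne_zero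
  obtain ⟨ι, _, _, v, M, h1, h2, h3, h4⟩ := exists_gd hA hB hϖ h0 b _ dvd_rfl hb
  obtain ⟨e, he⟩ := h1.exists_basis hϖ
  have h5 := h2.det e
  rw [det_mul_fam, mul_comm, ← mul_sub] at h5
  have h6 := (hϖ.dvd_or_dvd h5).resolve_left he
  exact ⟨fun h => h3 ((dvd_sub_right h).1 h6), by rw [lg_congr h6, h4]⟩

theorem norm_prime (hA : Good w) (hB : Good (algebraMap A B w)) {ϖ : A} (hϖ : Prime ϖ) {π z : B}
    (hπ : Prime π) {e : ℕ} (he : algebraMap A B ϖ = π ^ (e + 1) * z) (hz : ¬π ∣ z) :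
    ∃ (f : ℕ) (u : A), Algebra.norm A π = ϖ ^ f * u ∧ IsUnit u ∧
      lg w u ϖ = Lg (algebraMap A B w) π z - lg (algebraMap A B w) z π ∧
      ∀ a : A, ¬ϖ ∣ a → lg (algebraMap A B w) (algebraMap A B a) π = f * lg w a ϖ := by
  classical
  have h0 : algebraMap A B ϖ ≠ 0 :=
    (map_ne_zero_iff _ (FaithfulSMul.algebraMap_injective A B)).2 hϖ.ne_zero
  have he' : algebraMap A B ϖ = π ^ e * π * z := by rw [he, pow_succ]
  have hd : π ∣ algebraMap A B ϖ := ⟨π ^ e * z, by rw [he']; ring⟩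
  obtain ⟨f, b, hb, hb'⟩ := prime_bs_lg hA hB hϖ hπ hd
  obtain ⟨Z, hZ⟩ := hb.exists_rp fun j => z * b j
  obtain ⟨hZ1, hZ2⟩ := hb' z Z hz hZ
  obtain ⟨ι, _, _, c, P, hc, hP, hP1, hP2⟩ := exists_gd hA hB hϖ h0 π z ⟨π ^ e * π, by
    rw [he']; ring⟩ (hπ.coprime_iff_not_dvd.2 hz)
  obtain ⟨μ, _, γ, σ, hγ, hσ⟩ := exists_shift hπ.ne_zero hb e ⟨π * z, by rw [he']; ring⟩
  have ht := (hγ.mul (pow_ne_zero _ hπ.ne_zero) ⟨z, he'⟩ hb).mul
    (mul_ne_zero (pow_ne_zero _ hπ.ne_zero) hπ.ne_zero) he'.symm.dvd hc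
  rw [← he'] at ht
  obtain ⟨ba, hba⟩ := ht.exists_basis hϖ
  obtain ⟨C₁, h1⟩ := Rp.mul hb (Rp.refl (π ^ e) γ) hZ
  obtain ⟨C₂, h2⟩ := Rp.mul hc h1 (Rp.refl z c)
  obtain ⟨C₃, h3⟩ := Rp.mul hc (Rp.refl (π ^ e * π) (Sum.elim (fun x => π * γ x) b)) hP
  rw [← he'] at h2 h3
  have h4 := h2.det ba
  have h5 := h3.det ba
  have h6 : (Sum.elim (Sum.elim (fun x => π * γ x) b) fun j => π ^ e * π * c j) =
      (Sum.elim (Sum.elim γ fun i => π ^ e * b i) fun j => π ^ e * π * c j) ∘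
        (σ.sumCongr (Equiv.refl ι) : Equiv.Perm _) := by
    funext r
    rcases r with r | r
    · exact congrFun hσ r
    · rfl
  rw [h6, AlternatingMap.map_perm] at h5
  simp only [Matrix.det_fromBlocks_zero₁₂, Matrix.det_one, one_mul, mul_one] at h4 h5
  have h7 := det_mul_fam ba π
    (Sum.elim (Sum.elim γ fun j => π ^ e * (z * b j)) fun j => π ^ e * π * c j)
  have h8 : (fun j => π *
      (Sum.elim (Sum.elim γ fun j => π ^ e * (z * b j)) fun j => π ^ e * π * c j) j) =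
      fun j => (Sum.elim (Sum.elim (fun _ => 1) fun _ => ϖ) fun _ => (1 : A)) j •
        (Sum.elim (Sum.elim (fun x => π * γ x) b) fun j => π ^ e * π * (π * c j)) j := by
    funext r
    rcases r with (r | r) | r
    · simp
    · simp only [Sum.elim_inl, Sum.elim_inr, Algebra.smul_def, he']
      ring
    · simp only [Sum.elim_inr, one_smul]
      ring
  rw [h8, AlternatingMap.map_smul_univ] at h7
  simp only [Fintype.prod_sum_type, Sum.elim_inl, Sum.elim_inr, Finset.prod_const_one,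
    Finset.prod_const, Finset.card_univ, Fintype.card_fin, one_mul, mul_one, smul_eq_mul] at h7
  generalize ba.det (Sum.elim (Sum.elim γ fun j => π ^ e * (z * b j))
    fun j => π ^ e * π * c j) = Dw at h4 h7
  generalize ba.det (Sum.elim (Sum.elim (fun x => π * γ x) b)
    fun j => π ^ e * π * (π * c j)) = Dv at h5 h7
  generalize ba.det (Sum.elim (Sum.elim γ fun i => π ^ e * b i)
    fun j => π ^ e * π * c j) = Dt at h4 h5 hba
  have hDw : ¬ϖ ∣ Dw := fun h =>
    (hϖ.dvd_or_dvd ((dvd_sub_right h).1 h4)).elim hba hZ1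
  obtain ⟨u, hu⟩ : ϖ ^ f ∣ Algebra.norm A π :=
    hϖ.pow_dvd_of_dvd_mul_right f hDw ⟨Dv, h7.symm⟩
  have h9 : Dv = u * Dw := by
    rw [hu, mul_assoc] at h7
    exact mul_left_cancel₀ (pow_ne_zero _ hϖ.ne_zero) h7
  have key : ¬ϖ ∣ u ∧ lg w (u * Z.det) ϖ = lg w P.det ϖ := by
    rcases Int.units_eq_one_or (Equiv.Perm.sign (σ.sumCongr (Equiv.refl ι) : Equiv.Perm _))
      with hs | hs
    · rw [hs, one_smul] at h5
      have h10 : ϖ ∣ Dt * (u * Z.det - P.det) := by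
        convert dvd_sub h5 (h4.mul_left u) using 1
        rw [h9]; ring
      have h11 := (hϖ.dvd_or_dvd h10).resolve_left hba
      exact ⟨fun h => hP1 ((dvd_sub_right (h.mul_right _)).1 h11), lg_congr h11 w⟩
    · rw [hs, Units.neg_smul, one_smul] at h5
      have h10 : ϖ ∣ Dt * (u * Z.det - -P.det) := by
        convert dvd_sub h5 (h4.mul_left u) using 1
        rw [h9]; ring
      have h11 := (hϖ.dvd_or_dvd h10).resolve_left hba
      exact ⟨fun h => hP1 (dvd_neg.1 ((dvd_sub_right (h.mul_right _)).1 h11)),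
        (lg_congr h11 w).trans ((hA.2 ϖ hϖ).lg_neg hA.1 hP1)⟩
  refine ⟨f, u, hu, ?_, ?_, fun a ha => ?_⟩
  · have h10 : u ∣ ϖ ^ finrank A B := by
      rw [← Algebra.norm_algebraMap]
      exact (Dvd.intro_left _ hu.symm).trans (map_dvd _ hd)
    exact ((hϖ.coprime_iff_not_dvd.2 key.1).symm.pow_right).isUnit_of_dvd h10
  · rw [← hP2, ← hZ2, ← key.2, (hA.2 ϖ hϖ).lg_mul hA.1 key.1 hZ1]
    ring
  · have h10 : ¬π ∣ algebraMap A B a := fun h =>
      hπ.not_unit (((hϖ.coprime_iff_not_dvd.2 ha).map (algebraMap A B)).isUnit_of_dvd' hd h)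
    have h11 : Rp π b (fun j => algebraMap A B a * b j)
        (Matrix.diagonal fun _ : Fin f => a) := by
      intro j
      simp only [← Algebra.smul_def]
      simp [Matrix.diagonal_apply]
    rw [← (hb' _ _ h10 h11).2, Matrix.det_diagonal, Finset.prod_const, Finset.card_univ,
      Fintype.card_fin, (hA.2 ϖ hϖ).lg_pow hA.1 ha]

end Vale.Agent.P319.Cft
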