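import Vale.Agent.P319.N.CftSym

/-! The tame symbol of a principal ideal domain.
Plan.  `exists_isSym`: for a prime `π` let `H π a = lg w a' π` where `a = π^n a'`, `π ∤ a'` (additive in `a ≠ 0`,
`WfDvdMonoid.max_power_factor'`); `T a b = ∑ over factors p of b of H (Associates.mk p).out a` is additive in `a` and
in `b`, and equals `Lg w a b` for coprime `a, b`; `s0 a b = T a b - T b a`; extend to fractions in each variable by
`ext φ x = φ (sec x).1 - φ (sec x).2` (if `x * b = a` then `ext φ x = φ a - φ b`).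
`IsSym.st`: `x = a / b` with `a, b` coprime, `1 - x = (b - a) / b`, expand; `a, b, b - a` are pairwise coprime. 
`IsSym.eq_zero`: `a` is a unit; `y = b / d`; induct on `b` (units, primes), `lg w a p = lg w 1 p = 0`. -/

namespace Vale.Agent.P319.Cft

variable {B : Type} [CommRing B] [IsDomain B] [IsPrincipalIdealRing B] {w : B}

open UniqueFactorizationMonoid

open Classical in
/-- the symbol of the part of `a` prime to `π` -/
noncomputable def symH (w π a : B) : ZMod 3 :=
  if h : ∃ a', ¬π ∣ a' ∧ ∃ n : ℕ, a = π ^ n * a' then lg w h.choose π else 0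

theorem symH_eq (w : B) {π a' : B} (hπ : Prime π) (h : ¬π ∣ a') (n : ℕ) :
    symH w π (π ^ n * a') = lg w a' π := by
  have h1 : ∃ a'', ¬π ∣ a'' ∧ ∃ m : ℕ, π ^ n * a' = π ^ m * a'' := ⟨a', h, n, rfl⟩
  rw [symH, dif_pos h1]
  obtain ⟨h2, m, h3⟩ := h1.choose_spec
  generalize h1.choose = b at *
  rcases lt_trichotomy n m with hl | rfl | hl
  · obtain ⟨k, rfl⟩ := Nat.exists_eq_add_of_lt hl
    rw [add_assoc, pow_add, mul_assoc] at h3
    rw [mul_left_cancel₀ (pow_ne_zero _ hπ.ne_zero) h3] at h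
    exact (h ((dvd_pow_self π k.succ_ne_zero).mul_right _)).elim
  · rw [mul_left_cancel₀ (pow_ne_zero _ hπ.ne_zero) h3]
  · obtain ⟨k, rfl⟩ := Nat.exists_eq_add_of_lt hl
    rw [add_assoc, pow_add, mul_assoc] at h3
    rw [← mul_left_cancel₀ (pow_ne_zero _ hπ.ne_zero) h3] at h2
    exact (h2 ((dvd_pow_self π k.succ_ne_zero).mul_right _)).elim

theorem symH_mul (hw : Good w) {π a b : B} (hπ : Prime π) (ha : a ≠ 0) (hb : b ≠ 0) :
    symH w π (a * b) = symH w π a + symH w π b := by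
  obtain ⟨n, a', h1, rfl⟩ := WfDvdMonoid.max_power_factor' ha hπ.not_unit
  obtain ⟨m, b', h2, rfl⟩ := WfDvdMonoid.max_power_factor' hb hπ.not_unit
  rw [show π ^ n * a' * (π ^ m * b') = π ^ (n + m) * (a' * b') by ring,
    symH_eq w hπ (fun h => (hπ.dvd_or_dvd h).elim h1 h2), symH_eq w hπ h1, symH_eq w hπ h2,
    (hw.2 π hπ).lg_mul hw.1 h1 h2]

/-- a fixed associate -/
noncomputable def symN (p : B) : B := Quot.out (Associates.mk p)

omit [IsDomain B] [IsPrincipalIdealRing B] in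
theorem symN_assoc (p : B) : Associated (symN p) p :=
  Associates.mk_eq_mk_iff_associated.1 (Quot.out_eq (Associates.mk p))

/-- a bimultiplicative extension of the Jacobi symbol -/
noncomputable def symT (w a b : B) : ZMod 3 := ((factors b).map fun p => symH w (symN p) a).sum

theorem symT_right (w a : B) {b c : B} (hb : b ≠ 0) (hc : c ≠ 0) :
    symT w a (b * c) = symT w a b + symT w a c :=
  sy_mul (fun p q h => by rw [symN, symN, Associates.mk_eq_mk_iff_associated.2 h]) hb hc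

theorem symT_left (hw : Good w) {a a' : B} (ha : a ≠ 0) (ha' : a' ≠ 0) (b : B) :
    symT w (a * a') b = symT w a b + symT w a' b := by
  rw [symT, symT, symT, ← Multiset.sum_map_add]
  exact congrArg Multiset.sum (sy_congr fun p hp _ =>
    symH_mul hw ((symN_assoc p).prime_iff.2 hp) ha ha')

theorem symT_cop (w : B) {a b : B} (h : IsCoprime a b) : symT w a b = Lg w a b := by
  refine congrArg Multiset.sum (sy_congr fun p hp hd => ?_)
  have h1 := symH_eq w ((symN_assoc p).prime_iff.2 hp)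
    (fun hh => not_dvd_of_cop h hp hd ((symN_assoc p).symm.dvd.trans hh)) 0
  rw [pow_zero, one_mul] at h1
  rw [h1, lg_assoc (symN_assoc p)]

section ext

variable (E : Type) [Field E] [Algebra B E] [IsFractionRing B E]

omit [IsPrincipalIdealRing B] in
theorem exists_ext : ∃ ext : (B → ZMod 3) → E → ZMod 3,
    (∀ φ ψ x, ext (fun a => φ a + ψ a) x = ext φ x + ext ψ x) ∧
    (∀ φ ψ x, x ≠ 0 → (∀ a, a ≠ 0 → φ a = ψ a) → ext φ x = ext ψ x) ∧
    (∀ (φ : B → B → ZMod 3) x y, ext (fun a => ext (fun b => φ a b) y) x =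
      ext (fun b => ext (fun a => φ a b) x) y) ∧
    (∀ φ x, ext (fun a => -φ a) x = -ext φ x) ∧
    ∀ φ : B → ZMod 3, (∀ a b, a ≠ 0 → b ≠ 0 → φ (a * b) = φ a + φ b) →
      (∀ a, a ≠ 0 → ext φ (algebraMap B E a) = φ a) ∧
      ∀ x y, x ≠ 0 → y ≠ 0 → ext φ (x * y) = ext φ x + ext φ y := by
  have hinj := IsFractionRing.injective B E
  have h : ∀ x : E, ∃ a b : B, b ≠ 0 ∧ x * algebraMap B E b = algebraMap B E a := by
    intro x
    obtain ⟨a, b, hb, rfl⟩ := IsFractionRing.div_surjective (A := B) x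
    have hb' := nonZeroDivisors.ne_zero hb
    exact ⟨a, b, hb', div_mul_cancel₀ _ ((map_ne_zero_iff _ hinj).2 hb')⟩
  choose n d hd hn using h
  have hn0 : ∀ x, x ≠ 0 → n x ≠ 0 := fun x hx h0 => by
    have := hn x
    rw [h0, map_zero] at this
    exact mul_ne_zero hx ((map_ne_zero_iff _ hinj).2 (hd x)) this
  refine ⟨fun φ x => φ (n x) - φ (d x), fun φ ψ x => by ring, fun φ ψ x hx h => by
    simp only [h _ (hn0 x hx), h _ (hd x)], fun φ x y => by ring, fun φ x => by ring,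
    fun φ hφ => ⟨fun a ha => ?_, fun x y hx hy => ?_⟩⟩
  · have h1 : a * d (algebraMap B E a) = n (algebraMap B E a) := hinj (by rw [map_mul, hn])
    simp only
    rw [← h1, hφ _ _ ha (hd _)]
    ring
  · have h1 : n (x * y) * (d x * d y) = n x * n y * d (x * y) := hinj (by
      simp only [map_mul, ← hn]; ring)
    have h2 := congrArg φ h1
    rw [hφ _ _ (hn0 _ (mul_ne_zero hx hy)) (mul_ne_zero (hd _) (hd _)), hφ _ _ (hd _) (hd _),
      hφ _ _ (mul_ne_zero (hn0 _ hx) (hn0 _ hy)) (hd _), hφ _ _ (hn0 _ hx) (hn0 _ hy)] at h2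
    simp only
    linear_combination h2

end ext

theorem exists_isSym (hw : Good w) (E : Type) [Field E] [Algebra B E] [IsFractionRing B E] :
    ∃ s, IsSym w E s := by
  obtain ⟨ext, h1, h2, h3, h4, h5⟩ := exists_ext (B := B) E
  obtain ⟨s0, hs0⟩ : ∃ s0 : B → B → ZMod 3, ∀ a b, s0 a b = symT w a b - symT w b a :=
    ⟨_, fun _ _ => rfl⟩
  have hl : ∀ a a' b, a ≠ 0 → a' ≠ 0 → s0 (a * a') b = s0 a b + s0 a' b := fun a a' b ha ha' => by
    rw [hs0, hs0, hs0, symT_left hw ha ha', symT_right w b ha ha']; ring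
  have hsw : ∀ a b, s0 a b = -s0 b a := fun a b => by rw [hs0, hs0]; ring
  have hr : ∀ a b b', b ≠ 0 → b' ≠ 0 → s0 a (b * b') = s0 a b + s0 a b' := fun a b b' hb hb' => by
    rw [hsw, hl _ _ _ hb hb', hsw a b, hsw a b']; ring
  have hl' : ∀ (y : E) a a', a ≠ 0 → a' ≠ 0 → ext (fun b => s0 (a * a') b) y =
      ext (fun b => s0 a b) y + ext (fun b => s0 a' b) y := fun y a a' ha ha' => by
    rw [← h1]
    simp only [hl _ _ _ ha ha']
  refine ⟨fun x y => ext (fun a => ext (fun b => s0 a b) y) x, ⟨fun x x' y hx hx' _ => ?_,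
    fun x y _ _ => ?_⟩, fun a b ha hb hab => ?_⟩
  · exact (h5 _ (hl' y)).2 x x' hx hx'
  · rw [h3, ← h4]
    congr 1
    funext b
    rw [← h4]
    congr 1
    funext a
    exact hsw a b
  · rw [(h5 _ (hl' _)).1 a ha, (h5 _ (hr a)).1 b hb, hs0, symT_cop w hab, symT_cop w hab.symm]

variable {E : Type} [Field E] [Algebra B E] [IsFractionRing B E] {s : E → E → ZMod 3}

theorem IsSym.st (hw : Good w) (h : IsSym w E s) {x : E} (hx : x ≠ 0) (hx' : 1 - x ≠ 0) :
    s x (1 - x) = 0 := by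
  have hinj := IsFractionRing.injective B E
  obtain ⟨a, ⟨b, hb⟩, hab, rfl⟩ := IsFractionRing.exists_reduced_fraction B x
  have hc : IsCoprime a b := hab.isCoprime
  have hb0 := nonZeroDivisors.ne_zero hb
  have hb1 := (map_ne_zero_iff _ hinj).2 hb0
  rw [IsFractionRing.mk'_eq_div] at hx hx' ⊢
  simp only at hx hx' ⊢
  have ha1 : algebraMap B E a ≠ 0 := fun h0 => hx (by rw [h0, zero_div])
  have ha0 : a ≠ 0 := (map_ne_zero_iff _ hinj).1 ha1
  have e : 1 - algebraMap B E a / algebraMap B E b = algebraMap B E (b - a) / algebraMap B E b := by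
    rw [map_sub]; field_simp
  rw [e] at hx' ⊢
  have hd1 : algebraMap B E (b - a) ≠ 0 := fun h0 => hx' (by rw [h0, zero_div])
  have hd0 : b - a ≠ 0 := (map_ne_zero_iff _ hinj).1 hd1
  have c1 : IsCoprime a (b - a) := by
    obtain ⟨u, v, huv⟩ := hc
    exact ⟨u + v, v, by linear_combination huv⟩
  have c2 : IsCoprime b (b - a) := by
    obtain ⟨u, v, huv⟩ := hc
    exact ⟨u + v, -u, by linear_combination huv⟩
  rw [h.alt.div_left ha1 hb1 hx', h.alt.div_right ha1 hd1 hb1, h.alt.div_right hb1 hd1 hb1,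
    h.alt.self hb1, h.cop _ _ ha0 hd0 c1, h.cop _ _ ha0 hb0 hc, h.cop _ _ hb0 hd0 c2,
    Lg_congr (n := a) (a := b - a) (b := b) ⟨-1, by ring⟩,
    Lg_congr (n := b) (a := b - a) (b := -a) ⟨1, by ring⟩, hw.Lg_neg hc,
    Lg_congr (n := b - a) (a := a) (b := b) ⟨-1, by ring⟩]
  ring

omit [IsFractionRing B E] in
theorem IsSym.unit (h : IsSym w E s) {a b : B} (ha : IsUnit a) (hb : IsUnit b) :
    s (algebraMap B E a) (algebraMap B E b) = 0 := by
  obtain ⟨u, rfl⟩ := ha
  rw [h.cop _ _ u.ne_zero hb.ne_zero ⟨(u⁻¹ : Bˣ), 0, by simp⟩, Lg_unit hb, Lg_unit u.isUnit,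
    sub_zero]

/-- the symbol vanishes if `a ≡ 1` modulo all primes -/
theorem IsSym.eq_zero (h : IsSym w E s) {a : B} (ha0 : a ≠ 0)
    (ha : ∀ p : B, Prime p → p ∣ a - 1) {y : E} (hy : y ≠ 0) : s (algebraMap B E a) y = 0 := by
  have hinj := IsFractionRing.injective B E
  have hu : IsUnit a := by
    by_contra hu
    obtain ⟨p, hp, hd⟩ := WfDvdMonoid.exists_irreducible_factor hu ha0
    exact hp.prime.not_dvd_one ((dvd_sub_right hd).1 (ha p hp.prime))
  have key : ∀ b : B, b ≠ 0 → s (algebraMap B E a) (algebraMap B E b) = 0 := by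
    intro b hb
    obtain ⟨u, rfl⟩ := hu
    rw [h.cop _ _ ha0 hb ⟨(u⁻¹ : Bˣ), 0, by simp⟩, Lg_unit u.isUnit, sub_zero, ← Lg_one w b]
    exact congrArg Multiset.sum (sy_congr fun p hp _ => lg_congr (ha p hp) w)
  obtain ⟨b, d, hd, rfl⟩ := IsFractionRing.div_surjective (A := B) y
  have hd0 := nonZeroDivisors.ne_zero hd
  have hb1 : algebraMap B E b ≠ 0 := fun h0 => hy (by rw [h0, zero_div])
  rw [h.alt.div_right ((map_ne_zero_iff _ hinj).2 ha0) hb1 ((map_ne_zero_iff _ hinj).2 hd0),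
    key b ((map_ne_zero_iff _ hinj).1 hb1), key d hd0, sub_zero]

end Vale.Agent.P319.Cft
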