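import Vale.Agent.P319.N.CftPF
import Vale.Agent.P319.N.CftLoc
import Vale.Agent.P319.N.CftSymB

/-! The global symbol.
Plan.  `sL_isSym` from `exists_isSym`, `BL_good`.  Finite support: if `x, x⁻¹, y, y⁻¹` are all `LInt l` then `x, y` are
units of `BL l E` (`IsSym.unit`, `LInt.finite_not`).  `fml`: `finsum_add_distrib`, `finsum_neg_distrib`, `finsum_congr`;
the projection formula holds for each `l` by `pf_pid` with `letI := blAlg l E E'`. -/

namespace Vale.Agent.P319.Cft

/-- rational primes other than `3` -/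
def P3 : Type := {l : ℕ // l.Prime ∧ l ≠ 3}

instance (l : P3) : Fact l.1.Prime := ⟨l.2.1⟩

/-- the part of the global symbol above `l` -/
noncomputable def sL (l : P3) (E : Type) [Field E] [NumberField E] (w : E) : E → E → ZMod 3 :=
  Classical.epsilon fun s => ∀ hw : w ∈ BL l.1 E, IsSym (⟨w, hw⟩ : BL l.1 E) E s

/-- the global symbol -/
noncomputable def DD : Fam := fun E _ _ w x y => ∑ᶠ l : P3, sL l E w x y

theorem sL_isSym (l : P3) {E : Type} [Field E] [NumberField E] {w : BL l.1 E}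
    (hw : w ^ 2 + w + 1 = 0) : IsSym w E (sL l E w) := by
  have h : ∃ s : E → E → ZMod 3,
      ∀ hw : (w : E) ∈ BL l.1 E, IsSym (⟨w, hw⟩ : BL l.1 E) E s := by
    obtain ⟨s, hs⟩ := exists_isSym (BL_good l.2.2 hw) E
    exact ⟨s, fun _ => hs⟩
  exact Classical.epsilon_spec h w.2

theorem glob_om (l : P3) {E : Type} [Field E] {w : E} (hw : w ^ 2 + w + 1 = 0) :
    (⟨w, om_mem_BL hw⟩ : BL l.1 E) ^ 2 + ⟨w, om_mem_BL hw⟩ + 1 = 0 :=
  Subtype.ext (by simpa using hw)

theorem glob_isSym (l : P3) {E : Type} [Field E] [NumberField E] {w : E}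
    (hw : w ^ 2 + w + 1 = 0) : IsSym (⟨w, om_mem_BL hw⟩ : BL l.1 E) E (sL l E w) :=
  sL_isSym l (glob_om l hw)

theorem sL_finite {E : Type} [Field E] [NumberField E] {w : E} (hw : w ^ 2 + w + 1 = 0) {x y : E}
    (hx : x ≠ 0) (hy : y ≠ 0) : (Function.support fun l : P3 => sL l E w x y).Finite := by
  have hfin : {l : ℕ | l.Prime ∧ ¬LInt l x} ∪ {l : ℕ | l.Prime ∧ ¬LInt l x⁻¹} ∪
      ({l : ℕ | l.Prime ∧ ¬LInt l y} ∪ {l : ℕ | l.Prime ∧ ¬LInt l y⁻¹}) |>.Finite :=
    ((LInt.finite_not x).union (LInt.finite_not _)).union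
      ((LInt.finite_not y).union (LInt.finite_not _))
  refine (hfin.preimage (f := fun l : P3 => l.1) Subtype.val_injective.injOn).subset fun l hl => ?_
  by_contra hc
  simp only [Set.mem_preimage, Set.mem_union, Set.mem_ofPred_eq, l.2.1, true_and, not_or,
    not_not] at hc
  obtain ⟨⟨h1, h2⟩, h3, h4⟩ := hc
  have ua : IsUnit (⟨x, h1⟩ : BL l.1 E) :=
    IsUnit.of_mul_eq_one ⟨x⁻¹, h2⟩ (Subtype.ext (mul_inv_cancel₀ hx))
  have ub : IsUnit (⟨y, h3⟩ : BL l.1 E) :=
    IsUnit.of_mul_eq_one ⟨y⁻¹, h4⟩ (Subtype.ext (mul_inv_cancel₀ hy))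
  exact hl ((glob_isSym l hw).unit ua ub)

theorem fml : Fml DD := by
  refine ⟨fun E _ _ w hw => ⟨fun x x' y hx hx' hy => ?_, fun x y hx hy => ?_⟩,
    fun E _ _ w hw x hx hx' => ?_, fun E E' _ _ _ _ _ w hw x y hx hy => ?_⟩
  · unfold DD
    rw [← finsum_add_distrib (sL_finite hw hx hy) (sL_finite hw hx' hy)]
    exact finsum_congr fun l => (glob_isSym l hw).alt.mul_left x x' y hx hx' hy
  · unfold DD
    rw [← finsum_neg_distrib]
    exact finsum_congr fun l => (glob_isSym l hw).alt.swap x y hx hy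
  · unfold DD
    exact finsum_eq_zero_of_forall_eq_zero fun l =>
      (glob_isSym l hw).st (BL_good l.2.2 (glob_om l hw)) hx hx'
  · unfold DD
    refine finsum_congr fun l => ?_
    have hw' : algebraMap E E' w ^ 2 + algebraMap E E' w + 1 = 0 := by
      simpa using congrArg (algebraMap E E') hw
    let := blAlg l.1 E E'
    have := blAlg_tower l.1 E E'
    have := blAlg_finite l.1 E E'
    have := blAlg_free l.1 E E'
    exact pf_pid (A := BL l.1 E) (B := BL l.1 E') (w := ⟨w, om_mem_BL hw⟩)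
      (BL_good l.2.2 (glob_om l hw)) (BL_good l.2.2 (glob_om l hw')) (glob_isSym l hw)
      (glob_isSym l hw') hx hy

end Vale.Agent.P319.Cft
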