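import Vale.Agent.P319.N.CftSym

/-! Rosset-Tate reciprocity, a formal consequence of the projection formula and the Steinberg relation.
Plan.  `A = E₁ ⊗[F] E₂` is Artinian; `L m = A / m` for `m : MaximalSpectrum A` (a finite type) are number fields with ring homs
`i₁ : E₁ → L m`, `i₂ : E₂ → L m` that agree on `F`.  Key lemma (symmetric in 1, 2; state it for a ring `A` with ring homs
`j₁, j₂` and the universal property for ring homs to `Ω = AlgebraicClosure E₁`): `(m, σ) ↦ σ ∘ i₂` is a bijection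
`(Σ m, L m →ₐ[E₁] Ω) ≃ (E₂ →ₐ[F] Ω)`.  With `Algebra.norm_eq_prod_embeddings` this gives
`∏ m, norm E₁ (i₁ α - i₂ β) = aeval α (minpoly F β)` (`PowerBasis.liftEquiv'`, see the proof of
`Algebra.norm_eq_prod_embeddings_gen`) and `∏ m, norm E₁ (i₂ β) = algebraMap (norm F β)`.  So by `pf` and `Alt.prod_right`
`D E₁ α (f α) = ∑ m, D (L m) α (α - β)`, `D E₂ β (g β) = ∑ m, D (L m) β (β - α)`,
`∑ m, D (L m) α β = D E₁ α (N β) = - D F (N β) (N α)`, and in each field
`D α (α - β) - D β (β - α) = D (α/β) (β (1 - α/β)) = D α β`. -/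

namespace Vale.Agent.P319.Cft

open Polynomial

open Matrix in
theorem rt_det_bd {R ι : Type} [CommRing R] [Fintype ι] [DecidableEq ι] {m : ι → Type}
    [∀ i, Fintype (m i)] [∀ i, DecidableEq (m i)] (M : ∀ i, Matrix (m i) (m i) R) :
    (blockDiagonal' M).det = ∏ i, (M i).det := by
  letI : LinearOrder ι := LinearOrder.lift' (Fintype.equivFin ι) (Fintype.equivFin ι).injective
  have h := (blockTriangular_blockDiagonal' M).det_fintype
  convert h using 2 with i
  rw [← det_submatrix_equiv_self (Equiv.sigmaSubtype i).symm]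
  congr 1
  ext a b
  simp [toSquareBlock_def, Equiv.sigmaSubtype]

theorem rt_norm_pi {E ι : Type} [Field E] [Fintype ι] {L : ι → Type} [∀ i, CommRing (L i)]
    [∀ i, Algebra E (L i)] [∀ i, Module.Finite E (L i)] (x : ∀ i, L i) :
    Algebra.norm E x = ∏ i, Algebra.norm E (x i) := by
  classical
  have b : ∀ i, Module.Basis (Fin (Module.finrank E (L i))) E (L i) :=
    fun i => Module.finBasis E (L i)
  rw [Algebra.norm_eq_matrix_det (Pi.basis b)]
  simp only [fun i => Algebra.norm_eq_matrix_det (b i)]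
  rw [← rt_det_bd]
  congr 1
  ext ⟨i, a⟩ ⟨j, c⟩
  rw [Algebra.leftMulMatrix_eq_repr_mul, Pi.basis_repr, Pi.basis_apply]
  by_cases h : i = j
  · subst h
    simp [Algebra.leftMulMatrix_eq_repr_mul]
  · simp [Matrix.blockDiagonal'_apply_ne _ _ _ h, Pi.single_eq_of_ne h]

theorem rt_norm_max {E A : Type} [Field E] [CommRing A] [Algebra E A] [Module.Finite E A]
    [IsArtinianRing A] [IsReduced A] [Fintype (MaximalSpectrum A)] (a : A) :
    Algebra.norm E a =
      ∏ m : MaximalSpectrum A, Algebra.norm E (Ideal.Quotient.mk m.asIdeal a) := by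
  rw [← Algebra.norm_eq_of_algEquiv ((IsArtinianRing.equivPi A).restrictScalars E) a, rt_norm_pi]
  rfl

section push

variable {F E₁ E₂ A : Type} [Field F] [Field E₁] [Field E₂] [CommRing A] [Algebra F E₁]
  [Algebra F E₂] [Algebra F A] [Algebra E₁ A] [Algebra E₂ A] [IsScalarTower F E₁ A]
  [IsScalarTower F E₂ A] [h : Algebra.IsPushout F E₁ E₂ A]

theorem rt_lmm {ι : Type} [Fintype ι] [DecidableEq ι] (b : Module.Basis ι F E₂) (y : E₂) :
    Algebra.leftMulMatrix (h.out.basis b) (algebraMap E₂ A y) =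
      (Algebra.leftMulMatrix b y).map (algebraMap F E₁) := by
  ext i j
  rw [Matrix.map_apply, Algebra.leftMulMatrix_eq_repr_mul, Algebra.leftMulMatrix_eq_repr_mul,
    ← h.out.basis_repr_comp_apply b, h.out.basis_apply]
  simp

include h in
theorem rt_norm_right (p : PowerBasis F E₂) (y : E₂) :
    Algebra.norm E₁ (algebraMap E₂ A y) = algebraMap F E₁ (Algebra.norm F y) := by
  rw [Algebra.norm_eq_matrix_det (h.out.basis p.basis), Algebra.norm_eq_matrix_det p.basis,
    rt_lmm, RingHom.map_det]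
  rfl

include h in
theorem rt_norm_sub (p : PowerBasis F E₂) (x : E₁) :
    Algebra.norm E₁ (algebraMap E₁ A x - algebraMap E₂ A p.gen) = aeval x (minpoly F p.gen) := by
  rw [Algebra.norm_eq_matrix_det (h.out.basis p.basis), map_sub, rt_lmm, AlgHom.commutes,
    ← charpoly_leftMulMatrix p, aeval_def, ← eval_map, ← Matrix.charpoly_map,
    Matrix.eval_charpoly]
  rfl

end push

theorem rt_local {E : Type} [Field E] {s : E → E → ZMod 3} (h : Alt s)
    (hst : ∀ x : E, x ≠ 0 → 1 - x ≠ 0 → s x (1 - x) = 0) {a b : E} (ha : a ≠ 0) (hb : b ≠ 0)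
    (hab : a - b ≠ 0) : s a (a - b) = s b (b - a) + s a b := by
  have hba : b - a ≠ 0 := fun e => hab (by linear_combination -e)
  have e : 1 - a / b = (b - a) / b := by field_simp
  have h1 := hst (a / b) (div_ne_zero ha hb) (by rw [e]; exact div_ne_zero hba hb)
  rw [e, h.div_left ha hb (div_ne_zero hba hb), h.div_right ha hba hb, h.div_right hb hba hb,
    h.self hb] at h1
  rw [← neg_sub b a, h.neg_right ha hba]
  linear_combination h1

theorem rt_sum {D : Fam} (hD : Fml D) {E A : Type} [Field E] [NumberField E] [CommRing A]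
    [Algebra E A] [Module.Finite E A] [IsArtinianRing A] [IsReduced A]
    [Fintype (MaximalSpectrum A)] {w : E} (hw : w ^ 2 + w + 1 = 0)
    (nf : ∀ m : MaximalSpectrum A, @NumberField _ (Ideal.Quotient.field m.asIdeal)) {x : E}
    (hx : x ≠ 0) {a : A} (ha : Algebra.norm E a ≠ 0) :
    (∀ m : MaximalSpectrum A, Ideal.Quotient.mk m.asIdeal a ≠ 0) ∧
    D E w x (Algebra.norm E a) = ∑ m : MaximalSpectrum A,
      @D _ (Ideal.Quotient.field m.asIdeal) (nf m) (Ideal.Quotient.mk _ (algebraMap E A w))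
        (Ideal.Quotient.mk _ (algebraMap E A x)) (Ideal.Quotient.mk _ a) := by
  rw [rt_norm_max] at ha ⊢
  have h1 := Finset.prod_ne_zero_iff.1 ha
  have h2 : ∀ m : MaximalSpectrum A, Ideal.Quotient.mk m.asIdeal a ≠ 0 := fun m e => by
    letI := Ideal.Quotient.field m.asIdeal
    exact h1 m (Finset.mem_univ m) (by rw [e, Algebra.norm_zero])
  refine ⟨h2, ?_⟩
  rw [(hD.alt E w hw).prod_right _ hx _ h1]
  refine Finset.sum_congr rfl fun m _ => ?_
  letI := Ideal.Quotient.field m.asIdeal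
  letI := nf m
  exact (hD.pf E (A ⧸ m.asIdeal) w hw x _ hx (h2 m)).symm

open TensorProduct in
theorem rt {D : Fam} (hD : Fml D) {F E₁ E₂ : Type} [Field F] [NumberField F] [Field E₁]
    [NumberField E₁] [Field E₂] [NumberField E₂] [Algebra F E₁] [Algebra F E₂] {w : F}
    (hw : w ^ 2 + w + 1 = 0) (p₁ : PowerBasis F E₁) (p₂ : PowerBasis F E₂) (h₁ : p₁.gen ≠ 0)
    (h₂ : p₂.gen ≠ 0) (h₁₂ : aeval p₁.gen (minpoly F p₂.gen) ≠ 0)
    (h₂₁ : aeval p₂.gen (minpoly F p₁.gen) ≠ 0) :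
    D E₁ (algebraMap F E₁ w) p₁.gen (aeval p₁.gen (minpoly F p₂.gen)) =
      D E₂ (algebraMap F E₂ w) p₂.gen (aeval p₂.gen (minpoly F p₁.gen)) +
        D F w (Algebra.norm F p₁.gen) (Algebra.norm F p₂.gen) := by
  letI : Algebra E₂ (E₁ ⊗[F] E₂) := Algebra.TensorProduct.rightAlgebra
  haveI hp : Algebra.IsPushout F E₁ E₂ (E₁ ⊗[F] E₂) := TensorProduct.isPushout
  haveI hp' := hp.symm
  haveI : Module.Finite F E₁ := p₁.finite
  haveI : Module.Finite F E₂ := p₂.finite
  haveI : Module.Finite E₂ (E₁ ⊗[F] E₂) := Module.Finite.of_basis (hp'.out.basis p₁.basis)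
  haveI : IsArtinianRing (E₁ ⊗[F] E₂) := IsArtinianRing.of_finite E₁ _
  haveI := Algebra.FormallyUnramified.of_isSeparable F E₂
  haveI : IsReduced (E₁ ⊗[F] E₂) := Algebra.FormallyUnramified.isReduced_of_field E₁ _
  haveI : Fintype (MaximalSpectrum (E₁ ⊗[F] E₂)) := Fintype.ofFinite _
  have nf : ∀ m : MaximalSpectrum (E₁ ⊗[F] E₂),
      @NumberField _ (Ideal.Quotient.field m.asIdeal) := fun m => by
    letI := Ideal.Quotient.field m.asIdeal
    exact NumberField.of_module_finite E₁ _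
  have hw₁ : algebraMap F E₁ w ^ 2 + algebraMap F E₁ w + 1 = 0 := by
    simpa using congrArg (algebraMap F E₁) hw
  have hw₂ : algebraMap F E₂ w ^ 2 + algebraMap F E₂ w + 1 = 0 := by
    simpa using congrArg (algebraMap F E₂) hw
  have n₁ : Algebra.norm F p₁.gen ≠ 0 := Algebra.norm_ne_zero_iff.2 h₁
  have n₂ : Algebra.norm F p₂.gen ≠ 0 := Algebra.norm_ne_zero_iff.2 h₂
  have n₂' : algebraMap F E₁ (Algebra.norm F p₂.gen) ≠ 0 := by simpa using n₂
  have e1 := rt_norm_sub (A := E₁ ⊗[F] E₂) p₂ p₁.gen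
  have e2 := rt_norm_sub (A := E₁ ⊗[F] E₂) p₁ p₂.gen
  have e3 := rt_norm_right (E₁ := E₁) (A := E₁ ⊗[F] E₂) p₂ p₂.gen
  obtain ⟨z1, s1⟩ := rt_sum hD hw₁ nf h₁ (e1 ▸ h₁₂)
  obtain ⟨-, s2⟩ := rt_sum hD hw₂ nf h₂ (e2 ▸ h₂₁)
  obtain ⟨z3, s3⟩ := rt_sum hD hw₁ nf h₁ (e3 ▸ n₂')
  have e4 : D F w (Algebra.norm F p₁.gen) (Algebra.norm F p₂.gen) =
      D E₁ (algebraMap F E₁ w) p₁.gen (algebraMap F E₁ (Algebra.norm F p₂.gen)) := by
    rw [(hD.alt E₁ _ hw₁).swap _ _ h₁ n₂', hD.pf F E₁ w hw _ _ n₂ h₁, (hD.alt F w hw).swap _ _ n₁ n₂]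
  rw [e4, ← e1, ← e2, ← e3, s1, s2, s3, ← Finset.sum_add_distrib]
  refine Finset.sum_congr rfl fun m _ => ?_
  letI := Ideal.Quotient.field m.asIdeal
  letI := nf m
  rw [← IsScalarTower.algebraMap_apply F E₁, ← IsScalarTower.algebraMap_apply F E₂]
  have hwm := congrArg (Ideal.Quotient.mk m.asIdeal) (congrArg (algebraMap F (E₁ ⊗[F] E₂)) hw)
  simp only [map_add, map_pow, map_one, map_zero] at hwm
  have za : Ideal.Quotient.mk m.asIdeal (algebraMap E₁ (E₁ ⊗[F] E₂) p₁.gen) ≠ 0 :=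
    (map_ne_zero (algebraMap E₁ (_ ⧸ m.asIdeal))).2 h₁
  have z1' := z1 m
  simp only [map_sub] at z1' ⊢
  exact rt_local (hD.alt _ _ hwm) (hD.st _ _ hwm) za (z3 m) z1'

end Vale.Agent.P319.Cft
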