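import Vale.Agent.P319.N.CftDefs

/-! Cubic symbols in a principal ideal domain.
Plan.  `k = B/p` is a finite field of size `q`, `w` has order `3` in `k` (as `p ∤ 3`; `(1-w)^2 = -3w`), so
`3 ∣ q - 1`, and `t = a^((q-1)/3)` satisfies `(t-1)(t-w)(t-w^2) = t^3 - 1 = 0` in `k`; `1, w, w^2` are distinct in `k`.
`Lg`: a sum over `factors` of an associate invariant function is additive (`factors_mul`, `factors_unique`,
`Multiset.Rel`; compare `sy_mul` in P026/Sym.lean). -/

namespace Vale.Agent.P319.Cft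

section alt

variable {E : Type} [Field E] {s : E → E → ZMod 3}

theorem Alt.mul_right (h : Alt s) {x y y' : E} (hx : x ≠ 0) (hy : y ≠ 0) (hy' : y' ≠ 0) :
    s x (y * y') = s x y + s x y' := by
  rw [h.swap _ _ hx (mul_ne_zero hy hy'), h.mul_left _ _ _ hy hy' hx, h.swap _ _ hx hy,
    h.swap _ _ hx hy']
  ring

theorem Alt.one_left (h : Alt s) {y : E} (hy : y ≠ 0) : s 1 y = 0 := by
  have := h.mul_left 1 1 y one_ne_zero one_ne_zero hy
  rw [mul_one] at this
  linear_combination -this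

theorem Alt.one_right (h : Alt s) {x : E} (hx : x ≠ 0) : s x 1 = 0 := by
  rw [h.swap _ _ hx one_ne_zero, h.one_left hx, neg_zero]

theorem zmod3_eq_zero {a : ZMod 3} (h : a = -a) : a = 0 := by
  revert a; decide

theorem Alt.self (h : Alt s) {x : E} (hx : x ≠ 0) : s x x = 0 := zmod3_eq_zero (h.swap x x hx hx)

theorem Alt.pow_left (h : Alt s) {x y : E} (hx : x ≠ 0) (hy : y ≠ 0) (n : ℕ) :
    s (x ^ n) y = n * s x y := by
  induction n with
  | zero => simp [h.one_left hy]
  | succ n ih =>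
    rw [pow_succ, h.mul_left _ _ _ (pow_ne_zero _ hx) hx hy, ih]
    push_cast; ring

theorem Alt.pow_right (h : Alt s) {x y : E} (hx : x ≠ 0) (hy : y ≠ 0) (n : ℕ) :
    s x (y ^ n) = n * s x y := by
  rw [h.swap _ _ hx (pow_ne_zero _ hy), h.pow_left hy hx, h.swap _ _ hx hy]
  ring

theorem Alt.cube_left (h : Alt s) {x y : E} (hx : x ≠ 0) (hy : y ≠ 0) : s (x ^ 3) y = 0 := by
  rw [h.pow_left hx hy, show ((3 : ℕ) : ZMod 3) = 0 from rfl, zero_mul]

theorem Alt.cube_right (h : Alt s) {x y : E} (hx : x ≠ 0) (hy : y ≠ 0) : s x (y ^ 3) = 0 := by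
  rw [h.pow_right hx hy, show ((3 : ℕ) : ZMod 3) = 0 from rfl, zero_mul]

theorem Alt.neg_left (h : Alt s) {x y : E} (hx : x ≠ 0) (hy : y ≠ 0) : s (-x) y = s x y := by
  have h1 : (-1 : E) ≠ 0 := neg_ne_zero.2 one_ne_zero
  rw [show -x = (-1) ^ 3 * x by ring, h.mul_left _ _ _ (pow_ne_zero _ h1) hx hy,
    h.cube_left h1 hy, zero_add]

theorem Alt.neg_right (h : Alt s) {x y : E} (hx : x ≠ 0) (hy : y ≠ 0) : s x (-y) = s x y := by
  rw [h.swap _ _ hx (neg_ne_zero.2 hy), h.neg_left hy hx, h.swap _ _ hx hy]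

theorem Alt.div_left (h : Alt s) {x x' y : E} (hx : x ≠ 0) (hx' : x' ≠ 0) (hy : y ≠ 0) :
    s (x / x') y = s x y - s x' y := by
  have := h.mul_left (x / x') x' y (div_ne_zero hx hx') hx' hy
  rw [div_mul_cancel₀ _ hx'] at this
  rw [this]; ring

theorem Alt.div_right (h : Alt s) {x y y' : E} (hx : x ≠ 0) (hy : y ≠ 0) (hy' : y' ≠ 0) :
    s x (y / y') = s x y - s x y' := by
  have := h.mul_right hx (div_ne_zero hy hy') hy'
  rw [div_mul_cancel₀ _ hy'] at this
  rw [this]; ring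

theorem Alt.prod_right (h : Alt s) {ι : Type} (t : Finset ι) {x : E} (hx : x ≠ 0) (y : ι → E)
    (hy : ∀ i ∈ t, y i ≠ 0) : s x (∏ i ∈ t, y i) = ∑ i ∈ t, s x (y i) := by
  classical
  induction t using Finset.induction_on with
  | empty => simp [h.one_right hx]
  | insert a t ha ih =>
    have h1 : ∀ i ∈ t, y i ≠ 0 := fun i hi => hy i (Finset.mem_insert_of_mem hi)
    rw [Finset.prod_insert ha, Finset.sum_insert ha,
      h.mul_right hx (hy a (Finset.mem_insert_self _ _)) (Finset.prod_ne_zero_iff.2 h1), ih h1]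

end alt

theorem e3_zero : e3 0 = 1 := pow_zero _

theorem e3_one : e3 1 = Complex.exp (2 * Real.pi * Complex.I / 3) := pow_one _

theorem e3_two : e3 2 = Complex.exp (2 * Real.pi * Complex.I / 3) ^ 2 := rfl

theorem e3_prim : IsPrimitiveRoot (Complex.exp (2 * Real.pi * Complex.I / 3)) 3 := by
  simpa using Complex.isPrimitiveRoot_exp 3 (by norm_num)

theorem e3_add (a b : ZMod 3) : e3 (a + b) = e3 a * e3 b := by
  rw [e3, e3, e3, ← pow_add, ZMod.val_add, ← pow_eq_pow_mod _ e3_prim.pow_eq_one]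

theorem e3_injective : Function.Injective e3 := fun a b h =>
  ZMod.val_injective 3 (e3_prim.pow_inj (ZMod.val_lt a) (ZMod.val_lt b) h)

variable {B : Type} [CommRing B] {w : B}

theorem Nq_assoc {p q : B} (h : Associated p q) : Nq p = Nq q := by
  have : Ideal.span {p} = Ideal.span {q} :=
    le_antisymm (Ideal.span_singleton_le_span_singleton.2 h.symm.dvd)
      (Ideal.span_singleton_le_span_singleton.2 h.dvd)
  rw [Nq, Nq, this]

theorem lg_assoc {p q : B} (h : Associated p q) (w a : B) : lg w a p = lg w a q := by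
  classical
  unfold lg
  rw [Nq_assoc h]
  exact if_congr h.dvd_iff_dvd_left rfl (if_congr h.dvd_iff_dvd_left rfl rfl)

theorem lg_congr {p a b : B} (h : p ∣ a - b) (w : B) : lg w a p = lg w b p := by
  have h1 : ∀ c, p ∣ a ^ ((Nq p - 1) / 3) - c ↔ p ∣ b ^ ((Nq p - 1) / 3) - c := fun c => by
    rw [show a ^ ((Nq p - 1) / 3) - c = (a ^ ((Nq p - 1) / 3) - b ^ ((Nq p - 1) / 3)) +
      (b ^ ((Nq p - 1) / 3) - c) by ring]
    exact dvd_add_right (h.trans (sub_dvd_pow_sub_pow _ _ _))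
  classical
  unfold lg
  exact if_congr (h1 _) rfl (if_congr (h1 _) rfl rfl)

theorem lg_one (w p : B) : lg w 1 p = 0 := by
  simp [lg]

theorem om_cube (hw : w ^ 2 + w + 1 = 0) : w ^ 3 = 1 := by
  linear_combination (w - 1) * hw

theorem GP.fermat {p a : B} (hp : GP p) (ha : ¬p ∣ a) : p ∣ a ^ (Nq p - 1) - 1 := by
  haveI := hp.2.1
  haveI := (Ideal.span_singleton_prime hp.1.ne_zero).2 hp.1
  haveI := Fintype.ofFinite (B ⧸ Ideal.span {p})
  letI := (Finite.isField_of_domain (B ⧸ Ideal.span {p})).toField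
  have h1 : Ideal.Quotient.mk (Ideal.span {p}) a ≠ 0 := fun h =>
    ha (Ideal.mem_span_singleton.1 (Ideal.Quotient.eq_zero_iff_mem.1 h))
  have h2 := FiniteField.pow_card_sub_one_eq_one _ h1
  refine Ideal.mem_span_singleton.1 (Ideal.Quotient.eq.1 ?_)
  rw [map_pow, map_one, Nq, Nat.card_eq_fintype_card]
  exact h2

theorem GP.not_dvd_om (hw : w ^ 2 + w + 1 = 0) {p : B} (hp : GP p) : ¬p ∣ w := fun h =>
  hp.1.not_dvd_one (by rw [← om_cube hw]; exact dvd_pow h three_ne_zero)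

theorem GP.not_dvd_om_sub (hw : w ^ 2 + w + 1 = 0) {p : B} (hp : GP p) : ¬p ∣ w - 1 := fun h =>
  hp.2.2 (by
    rw [show (3 : B) = (w - 1) * (-(w + 2)) by linear_combination hw]
    exact h.mul_right _)

theorem GP.inj (hw : w ^ 2 + w + 1 = 0) {p : B} (hp : GP p) {i j : ℕ} (h : p ∣ w ^ i - w ^ j) :
    (i : ZMod 3) = j := by
  have h1 := hp.not_dvd_om hw
  have h2 := hp.not_dvd_om_sub hw
  have h3 : ¬p ∣ w ^ 2 - w := fun h => by
    rw [show w ^ 2 - w = w * (w - 1) by ring] at h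
    exact (hp.1.dvd_or_dvd h).elim h1 h2
  have h4 : ¬p ∣ w ^ 2 - 1 := fun h => by
    rw [show w ^ 2 - 1 = (w ^ 2 - w) * (-w) by linear_combination (w - 1) * hw] at h
    exact (hp.1.dvd_or_dvd h).elim h3 fun h => h1 (dvd_neg.1 h)
  rw [pow_eq_pow_mod i (om_cube hw), pow_eq_pow_mod j (om_cube hw)] at h
  rw [ZMod.natCast_eq_natCast_iff']
  have hi : i % 3 < 3 := Nat.mod_lt _ (by norm_num)
  have hj : j % 3 < 3 := Nat.mod_lt _ (by norm_num)
  generalize i % 3 = a at *
  generalize j % 3 = b at *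
  have h' := dvd_sub_comm.1 h
  interval_cases a <;> interval_cases b <;> simp_all

theorem GP.three_dvd (hw : w ^ 2 + w + 1 = 0) {p : B} (hp : GP p) : 3 ∣ Nq p - 1 := by
  have h := hp.fermat (hp.not_dvd_om hw)
  rw [← pow_zero w] at h
  have h1 := hp.inj hw h
  rw [Nat.cast_zero] at h1
  exact (ZMod.natCast_eq_zero_iff _ _).1 h1

theorem GP.tri (hw : w ^ 2 + w + 1 = 0) {p a : B} (hp : GP p) (ha : ¬p ∣ a) :
    p ∣ a ^ ((Nq p - 1) / 3) - 1 ∨ p ∣ a ^ ((Nq p - 1) / 3) - w ∨
      p ∣ a ^ ((Nq p - 1) / 3) - w ^ 2 := by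
  have h := hp.fermat ha
  rw [← Nat.div_mul_cancel (hp.three_dvd hw), pow_mul] at h
  generalize a ^ ((Nq p - 1) / 3) = t at *
  rw [show t ^ 3 - 1 = (t - 1) * ((t - w) * (t - w ^ 2)) by
    linear_combination ((t - 1) * (t - w + 1)) * hw] at h
  exact (hp.1.dvd_or_dvd h).imp_right hp.1.dvd_or_dvd

theorem GP.lg_spec (hw : w ^ 2 + w + 1 = 0) {p a : B} (hp : GP p) (ha : ¬p ∣ a) :
    p ∣ a ^ ((Nq p - 1) / 3) - w ^ (lg w a p).val := by
  have h := hp.tri hw ha
  unfold lg
  split_ifs with h1 h2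
  · exact (pow_zero w).symm ▸ h1
  · exact (pow_one w).symm ▸ h2
  · exact (h.resolve_left h1).resolve_left h2

theorem GP.lg_eq (hw : w ^ 2 + w + 1 = 0) {p a : B} (hp : GP p) {k : ℕ}
    (h : p ∣ a ^ ((Nq p - 1) / 3) - w ^ k) : lg w a p = k := by
  have h0 : ∀ j : ℕ, p ∣ a ^ ((Nq p - 1) / 3) - w ^ j → (j : ZMod 3) = k := fun j hj =>
    hp.inj hw (by convert dvd_sub h hj using 1; ring)
  unfold lg
  split_ifs with h1 h2
  · exact h0 0 ((pow_zero w).symm ▸ h1)
  · exact h0 1 ((pow_one w).symm ▸ h2)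
  · rw [pow_eq_pow_mod k (om_cube hw)] at h
    rw [← ZMod.natCast_mod]
    have hk : k % 3 < 3 := Nat.mod_lt _ (by norm_num)
    generalize k % 3 = b at *
    interval_cases b
    · exact (h1 (pow_zero w ▸ h)).elim
    · exact (h2 (pow_one w ▸ h)).elim
    · rfl

theorem GP.lg_mul (hw : w ^ 2 + w + 1 = 0) {p a b : B} (hp : GP p) (ha : ¬p ∣ a) (hb : ¬p ∣ b) :
    lg w (a * b) p = lg w a p + lg w b p := by
  have h1 := hp.lg_spec hw ha
  have h2 := hp.lg_spec hw hb
  have h3 : p ∣ (a * b) ^ ((Nq p - 1) / 3) - w ^ ((lg w a p).val + (lg w b p).val) := by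
    rw [mul_pow, pow_add]
    convert dvd_add (h1.mul_right (b ^ ((Nq p - 1) / 3))) (h2.mul_left (w ^ (lg w a p).val))
      using 1
    ring
  rw [hp.lg_eq hw h3, Nat.cast_add, ZMod.natCast_zmod_val, ZMod.natCast_zmod_val]

theorem GP.lg_pow (hw : w ^ 2 + w + 1 = 0) {p a : B} (hp : GP p) (ha : ¬p ∣ a) (n : ℕ) :
    lg w (a ^ n) p = n * lg w a p := by
  induction n with
  | zero => simp [lg_one]
  | succ n ih =>
    rw [pow_succ, hp.lg_mul hw (fun h => ha (hp.1.dvd_of_dvd_pow h)) ha, ih]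
    push_cast; ring

theorem GP.lg_neg (hw : w ^ 2 + w + 1 = 0) {p a : B} (hp : GP p) (ha : ¬p ∣ a) :
    lg w (-a) p = lg w a p := by
  have h1 : ¬p ∣ -1 := fun h => hp.1.not_dvd_one (dvd_neg.1 h)
  rw [show -a = (-1) ^ 3 * a by ring, hp.lg_mul hw (fun h => h1 (hp.1.dvd_of_dvd_pow h)) ha,
    hp.lg_pow hw h1, show ((3 : ℕ) : ZMod 3) = 0 from rfl, zero_mul, zero_add]

variable [IsDomain B] [IsPrincipalIdealRing B]

open UniqueFactorizationMonoid in
theorem sy_eq {f : B → ZMod 3} (hf : ∀ p q, Associated p q → f p = f q) {n : B} (hn : n ≠ 0)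
    {t : Multiset B} (ht : ∀ p ∈ t, Prime p) (h : Associated t.prod n) :
    ((factors n).map f).sum = (t.map f).sum := by
  have h1 : Multiset.Rel Associated (factors n) t :=
    factors_unique irreducible_of_factor (fun p hp => (ht p hp).irreducible)
      ((factors_prod hn).trans h.symm)
  congr 1
  rw [← Multiset.rel_eq, Multiset.rel_map]
  exact h1.mono fun p _ q _ h => hf p q h

open UniqueFactorizationMonoid in
theorem sy_prime {f : B → ZMod 3} (hf : ∀ p q, Associated p q → f p = f q) {p : B}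
    (hp : Prime p) : ((factors p).map f).sum = f p := by
  rw [sy_eq hf hp.ne_zero (t := {p}) (by simpa using hp) (by simp)]
  simp

open UniqueFactorizationMonoid in
theorem sy_unit (f : B → ZMod 3) {u : B} (hu : IsUnit u) : ((factors u).map f).sum = 0 := by
  rw [factors_of_isUnit hu]
  simp

open UniqueFactorizationMonoid in
theorem sy_mul {f : B → ZMod 3} (hf : ∀ p q, Associated p q → f p = f q) {m n : B} (hm : m ≠ 0)
    (hn : n ≠ 0) :
    ((factors (m * n)).map f).sum = ((factors m).map f).sum + ((factors n).map f).sum := by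
  rw [sy_eq hf (mul_ne_zero hm hn) (t := factors m + factors n)
    (fun p hp => (Multiset.mem_add.1 hp).elim (prime_of_factor p) (prime_of_factor p))
    (by rw [Multiset.prod_add]; exact (factors_prod hm).mul_mul (factors_prod hn)),
    Multiset.map_add, Multiset.sum_add]

open UniqueFactorizationMonoid in
theorem sy_congr {M : Type} {f g : B → M} {n : B} (h : ∀ p, Prime p → p ∣ n → f p = g p) :
    (factors n).map f = (factors n).map g :=
  Multiset.map_congr rfl fun p hp => h p (prime_of_factor p hp) (dvd_of_mem_factors hp)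

theorem Lg_prime {p : B} (hp : Prime p) (w a : B) : Lg w a p = lg w a p :=
  sy_prime (fun _ _ h => lg_assoc h w a) hp

theorem Lg_unit {u : B} (hu : IsUnit u) (w a : B) : Lg w a u = 0 := sy_unit _ hu

theorem Lg_mul_right {m n : B} (hm : m ≠ 0) (hn : n ≠ 0) (w a : B) :
    Lg w a (m * n) = Lg w a m + Lg w a n :=
  sy_mul (fun _ _ h => lg_assoc h w a) hm hn

theorem Lg_pow_right {n : B} (hn : n ≠ 0) (w a : B) (k : ℕ) : Lg w a (n ^ k) = k * Lg w a n := by
  induction k with
  | zero => simp [Lg_unit isUnit_one]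
  | succ k ih =>
    rw [pow_succ, Lg_mul_right (pow_ne_zero _ hn) hn, ih]
    push_cast; ring

theorem Lg_congr {n a b : B} (h : n ∣ a - b) (w : B) : Lg w a n = Lg w b n :=
  congrArg Multiset.sum (sy_congr fun _ _ hp => lg_congr (hp.trans h) w)

theorem Lg_one (w n : B) : Lg w 1 n = 0 := by
  simp [Lg, lg_one]

omit [IsDomain B] [IsPrincipalIdealRing B] in
theorem not_dvd_of_cop {a n p : B} (h : IsCoprime a n) (hp : Prime p) (hn : p ∣ n) : ¬p ∣ a :=
  fun ha => hp.not_unit (h.isUnit_of_dvd' ha hn)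

theorem Good.Lg_mul_left (hw : Good w) {a b n : B} (ha : IsCoprime a n) (hb : IsCoprime b n) :
    Lg w (a * b) n = Lg w a n + Lg w b n := by
  rw [Lg, Lg, Lg, ← Multiset.sum_map_add]
  exact congrArg Multiset.sum (sy_congr fun p hp hn =>
    (hw.2 p hp).lg_mul hw.1 (not_dvd_of_cop ha hp hn) (not_dvd_of_cop hb hp hn))

theorem Good.Lg_neg (hw : Good w) {a n : B} (ha : IsCoprime a n) : Lg w (-a) n = Lg w a n :=
  congrArg Multiset.sum (sy_congr fun p hp hn =>
    (hw.2 p hp).lg_neg hw.1 (not_dvd_of_cop ha hp hn))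

/-- a product over the prime factors that agrees with `e3 ∘ lg` -/
theorem prod_factors_eq_e3 (w a n : B) (c : B → ℂ)
    (h : ∀ p, Prime p → p ∣ n → c p = e3 (lg w a p)) :
    ((UniqueFactorizationMonoid.factors n).map c).prod = e3 (Lg w a n) := by
  rw [sy_congr h, Lg]
  induction UniqueFactorizationMonoid.factors n using Multiset.induction_on with
  | empty => simp [e3_zero]
  | cons p t ih => rw [Multiset.map_cons, Multiset.prod_cons, Multiset.map_cons,
      Multiset.sum_cons, e3_add, ih]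

end Vale.Agent.P319.Cft
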