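import Vale.Agent.P319.N.Recip
import Vale.Agent.P319.N.Ang

/-! GAUSS: the three character families and the Gauss sums of normalised generators. -/

namespace Vale.Agent.P319

open scoped ComplexConjugate Real

variable {K : Type} [Field K] [NumberField K] [Stp K]

theorem fam_mul_conj {z : ℂ} (h : ‖z‖ = 1) : z * conj z = 1 := by
  rw [mul_comm, conj_mul_of_norm h]

theorem squarefree_ng {n : R K} (h : Squarefree n) : Squarefree (ng n) :=
  (associated_ng n).squarefree_iff.2 h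

theorem coprime_ng {a b : R K} (h : IsCoprime a b) : IsCoprime (ng a) (ng b) :=
  (h.of_isCoprime_of_dvd_left (associated_ng a).dvd).of_isCoprime_of_dvd_right (associated_ng b).dvd

/-- extension of a unimodular class function from a set that meets some classes -/
theorem exists_clF_ext {P : R K → Prop} {f : R K → ℂ} (h : ∀ x y, P x → P y → Cg x y → f x = f y)
    (h1 : ∀ x, P x → ‖f x‖ = 1) :
    ∃ g : R K → ℂ, ClF g ∧ (∀ x, ‖g x‖ = 1) ∧ ∀ x, x ≠ 0 → P x → g x = f x := by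
  classical
  refine ⟨fun x => if k : ∃ y, P y ∧ Cg x y then f k.choose else 1, fun x x' e => ?_, fun x => ?_,
    fun x hx hP => ?_⟩ <;> beta_reduce
  · by_cases k : ∃ y, P y ∧ Cg x y
    · have k' : ∃ y, P y ∧ Cg x' y := ⟨_, k.choose_spec.1, e.symm.trans k.choose_spec.2⟩
      rw [dif_pos k, dif_pos k']
      exact h _ _ k.choose_spec.1 k'.choose_spec.1
        (k.choose_spec.2.symm.trans (e.trans k'.choose_spec.2))
    · rw [dif_neg k, dif_neg fun ⟨y, k1, k2⟩ => k ⟨y, k1, e.trans k2⟩]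
  · split_ifs with k
    · exact h1 _ k.choose_spec.1
    · exact norm_one
  · have k : ∃ y, P y ∧ Cg x y := ⟨x, hP, cg_refl hx⟩
    rw [dif_pos k]
    exact (h _ _ hP k.choose_spec.1 k.choose_spec.2).symm

/-- `ang` of the normalised generator is `angJ` times a class function -/
theorem exists_ang_ng : ∃ ζ : R K → ℂ, ClF ζ ∧ (∀ n, ‖ζ n‖ = 1) ∧
    ∀ n, n ≠ 0 → ang (ng n) = ζ n * angJ n := by
  obtain ⟨ζ, h1, h2, h3⟩ := exists_clF_ext (P := fun n : R K => n ≠ 0)
    (f := fun n => ang (ng n) * conj (angJ n)) (fun x y _ _ e => by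
      have := angJ_mul_ang e.inU_ng
      rw [angJ_associated (associated_ng x), angJ_associated (associated_ng y)] at this
      exact eq_of_mul_conj (norm_angJ x) (norm_angJ y) (by linear_combination -this))
    fun x hx => by rw [norm_mul, norm_ang (ng_ne_zero hx), Complex.norm_conj, norm_angJ, one_mul]
  exact ⟨ζ, h1, h2, fun n hn => by
    rw [h3 n hn hn, mul_assoc, conj_mul_of_norm (norm_angJ n), mul_one]⟩

/-- the conjugate family -/
noncomputable def Fam.cj (F : Fam K) : Fam K where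
  X n a := conj (F.X n a)
  g n := F.X n (-1) * conj (F.g n)
  ε a b := conj (F.ε a b)
  mul_left m n a hm hn := by rw [F.mul_left m n a hm hn, map_mul]
  mul_right n a b hn := by rw [F.mul_right n a b hn, map_mul]
  one_left a := by rw [F.one_left, map_one]
  per n x y h := by
    beta_reduce
    rw [F.per n x y h]
  norm_X n a hn h := by rw [Complex.norm_conj, F.norm_X n a hn h]
  X_eq_zero n a hn h := by rw [F.X_eq_zero n a hn h, map_zero]
  six n u hn := by rw [F.six n u hn, map_one]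
  unitU n u hn h := by rw [F.unitU n u hn h, map_one]
  norm_g n hn := by
    rw [norm_mul, Complex.norm_conj, F.norm_g n hn, F.norm_X n _ hn.1 isCoprime_one_left.neg_left,
      one_mul]
  norm_ε a b := by
    rw [Complex.norm_conj]
    exact F.norm_ε a b
  ε_per a a' b b' ha hb := by rw [F.ε_per a a' b b' ha hb]
  ft m₁ m₂ k h1 h2 h := by
    have := congrArg conj (F.ft m₁ m₂ (-1 * k) h1 h2 h)
    rw [map_sum, F.mul_right _ _ _ h1.1, F.mul_right _ _ _ h2.1] at this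
    rw [Finset.sum_congr rfl fun x _ => show conj (F.X m₁ x) * conj (conj (F.X m₂ x)) *
      eq (k * x) (ng (m₁ * m₂)) =
        conj (F.X m₁ x * conj (F.X m₂ x) * eq (-1 * k * x) (ng (m₁ * m₂))) from by
        rw [map_mul, map_mul, conj_eq]
        congr 2
        ring, this]
    simp only [map_mul, Complex.conj_conj, Complex.conj_ofReal]
    ring

theorem per_eq_ng {n : R K} {f : R K → ℂ} (hf : Per n f) (k : R K) :
    Per n fun x => f x * eq (k * x) (ng n) := fun x y h => by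
  simp only
  rw [hf x y h, eq_congr (x := k * x) (y := k * y)
    (by rw [← mul_sub]; exact ((associated_ng n).dvd.trans h).mul_left _)]

/-- the quadratic Fourier transform for the normalised generator -/
theorem gs_quad_ng {q : R K} (hq : Squarefree q) (k : R K) :
    ∑ x ∈ res q, quad x q * eq (k * x) (ng q) = quad k q * gt2 (ng q) * (√(nm q) : ℝ) := by
  rw [sum_res_associated hq.ne_zero (associated_ng q).symm (per_eq_ng (quad_per q) k), ← nm_ng,
    ← quad_ng k, ← gs_quad (squarefree_ng hq)]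
  simp only [quad_ng]

theorem gs_sex_ng {q : R K} (hq : Squarefree q) (k : R K) :
    ∑ x ∈ res q, sex x q * eq (k * x) (ng q) = conj (sex k q) * gt6 (ng q) * (√(nm q) : ℝ) := by
  rw [sum_res_associated hq.ne_zero (associated_ng q).symm (per_eq_ng (sex_per q) k), ← nm_ng,
    ← sex_ng k, ← gs_sex (squarefree_ng hq)]
  simp only [sex_ng]

theorem th0_ng_sqf {c : R K} (hc : Squarefree c) : th0 (ng c) = conj (gt3 (ng c)) :=
  th0_sqf (squarefree_ng hc)

theorem th0_ng_ne_zero {n : R K} (hn : Prim n) (h : th0 (ng n) ≠ 0) :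
    ∃ c d, IsS c ∧ Prim d ∧ n = c * d ^ 3 := by
  obtain ⟨c, d, hc, hd, e⟩ := th0_ne_zero h
  refine ⟨pp c, d, ⟨prim_pp hc.ne_zero, (associated_pp c).squarefree_iff.1 hc⟩, hd, ?_⟩
  rw [← hn.pp_eq, ← pp_ng, e, pp_mul, pp_pow, hd.pp_eq]

theorem norm_th0_ng {c d : R K} (hc : Squarefree c) (hd : d ≠ 0) :
    ‖th0 (ng (c * d ^ 3))‖ = √(nm d) := by
  obtain ⟨u, hu⟩ := (associated_ng (c * d ^ 3)).symm
  rw [← hu, mul_comm, ← mul_assoc, norm_th0 (squarefree_unit_mul hc u) hd]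

variable [Rcp K]

theorem gt2_ng_congr {x y : R K} (hx : Squarefree x) (hy : Squarefree y) (h : Cg x y) :
    gt2 (ng x) = gt2 (ng y) :=
  Rcp.quadr.2.1 _ _ (squarefree_ng hy) (squarefree_ng hx) h.inU_ng

theorem quad_unit_mul_cg {m₁ m₂ : R K} (u : (R K)ˣ) (h : Cg m₁ m₂) : quad u m₁ * quad u m₂ = 1 := by
  rw [quad_unit_cg u h, quad_mul_self (unit_coprime u m₂)]

/-- every generator of `m₁ m₂` has trivial quadratic Gauss sum if `m₁`, `m₂` are in the same class -/
theorem gt2_of_cg {m₁ m₂ c : R K} (hs : Squarefree (m₁ * m₂)) (h : Cg m₁ m₂)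
    (hc : Associated (m₁ * m₂) c) : gt2 c = 1 := by
  have a1 : Associated (ng m₁ * ng m₂) (m₁ * m₂) := (associated_ng m₁).mul_mul (associated_ng m₂)
  obtain ⟨u, rfl⟩ := a1.trans hc
  have a2 := a1.squarefree_iff.2 hs
  rw [mul_comm, gt2_unit_mul a2.ne_zero, quad_associated a1, quad_mul_right h.left_ne h.right_ne,
    quad_unit_mul_cg u h, one_mul]
  refine Rcp.quadr.2.2 _ (ng m₂) a2 ?_
  rw [map_mul, sq, mul_div_mul_right _ _ (coe_ne_zero (ng_ne_zero h.right_ne))]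
  exact h.inU_ng

/-- `mu * gt6 = ξ * ang * conj gt3` with `ξ` a unimodular class function -/
theorem exists_xi0' : ∃ ξ : R K → ℂ, ClF ξ ∧ (∀ n, ‖ξ n‖ = 1) ∧
    ∀ n, Squarefree n → mu n * gt6 (ng n) = ξ n * ang (ng n) * conj (gt3 (ng n)) := by
  obtain ⟨ζ, z1, z2, z3⟩ := exists_ang_ng (K := K)
  obtain ⟨ξ, h1, h2, h3⟩ := exists_clF_ext (P := fun n : R K => Squarefree n)
    (f := fun n => cub 4 n * gt2 (ng n) * conj (ζ n))
    (fun x y hx hy e => by rw [cub_four_congr e, gt2_ng_congr hx hy e, z1 x y e])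
    fun x hx => by
      rw [norm_mul, norm_mul, norm_cub (coprime_of_isUnit isUnit_four x), norm_gt2 (squarefree_ng hx),
        Complex.norm_conj, z2, one_mul, one_mul]
  refine ⟨ξ, h1, h2, fun n hn => ?_⟩
  rw [← mu_associated (associated_ng n), mu_mul_gt6 (squarefree_ng hn), h3 n hn.ne_zero hn,
    z3 n hn.ne_zero, cub_ng, angJ_associated (associated_ng n)]
  linear_combination (-(cub 4 n * gt2 (ng n) * angJ n * conj (gt3 (ng n)))) * conj_mul_of_norm (z2 n)

theorem exists_xi0 : ∃ ξ : R K → ℂ, ClF ξ ∧ (∀ n, ‖ξ n‖ = 1) ∧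
    ∀ n, IsS n → mu n * gt6 (ng n) = ξ n * ang (ng n) * conj (gt3 (ng n)) := by
  obtain ⟨ξ, h1, h2, h3⟩ := exists_xi0' (K := K)
  exact ⟨ξ, h1, h2, fun n hn => h3 n hn.2⟩

theorem exists_famS : ∃ F : Fam K, (∀ n a, F.X n a = sex a n) ∧ ∀ n, F.g n = gt6 (ng n) := by
  obtain ⟨δ, d1, d2⟩ := exists_delta (K := K)
  refine ⟨⟨fun n a => sex a n, fun n => gt6 (ng n),
    fun a b => b6 (ng b) (ng a) * sex (-1) b * sex (δ a b) a * conj (sex (δ a b) b),
    fun m n a hm hn => sex_mul_right hm.ne_zero hn.ne_zero a,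
    fun n a b _ => sex_mul_left a b n, sex_one_right, sex_per,
    fun n a _ h => norm_sex h, fun n a hn h => sex_eq_zero hn.ne_zero h,
    fun n u _ => sex_unit_six u n, fun n u _ h => sex_EU (mem_EU.2 h) n,
    fun n hn => norm_gt6 (squarefree_ng hn.2), fun a b => ?_, fun a a' b b' ha hb => ?_,
    fun m₁ m₂ k h1 h2 h => ?_⟩, fun _ _ => rfl, fun _ => rfl⟩
  · rw [norm_mul, norm_mul, norm_mul, Complex.norm_conj, norm_b6, norm_sex (unit_coprime _ _),
      norm_sex (unit_coprime _ _), norm_sex isCoprime_one_left.neg_left]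
    norm_num
  · rw [b6_ng_congr hb ha, sex_neg_one_congr hb, d1 a a' b b' ha hb, sex_unit_cg _ ha,
      sex_unit_cg _ hb]
  · obtain ⟨u, hu, e⟩ := d2 m₁ m₂ h1.ne_zero h2.ne_zero
    have n1 := ng_ne_zero h1.ne_zero
    have n2 := ng_ne_zero h2.ne_zero
    have hc := coprime_ng h
    set t := u * δ m₁ m₂ with ht
    have e1 : ∀ x, eq (k * x) (ng (m₁ * m₂)) = eq (((t⁻¹ : (R K)ˣ) : R K) * k * x) (ng m₁ * ng m₂) :=
      fun x => by
        rw [← eq_mul_cancel t.ne_zero (((t⁻¹ : (R K)ˣ) : R K) * k * x), e, ← mul_assoc, ← mul_assoc,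
          Units.mul_inv, one_mul, ht, Units.val_mul, mul_assoc (_ * _)]
    have p2 : Per (ng m₂) fun x => conj (sex x (ng m₂)) := fun x y e => by
      beta_reduce; rw [sex_congr e]
    have a0 : Associated (ng m₁ * ng m₂) (m₁ * m₂) := (associated_ng m₁).mul_mul (associated_ng m₂)
    have a1 := gs_crt n1 n2 hc (sex_per (ng m₁)) p2 (fun a b => sex_mul_left a b _)
      (fun a b => by rw [sex_mul_left, map_mul]) (((t⁻¹ : (R K)ˣ) : R K) * k)
    have a2 : ∀ k, ∑ x ∈ res (ng m₂), conj (sex x (ng m₂)) * eq (k * x) (ng m₂) =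
        sex (-1) m₂ * sex k m₂ * conj (gt6 (ng m₂)) * (√(nm m₂) : ℝ) := fun k => by
      have := congrArg conj (gs_sex (squarefree_ng h2.2) (-1 * k))
      rw [map_sum, map_mul, map_mul, Complex.conj_conj, Complex.conj_ofReal,
        sex_mul_left, nm_ng, sex_ng, sex_ng] at this
      rw [← this]
      refine Finset.sum_congr rfl fun x _ => ?_
      rw [map_mul, conj_eq]
      congr 2
      ring
    have a3 := fam_mul_conj (norm_sex hc)
    have a4 : ∀ n, sex (((t⁻¹ : (R K)ˣ) : R K) * k) n = conj (sex (δ m₁ m₂) n) * sex k n := fun n => by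
      rw [sex_mul_left, symb_sex.unit_inv, ht, Units.val_mul, sex_mul_left, sex_EU hu, one_mul]
    rw [sum_res_associated (mul_ne_zero n1 n2) a0 (Per.mul_eq (f := fun x => sex x (ng m₁) *
      conj (sex x (ng m₂))) (fun x y e => by
        beta_reduce
        rw [sex_congr ((dvd_mul_right _ _).trans e), sex_congr ((dvd_mul_left _ _).trans e)]) _),
      a2, gs_sex (squarefree_ng h1.2), sex_recip n2 n1, nm_ng, a4, a4, map_mul,
      Complex.conj_conj] at a1
    simp only [e1]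
    simp only [sex_ng] at a1 a3
    rw [a1]
    push_cast
    linear_combination (b6 (ng m₂) (ng m₁) * sex (δ m₁ m₂) m₁ * conj (sex k m₁) * gt6 (ng m₁) *
      (√(nm m₁) : ℝ) * sex (-1) m₂ * conj (sex (δ m₁ m₂) m₂) * sex k m₂ * conj (gt6 (ng m₂)) *
      (√(nm m₂) : ℝ)) * a3

theorem exists_famS' : ∃ F : Fam K, (∀ n a, F.X n a = conj (sex a n)) ∧
    ∀ n, F.g n = sex (-1) n * conj (gt6 (ng n)) := by
  obtain ⟨F, h1, h2⟩ := exists_famS (K := K)
  exact ⟨F.cj, fun n a => by rw [← h1]; rfl, fun n => by rw [← h1, ← h2]; rfl⟩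

theorem exists_famQ : ∃ F : Fam K, (∀ n a, F.X n a = quad a n) ∧ (∀ n, F.g n = 1) ∧
    ∀ m₁ m₂, IsS m₁ → IsS m₂ → IsCoprime m₁ m₂ → Cg m₁ m₂ → F.ε m₁ m₂ = 1 := by
  obtain ⟨γ, g1, g2, g3⟩ := exists_clF_ext (P := fun n : R K => Squarefree n)
    (f := fun n => gt2 (ng n)) (fun x y => gt2_ng_congr) fun x hx => norm_gt2 (squarefree_ng hx)
  refine ⟨⟨fun n a => quad a n, fun _ => 1, fun a b => γ (a * b),
    fun m n a hm hn => quad_mul_right hm.ne_zero hn.ne_zero a,
    fun n a b _ => quad_mul_left a b n, quad_one_right, quad_per,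
    fun n a _ h => norm_quad h, fun n a hn h => quad_eq_zero hn.ne_zero h,
    fun n u _ => ?_, fun n u _ h => quad_EU (mem_EU.2 h) n,
    fun n _ => norm_one, fun a b => (g2 _).le, fun a a' b b' ha hb => g1 _ _ (ha.mul hb),
    fun m₁ m₂ k h1 h2 h => ?_⟩, fun _ _ => rfl, fun _ => rfl, fun m₁ m₂ h1 h2 h e => ?_⟩
  · rw [show 6 = 2 * 3 by rfl, pow_mul, quad_pow_left, quad_unit_sq, one_pow]
  · have hs := h1.mul h2 h
    have := gs_quad_ng hs.2 k
    simp only [quad_mul_right h1.ne_zero h2.ne_zero] at this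
    simp only [conj_quad]
    rw [this, g3 _ hs.ne_zero hs.2, G2.sqrt_nm_mul, map_one]
    ring
  · have hs := h1.mul h2 h
    exact (g3 _ hs.ne_zero hs.2).trans (gt2_of_cg hs.2 e (associated_ng _).symm)

/-- multiplicativity of the sextic Gauss sum of normalised generators -/
theorem gt6_ng_mul' {D : R K} (hD : D ≠ 0) : ∃ c : R K → ℂ, ClF c ∧ (∀ m, ‖c m‖ = 1) ∧
    ∀ m, m ≠ 0 → IsCoprime D m →
      gt6 (ng (D * m)) = c m * sex D m ^ 2 * gt6 (ng D) * gt6 (ng m) := by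
  obtain ⟨δ, d1, d2⟩ := exists_delta (K := K)
  obtain ⟨v, hv⟩ := (associated_ng D).symm
  refine ⟨fun m => sex (δ D m) D * sex (δ D m) m * b6 (ng m) (ng D) * sex v m ^ 2, fun x y e => ?_,
    fun m => ?_, fun m hm h => ?_⟩ <;> beta_reduce
  · rw [d1 D D x y (cg_refl hD) e, sex_unit_cg _ e, sex_unit_cg v e, b6_ng_congr e (cg_refl hD)]
  · rw [norm_mul, norm_mul, norm_mul, norm_pow, norm_b6, norm_sex (unit_coprime _ _),
      norm_sex (unit_coprime _ _), norm_sex (unit_coprime _ _)]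
    norm_num
  · obtain ⟨u, hu, e⟩ := d2 D m hD hm
    have n1 := ng_ne_zero hD
    have n2 := ng_ne_zero hm
    rw [e, mul_assoc, mul_assoc, gt6_EU hu (mul_ne_zero (δ D m).ne_zero (mul_ne_zero n1 n2)),
      gt6_unit_mul (mul_ne_zero n1 n2), gt6_mul n1 n2 (coprime_ng h), sex_recip n2 n1,
      sex_mul_right n1 n2, sex_ng, sex_ng, sex_ng, show sex (ng D) m = sex D m * sex v m by
        rw [← hv, sex_mul_left]]
    ring

theorem gt6_ng_mul {D : R K} (hD : IsS D) : ∃ ψ : R K → ℂ, ClF ψ ∧ (∀ m, ‖ψ m‖ ≤ 1) ∧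
    ∀ m, IsS m → IsCoprime D m → gt6 (ng (D * m)) = ψ m * sex D m ^ 2 * gt6 (ng m) := by
  obtain ⟨c, h1, h2, h3⟩ := gt6_ng_mul' hD.ne_zero
  refine ⟨fun m => c m * gt6 (ng D), fun x y e => by beta_reduce; rw [h1 x y e], fun m => ?_,
    fun m hm h => ?_⟩
  · rw [norm_mul, h2, norm_gt6 (squarefree_ng hD.2), one_mul]
  · rw [h3 m hm.ne_zero h]
    ring

/-- the theta coefficient of `d³ n` -/
theorem th0_ng_cube' {d : R K} (hd : d ≠ 0) : ∃ c : R K → ℂ, ClF c ∧ (∀ n, ‖c n‖ = 1) ∧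
    ∀ n, n ≠ 0 → th0 (ng (d ^ 3 * n)) * ang (ng (d ^ 3 * n)) =
      (√(nm d) : ℝ) * c n * (th0 (ng n) * ang (ng n)) := by
  obtain ⟨δ, d1, d2⟩ := exists_delta (K := K)
  have hd3 := pow_ne_zero 3 hd
  obtain ⟨v, hv⟩ := (associated_ng (d ^ 3)).symm
  refine ⟨fun n => conj (cub (δ (d ^ 3) n * v : (R K)ˣ) n) *
    ang ((δ (d ^ 3) n * v : (R K)ˣ) : R K) * ang (d ^ 3), fun x y e => ?_, fun n => ?_, fun n hn => ?_⟩ <;> beta_reduce
  · rw [d1 _ _ x y (cg_refl hd3) e, cub_unit_cg _ e]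
  · rw [norm_mul, norm_mul, Complex.norm_conj, norm_cub (unit_coprime _ _),
      norm_ang (Units.ne_zero _), norm_ang hd3]
    norm_num
  · obtain ⟨u, hu, e⟩ := d2 _ n hd3 hn
    have e1 : ng (d ^ 3 * n) =
        (u : R K) * (((δ (d ^ 3) n * v : (R K)ˣ) : R K) * ng n * d ^ 3) := by
      rw [e, ← hv, Units.val_mul]; ring
    rw [e1, th0_EU hu, ang_EU_mul hu, th0_mul_cube _ hd, th0_unit_mul, ang_mul, ang_mul, cub_ng]
    ring

theorem th0_ng_cube {d : R K} (hd : Prim d) : ∃ c : R K → ℂ, ClF c ∧ (∀ n, ‖c n‖ ≤ 1) ∧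
    ∀ n, Prim n → th0 (ng (d ^ 3 * n)) * ang (ng (d ^ 3 * n)) =
      (√(nm d) : ℝ) * c n * (th0 (ng n) * ang (ng n)) := by
  obtain ⟨c, h1, h2, h3⟩ := th0_ng_cube' hd.ne_zero
  exact ⟨c, h1, fun n => (h2 n).le, fun n hn => h3 n hn.ne_zero⟩

theorem sex_flip {k : R K} (hk : k ≠ 0) : ∃ ψ : R K → ℂ, ClF ψ ∧ (∀ n, ‖ψ n‖ ≤ 1) ∧
    ∀ n, n ≠ 0 → sex k n = ψ n * sex (ng n) k :=
  ⟨fun n => b6 k (ng n), fun _ _ e => b6_congr_right hk e.inU_ng, fun _ => norm_b6_le _ _,
    fun n hn => by rw [← sex_recip hk (ng_ne_zero hn), sex_ng]⟩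

/-- the flip with a factor that depends only on the two classes -/
theorem conj_sex_ng {k n : R K} (hk : k ≠ 0) (hn : n ≠ 0) :
    conj (sex (ng k) n) = conj (b6 (ng k) (ng n)) * (quad (ng n) k * cub (ng n) k) := by
  rw [← sex_ng, sex_recip (ng_ne_zero hk) (ng_ne_zero hn), map_mul, sex_ng, conj_sex]

end Vale.Agent.P319
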