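import Vale.Agent.P319.N.RecAux

/-! FINAL 1: from the mean square to a power saving in Möbius sums.  Port of P026 `Final1`. -/

namespace Vale.Agent.P319.Rec

open scoped ComplexConjugate Real

variable {𝕂 : Type} [Field 𝕂] [NumberField 𝕂] [Stp 𝕂]

theorem Final1_gcd {a n : R 𝕂} (ha : Prim a) (hn : IsS n) :
    ∑ e ∈ pdiv a, ind (e ∣ n) * ind (IsCoprime a (dq n e)) = 1 := by
  obtain ⟨d, hd, h1, ⟨m, rfl⟩, h3⟩ := exists_prim_gcd n ha
  rw [Finset.sum_eq_single_of_mem d ((mem_pdiv ha.ne_zero).2 ⟨hd, h1⟩)]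
  · rw [ind_of (dvd_mul_right _ _), dq_mul hd.ne_zero, ind_of, one_mul]
    exact IsRelPrime.isCoprime fun x hx hm =>
      hn.2 x (mul_dvd_mul (h3 x hx (hm.mul_left _)) hm)
  · intro e he hne
    obtain ⟨he1, he2⟩ := (mem_pdiv ha.ne_zero).1 he
    rw [← ind_and]
    refine ind_of_not fun h => hne ?_
    obtain ⟨⟨m', hm'⟩, h5⟩ := h
    rw [hm', dq_mul he1.ne_zero] at h5
    refine he1.eq_of_associated hd (associated_of_dvd_dvd (h3 e he2 ⟨m', hm'⟩) ?_)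
    exact (h5.of_isCoprime_of_dvd_left h1).dvd_of_dvd_mul_right (hm' ▸ dvd_mul_right d m)

/-- the smooth Möbius sum -/
noncomputable def mob (𝕂 : Type) [Field 𝕂] [NumberField 𝕂] [Stp 𝕂] (B : ℝ) (V : ℝ → ℝ)
    (N t : ℝ) : ℂ :=
  ∑ n ∈ sball 𝕂 (B * N), mu n * V (nm n / N) * nt n t

theorem asum_one {a : R 𝕂} (ha : Prim a) (B : ℝ) (V : ℝ → ℝ) {N : ℝ}
    (hN : 0 < N) (t : ℝ) : ‖mob 𝕂 B V N t‖ ≤
      ∑ e ∈ pdiv a, ∑ β ∈ creps 𝕂 10, ‖Asum β B V (N / nm e) t (a ^ 6)‖ := by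
  have e1 : mob 𝕂 B V N t = ∑ e ∈ pdiv a, ∑ n ∈ sball 𝕂 (B * N), ind (e ∣ n) *
      (ind (IsCoprime a (dq n e)) * (mu n * V (nm n / N) * nt n t)) := by
    rw [Finset.sum_comm]
    refine Finset.sum_congr rfl fun n hn => ?_
    simp only [← mul_assoc (ind (_ ∣ n))]
    rw [← Finset.sum_mul, Final1_gcd ha (mem_sball.1 hn).1, one_mul]
  rw [e1]
  refine (norm_sum_le _ _).trans (Finset.sum_le_sum fun e he => ?_)
  obtain ⟨he1, he2⟩ := (mem_pdiv ha.ne_zero).1 he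
  by_cases hS : IsS e
  swap
  · rw [Finset.sum_eq_zero fun n hn => by
      rw [ind_of_not fun h => hS ((mem_sball.1 hn).1.of_dvd he1 h), zero_mul], norm_zero]
    exact Finset.sum_nonneg fun _ _ => norm_nonneg _
  have hpos : (0 : ℝ) < nm e := zero_lt_one.trans_le (one_le_nm he1.ne_zero)
  rw [sum_sball_dvd hS (B * N) fun n =>
    ind (IsCoprime a (dq n e)) * (mu n * V (nm n / N) * nt n t)]
  have e2 : ∑ m ∈ sball 𝕂 (B * N / nm e), ind (IsCoprime m e) *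
      (ind (IsCoprime a (dq (e * m) e)) * (mu (e * m) * V (nm (e * m) / N) * nt (e * m) t)) =
      ∑ β ∈ creps 𝕂 10, (mu e * nt e t) * Asum β B V (N / nm e) t (a ^ 6) := by
    simp only [Asum, Finset.mul_sum]
    rw [Finset.sum_comm, mul_div_assoc]
    refine Finset.sum_congr rfl fun m hm => ?_
    have hm' := (mem_sball.1 hm).1
    have h1 : (1 : ℂ) = ∑ α ∈ creps 𝕂 10, 1 * ind (Cg m α) :=
      clF_eq_sum (φ := fun _ => 1) (fun _ _ _ => rfl) hm'.1.ne_zero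
    rw [dq_mul he1.ne_zero, sex_pow_six hm'.1.ne_zero]
    by_cases hc : IsCoprime a m
    · have hc' : IsCoprime e m := hc.of_isCoprime_of_dvd_left he2
      have e3 : (nm (e * m) : ℝ) / N = nm m / (N / nm e) := by
        rw [nm_mul]
        push_cast
        field_simp
      rw [ind_of hc, ind_of hc'.symm, mu_mul hc', nt_mul he1.ne_zero hm'.1.ne_zero, e3]
      nth_rewrite 1 [h1]
      simp only [Finset.sum_mul]
      refine Finset.sum_congr rfl fun β _ => ?_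
      ring
    · simp [ind_of_not hc]
  rw [e2]
  refine (norm_sum_le _ _).trans (Finset.sum_le_sum fun β _ => ?_)
  rw [norm_mul, norm_mul, norm_nt, mul_one]
  exact mul_le_of_le_one_left (norm_nonneg _) (norm_mu_le _)

theorem Final1_inj {a b : R 𝕂} (ha : Prim a) (hb : Prim b) (h : a ^ 6 = b ^ 6) : a = b :=
  ha.eq_of_associated hb (associated_of_dvd_dvd
    ((IsIntegrallyClosed.pow_dvd_pow_iff (n := 6) (by norm_num)).1 h.dvd)
    ((IsIntegrallyClosed.pow_dvd_pow_iff (n := 6) (by norm_num)).1 h.symm.dvd))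

theorem mob_bound (hP : PStmt 𝕂 (1 / 10000)) {B : ℝ} {V : ℝ → ℝ}
    (hV : Adm B V) (t : ℝ) : ∃ C : ℝ, ∀ N : ℝ, 1 ≤ N →
      ‖mob 𝕂 B V N t‖ ≤ C * N ^ (1999 / 2000 : ℝ) := by
  classical
  obtain ⟨C₁, A, hC₁, hA, h₁⟩ := hP B V (1 / 10000) hV (by norm_num)
  obtain ⟨C₂, hC₂, h₂⟩ := card_pdiv_le (K := 𝕂) (1 / 10000) (by norm_num)
  obtain ⟨C₃, hC₃, h₃⟩ := sum_rpow_le_const (𝕂 := 𝕂) (σ := 1 + 1 / 10000) (by norm_num)
  obtain ⟨c, hc, h₄⟩ := card_pball_ge (𝕂 := 𝕂) (ε := 1 / 1000) (by norm_num)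
  obtain ⟨q, hq⟩ : ∃ q : ℝ, q = (creps 𝕂 10).card := ⟨_, rfl⟩
  have hq0 : 0 ≤ q := hq ▸ Nat.cast_nonneg _
  set K : ℝ := C₂ * q * (q * (C₁ * (1 + |t|) ^ A) * C₃) / c with hK
  have hK0 : 0 ≤ K := by positivity
  refine ⟨√K, fun N hN => ?_⟩
  have hN0 : 0 < N := by linarith
  set H : ℝ := N ^ (599 / 500 : ℝ) with hH
  have hH1 : 1 ≤ H := Real.one_le_rpow hN (by norm_num)
  have hH0 : 0 < H := by linarith
  set Y : ℝ := H ^ (1 / 6 : ℝ) with hY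
  have hY1 : 1 ≤ Y := Real.one_le_rpow hH1 (by norm_num)
  have hY6 : Y ^ 6 = H := by
    rw [hY, ← Real.rpow_natCast, ← Real.rpow_mul hH0.le]
    norm_num
  have hYH : Y ≤ H := by
    rw [← hY6]
    exact le_self_pow₀ hY1 (by norm_num)
  let G : R 𝕂 → R 𝕂 → R 𝕂 → ℝ := fun e β h => ‖Asum β B V (N / nm e) t h‖ ^ 2
  have s1 : ∀ a ∈ pball 𝕂 Y, ‖mob 𝕂 B V N t‖ ^ 2 ≤
      C₂ * H ^ (1 / 10000 : ℝ) * q * ∑ e ∈ pball 𝕂 Y, ∑ β ∈ creps 𝕂 10, G e β (a ^ 6) := by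
    intro a ha
    obtain ⟨ha1, ha2⟩ := mem_pball.1 ha
    have b1 := asum_one ha1 B V hN0 t
    rw [← Finset.sum_product'] at b1
    have b2 := (pow_le_pow_left₀ (norm_nonneg _) b1 2).trans sq_sum_le_card_mul_sum_sq
    rw [Finset.card_product, Finset.sum_product] at b2
    push_cast at b2
    rw [← hq] at b2
    refine b2.trans (mul_le_mul (mul_le_mul_of_nonneg_right ((h₂ a ha1.ne_zero).trans ?_)
      hq0) ?_ (by positivity) (by positivity))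
    · exact mul_le_mul_of_nonneg_left
        (Real.rpow_le_rpow (Nat.cast_nonneg _) (ha2.trans hYH) (by norm_num)) hC₂.le
    · refine Finset.sum_le_sum_of_subset_of_nonneg (fun e he => ?_) fun _ _ _ => by positivity
      obtain ⟨he1, he2⟩ := (mem_pdiv ha1.ne_zero).1 he
      exact mem_pball.2 ⟨he1, le_trans (by exact_mod_cast nm_le_of_dvd ha1.ne_zero he2) ha2⟩
  have s2 : ∀ e ∈ pball 𝕂 Y, ∀ β : R 𝕂, ∑ a ∈ pball 𝕂 Y, G e β (a ^ 6) ≤
      C₁ * (1 + |t|) ^ A * H ^ (1 + 1 / 10000 : ℝ) * N ^ (1 + 1 / 10000 : ℝ) *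
        (nm e : ℝ) ^ (-(1 + 1 / 10000) : ℝ) := by
    intro e he β
    have he1 := one_le_nm (mem_pball.1 he).1.ne_zero
    have b1 := h₁ (N / nm e) H t β 1 (by positivity) hH1
      (Real.rpow_le_rpow (by positivity) (div_le_self hN0.le he1) (by norm_num))
    rw [Real.div_rpow hN0.le (by positivity), div_eq_mul_inv (N ^ _),
      ← Real.rpow_neg (by positivity), ← mul_assoc] at b1
    simp only [Units.val_one, one_mul] at b1
    refine le_trans ?_ b1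
    rw [← Finset.sum_image (f := G e β) (g := fun a : R 𝕂 => a ^ 6) fun a ha b hb h =>
      Final1_inj (mem_pball.1 ha).1 (mem_pball.1 hb).1 h]
    refine Finset.sum_le_sum_of_subset_of_nonneg (fun h hh => ?_) fun _ _ _ => by positivity
    obtain ⟨a, ha, rfl⟩ := Finset.mem_image.1 hh
    refine mem_pball.2 ⟨(mem_pball.1 ha).1.pow 6, ?_⟩
    rw [nm_pow, ← hY6]
    push_cast
    exact pow_le_pow_left₀ (Nat.cast_nonneg _) (mem_pball.1 ha).2 6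
  have s3 : ∑ a ∈ pball 𝕂 Y, ∑ e ∈ pball 𝕂 Y, ∑ β ∈ creps 𝕂 10, G e β (a ^ 6) ≤
      q * (C₁ * (1 + |t|) ^ A * H ^ (1 + 1 / 10000 : ℝ) * N ^ (1 + 1 / 10000 : ℝ)) * C₃ := by
    rw [Finset.sum_comm]
    refine le_trans (Finset.sum_le_sum (g := fun e => q *
      (C₁ * (1 + |t|) ^ A * H ^ (1 + 1 / 10000 : ℝ) * N ^ (1 + 1 / 10000 : ℝ)) *
        (nm e : ℝ) ^ (-(1 + 1 / 10000) : ℝ)) fun e he => ?_) ?_
    · rw [Finset.sum_comm]
      refine (Finset.sum_le_sum fun β _ => s2 e he β).trans_eq ?_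
      rw [Finset.sum_const, nsmul_eq_mul, ← hq]
      ring
    · rw [← Finset.mul_sum]
      exact mul_le_mul_of_nonneg_left (h₃ _ fun n hn => (mem_pball.1 hn).1) (by positivity)
  have s4 := Finset.sum_le_sum s1
  rw [Finset.sum_const, nsmul_eq_mul, ← Finset.mul_sum] at s4
  have s5 := (mul_le_mul_of_nonneg_right (h₄ Y hY1) (sq_nonneg ‖mob 𝕂 B V N t‖)).trans
    (s4.trans (mul_le_mul_of_nonneg_left s3 (by positivity)))
  have s6 : H ^ (1 / 10000 : ℝ) * H ^ (1 + 1 / 10000 : ℝ) * N ^ (1 + 1 / 10000 : ℝ) ≤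
      Y ^ (1 - 1 / 1000 : ℝ) * (N ^ (1999 / 2000 : ℝ)) ^ 2 := by
    rw [hY, hH, ← Real.rpow_natCast]
    simp only [← Real.rpow_mul hN0.le, ← Real.rpow_add hN0]
    exact Real.rpow_le_rpow_of_exponent_le hN (by norm_num)
  have s7 : ‖mob 𝕂 B V N t‖ ^ 2 ≤ K * (N ^ (1999 / 2000 : ℝ)) ^ 2 := by
    have hY0 : 0 < c * Y ^ (1 - 1 / 1000 : ℝ) := by positivity
    refine le_of_mul_le_mul_left (s5.trans ?_) hY0
    calc _ = c * K * (H ^ (1 / 10000 : ℝ) * H ^ (1 + 1 / 10000 : ℝ) *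
          N ^ (1 + 1 / 10000 : ℝ)) := by rw [hK]; field_simp
      _ ≤ c * K * (Y ^ (1 - 1 / 1000 : ℝ) * (N ^ (1999 / 2000 : ℝ)) ^ 2) :=
          mul_le_mul_of_nonneg_left s6 (by positivity)
      _ = _ := by ring
  rw [← Real.sq_sqrt hK0, ← mul_pow] at s7
  exact (pow_le_pow_iff_left₀ (norm_nonneg _) (by positivity) two_ne_zero).1 s7

end Vale.Agent.P319.Rec
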