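import Vale.Agent.P319.N.RecAux

/-! FINAL 2: Mellin transform; a power saving in smooth sums of `a` gives a zero-free half plane for the inverse of its
Dirichlet series.  Port of P026 `Final2`; the coefficients are supported on `Prim`. -/

namespace Vale.Agent.P319.Rec

open scoped ComplexConjugate Real

variable {𝕂 : Type} [Field 𝕂] [NumberField 𝕂] [Stp 𝕂]

/-- smooth sum -/
noncomputable def msum (B : ℝ) (V : ℝ → ℝ) (a : R 𝕂 → ℂ) (t N : ℝ) : ℂ :=
  ∑ n ∈ pball 𝕂 (B * N), a n * V (nm n / N) * nt n t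

open MeasureTheory Set Filter Topology Asymptotics

theorem exists_adm : ∃ V : ℝ → ℝ, Adm 2 V ∧ (∀ x, 0 ≤ V x) ∧ V 1 = 1 := by
  let φ : ContDiffBump (1 : ℝ) := ⟨1 / 4, 1 / 2, by norm_num, by norm_num⟩
  refine ⟨φ, ⟨by norm_num, φ.contDiff, fun x hx => ?_⟩, fun x => φ.nonneg, ?_⟩
  · have h : x ∈ Function.support φ := hx
    rw [φ.support_eq, Metric.mem_ball, Real.dist_eq, abs_lt] at h
    obtain ⟨h1, h2⟩ := h
    change -(1 / 2 : ℝ) < _ at h1
    change _ < (1 / 2 : ℝ) at h2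
    constructor <;> linarith
  · exact φ.one_of_mem_closedBall (Metric.mem_closedBall_self (by norm_num [φ]))

theorem Final2_small {B x : ℝ} {V : ℝ → ℝ} (hV : Adm B V) (hx : x < 1 / B) : V x = 0 := by
  by_contra h
  exact absurd (hV.2.2 x h).1 (not_le.2 hx)

theorem Final2_large {B x : ℝ} {V : ℝ → ℝ} (hV : Adm B V) (hx : B < x) : V x = 0 := by
  by_contra h
  exact absurd (hV.2.2 x h).2 (not_le.2 hx)

theorem Final2_zero {B : ℝ} {V : ℝ → ℝ} (hV : Adm B V) : V 0 = 0 :=
  Final2_small hV (by have := hV.1; positivity)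

theorem Final2_bigO_of_zero {f : ℝ → ℂ} {g : ℝ → ℝ} {l : Filter ℝ} (h : ∀ᶠ x in l, f x = 0) :
    f =O[l] g :=
  IsBigO.of_bound 0 (h.mono fun x hx => by simp [hx])

theorem Final2_ev_top {B : ℝ} {V : ℝ → ℝ} (hV : Adm B V) : ∀ᶠ x in atTop, V x = 0 :=
  (eventually_gt_atTop B).mono fun _ hx => Final2_large hV hx

theorem Final2_ev_bot {B : ℝ} {V : ℝ → ℝ} (hV : Adm B V) : ∀ᶠ x in 𝓝[>] (0 : ℝ), V x = 0 := by
  have h : (0 : ℝ) < 1 / B := by have := hV.1; positivity
  exact (mem_nhdsWithin_of_mem_nhds (Iio_mem_nhds h) : Iio (1 / B) ∈ 𝓝[>] (0 : ℝ)) |>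
    fun h' => Filter.mem_of_superset h' fun _ hx => Final2_small hV hx

theorem Final2_conv {B : ℝ} {V : ℝ → ℝ} (hV : Adm B V) {g : ℝ → ℂ} (hg : Continuous g)
    (h0 : g 0 = 0) (s : ℂ) : MellinConvergent (fun x => g (V x)) s :=
  mellinConvergent_of_isBigO_rpow (a := s.re + 1) (b := s.re - 1)
    ((hg.comp hV.2.1.continuous).locallyIntegrable.locallyIntegrableOn _)
    (Final2_bigO_of_zero ((Final2_ev_top hV).mono fun x hx => by simp [hx, h0])) (by linarith)
    (Final2_bigO_of_zero ((Final2_ev_bot hV).mono fun x hx => by simp [hx, h0])) (by linarith)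

theorem differentiable_mellin_adm {B : ℝ} {V : ℝ → ℝ} (hV : Adm B V) :
    Differentiable ℂ (mellin fun x => (V x : ℂ)) := fun s =>
  mellin_differentiableAt_of_isBigO_rpow (a := s.re + 1) (b := s.re - 1)
    ((Complex.continuous_ofReal.comp hV.2.1.continuous).locallyIntegrable.locallyIntegrableOn _)
    (Final2_bigO_of_zero ((Final2_ev_top hV).mono fun x hx => by simp [hx])) (by linarith)
    (Final2_bigO_of_zero ((Final2_ev_bot hV).mono fun x hx => by simp [hx])) (by linarith)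

theorem Final2_mellin_real (f : ℝ → ℝ) (σ : ℝ) :
    mellin (fun x => (f x : ℂ)) σ = ((∫ x in Ioi (0 : ℝ), x ^ (σ - 1) * f x : ℝ) : ℂ) := by
  rw [mellin, ← integral_complex_ofReal]
  refine setIntegral_congr_fun measurableSet_Ioi fun x hx => ?_
  simp only [smul_eq_mul]
  rw [Complex.ofReal_mul, Complex.ofReal_cpow (le_of_lt hx)]
  simp

theorem mellin_adm_ne_zero {B : ℝ} {V : ℝ → ℝ} (hV : Adm B V) (h0 : ∀ x, 0 ≤ V x) (h1 : V 1 = 1)
    (σ : ℝ) : mellin (fun x => (V x : ℂ)) σ ≠ 0 := by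
  rw [Final2_mellin_real, Complex.ofReal_ne_zero]
  apply ne_of_gt
  have hint : IntegrableOn (fun x : ℝ => x ^ (σ - 1) * V x) (Ioi 0) := by
    have h := (Final2_conv hV Complex.continuous_ofReal (by simp) σ).re
    refine (integrableOn_congr_fun (fun x hx => ?_) measurableSet_Ioi).1 h
    have e : (x : ℂ) ^ ((σ : ℂ) - 1) = ((x ^ (σ - 1) : ℝ) : ℂ) := by
      rw [Complex.ofReal_cpow (le_of_lt hx)]; simp
    simp only [smul_eq_mul, e, ← Complex.ofReal_mul]
    simp
  rw [setIntegral_pos_iff_support_of_nonneg_ae _ hint]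
  · have ho : IsOpen ({x | V x ≠ 0} ∩ Ioi (0 : ℝ)) :=
      (isOpen_ne_fun hV.2.1.continuous continuous_const).inter isOpen_Ioi
    refine (ho.measure_pos volume ⟨1, by simp [h1]⟩).trans_le (measure_mono fun x hx => ?_)
    exact ⟨mul_ne_zero (Real.rpow_pos_of_pos hx.2 _).ne' hx.1, hx.2⟩
  · refine (ae_restrict_iff' measurableSet_Ioi).2 (ae_of_all _ fun x hx => ?_)
    exact mul_nonneg (Real.rpow_nonneg (le_of_lt hx) _) (h0 x)

theorem Final2_msum_eq {B N Z : ℝ} {V : ℝ → ℝ} (hV : Adm B V) (a : R 𝕂 → ℂ) (t : ℝ) (hN : 0 < N)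
    (hZ : B * N ≤ Z) : msum B V a t N = ∑ n ∈ pball 𝕂 Z, a n * V (nm n / N) * nt n t := by
  exact adm_sum_pball hV hN hZ a fun n => nt n t

theorem Final2_msum_tsum {B N : ℝ} {V : ℝ → ℝ} (hV : Adm B V) {a : R 𝕂 → ℂ}
    (ha : ∀ n, ‖a n‖ ≤ ‖ind (Prim n)‖) (t : ℝ) (hN : 0 < N) :
    msum B V a t N = ∑' n : R 𝕂, a n * V (nm n / N) * nt n t := by
  refine (tsum_eq_sum fun n hn => ?_).symm
  by_cases h : Prim n
  · rw [Final2_large hV ((lt_div_iff₀ hN).2 (not_le.1 fun h' => hn (mem_pball.2 ⟨h, h'⟩)))]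
    simp
  · have := ha n
    rw [ind_of_not h, norm_zero, norm_le_zero_iff] at this
    simp [this]

theorem Final2_msum_cont {B : ℝ} {V : ℝ → ℝ} (hV : Adm B V) (a : R 𝕂 → ℂ) (t : ℝ) :
    ContinuousOn (msum B V a t) (Ioi 0) := by
  intro N hN
  have hB : 0 < B := zero_lt_one.trans_le hV.1
  have hc : ContinuousAt (fun M : ℝ => ∑ n ∈ pball 𝕂 (B * (N + 1)),
      a n * V (nm n / M) * nt n t) N := by
    refine tendsto_finsetSum _ fun n _ => ?_
    have h1 : ContinuousAt (fun M : ℝ => (nm n : ℝ) / M) N :=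
      continuousAt_const.div continuousAt_id (ne_of_gt hN)
    have h2 : ContinuousAt (fun M : ℝ => (V (nm n / M) : ℂ)) N :=
      (Complex.continuous_ofReal.comp hV.2.1.continuous).continuousAt.comp h1
    exact (continuousAt_const.mul h2).mul continuousAt_const
  refine (hc.congr ?_).continuousWithinAt
  filter_upwards [Ioo_mem_nhds (show 0 < N from hN) (lt_add_one N)] with M hM
  exact (Final2_msum_eq hV a t hM.1 (mul_le_mul_of_nonneg_left hM.2.le hB.le)).symm

theorem Final2_msum_bot {B : ℝ} {V : ℝ → ℝ} (hV : Adm B V) (a : R 𝕂 → ℂ) (t : ℝ) :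
    ∀ᶠ N in 𝓝[>] (0 : ℝ), msum B V a t N = 0 := by
  have hB : 0 < B := zero_lt_one.trans_le hV.1
  have h : (0 : ℝ) < 1 / B := by positivity
  filter_upwards [Ioo_mem_nhdsGT h] with N hN
  refine Finset.sum_eq_zero fun n hn => ?_
  have h1 : B * N < 1 := by
    have := hN.2
    rw [lt_div_iff₀ hB] at this
    linarith
  have h2 : n = 0 := by
    by_contra h3
    have := one_le_nm h3
    have := (mem_pball.1 hn).2
    linarith
  simp [h2, Final2_zero hV]

theorem differentiableAt_mellin_msum {B : ℝ} {V : ℝ → ℝ} (hV : Adm B V) (a : R 𝕂 → ℂ) (t : ℝ)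
    {σ₀ C : ℝ} (hb : ∀ N : ℝ, 1 ≤ N → ‖msum B V a t N‖ ≤ C * N ^ σ₀) {s : ℂ} (hs : σ₀ < s.re) :
    DifferentiableAt ℂ (fun s => mellin (msum B V a t) (-s)) s := by
  have h : DifferentiableAt ℂ (mellin (msum B V a t)) (-s) := by
    refine mellin_differentiableAt_of_isBigO_rpow (a := -σ₀) (b := (-s).re - 1)
      ((Final2_msum_cont hV a t).locallyIntegrableOn measurableSet_Ioi) ?_
      (by rw [Complex.neg_re]; linarith) (Final2_bigO_of_zero (Final2_msum_bot hV a t))
      (by linarith)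
    refine IsBigO.of_bound C ((eventually_ge_atTop 1).mono fun N hN => ?_)
    rw [neg_neg, Real.norm_of_nonneg (Real.rpow_nonneg (by linarith) _)]
    exact hb N hN
  exact h.comp s differentiableAt_id.neg

theorem Final2_scale (f : ℝ → ℂ) {c : ℝ} (hc : 0 < c) (s : ℂ) :
    mellin (fun N => f (c / N)) (-s) = (c : ℂ) ^ (-s) * mellin f s := by
  have h := mellin_comp_inv (fun y => f (c * y)) (-s)
  rw [neg_neg, mellin_comp_mul_left f s hc, smul_eq_mul] at h
  simpa only [div_eq_mul_inv] using h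

theorem Final2_scale_conv {f : ℝ → ℂ} {c : ℝ} (hc : 0 < c) {s : ℂ} (h : MellinConvergent f s) :
    MellinConvergent (fun N => f (c / N)) (-s) := by
  have h1 := (MellinConvergent.comp_mul_left hc).2 h
  have h2 := (MellinConvergent.comp_rpow (f := fun y => f (c * y)) (s := -s) (a := -1)
    (by norm_num)).2 (by simpa using h1)
  simpa only [Real.rpow_neg_one, div_eq_mul_inv] using h2

theorem Final2_nt {n : R 𝕂} (hn : n ≠ 0) (t : ℝ) (s : ℂ) :
    ((nm n : ℝ) : ℂ) ^ (-s) * nt n t = (nm n : ℂ) ^ (-(s - Complex.I * t)) := by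
  have h0 : (nm n : ℂ) ≠ 0 := Nat.cast_ne_zero.2 (nm_pos hn).ne'
  rw [neg_sub, sub_eq_add_neg, Complex.cpow_add _ _ h0, mul_comm, Complex.ofReal_natCast]
  congr 1
  rw [nt, Complex.cpow_def_of_ne_zero h0, Complex.natCast_log]
  congr 1
  ring

theorem mellin_msum {B : ℝ} {V : ℝ → ℝ} (hV : Adm B V) {a : R 𝕂 → ℂ}
    (ha : ∀ n, ‖a n‖ ≤ ‖ind (Prim n)‖) (t : ℝ)
    {s : ℂ} (hs : 1 < s.re) : mellin (msum B V a t) (-s) =
      mellin (fun x => (V x : ℂ)) s * ∑' n : R 𝕂, a n * (nm n : ℂ) ^ (-(s - Complex.I * t)) := by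
  have : Countable 𝕂 := Countable.of_equiv _ (Module.finBasis ℚ 𝕂).equivFun.toEquiv.symm
  have : Countable (R 𝕂) := (IsFractionRing.injective (R 𝕂) 𝕂).countable
  let F : R 𝕂 → ℝ → ℂ := fun n N => (N : ℂ) ^ (-s - 1) • (a n * V (nm n / N) * nt n t)
  have hF0 : F 0 = fun _ => 0 := by
    funext N
    simp [F, Final2_zero hV]
  have hFe : ∀ n, F n =
      fun N : ℝ => (a n * nt n t) * ((N : ℂ) ^ (-s - 1) • (V (nm n / N) : ℂ)) := by
    intro n
    funext N
    simp only [F, smul_eq_mul]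
    ring
  have hpos : ∀ n : R 𝕂, n ≠ 0 → (0 : ℝ) < nm n := fun n hn => zero_lt_one.trans_le (one_le_nm hn)
  have hint : ∀ n, Integrable (F n) (volume.restrict (Ioi 0)) := by
    intro n
    rcases eq_or_ne n 0 with rfl | hn
    · rw [hF0]; exact integrable_zero _ _ _
    · rw [hFe]
      exact (Final2_scale_conv (hpos n hn)
        (Final2_conv hV Complex.continuous_ofReal (by simp) s)).const_mul _
  have hsum : Summable fun n => ∫ N in Ioi (0 : ℝ), ‖F n N‖ := by
    refine Summable.of_nonneg_of_le (fun n => integral_nonneg fun _ => norm_nonneg _) (fun n => ?_)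
      ((summable_ind_rpow (K := 𝕂) hs).mul_right ‖mellin (fun x => ((|V x| : ℝ) : ℂ)) s.re‖)
    rcases eq_or_ne n 0 with rfl | hn
    · rw [hF0]
      simp only [norm_zero, integral_zero]
      positivity
    · have h1 := Final2_scale (fun x => ((|V x| : ℝ) : ℂ)) (hpos n hn) s.re
      rw [← Complex.ofReal_neg, Final2_mellin_real (fun N => |V (nm n / N)|)] at h1
      have h2 := congrArg norm h1
      rw [norm_mul, Complex.norm_cpow_eq_rpow_re_of_pos (hpos n hn), Complex.ofReal_re,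
        Complex.norm_real] at h2
      rw [mul_assoc, ← h2]
      have h3 : ∫ N in Ioi (0 : ℝ), ‖F n N‖ =
          ‖a n‖ * ∫ N in Ioi (0 : ℝ), N ^ (-s.re - 1) * |V (nm n / N)| := by
        rw [← integral_const_mul]
        refine setIntegral_congr_fun measurableSet_Ioi fun N hN => ?_
        simp only [F, norm_smul, norm_mul, norm_nt, Complex.norm_real, Real.norm_eq_abs]
        rw [Complex.norm_cpow_eq_rpow_re_of_pos hN]
        simp only [Complex.sub_re, Complex.neg_re, Complex.one_re]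
        ring
      rw [h3]
      exact mul_le_mul (ha n) (Real.le_norm_self _)
        (setIntegral_nonneg measurableSet_Ioi fun N hN =>
          mul_nonneg (Real.rpow_nonneg (le_of_lt hN) _) (abs_nonneg _)) (norm_nonneg _)
  have key := integral_tsum_of_summable_integral_norm hint hsum
  have e1 : mellin (msum B V a t) (-s) = ∫ N in Ioi (0 : ℝ), ∑' n, F n N := by
    refine setIntegral_congr_fun measurableSet_Ioi fun N hN => ?_
    simp only [F, smul_eq_mul]
    rw [Final2_msum_tsum hV ha t hN, tsum_mul_left]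
  rw [e1, ← key, ← tsum_mul_left]
  refine tsum_congr fun n => ?_
  rcases eq_or_ne n 0 with rfl | hn
  · rw [hF0]
    have : -(s - Complex.I * t) ≠ 0 := by
      intro h
      have := congrArg Complex.re h
      simp at this
      linarith
    rw [nm_zero, Nat.cast_zero, Complex.zero_cpow this]
    simp
  · rw [hFe, integral_const_mul, ← Final2_nt hn]
    have := Final2_scale (fun x => (V x : ℂ)) (hpos n hn) s
    rw [mellin] at this
    rw [this]
    ring

theorem mellin_zero_free {a : R 𝕂 → ℂ} (ha : ∀ n, ‖a n‖ ≤ ‖ind (Prim n)‖) {σ₀ : ℝ}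
    (hb : ∀ (B : ℝ) (V : ℝ → ℝ) (t : ℝ), Adm B V →
      ∃ C : ℝ, ∀ N : ℝ, 1 ≤ N → ‖msum B V a t N‖ ≤ C * N ^ σ₀)
    {Z : ℂ → ℂ} (hZ : ∀ s : ℂ, s ≠ 1 → DifferentiableAt ℂ Z s)
    (hZa : ∀ s : ℂ, 1 < s.re → Z s * ∑' n : R 𝕂, a n * (nm n : ℂ) ^ (-s) = 1)
    {ρ : ℂ} (hρ : σ₀ < ρ.re) (h1 : ρ ≠ 1) : Z ρ ≠ 0 := by
  obtain ⟨V, hV, hV0, hV1⟩ := exists_adm
  set t : ℝ := -ρ.im with ht
  obtain ⟨C, hC⟩ := hb 2 V t hV
  let H : ℂ → ℂ := fun s => mellin (msum 2 V a t) (-(s + Complex.I * t)) * Z s -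
    mellin (fun x => (V x : ℂ)) (s + Complex.I * t)
  have hre : ∀ s : ℂ, (s + Complex.I * t).re = s.re := fun s => by simp
  have hH : ∀ s : ℂ, σ₀ < s.re → s ≠ 1 → DifferentiableAt ℂ H s := by
    intro s hs hs1
    have d0 : DifferentiableAt ℂ (fun s : ℂ => s + Complex.I * t) s := by fun_prop
    have d1 := (differentiableAt_mellin_msum hV a t hC (s := s + Complex.I * t)
      (by rw [hre]; exact hs)).comp s d0
    have d2 := ((differentiable_mellin_adm hV) (s + Complex.I * t)).comp s d0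
    exact (d1.mul (hZ s hs1)).sub d2
  have hH0 : ∀ s : ℂ, 1 < s.re → H s = 0 := by
    intro s hs
    simp only [H]
    rw [mellin_msum hV ha t (by rw [hre]; exact hs), add_sub_cancel_right, mul_assoc,
      mul_comm _ (Z s), hZa s hs, mul_one, sub_self]
  have hU : ∀ e : ℝ, e ≠ 0 → ∀ s : ℂ, σ₀ < s.re → 0 < e * s.im → H s = 0 := by
    intro e he
    let U : Set ℂ := {s | σ₀ < s.re} ∩ {s | 0 < e * s.im}
    have hUo : IsOpen U := (isOpen_lt continuous_const Complex.continuous_re).inter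
      (isOpen_lt continuous_const (continuous_const.mul Complex.continuous_im))
    have hUc : Convex ℝ U := by
      refine (convex_halfSpace_re_gt σ₀).inter ?_
      exact convex_halfSpace_gt (f := fun s : ℂ => e * s.im)
        ⟨fun x y => by simp [mul_add], fun c x => by simp; ring⟩ 0
    have hd : DifferentiableOn ℂ H U := fun s hs => (hH s hs.1 (by
      rintro rfl
      have := hs.2
      simp at this)).differentiableWithinAt
    let z₀ : ℂ := ⟨max σ₀ 1 + 1, e⟩
    have hz : z₀ ∈ U := ⟨by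
      show σ₀ < max σ₀ 1 + 1
      linarith [le_max_left σ₀ 1], mul_self_pos.2 he⟩
    have hev : H =ᶠ[𝓝 z₀] 0 := by
      have : {s : ℂ | 1 < s.re} ∈ 𝓝 z₀ :=
        (isOpen_lt continuous_const Complex.continuous_re).mem_nhds (by
          show 1 < max σ₀ 1 + 1
          linarith [le_max_right σ₀ 1])
      filter_upwards [this] with s hs using hH0 s hs
    intro s hs1 hs2
    exact (hd.analyticOnNhd hUo).eqOn_zero_of_preconnected_of_eventuallyEq_zero
      hUc.isPreconnected hz hev ⟨hs1, hs2⟩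
  have hρ0 : H ρ = 0 := by
    rcases eq_or_ne ρ.im 0 with h | h
    · have hc : ContinuousAt (fun y : ℝ => H (ρ + Complex.I * y)) 0 := by
        have c1 : ContinuousAt (fun y : ℝ => ρ + Complex.I * y) 0 := by fun_prop
        exact ContinuousAt.comp (by simpa using (hH ρ hρ h1).continuousAt) c1
      have h2 : Tendsto (fun y : ℝ => H (ρ + Complex.I * y)) (𝓝[>] 0) (𝓝 0) := by
        refine tendsto_const_nhds.congr' ?_
        filter_upwards [self_mem_nhdsWithin] with y hy
        exact (hU 1 one_ne_zero _ (by simpa using hρ) (by simpa [h] using hy)).symm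
      have h3 := tendsto_nhds_unique (hc.tendsto.mono_left nhdsWithin_le_nhds) h2
      simpa using h3
    · exact hU ρ.im h ρ hρ (mul_self_pos.2 h)
  intro hz
  have e : ρ + Complex.I * t = (ρ.re : ℂ) := by
    apply Complex.ext <;> simp [ht]
  simp only [H] at hρ0
  rw [hz, mul_zero, zero_sub, neg_eq_zero, e] at hρ0
  exact mellin_adm_ne_zero hV hV0 hV1 ρ.re hρ0

end Vale.Agent.P319.Rec
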