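import Vale.Agent.P319.N.Final1
import Vale.Agent.P319.N.Final2
import Vale.Agent.P319.N.ZetaTwo

/-! FINAL 3: the zero-free half plane for the Dedekind zeta function. -/

namespace Vale.Agent.P319.Rec

open scoped ComplexConjugate Real NumberField nonZeroDivisors

variable {𝕂 : Type} [Field 𝕂] [NumberField 𝕂] [Stp 𝕂]

theorem summable_norm_cpow {f : R 𝕂 → ℂ} (hf : ∀ n, ‖f n‖ ≤ ‖ind (Prim n)‖) {s : ℂ}
    (hs : 1 < s.re) : Summable fun n : R 𝕂 => ‖f n * (nm n : ℂ) ^ (-s)‖ := by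
  refine Summable.of_nonneg_of_le (fun _ => norm_nonneg _) (fun n => ?_) (summable_ind_rpow hs)
  rw [norm_mul, Complex.norm_natCast_cpow_of_re_ne_zero _ (by rw [Complex.neg_re]; linarith),
    Complex.neg_re]
  exact mul_le_mul_of_nonneg_right (hf n) (by positivity)

theorem norm_ind_mu (n : R 𝕂) : ‖ind (Prim n) * mu n‖ ≤ ‖ind (Prim n)‖ := by
  rw [norm_mul]
  exact mul_le_of_le_one_right (norm_nonneg _) (norm_mu_le _)

/-- Möbius inversion of Dirichlet series over primary elements -/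
theorem zetaP_mul_mu {s : ℂ} (hs : 1 < s.re) :
    (∑' n : R 𝕂, ind (Prim n) * (nm n : ℂ) ^ (-s)) *
      ∑' n : R 𝕂, ind (Prim n) * mu n * (nm n : ℂ) ^ (-s) = 1 := by
  classical
  have h1 := summable_norm_cpow (𝕂 := 𝕂) (f := fun n => ind (Prim n)) (fun n => le_rfl) hs
  have h2 := summable_norm_cpow (𝕂 := 𝕂) (f := fun n => ind (Prim n) * mu n) norm_ind_mu hs
  have h3 := summable_mul_of_summable_norm h1 h2
  rw [tsum_mul_tsum_of_summable_norm h1 h2,
    ← (h3.hasSum.tsum_fiberwise (fun p : R 𝕂 × R 𝕂 => p.1 * p.2)).tsum_eq]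
  have key : ∀ n : R 𝕂, ∑' p : (fun p : R 𝕂 × R 𝕂 => p.1 * p.2) ⁻¹' {n},
      ind (Prim p.1.1) * (nm p.1.1 : ℂ) ^ (-s) *
        (ind (Prim p.1.2) * mu p.1.2 * (nm p.1.2 : ℂ) ^ (-s)) =
      if n = 1 then 1 else 0 := by
    intro n
    rw [tsum_subtype ((fun p : R 𝕂 × R 𝕂 => p.1 * p.2) ⁻¹' {n}) (fun p : R 𝕂 × R 𝕂 =>
      ind (Prim p.1) * (nm p.1 : ℂ) ^ (-s) *
        (ind (Prim p.2) * mu p.2 * (nm p.2 : ℂ) ^ (-s)))]
    by_cases hn : Prim n
    · rw [tsum_eq_sum (s := (pdiv n ×ˢ pdiv n).filter fun p => p.1 * p.2 = n)]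
      · rw [Finset.sum_bij (t := pdiv n) (g := fun e => mu e * (nm n : ℂ) ^ (-s))
          (fun p _ => p.2), ← Finset.sum_mul, sum_mu_pdiv hn]
        · split_ifs with h
          · rw [ind_of h, h, nm_one]; simp
          · rw [ind_of_not h, zero_mul]
        · intro p hp
          exact (Finset.mem_product.1 (Finset.mem_filter.1 hp).1).2
        · intro p hp q hq e
          have a1 := (Finset.mem_filter.1 hp).2
          have a2 := (Finset.mem_filter.1 hq).2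
          have a3 : q.2 ≠ 0 := right_ne_zero_of_mul (a2 ▸ hn.ne_zero)
          rw [e, ← a2] at a1
          exact Prod.ext (mul_right_cancel₀ a3 a1) e
        · intro e he
          obtain ⟨a1, c, rfl⟩ := (mem_pdiv hn.ne_zero).1 he
          exact ⟨(c, e), Finset.mem_filter.2 ⟨Finset.mem_product.2
            ⟨(mem_pdiv hn.ne_zero).2 ⟨a1.of_mul hn, dvd_mul_left _ _⟩, he⟩, mul_comm _ _⟩, rfl⟩
        · intro p hp
          obtain ⟨a1, a2⟩ := Finset.mem_filter.1 hp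
          obtain ⟨a3, a4⟩ := Finset.mem_product.1 a1
          have a5 := ((mem_pdiv hn.ne_zero).1 a3).1
          have a6 := ((mem_pdiv hn.ne_zero).1 a4).1
          rw [Set.indicator_of_mem (show p ∈ (fun p : R 𝕂 × R 𝕂 => p.1 * p.2) ⁻¹' {n} from a2),
            ind_of a5, ind_of a6, ← a2, nm_mul, Nat.cast_mul,
            Complex.natCast_mul_natCast_cpow]
          ring
      · intro p hp
        by_cases h : p ∈ (fun p : R 𝕂 × R 𝕂 => p.1 * p.2) ⁻¹' {n}
        · rw [Set.indicator_of_mem h]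
          have h' : p.1 * p.2 = n := h
          by_cases a1 : Prim p.1
          · exact (hp (Finset.mem_filter.2 ⟨Finset.mem_product.2
              ⟨(mem_pdiv hn.ne_zero).2 ⟨a1, h' ▸ dvd_mul_right _ _⟩,
               (mem_pdiv hn.ne_zero).2 ⟨a1.of_mul (h' ▸ hn), h' ▸ dvd_mul_left _ _⟩⟩, h'⟩)).elim
          · simp [ind_of_not a1]
        · exact Set.indicator_of_notMem h _
    · rw [if_neg (fun h : n = 1 => hn (h ▸ prim_one))]
      refine (tsum_congr fun p => ?_).trans tsum_zero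
      by_cases h : p ∈ (fun p : R 𝕂 × R 𝕂 => p.1 * p.2) ⁻¹' {n}
      · rw [Set.indicator_of_mem h]
        have h' : p.1 * p.2 = n := h
        by_cases a1 : Prim p.1
        · have a2 : ¬ Prim p.2 := fun a2 => hn (h' ▸ a1.mul a2)
          simp [ind_of_not a2]
        · simp [ind_of_not a1]
      · exact Set.indicator_of_notMem h _
  rw [tsum_congr key, tsum_ite_eq]

omit [Stp 𝕂] in
/-- removing one Euler factor -/
theorem euler_step {f : Ideal (𝓞 𝕂) → ℂ} (hf : Summable f) (hm : ∀ I J, f (I * J) = f I * f J)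
    {P : Ideal (𝓞 𝕂)} (hP : P ≠ 0) {p : Ideal (𝓞 𝕂) → Prop} (hp : ∀ I, p (P * I) ↔ p I) :
    ∑' I, ind (p I ∧ ¬P ∣ I) * f I = (1 - f P) * ∑' I, ind (p I) * f I := by
  have hs : ∀ q : Ideal (𝓞 𝕂) → Prop, Summable fun I => ind (q I) * f I := fun q =>
    Summable.of_norm_bounded hf.norm fun I => by
      rw [norm_mul]; exact mul_le_of_le_one_left (norm_nonneg _) (norm_ind_le _)
  have e1 : ∑' I, ind (p I ∧ P ∣ I) * f I = f P * ∑' I, ind (p I) * f I := by
    rw [← (mul_right_injective₀ hP).tsum_eq, ← tsum_mul_left]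
    · refine tsum_congr fun I => ?_
      rw [hm, ind_congr (show p (P * I) ∧ P ∣ P * I ↔ p I by simp [hp])]
      ring
    · intro I hI
      obtain ⟨J, hJ⟩ := (of_ind_ne (left_ne_zero_of_mul hI)).2
      exact ⟨J, hJ.symm⟩
  rw [sub_mul, one_mul, ← e1, ← (hs _).tsum_sub (hs _)]
  refine tsum_congr fun I => ?_
  by_cases h1 : p I <;> by_cases h2 : P ∣ I <;> simp [h1, h2, ind]

omit [Stp 𝕂] in
theorem euler_fin {f : Ideal (𝓞 𝕂) → ℂ} (hf : Summable f) (hm : ∀ I J, f (I * J) = f I * f J)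
    (T : Finset (Ideal (𝓞 𝕂))) (hT : ∀ P ∈ T, Prime P) :
    ∑' I, ind (∀ P ∈ T, ¬P ∣ I) * f I = (∏ P ∈ T, (1 - f P)) * ∑' I, f I := by
  classical
  induction T using Finset.induction_on with
  | empty => simp [ind]
  | insert P T hP ih =>
    have h1 := hT P (Finset.mem_insert_self _ _)
    have h2 : ∀ Q ∈ T, Prime Q := fun Q hQ => hT Q (Finset.mem_insert_of_mem hQ)
    rw [Finset.prod_insert hP, mul_assoc, ← ih h2, ← euler_step hf hm h1.ne_zero]
    · refine tsum_congr fun I => ?_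
      rw [ind_congr (show (∀ Q ∈ insert P T, ¬Q ∣ I) ↔ (∀ Q ∈ T, ¬Q ∣ I) ∧ ¬P ∣ I by
        rw [Finset.forall_mem_insert, and_comm])]
    · refine fun I => forall₂_congr fun Q hQ => ?_
      rw [(h2 Q hQ).dvd_mul, or_iff_right]
      intro h
      exact hP (associated_iff_eq.1 ((h2 Q hQ).associated_of_dvd h1 h) ▸ hQ)

theorem exists_euler : ∃ G : ℂ → ℂ, Differentiable ℂ G ∧ ∀ s : ℂ, 1 < s.re →
    G s * NumberField.dedekindZeta 𝕂 s = ∑' n : R 𝕂, ind (Prim n) * (nm n : ℂ) ^ (-s) := by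
  classical
  obtain ⟨T, hT⟩ : ∃ T : Finset (Ideal (𝓞 𝕂)), ∀ P, P ∈ T ↔ Prime P ∧ (MM 𝕂 : 𝓞 𝕂) ∈ P :=
    ⟨(finite_sId_mem (K := 𝕂) 1).toFinset.filter Prime, fun P => by simp [and_comm]⟩
  refine ⟨fun s => ∏ P ∈ T, (1 - (Ideal.absNorm P : ℂ) ^ (-s)), ?_, fun s hs => ?_⟩
  · refine Differentiable.fun_finset_prod fun P hP => ?_
    refine (differentiable_const _).sub (differentiable_neg.const_cpow (Or.inl ?_))
    exact Nat.cast_ne_zero.2 (mt Ideal.absNorm_eq_zero_iff.1 ((hT P).1 hP).1.ne_zero)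
  have hs0 : -s ≠ 0 := fun h => by
    have := congrArg Complex.re h
    simp at this
    linarith
  have hf : Summable fun I : Ideal (𝓞 𝕂) => (Ideal.absNorm I : ℂ) ^ (-s) := by
    refine Summable.of_norm ((summable_ideal_rpow (K := 𝕂) hs).congr fun I => ?_)
    rw [Complex.norm_natCast_cpow_of_re_ne_zero _ (by rw [Complex.neg_re]; linarith),
      Complex.neg_re]
  have e1 : NumberField.dedekindZeta 𝕂 s = ∑' I : Ideal (𝓞 𝕂), (Ideal.absNorm I : ℂ) ^ (-s) := by
    rw [dedekindZeta_eq_tsum 𝕂 hs]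
    refine tsum_subtype_eq_of_support_subset (s := ((Ideal (𝓞 𝕂))⁰ : Set (Ideal (𝓞 𝕂))))
      (f := fun I => (Ideal.absNorm I : ℂ) ^ (-s)) fun I hI => mem_nonZeroDivisors_of_ne_zero ?_
    rintro rfl
    simp [Complex.zero_cpow hs0] at hI
  rw [e1, ← euler_fin hf (fun I J => by
    rw [map_mul, Nat.cast_mul, Complex.natCast_mul_natCast_cpow]) T fun P hP => ((hT P).1 hP).1]
  have e2 : ∀ I : Ideal (𝓞 𝕂), (∀ P ∈ T, ¬P ∣ I) ↔
      IsCoprime I (Ideal.span {(MM 𝕂 : 𝓞 𝕂)}) := fun I => by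
    constructor
    · intro h
      rw [Ideal.isCoprime_iff_sup_eq]
      by_contra hne
      obtain ⟨P, hP, hle⟩ := Ideal.exists_le_maximal _ hne
      have hM : (MM 𝕂 : 𝓞 𝕂) ∈ P :=
        hle (Ideal.mem_sup_right (Ideal.mem_span_singleton_self _))
      have hP0 : P ≠ ⊥ := by
        rintro rfl
        exact Nat.cast_ne_zero.2 Stp.M_ne (Ideal.mem_bot.1 hM)
      exact h P ((hT P).2 ⟨Ideal.prime_of_isPrime hP0 hP.isPrime, hM⟩)
        (Ideal.dvd_iff_le.2 (le_sup_left.trans hle))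
    · intro h P hP hd
      obtain ⟨h1, h2⟩ := (hT P).1 hP
      exact h1.not_unit (h.isUnit_of_dvd' hd (Ideal.dvd_span_singleton.2 h2))
  have e3 : ∀ {α : Type} (p : α → Prop) (g : α → ℂ),
      ∑' x, ind (p x) * g x = ∑' x : {x // p x}, g x := fun p g => by
    rw [show (∑' x : {x // p x}, g x) = _ from tsum_subtype {x | p x} g]
    refine tsum_congr fun x => ?_
    by_cases h : p x <;> simp [h, ind]
  simp only [e2]
  rw [e3, e3, ← (primEquiv 𝕂).tsum_eq]
  exact tsum_congr fun n => by rw [← absNorm_idl]; rfl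

theorem msum_mob (B : ℝ) (V : ℝ → ℝ) (t N : ℝ) :
    msum B V (fun n : R 𝕂 => ind (Prim n) * mu n) t N = mob 𝕂 B V N t := by
  classical
  symm
  refine Finset.sum_subset_zero_on_sdiff
    (fun n hn => mem_pball.2 ⟨(mem_sball.1 hn).1.1, (mem_sball.1 hn).2⟩) (fun n hn => ?_)
    fun n hn => by simp only [ind_of (mem_sball.1 hn).1.1, one_mul]
  obtain ⟨h1, h2⟩ := Finset.mem_sdiff.1 hn
  simp [mu_eq_zero fun h4 => h2 (mem_sball.2 ⟨⟨(mem_pball.1 h1).1, h4⟩, (mem_pball.1 h1).2⟩)]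

theorem zf0 (hP : PStmt 𝕂 (1 / 10000)) : ZFStmt 𝕂 := fun Z hZ hZe ρ hρ => by
  rcases eq_or_ne ρ 1 with rfl | h1
  · have t1 := NumberField.tendsto_sub_one_mul_dedekindZeta_nhdsGT 𝕂
    have t2 : Filter.Tendsto (fun s : ℝ => Z s) (nhdsWithin 1 (Set.Ioi 1)) (nhds (Z 1)) :=
      ((hZ.continuous.comp Complex.continuous_ofReal).tendsto' 1 _ (by simp)).mono_left
        nhdsWithin_le_nhds
    rw [tendsto_nhds_unique_of_eventuallyEq t2 t1
      (Filter.eventually_of_mem self_mem_nhdsWithin fun s hs => hZe s hs)]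
    exact Complex.ofReal_ne_zero.2 (NumberField.dedekindZeta_residue_ne_zero 𝕂)
  obtain ⟨G, hG, hGe⟩ := exists_euler (𝕂 := 𝕂)
  have key := mellin_zero_free (a := fun n : R 𝕂 => ind (Prim n) * mu n) (σ₀ := 1999 / 2000)
    (Z := fun s => G s * (Z s / (s - 1))) norm_ind_mu
    (fun B V t hV => by simpa only [msum_mob] using mob_bound hP hV t)
    (fun s hs => (hG s).mul ((hZ s).div (by fun_prop) (sub_ne_zero.2 hs)))
    (fun s hs => by
      have h0 : s - 1 ≠ 0 := sub_ne_zero.2 fun h => by simp [h] at hs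
      rw [hZe s hs, mul_div_cancel_left₀ _ h0, hGe s hs, zetaP_mul_mu hs]) hρ h1
  exact fun h => key (by simp [h])

end Vale.Agent.P319.Rec

namespace Vale.Agent.P319

theorem zf {K : Type} [Field K] [NumberField K] [Stp K] (hP : PStmt K (1 / 10000)) : ZFStmt K :=
  Rec.zf0 hP

end Vale.Agent.P319
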