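import Vale.Agent.P319.N.Sym

/-! GAUSS: Gauss sums (port of P026 Gauss; no reciprocity).  All statements hold for ARBITRARY generators
(`Squarefree n`, `n ≠ 0`); a change of generator twists the sums (`g3_unit_mul`, `gt6_unit_mul`, `th0_unit_mul`). -/

namespace Vale.Agent.P319

open scoped ComplexConjugate Real

variable {K : Type} [Field K] [NumberField K] [Stp K]

theorem coprime_of_not_dvd {p a : R K} (hp : Prime p) (h : ¬p ∣ a) : IsCoprime a p :=
  (hp.irreducible.coprime_iff_not_dvd.2 h).symm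

theorem not_coprime_of_dvd {p a : R K} (hp : Prime p) (h : p ∣ a) : ¬IsCoprime a p :=
  fun hc => hp.irreducible.coprime_iff_not_dvd.1 hc.symm h

theorem unit_coprime (u : (R K)ˣ) (n : R K) : IsCoprime (u : R K) n :=
  ⟨(u⁻¹ : (R K)ˣ), 0, by simp⟩

theorem coprime_of_isUnit {u : R K} (hu : IsUnit u) (n : R K) : IsCoprime u n :=
  unit_coprime hu.unit n

theorem squarefree_unit_mul {c : R K} (hs : Squarefree c) (u : (R K)ˣ) :
    Squarefree ((u : R K) * c) :=
  (associated_unit_mul_right _ _ u.isUnit).squarefree_iff.1 hs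

/-- induction on squarefree elements (any generator) -/
theorem sqf_induction {P : R K → Prop} (h1 : ∀ u, IsUnit u → P u)
    (hs : ∀ p n, Prime p → Squarefree n → ¬p ∣ n → P n → P (p * n)) {n : R K}
    (hn : Squarefree n) : P n := by
  induction n using UniqueFactorizationMonoid.induction_on_prime with
  | h₁ => exact absurd hn not_squarefree_zero
  | h₂ u hu => exact h1 u hu
  | h₃ n p _ hp ih =>
    exact hs p n hp hn.of_mul_right (fun h => hp.not_isUnit (hn p (mul_dvd_mul_left p h)))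
      (ih hn.of_mul_right)

theorem Per.mul_eq {n : R K} {f : R K → ℂ} (hf : Per n f) (ν : R K) :
    Per n fun x => f x * eq (ν * x) n := by
  intro x y h
  simp only
  rw [hf x y h, eq_congr (x := ν * x) (y := ν * y) (by rw [← mul_sub]; exact h.mul_left _)]

theorem per_cub (n : R K) : Per n fun x => cub x n := fun _ _ h => cub_congr h

theorem sum_res_mul_per {m n : R K} (hm : m ≠ 0) (hn : n ≠ 0) {f : R K → ℂ} (hf : Per n f) :
    ∑ x ∈ res (m * n), f x = nm m * ∑ x ∈ res n, f x := by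
  rw [sum_res_mul hm hn (hf.mul_left m)]
  have : ∀ y x, f (x + n * y) = f x := fun y x => hf _ _ (by simp)
  simp only [this, Finset.sum_const, card_res hm, nsmul_eq_mul]

/-- Gauss sum of a multiplicative periodic function -/
theorem gs_twist {n t : R K} (hn : n ≠ 0) {f : R K → ℂ} (hf : Per n f)
    (hm : ∀ a b, f (a * b) = f a * f b) (ht : IsCoprime t n) (ν : R K) :
    f t * ∑ x ∈ res n, f x * eq (ν * t * x) n = ∑ x ∈ res n, f x * eq (ν * x) n := by
  rw [← sum_res_affine hn (hf.mul_eq ν) ht 0, Finset.mul_sum]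
  refine Finset.sum_congr rfl fun x _ => ?_
  rw [add_zero, hm, mul_assoc ν, mul_assoc]
theorem gs_crt {m n : R K} (hm : m ≠ 0) (hn : n ≠ 0) (h : IsCoprime m n) {f g : R K → ℂ}
    (hf : Per m f) (hg : Per n g) (hf' : ∀ a b, f (a * b) = f a * f b)
    (hg' : ∀ a b, g (a * b) = g a * g b) (ν : R K) :
    ∑ x ∈ res (m * n), f x * g x * eq (ν * x) (m * n) =
      f n * g m * (∑ x ∈ res m, f x * eq (ν * x) m) * ∑ x ∈ res n, g x * eq (ν * x) n := by
  have hp : Per (m * n) fun x => f x * g x := fun x y hxy => by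
    simp only
    rw [hf x y ((dvd_mul_right m n).trans hxy), hg x y ((dvd_mul_left n m).trans hxy)]
  rw [sum_res_crt hm hn h (hp.mul_eq ν), mul_assoc, Finset.sum_mul_sum, Finset.mul_sum]
  refine Finset.sum_congr rfl fun x _ => ?_
  rw [Finset.mul_sum]
  refine Finset.sum_congr rfl fun y _ => ?_
  rw [hf (n * x + m * y) (n * x) (by simp), hg (n * x + m * y) (m * y) (by simp), hf', hg',
    show ν * (n * x + m * y) = n * (ν * x) + m * (ν * y) by ring, eq_crt hm hn]
  ring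
theorem sum_char_eq_zero {n a : R K} (hn : n ≠ 0) {f : R K → ℂ} (hf : Per n f)
    (hm : ∀ a b, f (a * b) = f a * f b) (ha : IsCoprime a n) (h1 : f a ≠ 1) :
    ∑ x ∈ res n, f x = 0 := by
  have h := gs_twist hn hf hm ha 0
  simp only [zero_mul, eq_zero, mul_one] at h
  by_contra h0
  exact h1 (mul_right_cancel₀ h0 (h.trans (one_mul _).symm))

theorem conj_mul_of_norm {z : ℂ} (h : ‖z‖ = 1) : conj z * z = 1 := by
  rw [Complex.conj_mul', h]; simp

/-- nontrivial character mod a prime -/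
theorem gs_prime {p : R K} (hp : Prime p) {f : R K → ℂ} (hf : Per p f)
    (hm : ∀ a b, f (a * b) = f a * f b) (h0 : f 0 = 0) (h1 : ∀ a, ¬p ∣ a → ‖f a‖ = 1)
    (hne : ∃ a, ¬p ∣ a ∧ f a ≠ 1) :
    (∀ ν, ∑ x ∈ res p, f x * eq (ν * x) p = conj (f ν) * ∑ x ∈ res p, f x * eq x p) ∧
      ‖∑ x ∈ res p, f x * eq x p‖ ^ 2 = nm p := by
  have hp0 := hp.ne_zero
  have A : ∀ ν, ∑ x ∈ res p, f x * eq (ν * x) p = conj (f ν) * ∑ x ∈ res p, f x * eq x p := by
    intro ν
    by_cases hν : p ∣ ν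
    · obtain ⟨a, ha, ha'⟩ := hne
      have e : ∀ x, eq (ν * x) p = 1 := fun x => eq_of_dvd (hν.mul_right x)
      simp only [e, mul_one]
      rw [sum_char_eq_zero hp0 hf hm (coprime_of_not_dvd hp ha) ha', hf ν 0 (by simpa using hν),
        h0, map_zero, zero_mul]
    · have h := gs_twist hp0 hf hm (coprime_of_not_dvd hp hν) 1
      simp only [one_mul] at h
      rw [← h, ← mul_assoc, conj_mul_of_norm (h1 ν hν), one_mul]
  refine ⟨A, ?_⟩
  have hN : (0 : ℝ) < nm p := by exact_mod_cast nm_pos hp0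
  have hneg : ‖f (-1)‖ = 1 := h1 _ fun h => hp.not_dvd_one (dvd_neg.1 h)
  have h := parseval hp0 f
  have e : ∀ a, ‖fhat p f a‖ ^ 2 = ‖f a‖ ^ 2 * (‖∑ x ∈ res p, f x * eq x p‖ ^ 2 / nm p ^ 2) := by
    intro a
    have := A (-a)
    simp only [neg_mul] at this
    rw [fhat, this, norm_div, norm_mul, Complex.norm_conj, neg_eq_neg_one_mul, hm, norm_mul, hneg,
      one_mul, Complex.norm_natCast]
    ring
  simp only [e] at h
  rw [← Finset.sum_mul] at h
  have hW : 0 < ∑ x ∈ res p, ‖f x‖ ^ 2 := by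
    obtain ⟨y, ⟨hy, hy'⟩, -⟩ := res_spec hp0 1
    refine Finset.sum_pos' (fun _ _ => by positivity) ⟨y, hy, ?_⟩
    rw [← hf 1 y hy', h1 1 hp.not_dvd_one]
    norm_num
  field_simp at h
  exact h

theorem g3_unit {u : R K} (hu : IsUnit u) (ν : R K) : g3 ν u = 1 := by
  simp only [g3, cub_unit_right hu, eq_of_dvd hu.dvd, mul_one, Finset.sum_const,
    card_res hu.ne_zero, isUnit_iff_nm.1 hu, one_smul]
theorem g3_one (ν : R K) : g3 ν 1 = 1 := g3_unit isUnit_one ν
theorem g3_twist {c t : R K} (hc : c ≠ 0) (ht : IsCoprime t c) (ν : R K) :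
    g3 (ν * t) c = conj (cub t c) * g3 ν c := by
  have h := gs_twist hc (per_cub c) (fun a b => cub_mul_left a b c) ht ν
  rw [g3, g3, ← h, ← mul_assoc, conj_mul_of_norm (norm_cub ht), one_mul]
theorem g3_congr {ν ν' c : R K} (h : c ∣ ν - ν') : g3 ν c = g3 ν' c := by
  refine Finset.sum_congr rfl fun x _ => ?_
  rw [eq_congr (x := ν * x) (y := ν' * x) (by rw [← sub_mul]; exact h.mul_right _)]
theorem norm_g3_le {c : R K} (hc : c ≠ 0) (ν : R K) : ‖g3 ν c‖ ≤ nm c := by
  refine (norm_sum_le _ _).trans ?_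
  rw [← card_res hc, Finset.card_eq_sum_ones]
  push_cast
  refine Finset.sum_le_sum fun x _ => ?_
  rw [norm_mul, norm_eq, mul_one]
  exact norm_cub_le _ _
theorem g3_crt {a b : R K} (ha : a ≠ 0) (hb : b ≠ 0) (h : IsCoprime a b) (ν : R K) :
    g3 ν (a * b) = cub b a * cub a b * g3 ν a * g3 ν b := by
  simp only [g3, cub_mul_right ha hb]
  exact gs_crt ha hb h (per_cub a) (per_cub b) (fun x y => cub_mul_left x y a)
    (fun x y => cub_mul_left x y b) ν
/-- change of generator -/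
theorem g3_unit_mul {c : R K} (hc : c ≠ 0) (u : (R K)ˣ) (ν : R K) :
    g3 ν ((u : R K) * c) = cub u c * g3 ν c := by
  rw [g3_crt u.ne_zero hc (unit_coprime u c), cub_unit_right u.isUnit, g3_unit u.isUnit,
    mul_one, one_mul]
theorem g3_unit_mul' {c : R K} (hc : c ≠ 0) (u : (R K)ˣ) (ν : R K) :
    g3 (ν * (u : R K)) ((u : R K) * c) = g3 ν c := by
  rw [g3_unit_mul hc, g3_twist hc (unit_coprime u c), ← mul_assoc, mul_comm (cub _ _),
    conj_mul_of_norm (norm_cub (unit_coprime u c)), one_mul]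
theorem cub_eq_zero_of_dvd {p x : R K} (hp : Prime p) (h : p ∣ x) : cub x p = 0 :=
  cub_eq_zero hp.ne_zero (not_coprime_of_dvd hp h)

theorem cub_cube_prime {p : R K} (hp : Prime p) (x : R K) :
    cub x p ^ 3 = 1 - ind (p ∣ 0 - x) := by
  by_cases h : p ∣ x
  · rw [cub_eq_zero_of_dvd hp h, ind_of (by simpa using h)]
    simp
  · rw [cub_cube (coprime_of_not_dvd hp h), ind_of_not (by simpa using h), sub_zero]

theorem norm_g3_prime {p ν : R K} (hp : Prime p) (h : ¬p ∣ ν) :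
    ‖g3 ν p‖ ^ 2 = nm p := by
  obtain ⟨a, ha, ha'⟩ := exists_cub_ne_one hp
  obtain ⟨h1, h2⟩ := gs_prime hp (per_cub p) (fun a b => cub_mul_left a b p)
    (cub_eq_zero_of_dvd hp (dvd_zero p)) (fun a ha => norm_cub (coprime_of_not_dvd hp ha))
    ⟨a, fun h => not_coprime_of_dvd hp h ha, ha'⟩
  rw [g3, h1, norm_mul, Complex.norm_conj, norm_cub (coprime_of_not_dvd hp h), one_mul, h2]
theorem g3_prime_pow_eq_zero {p ν : R K} (hp : Prime p) (h : ¬p ∣ ν) {i l : ℕ}
    (hl : i + 2 ≤ l) : g3 (ν * p ^ i) (p ^ l) = 0 := by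
  obtain ⟨k, rfl⟩ := Nat.exists_eq_add_of_le hl
  have hp0 := hp.ne_zero
  have hq : p ^ (i + 2 + k) ≠ 0 := pow_ne_zero _ hp0
  have A : ∀ y, g3 (ν * p ^ i) (p ^ (i + 2 + k)) =
      g3 (ν * p ^ i) (p ^ (i + 2 + k)) * eq (ν * y) p := by
    intro y
    conv_lhs => rw [g3, ← sum_res_affine hq ((per_cub _).mul_eq (ν * p ^ i)) isCoprime_one_left
      (p ^ (k + 1) * y)]
    rw [g3, Finset.sum_mul]
    refine Finset.sum_congr rfl fun x _ => ?_
    rw [one_mul, mul_add, eq_add, cub_pow_right hp0, cub_pow_right hp0,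
      cub_congr (a := x + p ^ (k + 1) * y) (b := x) ⟨p ^ k * y, by ring⟩,
      show ν * p ^ i * (p ^ (k + 1) * y) = p ^ (i + 1 + k) * (ν * y) by ring,
      show p ^ (i + 2 + k) = p ^ (i + 1 + k) * p by ring, eq_mul_cancel (pow_ne_zero _ hp0),
      ← mul_assoc (cub x p ^ _)]
  have B := Finset.sum_congr (rfl : res p = res p) fun y _ => A y
  rw [← Finset.mul_sum, sum_eq hp0, ind_of_not h, zero_mul, mul_zero, Finset.sum_const,
    card_res hp0, nsmul_eq_mul] at B
  exact (mul_eq_zero.1 B).resolve_left (by exact_mod_cast (nm_pos hp0).ne')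
theorem g3_prime_pow_of_le {p : R K} (hp : Prime p) (ν : R K) {i l : ℕ} (hl : l ≤ i)
    (h1 : 1 ≤ l) : g3 (ν * p ^ i) (p ^ l) =
      if 3 ∣ l then (nm p : ℂ) ^ l - (nm p : ℂ) ^ (l - 1) else 0 := by
  obtain ⟨k, rfl⟩ := Nat.exists_eq_add_of_le' h1
  have hp0 := hp.ne_zero
  have e : ∀ x, eq (ν * p ^ i * x) (p ^ (k + 1)) = 1 :=
    fun x => eq_of_dvd (((pow_dvd_pow p hl).mul_left ν).mul_right x)
  have hper : Per p fun x => cub x p ^ (k + 1) := fun x y h => by simp only [cub_congr h]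
  simp only [g3, e, mul_one, cub_pow_right hp0]
  rw [pow_succ p k, sum_res_mul_per (pow_ne_zero _ hp0) hp0 hper, nm_pow]
  split_ifs with h3
  · obtain ⟨m, hm⟩ := h3
    have e2 : ∀ x, cub x p ^ (k + 1) = 1 - ind (p ∣ 0 - x) := by
      intro x
      rw [← cub_cube_prime hp]
      by_cases h : p ∣ x
      · simp [cub_eq_zero_of_dvd hp h]
      · rw [hm, pow_mul, cub_cube (coprime_of_not_dvd hp h), one_pow]
    simp only [e2]
    rw [Finset.sum_sub_distrib, sum_res_ind hp0, Finset.sum_const, card_res hp0]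
    simp only [nsmul_eq_mul, mul_one, Nat.add_sub_cancel]
    push_cast
    ring
  · obtain ⟨a, ha, ha'⟩ := exists_cub_ne_one hp
    rw [sum_char_eq_zero hp0 hper (fun a b => by rw [cub_mul_left, mul_pow]) ha ?_, mul_zero]
    intro h
    have hc := cub_cube ha
    rw [← Nat.div_add_mod (k + 1) 3, pow_add, pow_mul, hc, one_pow, one_mul] at h
    have : (k + 1) % 3 = 1 ∨ (k + 1) % 3 = 2 := by omega
    rcases this with h2 | h2 <;> rw [h2] at h
    · exact ha' (by simpa using h)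
    · exact ha' (by linear_combination hc - cub a p * h)
theorem g3_sq_cube {p ν : R K} (hp : Prime p) (h : ¬p ∣ ν) :
    g3 (ν * p ^ 2) (p ^ 3) = -(nm p : ℂ) ^ 2 := by
  have hp0 := hp.ne_zero
  have e : ∀ x, eq (ν * p ^ 2 * x) (p ^ 3) = eq (ν * x) p := by
    intro x
    rw [show ν * p ^ 2 * x = p ^ 2 * (ν * x) by ring, pow_succ p 2,
      eq_mul_cancel (pow_ne_zero _ hp0)]
  have hper : Per p fun x => cub x p ^ 3 := fun x y h => by simp only [cub_congr h]
  simp only [g3, e, cub_pow_right hp0]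
  rw [pow_succ p 2, sum_res_mul_per (pow_ne_zero _ hp0) hp0 (hper.mul_eq ν), nm_pow]
  have e2 : ∀ x, cub x p ^ 3 * eq (ν * x) p = eq (ν * x) p - ind (p ∣ 0 - x) := by
    intro x
    rw [cub_cube_prime hp]
    by_cases hx : p ∣ x
    · rw [eq_of_dvd (hx.mul_left ν), mul_one]
    · rw [ind_of_not (by simpa using hx)]
      ring
  simp only [e2]
  rw [Finset.sum_sub_distrib, sum_res_ind hp0, sum_eq hp0, ind_of_not h]
  push_cast
  ring
theorem g3_one_sq {p : R K} (hp : Prime p) (ν : R K) :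
    g3 (ν * p) (p ^ 2) = nm p * conj (g3 ν p) := by
  have hp0 := hp.ne_zero
  have e : ∀ x, eq (ν * p * x) (p ^ 2) = eq (ν * x) p := fun x => by
    rw [show ν * p * x = p * (ν * x) by ring, sq, eq_mul_cancel hp0]
  have hper : Per p fun x => cub x p ^ 2 := fun x y h => by simp only [cub_congr h]
  have h1 := g3_twist hp0 (t := -1) isCoprime_one_left.neg_left ν
  rw [cub_neg_left, cub_one_left, map_one, one_mul] at h1
  rw [← h1]
  simp only [g3, e, cub_pow_right hp0]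
  rw [sq p, sum_res_mul_per hp0 hp0 (hper.mul_eq ν), map_sum]
  congr 1
  refine Finset.sum_congr rfl fun x _ => ?_
  rw [map_mul, conj_cub, conj_eq]
  congr 2
  ring

theorem G2.sqrt_nm_mul (a b : R K) : √(nm (a * b) : ℝ) = √(nm a) * √(nm b) := by
  rw [nm_mul, Nat.cast_mul, Real.sqrt_mul (Nat.cast_nonneg _)]

theorem G2.sqrt_nm_ne {a : R K} (h : a ≠ 0) : ((√(nm a) : ℝ) : ℂ) ≠ 0 := by
  have := one_le_nm h
  exact Complex.ofReal_ne_zero.2 (Real.sqrt_pos.2 (by linarith)).ne'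

theorem G2.sqrt_nm_sq (a : R K) : ((√(nm a) : ℝ) : ℂ) ^ 2 = nm a := by
  rw [← Complex.ofReal_pow, Real.sq_sqrt (Nat.cast_nonneg _), Complex.ofReal_natCast]

theorem G2.norm_div_sqrt {z : ℂ} {p : R K} (hp : p ≠ 0) (h : ‖z‖ ^ 2 = nm p) :
    ‖z / (√(nm p) : ℝ)‖ = 1 := by
  have := one_le_nm hp
  rw [norm_div, Complex.norm_real, ← h, Real.sqrt_sq (norm_nonneg _), norm_norm, div_self]
  intro h0
  rw [h0] at h
  norm_num at h
  linarith [h.symm ▸ this]

theorem G2.gt3_crt {a b : R K} (ha : a ≠ 0) (hb : b ≠ 0) (h : IsCoprime a b) :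
    gt3 (a * b) = cub b a * cub a b * gt3 a * gt3 b := by
  simp only [gt3, g3_crt ha hb h, G2.sqrt_nm_mul, Complex.ofReal_mul]
  ring

theorem gt3_unit {u : R K} (hu : IsUnit u) : gt3 u = 1 := by
  simp [gt3, g3_unit hu, isUnit_iff_nm.1 hu]

theorem gt3_unit_mul {c : R K} (hc : c ≠ 0) (u : (R K)ˣ) :
    gt3 ((u : R K) * c) = cub u c * gt3 c := by
  rw [G2.gt3_crt u.ne_zero hc (unit_coprime u c), cub_unit_right u.isUnit, gt3_unit u.isUnit,
    mul_one, one_mul]

theorem norm_gt3 {c : R K} (hs : Squarefree c) : ‖gt3 c‖ = 1 := by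
  refine sqf_induction (P := fun c => ‖gt3 c‖ = 1) (fun u hu => by simp [gt3_unit hu])
    (fun p n hp hn hd ih => ?_) hs
  have hc := coprime_of_not_dvd hp hd
  rw [G2.gt3_crt hp.ne_zero hn.ne_zero hc.symm, norm_mul, norm_mul, norm_mul, norm_cub hc,
    norm_cub hc.symm, ih, gt3, G2.norm_div_sqrt hp.ne_zero (norm_g3_prime hp hp.not_dvd_one)]
  norm_num

theorem norm_g3_sqf {c ν : R K} (hs : Squarefree c) (h : IsCoprime ν c) : ‖g3 ν c‖ ^ 2 = nm c := by
  have h1 := norm_gt3 hs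
  have h2 := g3_twist hs.ne_zero h 1
  have h3 := one_le_nm hs.ne_zero
  rw [gt3, norm_div, Complex.norm_real, Real.norm_of_nonneg (Real.sqrt_nonneg _),
    div_eq_one_iff_eq (Real.sqrt_pos.2 (by linarith)).ne'] at h1
  rw [one_mul] at h2
  rw [h2, norm_mul, Complex.norm_conj, norm_cub h, one_mul, h1, Real.sq_sqrt (Nat.cast_nonneg _)]

theorem th0_eq {c d : R K} (hs : Squarefree c) (hd : d ≠ 0) :
    th0 (c * d ^ 3) = conj (gt3 c) * (√(nm d) : ℝ) := by
  obtain ⟨u, d, hd', rfl⟩ := exists_unit_prim hd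
  have hs' := squarefree_unit_mul hs (u ^ 3)
  have h : ∃ p : R K × R K, Squarefree p.1 ∧ Prim p.2 ∧ c * (u * d) ^ 3 = p.1 * p.2 ^ 3 :=
    ⟨(((u ^ 3 : (R K)ˣ) : R K) * c, d), hs', hd', by push_cast; ring⟩
  obtain ⟨h2, h3, h4⟩ := h.choose_spec
  obtain ⟨e1, e2⟩ := cube_decomp_unique' hs' hd' h2 h3 (by rw [← h4]; push_cast; ring)
  rw [th0, dif_pos h, ← e1, ← e2, gt3_unit_mul hs.ne_zero, Units.val_pow_eq_pow_val, cub_pow_left,
    cub_cube (unit_coprime u c), one_mul, nm_unit_mul]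

theorem th0_sqf {c : R K} (hs : Squarefree c) : th0 c = conj (gt3 c) := by
  simpa using th0_eq hs (d := 1) one_ne_zero

theorem th0_ne_zero {n : R K} (h : th0 n ≠ 0) : ∃ c d, Squarefree c ∧ Prim d ∧ n = c * d ^ 3 := by
  by_contra hn
  apply h
  rw [th0, dif_neg]
  rintro ⟨p, hp⟩
  exact hn ⟨p.1, p.2, hp⟩

@[simp] theorem th0_zero : th0 (0 : R K) = 0 := by
  by_contra h
  obtain ⟨c, d, hc, hd, e⟩ := th0_ne_zero h
  exact mul_ne_zero hc.ne_zero (pow_ne_zero 3 hd.ne_zero) e.symm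

theorem norm_th0 {c d : R K} (hs : Squarefree c) (hd : d ≠ 0) : ‖th0 (c * d ^ 3)‖ = √(nm d) := by
  rw [th0_eq hs hd, norm_mul, Complex.norm_conj, norm_gt3 hs, one_mul, Complex.norm_real,
    Real.norm_of_nonneg (Real.sqrt_nonneg _)]

theorem dvd_of_cube_dvd {c d e : R K} (hs : Squarefree c) (he : e ≠ 0) (h : d ^ 3 ∣ c * e ^ 3) :
    d ∣ e := by
  obtain ⟨x, h⟩ := h
  obtain ⟨a, b, g, hab, rfl, rfl⟩ := UniqueFactorizationMonoid.exists_reduced_factors e he d
  have hg : g ≠ 0 := left_ne_zero_of_mul he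
  have h1 : c * a ^ 3 = b * b * (b * x) :=
    mul_left_cancel₀ (pow_ne_zero 3 hg) (by linear_combination h)
  have h2 : IsRelPrime (b * b) (a ^ 3) := (hab.symm.mul_left hab.symm).pow_right
  have h3 : IsUnit b := hs b (h2.dvd_of_dvd_mul_right ⟨_, h1⟩)
  exact mul_dvd_mul_left g h3.dvd

theorem th0_mul_cube (x : R K) {d : R K} (hd : d ≠ 0) :
    th0 (x * d ^ 3) = th0 x * (√(nm d) : ℝ) := by
  have key : ∀ c e : R K, Squarefree c → e ≠ 0 →
      th0 (c * e ^ 3 * d ^ 3) = th0 (c * e ^ 3) * (√(nm d) : ℝ) := fun c e hc he => by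
    rw [mul_assoc, ← mul_pow, th0_eq hc (mul_ne_zero he hd), th0_eq hc he, G2.sqrt_nm_mul,
      Complex.ofReal_mul, mul_assoc]
  by_cases h : th0 x = 0
  · by_contra h1
    rw [h, zero_mul] at h1
    obtain ⟨c, e, hc, he, h2⟩ := th0_ne_zero h1
    obtain ⟨f, rfl⟩ := dvd_of_cube_dvd hc he.ne_zero (d := d) ⟨x, by rw [← h2, mul_comm]⟩
    obtain rfl : x = c * f ^ 3 := mul_right_cancel₀ (pow_ne_zero 3 hd) (by rw [h2]; ring)
    exact h1 (by rw [key c f hc (right_ne_zero_of_mul he.ne_zero), h, zero_mul])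
  · obtain ⟨c, e, hc, he, rfl⟩ := th0_ne_zero h
    exact key c e hc he.ne_zero

/-- change of generator -/
theorem th0_unit_mul (u : (R K)ˣ) (x : R K) :
    th0 ((u : R K) * x) = conj (cub u x) * th0 x := by
  have key : ∀ (x : R K) (u : (R K)ˣ), th0 x ≠ 0 →
      th0 ((u : R K) * x) = conj (cub u x) * th0 x := by
    intro x u h
    obtain ⟨c, e, hc, he, rfl⟩ := th0_ne_zero h
    rw [← mul_assoc, th0_eq (squarefree_unit_mul hc u)
      he.ne_zero, th0_eq hc he.ne_zero, gt3_unit_mul hc.ne_zero,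
      cub_mul_right hc.ne_zero (pow_ne_zero 3 he.ne_zero), cub_pow_right he.ne_zero,
      cub_cube (unit_coprime u e), mul_one, map_mul, mul_assoc]
  by_cases h : th0 x = 0
  · by_contra h1
    rw [h, mul_zero] at h1
    have h2 := key _ u⁻¹ h1
    rw [Units.inv_mul_cancel_left, h] at h2
    refine h1 ((mul_eq_zero.1 h2.symm).resolve_left fun h3 => ?_)
    have h4 := norm_cub (unit_coprime u⁻¹ ((u : R K) * x))
    rw [← Complex.norm_conj, h3, norm_zero] at h4
    exact zero_ne_one h4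
  · exact key x u h

theorem G2.sex_per (n : R K) : Per n fun x => sex x n := fun _ _ h => sex_congr h
theorem G2.quad_per (n : R K) : Per n fun x => quad x n := fun _ _ h => quad_congr h
theorem G2.cub_per (n : R K) : Per n fun x => cub x n := fun _ _ h => cub_congr h

theorem gt6_mul {a b : R K} (ha : a ≠ 0) (hb : b ≠ 0) (h : IsCoprime a b) :
    gt6 (a * b) = sex a b * sex b a * gt6 a * gt6 b := by
  have := gs_crt ha hb h (G2.sex_per a) (G2.sex_per b) (fun x y => sex_mul_left x y a)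
    (fun x y => sex_mul_left x y b) 1
  simp only [one_mul] at this
  simp only [gt6, sex_mul_right ha hb, this, G2.sqrt_nm_mul, Complex.ofReal_mul]
  ring

theorem gt2_mul {a b : R K} (ha : a ≠ 0) (hb : b ≠ 0) (h : IsCoprime a b) :
    gt2 (a * b) = quad a b * quad b a * gt2 a * gt2 b := by
  have := gs_crt ha hb h (G2.quad_per a) (G2.quad_per b) (fun x y => quad_mul_left x y a)
    (fun x y => quad_mul_left x y b) 1
  simp only [one_mul] at this
  simp only [gt2, quad_mul_right ha hb, this, G2.sqrt_nm_mul, Complex.ofReal_mul]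
  ring

theorem G2.coprime_of_not_dvd {p a : R K} (hp : Prime p) (h : ¬p ∣ a) : IsCoprime a p :=
  P319.coprime_of_not_dvd hp h

theorem G2.not_coprime_zero {p : R K} (hp : Prime p) : ¬IsCoprime 0 p := fun h =>
  hp.not_isUnit (isCoprime_zero_left.1 h)

theorem G2.not_dvd_of_coprime {p a : R K} (hp : Prime p) (h : IsCoprime a p) : ¬p ∣ a :=
  (Prime.coprime_iff_not_dvd hp).1 h.symm

theorem G2.exists_sex_ne_one {p : R K} (hp : Prime p) : ∃ a, ¬p ∣ a ∧ sex a p ≠ 1 := by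
  obtain ⟨a, ha, h⟩ := exists_quad_ne_one hp
  refine ⟨a, G2.not_dvd_of_coprime hp ha, fun h1 => ?_⟩
  have h2 := conj_sex a p
  rw [h1, h, map_one] at h2
  have h3 := cub_cube ha
  rw [show cub a p = -1 by linear_combination h2] at h3
  norm_num at h3

theorem G2.gs_sex_prime {p : R K} (hp : Prime p) :
    (∀ ν, ∑ x ∈ res p, sex x p * eq (ν * x) p = conj (sex ν p) * ∑ x ∈ res p, sex x p * eq x p) ∧
      ‖∑ x ∈ res p, sex x p * eq x p‖ ^ 2 = nm p :=
  gs_prime hp (G2.sex_per p) (fun x y => sex_mul_left x y p)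
    (sex_eq_zero hp.ne_zero (G2.not_coprime_zero hp))
    (fun _ h => norm_sex (G2.coprime_of_not_dvd hp h)) (G2.exists_sex_ne_one hp)

theorem G2.gs_quad_prime {p : R K} (hp : Prime p) :
    (∀ ν, ∑ x ∈ res p, quad x p * eq (ν * x) p =
      conj (quad ν p) * ∑ x ∈ res p, quad x p * eq x p) ∧
      ‖∑ x ∈ res p, quad x p * eq x p‖ ^ 2 = nm p := by
  obtain ⟨a, ha, h⟩ := exists_quad_ne_one hp
  exact gs_prime hp (G2.quad_per p) (fun x y => quad_mul_left x y p)
    (quad_eq_zero hp.ne_zero (G2.not_coprime_zero hp))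
    (fun _ h => norm_quad (G2.coprime_of_not_dvd hp h))
    ⟨a, G2.not_dvd_of_coprime hp ha, by rw [h]; norm_num⟩

theorem G2.sex_unit_right {u : R K} (hu : IsUnit u) (a : R K) : sex a u = 1 := by
  rw [sex, quad_unit_right hu, cub_unit_right hu, map_one, mul_one]

theorem gt6_unit {u : R K} (hu : IsUnit u) : gt6 u = 1 := by
  simp [gt6, G2.sex_unit_right hu, eq_of_dvd hu.dvd, card_res hu.ne_zero, isUnit_iff_nm.1 hu]

theorem gt2_unit {u : R K} (hu : IsUnit u) : gt2 u = 1 := by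
  simp [gt2, quad_unit_right hu, eq_of_dvd hu.dvd, card_res hu.ne_zero, isUnit_iff_nm.1 hu]

theorem G2.gt6_one : gt6 (1 : R K) = 1 := gt6_unit isUnit_one
theorem G2.gt2_one : gt2 (1 : R K) = 1 := gt2_unit isUnit_one

theorem gt6_unit_mul {c : R K} (hc : c ≠ 0) (u : (R K)ˣ) :
    gt6 ((u : R K) * c) = sex u c * gt6 c := by
  rw [gt6_mul u.ne_zero hc (unit_coprime u c), G2.sex_unit_right u.isUnit, gt6_unit u.isUnit,
    mul_one, mul_one]

theorem gt2_unit_mul {c : R K} (hc : c ≠ 0) (u : (R K)ˣ) :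
    gt2 ((u : R K) * c) = quad u c * gt2 c := by
  rw [gt2_mul u.ne_zero hc (unit_coprime u c), quad_unit_right u.isUnit, gt2_unit u.isUnit,
    mul_one, mul_one]

theorem norm_gt6 {n : R K} (hn : Squarefree n) : ‖gt6 n‖ = 1 := by
  refine sqf_induction (P := fun n => ‖gt6 n‖ = 1) (fun u hu => by simp [gt6_unit hu]) ?_ hn
  intro p n hp hn hd ih
  have hc := G2.coprime_of_not_dvd hp hd
  rw [gt6_mul hp.ne_zero hn.ne_zero hc.symm, norm_mul, norm_mul, norm_mul, norm_sex hc.symm,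
    norm_sex hc, ih, gt6, G2.norm_div_sqrt hp.ne_zero (G2.gs_sex_prime hp).2]
  norm_num

theorem norm_gt2 {n : R K} (hn : Squarefree n) : ‖gt2 n‖ = 1 := by
  refine sqf_induction (P := fun n => ‖gt2 n‖ = 1) (fun u hu => by simp [gt2_unit hu]) ?_ hn
  intro p n hp hn hd ih
  have hc := G2.coprime_of_not_dvd hp hd
  rw [gt2_mul hp.ne_zero hn.ne_zero hc.symm, norm_mul, norm_mul, norm_mul, norm_quad hc.symm,
    norm_quad hc, ih, gt2, G2.norm_div_sqrt hp.ne_zero (G2.gs_quad_prime hp).2]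
  norm_num

theorem gs_sex {n : R K} (hn : Squarefree n) (ν : R K) :
    ∑ x ∈ res n, sex x n * eq (ν * x) n = conj (sex ν n) * gt6 n * (√(nm n) : ℝ) := by
  refine sqf_induction (P := fun n => ∑ x ∈ res n, sex x n * eq (ν * x) n =
    conj (sex ν n) * gt6 n * (√(nm n) : ℝ)) (fun u hu => ?_) ?_ hn
  · simp [gt6_unit hu, G2.sex_unit_right hu, eq_of_dvd hu.dvd, card_res hu.ne_zero,
      isUnit_iff_nm.1 hu]
  · intro p n hp hn hd ih
    have hc := (G2.coprime_of_not_dvd hp hd).symm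
    have hn0 := hn.ne_zero
    have := gs_crt hp.ne_zero hn0 hc (G2.sex_per p) (G2.sex_per n) (fun x y => sex_mul_left x y p)
      (fun x y => sex_mul_left x y n) ν
    simp only [sex_mul_right hp.ne_zero hn0, this, ih, (G2.gs_sex_prime hp).1 ν,
      gt6_mul hp.ne_zero hn0 hc, G2.sqrt_nm_mul, Complex.ofReal_mul, map_mul]
    have h1 : ∑ x ∈ res p, sex x p * eq x p = gt6 p * (√(nm p) : ℝ) := by
      rw [gt6, div_mul_cancel₀ _ (G2.sqrt_nm_ne hp.ne_zero)]
    rw [h1]
    ring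

theorem gs_quad {n : R K} (hn : Squarefree n) (ν : R K) :
    ∑ x ∈ res n, quad x n * eq (ν * x) n = quad ν n * gt2 n * (√(nm n) : ℝ) := by
  refine sqf_induction (P := fun n => ∑ x ∈ res n, quad x n * eq (ν * x) n =
    quad ν n * gt2 n * (√(nm n) : ℝ)) (fun u hu => ?_) ?_ hn
  · simp [gt2_unit hu, quad_unit_right hu, eq_of_dvd hu.dvd, card_res hu.ne_zero,
      isUnit_iff_nm.1 hu]
  · intro p n hp hn hd ih
    have hc := (G2.coprime_of_not_dvd hp hd).symm
    have hn0 := hn.ne_zero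
    have := gs_crt hp.ne_zero hn0 hc (G2.quad_per p) (G2.quad_per n)
      (fun x y => quad_mul_left x y p) (fun x y => quad_mul_left x y n) ν
    simp only [quad_mul_right hp.ne_zero hn0, this, ih, (G2.gs_quad_prime hp).1 ν,
      gt2_mul hp.ne_zero hn0 hc, G2.sqrt_nm_mul, Complex.ofReal_mul, conj_quad]
    have h1 : ∑ x ∈ res p, quad x p * eq x p = gt2 p * (√(nm p) : ℝ) := by
      rw [gt2, div_mul_cancel₀ _ (G2.sqrt_nm_ne hp.ne_zero)]
    rw [h1]
    ring

/-- primitivity of the cubic character of squarefree modulus -/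
theorem gs_cub {n : R K} (hn : Squarefree n) (ν : R K) : g3 ν n = conj (cub ν n) * g3 1 n := by
  refine sqf_induction (P := fun n => g3 ν n = conj (cub ν n) * g3 1 n) (fun u hu => ?_) ?_ hn
  · simp [g3_unit hu, cub_unit_right hu]
  · intro p n hp hn hd ih
    have hc := (G2.coprime_of_not_dvd hp hd).symm
    obtain ⟨a, ha, ha'⟩ := exists_cub_ne_one hp
    have h1 : g3 ν p = conj (cub ν p) * g3 1 p := by
      simpa only [g3, one_mul] using (gs_prime hp (per_cub p) (fun a b => cub_mul_left a b p)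
        (cub_eq_zero_of_dvd hp (dvd_zero p)) (fun a ha => norm_cub (coprime_of_not_dvd hp ha))
        ⟨a, fun h => not_coprime_of_dvd hp h ha, ha'⟩).1 ν
    rw [g3_crt hp.ne_zero hn.ne_zero hc, g3_crt hp.ne_zero hn.ne_zero hc, ih, h1,
      cub_mul_right hp.ne_zero hn.ne_zero, map_mul]
    ring

end Vale.Agent.P319
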