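import Vale.Agent.P319.N.Gauss

/-! GAUSS: the residue field of a prime, Jacobi sums, the cube of the cubic Gauss sum, the duplication formula,
the completely multiplicative angle `angJ` and the identity `mu_mul_gt6` (no reciprocity). -/

namespace Vale.Agent.P319

open scoped ComplexConjugate Real

variable {K : Type} [Field K] [NumberField K] [Stp K]

namespace Jac

/-- residue ring -/
abbrev Fq (p : R K) : Type := R K ⧸ Ideal.span {p}

/-- reduction map -/
noncomputable abbrev red (p : R K) : R K →+* Fq p := Ideal.Quotient.mk _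

theorem red_eq_iff {p a b : R K} : red p a = red p b ↔ p ∣ a - b := mk_eq_mk

theorem red_eq_zero {p a : R K} : red p a = 0 ↔ p ∣ a := by
  rw [Ideal.Quotient.eq_zero_iff_mem, Ideal.mem_span_singleton]

theorem red_out (p : R K) (x : Fq p) : red p x.out = x := Ideal.Quotient.mk_out x

theorem dvd_out_sub (p a : R K) : p ∣ (red p a).out - a := red_eq_iff.1 (red_out p _)

scoped instance instMaxP {p : R K} [hp : Fact (Prime p)] : (Ideal.span {p}).IsMaximal :=
  PrincipalIdealRing.isMaximal_of_irreducible hp.1.irreducible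

noncomputable scoped instance instFieldFq {p : R K} [Fact (Prime p)] : Field (Fq p) :=
  Ideal.Quotient.field _

scoped instance instFiniteFq {p : R K} [hp : Fact (Prime p)] : Finite (Fq p) :=
  finite_quot hp.1.ne_zero

noncomputable scoped instance instFintypeFq {p : R K} [Fact (Prime p)] : Fintype (Fq p) :=
  Fintype.ofFinite _

theorem card_Fq (p : R K) [Fact (Prime p)] : Fintype.card (Fq p) = nm p := by
  rw [← Nat.card_eq_fintype_card, card_quot]

/-- a multiplicative periodic function as a character of the residue field -/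
noncomputable def mc {A : Type*} [CommRing A] (p : R K) [Fact (Prime p)] (f : R K → A)
    (hf : ∀ x y, p ∣ x - y → f x = f y) (hm : ∀ a b, f (a * b) = f a * f b) (h0 : f 0 = 0)
    (h1 : f 1 = 1) : MulChar (Fq p) A where
  toFun x := f x.out
  map_one' := by rw [← map_one (red p), hf _ _ (dvd_out_sub p 1), h1]
  map_mul' x y := by
    rw [← hm]
    exact hf _ _ (red_eq_iff.1 (by rw [map_mul, red_out, red_out, red_out]))
  map_nonunit' x hx := by
    have e : x = 0 := by simpa using hx
    rw [← h0]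
    exact hf _ _ (red_eq_iff.1 (by rw [red_out, e, map_zero]))

theorem mc_red {A : Type*} [CommRing A] (p : R K) [Fact (Prime p)] (f : R K → A)
    (hf : ∀ x y, p ∣ x - y → f x = f y) (hm : ∀ a b, f (a * b) = f a * f b) (h0 : f 0 = 0)
    (h1 : f 1 = 1) (a : R K) : mc p f hf hm h0 h1 (red p a) = f a := hf _ _ (dvd_out_sub p a)

/-- the additive character of `R / p` -/
noncomputable def psiC (p : R K) : AddChar (Fq p) ℂ where
  toFun x := eq x.out p
  map_zero_eq_one' := eq_of_dvd (red_eq_zero.1 (red_out p 0))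
  map_add_eq_mul' x y := by
    rw [← eq_add]
    exact eq_congr (red_eq_iff.1 (by rw [map_add, red_out, red_out, red_out]))

theorem psiC_red (p a : R K) : psiC p (red p a) = eq a p := eq_congr (dvd_out_sub p a)

variable (p : R K) [hp : Fact (Prime p)]

theorem psiC_primitive : (psiC p).IsPrimitive := by
  refine AddChar.IsPrimitive.of_ne_one fun h => ?_
  have h1 := sum_eq hp.1.ne_zero 1
  have e : ∀ x, eq (1 * x) p = 1 := fun x => by rw [one_mul, ← psiC_red, h, AddChar.one_apply]
  simp only [e] at h1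
  rw [ind_of_not hp.1.not_dvd_one, zero_mul, Finset.sum_const, card_res hp.1.ne_zero,
    nsmul_eq_mul, mul_one] at h1
  exact (nm_pos hp.1.ne_zero).ne' (by exact_mod_cast h1)

/-- the cubic character -/
noncomputable def chi : MulChar (Fq p) ℂ :=
  mc p (fun x => cub x p) (fun _ _ => cub_congr) (fun a b => cub_mul_left a b p)
    (cub_eq_zero_of_dvd hp.1 (dvd_zero p)) (cub_one_left p)

/-- the quadratic character -/
noncomputable def rhoQ : MulChar (Fq p) ℂ :=
  mc p (fun x => quad x p) (fun _ _ => quad_congr) (fun a b => quad_mul_left a b p)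
    (quad_eq_zero hp.1.ne_zero (G2.not_coprime_zero hp.1)) (quad_one_left p)

theorem chi_red (a : R K) : chi p (red p a) = cub a p := mc_red ..
theorem rhoQ_red (a : R K) : rhoQ p (red p a) = quad a p := mc_red ..

theorem one_red {A : Type*} [CommRing A] {a : R K} (h : ¬p ∣ a) :
    (1 : MulChar (Fq p) A) (red p a) = 1 :=
  MulChar.one_apply (isUnit_iff_ne_zero.2 (mt red_eq_zero.1 h))

theorem chi_pow_three : chi p ^ 3 = 1 := by
  refine MulChar.ext fun x => ?_
  obtain ⟨a, ha⟩ := Ideal.Quotient.mk_surjective (x : Fq p)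
  have hd : ¬p ∣ a := fun h => x.ne_zero (ha ▸ red_eq_zero.2 h)
  rw [MulChar.pow_apply_coe, MulChar.one_apply_coe, ← ha, chi_red,
    cub_cube (coprime_of_not_dvd hp.1 hd)]

theorem chi_ne_one : chi p ≠ 1 := fun h => by
  obtain ⟨a, ha, h1⟩ := exists_cub_ne_one hp.1
  exact h1 (by rw [← chi_red, h, one_red p (G2.not_dvd_of_coprime hp.1 ha)])

theorem sq_ne_one_of_cube {G : Type*} [Monoid G] {x : G} (h3 : x ^ 3 = 1) (h1 : x ≠ 1) :
    x * x ≠ 1 := by
  intro h
  apply h1
  rw [pow_succ, pow_two, h, one_mul] at h3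
  exact h3

theorem gaussSum_eq (φ : MulChar (Fq p) ℂ) (f : R K → ℂ) (h : ∀ x, φ (red p x) = f x) :
    gaussSum φ (psiC p) = ∑ x ∈ res p, f x * eq x p := by
  rw [gaussSum, ← sum_res_quot]
  exact Finset.sum_congr rfl fun x _ => by rw [h, psiC_red]

theorem ringChar_ne_two : ringChar (Fq p) ≠ 2 := by
  intro h
  have h2 : ((2 : ℕ) : Fq p) = 0 := by rw [← h]; exact ringChar.Nat.cast_ringChar
  rw [← map_natCast (red p), red_eq_zero] at h2
  exact Prime.not_dvd_unit hp.1 isUnit_two h2

theorem rhoQ_eq [DecidableEq (Fq p)] (a : Fq p) : rhoQ p a = quadraticChar (Fq p) a := by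
  obtain ⟨a, rfl⟩ := Ideal.Quotient.mk_surjective a
  rw [rhoQ_red]
  by_cases ha : p ∣ a
  · rw [red_eq_zero.2 ha, quad_eq_zero hp.1.ne_zero (not_coprime_of_dvd hp.1 ha)]
    simp
  · have h1 := quad_prime_eq_one_iff hp.1 ha
    have h2 : IsSquare (red p a) ↔ ∃ x, p ∣ a - x ^ 2 := by
      refine ⟨fun ⟨y, hy⟩ => ?_, fun ⟨x, hx⟩ => ⟨red p x, ?_⟩⟩
      · obtain ⟨y, rfl⟩ := Ideal.Quotient.mk_surjective y
        exact ⟨y, by rw [← red_eq_iff, hy, map_pow, sq]⟩
      · rw [← red_eq_iff, map_pow, sq] at hx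
        exact hx
    by_cases h3 : IsSquare (red p a)
    · rw [(quadraticChar_one_iff_isSquare (mt red_eq_zero.1 ha)).2 h3, h1.2 (h2.1 h3)]
      simp
    · rw [quadraticChar_neg_one_iff_not_isSquare.2 h3,
        (quad_cases (coprime_of_not_dvd hp.1 ha)).resolve_left fun h => h3 (h2.2 (h1.1 h))]
      simp

end Jac

open Jac

/-- the cubic Jacobi sum -/
noncomputable def Jc (p : R K) : ℂ := ∑ x ∈ res p, cub x p * cub (1 - x) p

theorem Jc_eq (p : R K) [Fact (Prime p)] : Jc p = jacobiSum (chi p) (chi p) := by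
  rw [jacobiSum, ← sum_res_quot]
  refine Finset.sum_congr rfl fun x _ => ?_
  rw [← chi_red, ← chi_red, map_sub, map_one]

theorem Jc_associated {p q : R K} (h : Associated p q) : Jc p = Jc q := by
  by_cases hp : p = 0
  · subst hp
    rw [(associated_zero_iff_eq_zero q).1 h.symm]
  rw [Jc, Jc, sum_res_associated hp h fun x y e => by
    rw [cub_congr e, cub_congr (a := 1 - x) (b := 1 - y)
      (by rw [sub_sub_sub_cancel_left]; exact dvd_sub_comm.1 e)]]
  simp only [cub_associated h]

theorem g3_cube {p : R K} (hp : Prime p) : g3 1 p ^ 3 = nm p * Jc p := by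
  have := Fact.mk hp
  have : Fact (Nat.Prime 3) := ⟨Nat.prime_three⟩
  have ho := orderOf_eq_prime (chi_pow_three p) (chi_ne_one p)
  have h := gaussSum_pow_eq_prod_jacobiSum (χ := chi p) (by omega) (psiC_primitive p)
  have e : chi p (-1) = 1 := by
    rw [← map_one (red p), ← map_neg, chi_red, cub_neg_left, cub_one_left]
  rw [ho, e, gaussSum_eq p _ _ (chi_red p)] at h
  simp only [Nat.add_one_sub_one, Nat.Ico_succ_singleton, Finset.prod_singleton, pow_one, one_mul,
    card_Fq, ← Jc_eq] at h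
  simpa only [g3, one_mul] using h

theorem norm_Jc {p : R K} (hp : Prime p) : ‖Jc p‖ ^ 2 = nm p := by
  have h1 := congrArg (fun z => ‖z‖ ^ 2) (g3_cube hp)
  have h2 := nm_pos_real hp.ne_zero
  simp only [norm_pow, norm_mul, Complex.norm_natCast] at h1
  rw [← pow_mul, mul_comm 3 2, pow_mul, norm_g3_prime hp hp.not_dvd_one, mul_pow] at h1
  exact mul_left_cancel₀ (pow_ne_zero 2 h2.ne') (by rw [← h1]; ring)

/-- the completely multiplicative angle -/
noncomputable def angJ (x : R K) : ℂ := SymAux.sy (fun p => -Jc p / (√(nm p) : ℝ)) x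

theorem angJ_assoc (p q : R K) (h : Associated p q) :
    -Jc p / (√(nm p) : ℝ) = -Jc q / (√(nm q) : ℝ) := by
  rw [Jc_associated h, nm_of_associated h]

theorem angJ_prime {p : R K} (hp : Prime p) : angJ p = -Jc p / (√(nm p) : ℝ) :=
  SymAux.sy_prime angJ_assoc hp
theorem angJ_unit {u : R K} (hu : IsUnit u) : angJ u = 1 := SymAux.sy_unit angJ_assoc hu
@[simp] theorem angJ_one : angJ (1 : R K) = 1 := angJ_unit isUnit_one
theorem angJ_mul {m n : R K} (hm : m ≠ 0) (hn : n ≠ 0) : angJ (m * n) = angJ m * angJ n :=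
  SymAux.sy_mul angJ_assoc hm hn
theorem angJ_associated {m n : R K} (h : Associated m n) : angJ m = angJ n :=
  SymAux.sy_associated angJ_assoc h
theorem angJ_pow {n : R K} (hn : n ≠ 0) (k : ℕ) : angJ (n ^ k) = angJ n ^ k := by
  induction k with
  | zero => simp
  | succ k ih => rw [pow_succ, angJ_mul (pow_ne_zero _ hn) hn, ih, pow_succ]
theorem norm_angJ (n : R K) : ‖angJ n‖ = 1 := by
  induction n using UniqueFactorizationMonoid.induction_on_prime with
  | h₁ => rw [angJ, SymAux.sy_zero, norm_one]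
  | h₂ u hu => rw [angJ_unit hu, norm_one]
  | h₃ n p hn hp ih =>
    rw [angJ_mul hp.ne_zero hn, norm_mul, ih, mul_one, angJ_prime hp,
      G2.norm_div_sqrt hp.ne_zero (by rw [norm_neg, norm_Jc hp])]

/-- duplication formula in a finite field -/
theorem G2.gauss_dup {F : Type*} [Field F] [Fintype F] [DecidableEq F] (hF : ringChar F ≠ 2)
    (χ ρ : MulChar F ℂ) (hρ : ∀ a, ρ a = quadraticChar F a) (h1 : χ * χ ≠ 1) (h2 : χ * ρ ≠ 1)
    (ψ : AddChar F ℂ) (h0 : gaussSum χ ψ ≠ 0) :
    gaussSum χ ψ * gaussSum (χ * ρ) ψ * χ 4 = gaussSum (χ * χ) ψ * gaussSum ρ ψ := by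
  have hχ : χ ≠ 1 := fun h => h1 (by rw [h, one_mul])
  have h2' : (2 : F) ≠ 0 := Ring.two_ne_zero hF
  have hJ : χ 4 * jacobiSum χ χ = jacobiSum χ ρ := by
    have e1 : χ 4 * jacobiSum χ χ = ∑ y : F, χ (1 - y ^ 2) := by
      rw [jacobiSum, Finset.mul_sum]
      refine Fintype.sum_equiv ((Equiv.mulLeft₀ 2 h2').trans (Equiv.subLeft 1)) _ _ fun x => ?_
      rw [← map_mul, ← map_mul]
      congr 1
      simp only [Equiv.trans_apply, Equiv.mulLeft₀_apply, Equiv.subLeft_apply]
      ring
    have e2 : ∑ y : F, χ (1 - y ^ 2) = ∑ t : F, χ (1 - t) * (ρ t + 1) := by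
      rw [← Finset.sum_fiberwise (s := Finset.univ) (g := fun y : F => y ^ 2)]
      refine Finset.sum_congr rfl fun t _ => ?_
      rw [Finset.sum_congr rfl (g := fun _ => χ (1 - t)) fun y hy => by
        rw [(Finset.mem_filter.1 hy).2], Finset.sum_const, nsmul_eq_mul, mul_comm, hρ]
      congr 1
      have := quadraticChar_card_sqrts hF t
      rw [Set.toFinset_ofPred] at this
      exact_mod_cast congrArg (Int.cast : ℤ → ℂ) this
    have e3 : ∑ t : F, χ (1 - t) = 0 := by
      rw [← MulChar.sum_eq_zero_of_ne_one hχ]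
      exact Fintype.sum_equiv (Equiv.subLeft 1) _ _ fun _ => rfl
    rw [e1, e2, jacobiSum_comm, jacobiSum]
    simp only [mul_add, mul_one, Finset.sum_add_distrib, e3, add_zero]
    simp only [mul_comm]
  have e1 := jacobiSum_mul_nontrivial h1 ψ
  have e2 := jacobiSum_mul_nontrivial h2 ψ
  refine mul_left_cancel₀ h0 ?_
  linear_combination (-gaussSum (χ * ρ) ψ * χ 4) * e1 + gaussSum (χ * χ) ψ * e2 +
    gaussSum (χ * χ) ψ * gaussSum (χ * ρ) ψ * hJ

theorem G2.gs_dup {p : R K} (hp : Prime p) :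
    conj (g3 1 p) * (∑ x ∈ res p, sex x p * eq x p) * conj (cub 4 p) =
      g3 1 p * ∑ x ∈ res p, quad x p * eq x p := by
  classical
  have := Fact.mk hp
  have hχ : ∀ x, (chi p * chi p) (red p x) = conj (cub x p) := fun x => by
    rw [MulChar.mul_apply, chi_red, conj_cub, sq]
  have hχχ : chi p * chi p * (chi p * chi p) = chi p := by
    rw [← pow_two, ← pow_two, ← pow_mul, pow_succ, chi_pow_three, one_mul]
  have hχρ : ∀ x, (chi p * chi p * rhoQ p) (red p x) = sex x p := fun x => by
    rw [MulChar.mul_apply, hχ, rhoQ_red, sex, mul_comm]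
  have g1 : gaussSum (chi p * chi p) (psiC p) = conj (g3 1 p) := by
    have := g3_twist hp.ne_zero (t := -1) (isCoprime_one_left.neg_left) 1
    rw [cub_neg_left, cub_one_left, map_one, one_mul, one_mul] at this
    rw [gaussSum_eq p _ _ hχ, ← this, g3, map_sum]
    simp [conj_eq]
  have := G2.gauss_dup (ringChar_ne_two p) (chi p * chi p) (rhoQ p) (rhoQ_eq p)
    (hχχ.symm ▸ chi_ne_one p)
    (fun h => by
      obtain ⟨a, ha, h1⟩ := G2.exists_sex_ne_one hp
      exact h1 (by rw [← hχρ, h, one_red p ha])) (psiC p)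
    (by
      rw [g1, map_ne_zero]
      intro h
      have h1 := norm_g3_prime hp (ν := 1) hp.not_dvd_one
      have h2 := one_le_nm hp.ne_zero
      rw [h] at h1
      norm_num at h1
      linarith [h1.symm ▸ h2])
  rw [g1, hχχ, gaussSum_eq p _ _ hχρ, gaussSum_eq p _ _ (chi_red p), gaussSum_eq p _ _ (rhoQ_red p),
    ← map_ofNat (red p) 4, hχ] at this
  simpa only [g3, one_mul] using this

/-- the key identity -/
theorem mu_mul_gt6 {n : R K} (hn : Squarefree n) :
    mu n * gt6 n = cub 4 n * gt2 n * angJ n * conj (gt3 n) := by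
  refine sqf_induction (P := fun n => mu n * gt6 n = cub 4 n * gt2 n * angJ n * conj (gt3 n))
    (fun u hu => ?_) ?_ hn
  · simp [mu_associated (associated_one_iff_isUnit.2 hu), mu_one, gt6_unit hu, gt2_unit hu,
      gt3_unit hu, angJ_unit hu, cub_unit_right hu]
  · intro p n hp hn hd ih
    have hc := (G2.coprime_of_not_dvd hp hd).symm
    have hn0 := hn.ne_zero
    have key : -gt6 p = cub 4 p * gt2 p * angJ p * conj (gt3 p) := by
      have h1 := G2.gs_dup hp
      have h2 := g3_cube hp
      have h3 : g3 1 p * conj (g3 1 p) = nm p := by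
        rw [Complex.mul_conj', ← Complex.ofReal_pow, norm_g3_prime hp hp.not_dvd_one]
        simp
      have h4 : cub 4 p * conj (cub 4 p) = 1 := cub_mul_conj (coprime_of_isUnit (by
        rw [show (4 : R K) = 2 * 2 by norm_num]
        exact isUnit_two.mul isUnit_two) p)
      have h5 := G2.sqrt_nm_ne hp.ne_zero
      have h6 := G2.sqrt_nm_sq p
      have h7 : (nm p : ℂ) ≠ 0 := by rw [← h6]; exact pow_ne_zero _ h5
      simp only [gt6, gt2, gt3, angJ_prime hp, map_div₀, Complex.conj_ofReal]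
      generalize (∑ x ∈ res p, sex x p * eq x p) = A at *
      generalize (∑ x ∈ res p, quad x p * eq x p) = B at *
      have h8 : -A * nm p = cub 4 p * B * -Jc p * conj (g3 1 p) := by
        refine mul_left_cancel₀ h7 ?_
        linear_combination -(cub 4 p * g3 1 p ^ 2 * conj (g3 1 p)) * h1 -
          cub 4 p * conj (g3 1 p) * B * h2 + g3 1 p ^ 2 * conj (g3 1 p) ^ 2 * A * h4 +
          A * (g3 1 p * conj (g3 1 p) + nm p) * h3
      field_simp
      rw [h6]
      linear_combination h8
    rw [mu_mul hc, mu_prime hp, gt6_mul hp.ne_zero hn0 hc, gt2_mul hp.ne_zero hn0 hc,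
      angJ_mul hp.ne_zero hn0, G2.gt3_crt hp.ne_zero hn0 hc, cub_mul_right hp.ne_zero hn0, sex, sex]
    simp only [map_mul]
    linear_combination (quad p n * conj (cub p n) * quad n p * conj (cub n p)) *
      (mu n * gt6 n * key + cub 4 p * gt2 p * angJ p * conj (gt3 p) * ih)

end Vale.Agent.P319
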