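import Vale.Agent.P319.N.LatUnf

/-! # P319 LAT: the sum over squares of ideals. -/

namespace Vale.Agent.P319

open scoped ComplexConjugate Real ContDiff NumberField nonZeroDivisors Topology
open MeasureTheory Filter Set

variable {K : Type} [Field K] [NumberField K] [Stp K]

omit [Stp K] in
theorem one_le_absNorm0 (l : (Ideal (𝓞 K))⁰) : (1 : ℝ) ≤ Ideal.absNorm l.1 :=
  Nat.one_le_cast.2 (Ideal.absNorm_pos_of_nonZeroDivisors l)

theorem summable_KK_ideal {y : ℝ} (hy : 0 < y) {j : ℕ} (hj : 0 < j) :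
    Summable fun l : (Ideal (𝓞 K))⁰ => KK K (y * (Ideal.absNorm l.1 : ℝ) ^ j) := by
  obtain ⟨C, -, hC⟩ := KK_le_rpow (K := K) two_pos
  refine Summable.of_nonneg_of_le (fun _ => KK_nonneg _) (fun l => ?_)
    ((summable_ideal0_rpow one_lt_two).mul_left (C * y ^ (-2 : ℝ)))
  have h1 := one_le_absNorm0 l
  have h2 : 0 < y * Ideal.absNorm l.1 := by positivity
  refine (KK_antitone h2 (mul_pos hy (pow_pos (one_pos.trans_le h1) j))
    (mul_le_mul_of_nonneg_left (le_self_pow₀ h1 hj.ne') hy.le)).trans ((hC _ h2).trans_eq ?_)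
  rw [Real.mul_rpow hy.le (by positivity), mul_assoc]

theorem exists_le_norm_emb {I : FI K} (hI : I ≠ 0) :
    ∃ δ : ℝ, 0 < δ ∧ ∀ x ∈ I, x ≠ 0 → δ ≤ ‖emb x‖ := by
  refine ⟨min 1 (FractionalIdeal.absNorm I : ℚ), lt_min one_pos (absNorm_FI_pos hI), fun x hx h0 => ?_⟩
  rcases le_total 1 ‖emb x‖ with h | h
  · exact (min_le_left _ _).trans h
  refine (min_le_right _ _).trans ((absNorm_le_nK hx h0).trans ?_)
  rw [← prod_norm_ev]
  refine (Finset.prod_le_prod (g := fun _ => ‖emb x‖ ^ 2) (fun _ _ => by positivity)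
    fun v _ => ?_).trans ?_
  · exact pow_le_pow_left₀ (norm_nonneg _) (norm_le_pi_norm (emb x) v) 2
  · rw [Finset.prod_const, ← pow_mul]
    exact pow_le_of_le_one (norm_nonneg _) h (mul_ne_zero two_ne_zero rr_pos.ne')

theorem FT_quartic {l : Pl K → ℝ} (hl : ∀ v, 0 < l v) (ξ : Pl K → ℂ) :
    FT (fun x => (Real.exp (-∑ v, l v ^ 4 * (‖x v‖ ^ 2) ^ 2) : ℂ)) ξ =
      ∏ v, ((l v ^ 2)⁻¹ : ℝ) * FT1 (fun z => (Real.exp (-‖z‖ ^ 4) : ℂ)) (ξ v / l v) := by
  simp only [← FT1_scale _ (hl _), ← FT_prod, ← Complex.ofReal_prod, ← Real.exp_sum, norm_mul,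
    Complex.norm_real, Real.norm_of_nonneg (hl _).le, mul_pow, ← pow_mul, Finset.sum_neg_distrib]

theorem FT_quartic_le (T : ℝ) {δ : ℝ} (hδ : 0 < δ) : ∃ C : ℝ, 0 ≤ C ∧ ∀ (l : Pl K → ℝ) (ξ : Pl K → ℂ),
    (∀ v, 0 < l v ∧ l v ≤ T) → (∀ v w, l v ≤ T * l w) → δ ≤ ‖ξ‖ →
      ‖FT (fun x => (Real.exp (-∑ v, l v ^ 4 * (‖x v‖ ^ 2) ^ 2) : ℂ)) ξ‖ ≤
        C * (1 / (1 + ‖ξ‖) ^ (2 * rr K + 1)) := by
  obtain ⟨C, hC, h⟩ := FT1_quartic (2 * rr K + 1)
  refine ⟨C ^ rr K * (|T| * (1 + 1 / δ)) ^ (2 * rr K + 1), by positivity, fun l ξ h1 h2 h3 => ?_⟩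
  obtain ⟨w, -, hw⟩ := Finset.exists_mem_eq_sup' Finset.univ_nonempty fun v => ‖ξ v‖
  have hw' : ‖ξ‖ ≤ ‖ξ w‖ := (pi_norm_le_iff_of_nonneg (norm_nonneg _)).2 fun v =>
    hw ▸ Finset.le_sup' (fun v => ‖ξ v‖) (Finset.mem_univ v)
  have hρ : 0 < ‖ξ‖ := hδ.trans_le h3
  have hl := (h1 w).1
  have hT : 0 < T := hl.trans_le (h1 w).2
  rw [FT_quartic fun v => (h1 v).1, norm_prod, abs_of_pos hT]
  calc _ ≤ ∏ v, (T / l w) ^ 2 * (C * if v = w then (l w / ‖ξ‖) ^ (2 * rr K + 1) else 1) := by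
        refine Finset.prod_le_prod (fun _ _ => norm_nonneg _) fun v _ => ?_
        have hv := (h1 v).1
        rw [norm_mul, Complex.norm_real, Real.norm_of_nonneg (by positivity), ← inv_pow]
        refine mul_le_mul (pow_le_pow_left₀ (by positivity) ?_ 2) ((h _).trans ?_) (norm_nonneg _)
          (by positivity)
        · rw [le_div_iff₀ hl, inv_mul_le_iff₀' hv]
          exact h2 w v
        · rw [div_eq_mul_inv, ← inv_pow]
          split_ifs with e
          · subst e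
            rw [← inv_div ‖ξ‖, norm_div, Complex.norm_real, Real.norm_of_nonneg hl.le]
            gcongr
            exact (div_le_div_of_nonneg_right hw' hl.le).trans (le_add_of_nonneg_left zero_le_one)
          · gcongr
            exact pow_le_one₀ (by positivity) (inv_le_one_of_one_le₀ (le_add_of_nonneg_right (norm_nonneg _)))
    _ = C ^ rr K * (T ^ (2 * rr K) * l w / ‖ξ‖ ^ (2 * rr K + 1)) := by
        simp only [Finset.prod_mul_distrib, Finset.prod_const, Finset.card_univ, Finset.prod_ite_eq',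
          Finset.mem_univ, if_true, ← pow_mul, div_pow]
        field_simp
        ring
    _ ≤ C ^ rr K * (T / ‖ξ‖) ^ (2 * rr K + 1) := by
        rw [div_pow, pow_succ T]
        gcongr
        exact (h1 w).2
    _ ≤ _ := by
        rw [mul_assoc, mul_one_div, ← div_pow]
        gcongr _ * ?_ ^ _
        rw [mul_div_assoc, div_eq_mul_one_div T]
        gcongr _ * ?_
        rw [div_le_div_iff₀ hρ (by positivity), one_mul, add_mul, one_mul, add_comm, one_div,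
          ← div_eq_inv_mul]
        gcongr
        exact (one_le_div hδ).2 h3

theorem quartic_sum : ∃ κ : ℝ, 0 < κ ∧ ∀ (I : FI K) (T : ℝ), I ≠ 0 → ∃ C : ℝ, ∀ l : Pl K → ℝ,
    (∀ v, 0 < l v ∧ l v ≤ T) → (∀ v w, l v ≤ T * l w) →
      |∑' x : I, Real.exp (-∑ v, l v ^ 4 * (‖ev v (x : K)‖ ^ 2) ^ 2) -
        κ / (cvol I * ∏ v, l v ^ 2)| ≤ C := by
  classical
  obtain ⟨κ, hκ, e⟩ := FT1_quartic_zero
  refine ⟨κ ^ rr K, by positivity, fun I T hI => ?_⟩
  have hd : dl I ≠ 0 := FractionalIdeal.dual_ne_zero ℤ ℚ hI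
  obtain ⟨δ, hδ, h1⟩ := exists_le_norm_emb hd
  obtain ⟨C, hC, h2⟩ := FT_quartic_le (K := K) T hδ
  obtain ⟨C', h3⟩ := tsum_lat_le hd
  obtain ⟨h3, -⟩ := h3 0
  simp only [add_zero] at h3
  refine ⟨(cvol I)⁻¹ * (C * ∑' x : dl I, 1 / (1 + ‖emb (x : K)‖) ^ (2 * rr K + 1)), fun l hl hl' => ?_⟩
  obtain ⟨A, hA⟩ := exp_decay (a := fun v => l v ^ 4) (fun v => pow_pos (hl v).1 4) two_pos (2 * rr K + 1)
  set f : (Pl K → ℂ) → ℂ := fun x => (Real.exp (-∑ v, l v ^ 4 * (‖x v‖ ^ 2) ^ 2) : ℂ) with hf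
  have h4 : ∀ ξ : dl I, ξ ≠ ⟨0, FractionalIdeal.zero_mem _⟩ →
      ‖FT f (emb (ξ : K))‖ ≤ C * (1 / (1 + ‖emb (ξ : K)‖) ^ (2 * rr K + 1)) := fun ξ h =>
    h2 l _ hl hl' (h1 _ ξ.2 fun h' => h (Subtype.ext h'))
  have h5 : Summable fun ξ : dl I => FT f (emb (ξ : K)) :=
    Summable.of_norm_bounded_eventually (h3.mul_left C) ((eventually_cofinite_ne _).mono h4)
  have h6 := pois I f A hI (by rw [hf]; fun_prop) (fun x => by
    rw [hf, Complex.norm_real, Real.norm_of_nonneg (Real.exp_pos _).le]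
    exact hA x) h5
  have h7 : FT f (emb (0 : K)) = (κ ^ rr K / ∏ v, l v ^ 2 : ℝ) := by
    rw [hf, FT_quartic fun v => (hl v).1]
    simp only [emb_zero, Pi.zero_apply, zero_div, e, ← Complex.ofReal_mul, ← Complex.ofReal_prod,
      Finset.prod_mul_distrib, Finset.prod_const, Finset.card_univ, Finset.prod_inv_distrib]
    rw [div_eq_inv_mul]
  rw [h5.tsum_eq_add_tsum_ite ⟨0, FractionalIdeal.zero_mem _⟩, h7] at h6
  have h8 := tsum_of_norm_bounded (h3.hasSum.mul_left C) (f := fun ξ : dl I =>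
    if ξ = ⟨0, FractionalIdeal.zero_mem _⟩ then 0 else FT f (emb (ξ : K))) fun ξ => by
      split_ifs with h
      · rw [norm_zero]
        positivity
      · exact h4 ξ h
  have hv := cvol_pos hI
  rw [← Real.norm_eq_abs, ← Complex.norm_real, Complex.ofReal_sub, Complex.ofReal_tsum]
  change ‖∑' x : I, f (emb (x : K)) - _‖ ≤ _
  rw [h6, mul_add, ← Complex.ofReal_inv, ← Complex.ofReal_mul, mul_comm (cvol I), ← div_div,
    div_eq_inv_mul _ (cvol I), cvol, add_sub_cancel_left, norm_mul, Complex.norm_real, ← cvol,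
    Real.norm_of_nonneg (inv_nonneg.2 hv.le)]
  exact mul_le_mul_of_nonneg_left h8 (inv_nonneg.2 hv.le)

theorem class_quartic : ∃ c : ℝ, 0 < c ∧ ∀ a : (Ideal (𝓞 K))⁰, ∃ C : ℝ, ∀ Z : ℝ, 1 ≤ Z →
    ‖∑' x : KQ K, ind (x.out ∈ (a.1 : FI K)⁻¹ ∧ x.out ≠ 0) *
      KK K ((nK x.out * Ideal.absNorm a.1) ^ 2 / Z ^ 2) - (c * Z : ℝ)‖ ≤ C := by
  obtain ⟨κ, hκ, h⟩ := quartic_sum (K := K)
  obtain ⟨D, hD⟩ := exists_UF (K := K) le_rfl (by simp) (Nat.cast_pos.2 two_pos : (0 : ℝ) < (2 : ℕ))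
  obtain ⟨T, hT0, hT⟩ := hD.exists_bound
  have hV := hD.vol_pos le_rfl
  refine ⟨κ / covol K * (volume D).toReal, mul_pos (div_pos hκ covol_pos) hV, fun a => ?_⟩
  have hI : (a.1 : FI K)⁻¹ ≠ 0 :=
    inv_ne_zero (FractionalIdeal.coeIdeal_ne_zero.2 (nonZeroDivisors.ne_zero a.2))
  have hN := one_le_absNorm0 a
  set N : ℝ := ((Ideal.absNorm a.1 : ℕ) : ℝ) with hN'
  obtain ⟨C, hC⟩ := h _ (Real.exp (Real.log N + rr K * T)) hI
  refine ⟨C * (volume D).toReal + (volume D).toReal, fun Z hZ => ?_⟩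
  have hr : (1 : ℝ) ≤ rr K := Nat.one_le_cast.2 rr_pos
  set s : ℝ := Real.log (N / Z) / (2 * rr K) with hs
  have hs1 : s ≤ Real.log N := by
    rw [hs, div_le_iff₀ (by positivity), Real.log_div (by positivity) (by positivity)]
    nlinarith [Real.log_nonneg hN, Real.log_nonneg hZ]
  have hs2 : Real.exp (2 * rr K * s) = N / Z := by
    rw [hs, mul_div_cancel₀ _ (by positivity), Real.exp_log (by positivity)]
  obtain ⟨h1, h2⟩ := theta_unfold hI (f := fun _ => 1) (B := 1) (fun _ _ => norm_one.le)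
    (fun _ _ _ _ => rfl) (Real.exp_pos (4 * s)) two_pos hD
  have h3 : ∀ y : ℝ, Real.exp (4 * s) ^ rr K * y ^ 2 = (y * N) ^ 2 / Z ^ 2 := fun y => by
    rw [← div_pow, mul_div_assoc, ← hs2, mul_pow, ← Real.exp_nat_mul, ← Real.exp_nat_mul, mul_comm]
    congr 2
    push_cast
    ring
  simp only [mul_one, one_mul, h3] at h1 h2
  have h4 := norm_setIntegral_le_of_norm_le_const (C := C) hD.vol_ne_top.lt_top (f := fun t : HH K =>
    ∑' x : ↥(a.1 : FI K)⁻¹, (Real.exp (-∑ v, Real.exp (4 * s) * Real.exp (ex t v) *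
      (‖ev v (x : K)‖ ^ 2) ^ 2) : ℂ) - (κ / covol K * Z : ℝ)) fun t ht => by
    have h5 : ∀ v, |ex t v| ≤ rr K * T := fun v =>
      (abs_ex_le t v).trans (mul_le_mul_of_nonneg_left (hT t ht) (Nat.cast_nonneg _))
    have h6 := hC (fun v => Real.exp (s + ex t v / 4)) (fun v => ⟨Real.exp_pos _, Real.exp_le_exp.2 (by
      linarith [abs_le.1 (h5 v), abs_nonneg (ex t v), h5 v])⟩) fun v w => by
        rw [← Real.exp_add, Real.exp_le_exp]
        linarith [abs_le.1 (h5 v), abs_le.1 (h5 w), abs_nonneg (ex t v), h5 v, Real.log_nonneg hN]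
    have h7 : ∀ v, Real.exp (s + ex t v / 4) ^ 4 = Real.exp (4 * s) * Real.exp (ex t v) := fun v => by
      rw [← Real.exp_nat_mul, ← Real.exp_add]
      congr 1
      push_cast
      ring
    have h8 : ∏ v, Real.exp (s + ex t v / 4) ^ 2 = N / Z := by
      rw [Finset.prod_pow, ← Real.exp_sum, Finset.sum_add_distrib, Finset.sum_const, ← Finset.sum_div,
        sum_ex, ← hs2, ← Real.exp_nat_mul, Finset.card_univ, nsmul_eq_mul]
      congr 1
      push_cast
      ring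
    have h9 : κ / (cvol (a.1 : FI K)⁻¹ * (N / Z)) = κ / covol K * Z := by
      have := covol_pos (K := K)
      rw [cvol, map_inv₀, FractionalIdeal.coeIdeal_absNorm, Rat.cast_inv, Rat.cast_natCast, ← hN']
      field_simp
    simp only [h7, h8, h9] at h6
    rw [← Complex.ofReal_tsum, ← Complex.ofReal_sub, Complex.norm_real]
    exact h6
  rw [integral_sub h1 (integrableOn_const hD.vol_ne_top), h2, setIntegral_const, Measure.real_def,
    Complex.real_smul, ← Complex.ofReal_mul, add_sub_right_comm, mul_comm _ (_ * Z), mul_right_comm] at h4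
  refine (norm_le_add_norm_add _ ((volume D).toReal : ℂ)).trans (add_le_add h4 ?_)
  rw [Complex.norm_real, Real.norm_of_nonneg hV.le]

theorem LS0 : ∃ c1 C : ℝ, 0 < c1 ∧ 0 < C ∧ ∀ Z : ℝ, 0 < Z →
    |∑' l : (Ideal (𝓞 K))⁰, KK K ((Ideal.absNorm l.1 : ℝ) ^ 2 / Z ^ 2) - c1 * Z| ≤ C * √Z := by
  obtain ⟨c, hc, h⟩ := class_quartic (K := K)
  choose a ha using ClassGroup.mk0_surjective (R := 𝓞 K)
  choose C hC using h
  obtain ⟨A, hA, h1⟩ := KK_le_rpow (K := K) one_pos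
  have hi : (0 : ℝ) < idx K := Nat.cast_pos.2 idx_pos
  have hh : (0 : ℝ) < Fintype.card (ClassGroup (𝓞 K)) := Nat.cast_pos.2 Fintype.card_pos
  set c1 : ℝ := Fintype.card (ClassGroup (𝓞 K)) * c / idx K with hc1
  set S : ℝ := ∑' l : (Ideal (𝓞 K))⁰, (Ideal.absNorm l.1 : ℝ) ^ (-2 : ℝ) with hS
  have hS0 : 0 ≤ S := tsum_nonneg fun _ => by positivity
  refine ⟨c1, max ((∑ k, C (a k)) / idx K) (A * S + c1), by positivity, by positivity, fun Z hZ => ?_⟩
  have hs : Summable fun l : (Ideal (𝓞 K))⁰ => KK K ((Ideal.absNorm l.1 : ℝ) ^ 2 / Z ^ 2) := by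
    simpa only [div_eq_inv_mul] using summable_KK_ideal (K := K) (inv_pos.2 (pow_pos hZ 2)) two_pos
  rcases le_total 1 Z with hZ1 | hZ1
  · have h2 := (sum_classes a ha (G := fun b =>
      (KK K (((FractionalIdeal.absNorm b : ℚ) : ℝ) ^ 2 / Z ^ 2) : ℂ)) (by
        simpa only [FractionalIdeal.coeIdeal_absNorm, Rat.cast_natCast] using
          Complex.summable_ofReal.2 hs)).2
    simp only [map_mul, FractionalIdeal.coeIdeal_absNorm, Rat.cast_natCast, Rat.cast_mul,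
      ← nK_eq_absNorm, ← Complex.ofReal_tsum] at h2
    have h3 := norm_sum_le_of_le Finset.univ fun k _ => hC (a k) Z hZ1
    rw [Finset.sum_sub_distrib, h2, Finset.sum_const, Finset.card_univ, nsmul_eq_mul] at h3
    rw [← Complex.ofReal_natCast (idx K), ← Complex.ofReal_natCast (Fintype.card _), ← Complex.ofReal_mul,
      ← Complex.ofReal_mul, ← Complex.ofReal_sub, Complex.norm_real] at h3
    refine le_trans ?_ ((le_max_left _ _).trans
      (le_mul_of_one_le_right (by positivity) (Real.one_le_sqrt.2 hZ1)))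
    rw [le_div_iff₀' hi, ← abs_of_pos hi, ← abs_mul, mul_sub, hc1, ← mul_assoc,
      mul_div_cancel₀ _ hi.ne', mul_assoc]
    exact h3
  · have h2 : Z ≤ √Z := Real.le_sqrt_of_sq_le (by nlinarith)
    have h3 : ∑' l : (Ideal (𝓞 K))⁰, KK K ((Ideal.absNorm l.1 : ℝ) ^ 2 / Z ^ 2) ≤ A * S * Z := by
      rw [mul_right_comm, hS, ← tsum_mul_left]
      refine hs.tsum_le_tsum (fun l => ?_) ((summable_ideal0_rpow one_lt_two).mul_left _)
      have h4 := one_le_absNorm0 l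
      refine (h1 _ (by positivity)).trans ?_
      rw [Real.rpow_neg_one, inv_div, Real.rpow_neg (by positivity), Real.rpow_two, mul_assoc,
        div_eq_mul_inv]
      gcongr
      nlinarith
    refine (abs_sub _ _).trans ?_
    rw [abs_of_nonneg (tsum_nonneg fun _ => KK_nonneg _), abs_of_pos (by positivity)]
    refine (add_le_add_left h3 _).trans ?_
    rw [← add_mul]
    exact mul_le_mul (le_max_right _ _) h2 hZ.le (by positivity)

end Vale.Agent.P319
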