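import Vale.Agent.P319.N.LatKK
import Vale.Agent.P026.PSSep

/-! # P319 LAT: separation of variables for the Hecke kernel.
PLAN.  As in `P026.sep` take the bump `χ`, `ψ u = χ u exp (-u/2)`, `G u = ψ u * KK (c y exp (-u))`.  By `KK_asym` and Fubini
`𝓕 G ξ = ∫ t, wK t * 𝓕 (sepF c ψ 0 (y exp (-∑ t))) ξ`.  `sepF c ψ j y = y^j sepF c ψ 0 y`, so `sepF_bound` gives
`(1 + |ξ|)^n ‖𝓕 (sepF c ψ 0 y) ξ‖ ≤ C y^(-σ)` for every real `σ ≥ 0` (`y ≤ 1`: `j = 0`; `y ≥ 1`: `j = ⌈σ⌉`); with `integrable_wK`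
`(1 + |ξ|)^n ‖𝓕 G ξ‖ ≤ C y^(-σ)` for `σ > 0`; use `σ = η` and `σ = η + 5`.  `G` is continuous with compact support
(`continuousOn_KK`); finish by Fourier inversion exactly as in `P026.sep`. -/

namespace Vale.Agent.P319

open scoped ComplexConjugate Real ContDiff NumberField nonZeroDivisors Topology
open MeasureTheory Filter Set

variable {K : Type} [Field K] [NumberField K] [Stp K]

open Vale.Agent.P026
open scoped FourierTransform

theorem latSep_inv {G : ℝ → ℂ} (hG : Continuous G) (hint : Integrable G) {B : ℝ}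
    (hB : ∀ ξ : ℝ, (1 + |ξ|) ^ 2 * ‖𝓕 G ξ‖ ≤ B) (u : ℝ) :
    G u = ∫ t : ℝ, ((2 * π : ℝ) : ℂ)⁻¹ * 𝓕 G (t / (2 * π)) * Complex.exp (Complex.I * t * u) := by
  have hπ := Real.pi_pos
  have hcont : Continuous (𝓕 G) :=
    VectorFourier.fourierIntegral_continuous Real.continuous_fourierChar (by fun_prop) hint
  have hFi : Integrable (𝓕 G) := by
    have hi := (integrable_one_add_norm (E := ℝ) (μ := volume) (r := 2) (by simp)).const_mul B
    refine hi.mono' hcont.aestronglyMeasurable (Filter.Eventually.of_forall fun ξ => ?_)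
    have hx : 0 < 1 + |ξ| := by positivity
    rw [Real.norm_eq_abs, Real.rpow_neg hx.le, ← div_eq_mul_inv, le_div_iff₀ (by positivity),
      Real.rpow_two, mul_comm]
    exact hB ξ
  have hinv := congrFun (hG.fourierInv_fourier_eq hint hFi) u
  rw [Real.fourierInv_eq'] at hinv
  rw [← hinv]
  have hcv := Measure.integral_comp_div (fun v : ℝ =>
    Complex.exp (((2 * π * inner ℝ v u : ℝ) : ℂ) * Complex.I) • 𝓕 G v) (2 * π)
  rw [abs_of_pos (by positivity : 0 < 2 * π)] at hcv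
  have hne : ((2 * π : ℝ) : ℂ) ≠ 0 := by exact_mod_cast (by positivity : (2 * π : ℝ) ≠ 0)
  have e : ∀ t : ℝ, ((2 * π : ℝ) : ℂ)⁻¹ * 𝓕 G (t / (2 * π)) *
      Complex.exp (Complex.I * t * u) = ((2 * π : ℝ) : ℂ)⁻¹ *
      (Complex.exp (((2 * π * inner ℝ (t / (2 * π)) u : ℝ) : ℂ) * Complex.I) •
        𝓕 G (t / (2 * π))) := by
    intro t
    have : (2 * π * inner ℝ (t / (2 * π)) u : ℝ) = t * u := by
      simp only [RCLike.inner_apply, conj_trivial]
      field_simp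
    rw [this, smul_eq_mul]
    push_cast
    rw [show Complex.I * (t : ℂ) * u = t * u * Complex.I by ring]
    ring
  simp_rw [e]
  rw [integral_const_mul, hcv, Complex.real_smul, ← mul_assoc, inv_mul_cancel₀ hne, one_mul]

theorem latSep_dec {N B t : ℝ} (hN : 0 ≤ N) (A : ℕ) (h : (1 + |t / (2 * π)|) ^ A * N ≤ B) :
    (2 * π)⁻¹ * N ≤ (2 * π) ^ A * B * (1 + |t|) ^ (-(A : ℝ)) := by
  have hπ3 := Real.pi_gt_three
  have ht1 : 0 < 1 + |t| := by positivity
  have b : (1 + |t|) ^ A ≤ (2 * π) ^ A * (1 + |t / (2 * π)|) ^ A := by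
    rw [← mul_pow]
    refine pow_le_pow_left₀ ht1.le ?_ A
    rw [abs_div, abs_of_pos (by positivity : 0 < 2 * π), mul_add, mul_div_cancel₀ _ (by positivity)]
    linarith
  have hi : (2 * π)⁻¹ ≤ 1 := inv_le_one_of_one_le₀ (by linarith)
  rw [Real.rpow_neg ht1.le, Real.rpow_natCast, ← div_eq_mul_inv, le_div_iff₀ (by positivity)]
  calc (2 * π)⁻¹ * N * (1 + |t|) ^ A
      ≤ 1 * N * ((2 * π) ^ A * (1 + |t / (2 * π)|) ^ A) := by gcongr
    _ = (2 * π) ^ A * ((1 + |t / (2 * π)|) ^ A * N) := by ring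
    _ ≤ _ := by gcongr

theorem latSep_comb {f C₁ C₂ y η A : ℝ} (hy : 0 < y) (hA : 0 ≤ A) (h₁ : 0 < C₁)
    (e₁ : f ≤ C₁ * y ^ (-η)) (e₂ : f ≤ C₂ * y ^ (-(η + A))) :
    f ≤ max C₁ C₂ * 2 ^ A * y ^ (-η) * (1 + y) ^ (-A) := by
  have key : ∀ z : ℝ, 0 < z → 1 + y ≤ 2 * z → z ^ (-A) ≤ 2 ^ A * (1 + y) ^ (-A) := fun z hz h => by
    have h1 := Real.rpow_le_rpow_of_nonpos (by positivity) h (neg_nonpos.2 hA)
    rwa [Real.mul_rpow zero_le_two hz.le, Real.rpow_neg zero_le_two,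
      inv_mul_le_iff₀ (by positivity)] at h1
  rw [mul_assoc, mul_assoc, mul_left_comm (2 ^ A)]
  rcases le_total y 1 with h | h
  · have h1 := key 1 one_pos (by linarith)
    rw [Real.one_rpow] at h1
    refine e₁.trans (mul_le_mul (le_max_left _ _) ?_ (by positivity) (by positivity))
    exact le_mul_of_one_le_right (by positivity) h1
  · refine e₂.trans (mul_le_mul (le_max_right _ _) ?_ (by positivity) (by positivity))
    rw [neg_add, Real.rpow_add hy]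
    exact mul_le_mul_of_nonneg_left (key y hy (by linarith)) (by positivity)

theorem latSep_rpow {c σ : ℝ} (hc : 0 < c) (hσ : 0 ≤ σ) (n : ℕ) {ψ : ℝ → ℂ} (h1 : ContDiff ℝ ∞ ψ)
    (h2 : HasCompactSupport ψ) : ∃ C : ℝ, 0 ≤ C ∧ ∀ y : ℝ, 0 < y → ∀ ξ : ℝ,
      (1 + |ξ|) ^ n * ‖𝓕 (sepF c ψ 0 y) ξ‖ ≤ C * y ^ (-σ) := by
  obtain ⟨C₀, hC₀, H₀⟩ := sepF_bound hc n ψ h1 h2 0
  obtain ⟨C₁, hC₁, H₁⟩ := sepF_bound hc n ψ h1 h2 ⌈σ⌉₊
  refine ⟨C₀ + C₁, by positivity, fun y hy ξ => ?_⟩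
  have h5 : 1 ≤ (1 + y) ^ 5 := one_le_pow₀ (by linarith)
  have hp : 0 < y ^ (-σ) := by positivity
  rcases le_total y 1 with h | h
  · have a := (le_mul_of_one_le_left (by positivity) h5).trans (H₀ y hy.le ξ)
    have b : 1 ≤ y ^ (-σ) := Real.one_le_rpow_of_pos_of_le_one_of_nonpos hy h (neg_nonpos.2 hσ)
    nlinarith
  · have a := (le_mul_of_one_le_left (by positivity) h5).trans (H₁ y hy.le ξ)
    have e : sepF c ψ ⌈σ⌉₊ y = ((y ^ ⌈σ⌉₊ : ℝ) : ℂ) • sepF c ψ 0 y := by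
      funext u
      simp only [sepF, Pi.smul_apply, smul_eq_mul]
      push_cast
      ring
    have e' : 𝓕 (sepF c ψ ⌈σ⌉₊ y) ξ = ((y ^ ⌈σ⌉₊ : ℝ) : ℂ) • 𝓕 (sepF c ψ 0 y) ξ := by
      rw [e]
      exact congrFun (VectorFourier.fourierIntegral_const_smul _ _ _ _ _) ξ
    rw [e', norm_smul, Complex.norm_real, Real.norm_of_nonneg (by positivity)] at a
    have b : 1 ≤ y ^ ⌈σ⌉₊ * y ^ (-σ) := by
      rw [← Real.rpow_natCast, ← Real.rpow_add hy]
      exact Real.one_le_rpow h (by linarith [Nat.le_ceil σ])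
    have hX : 0 ≤ (1 + |ξ|) ^ n * ‖𝓕 (sepF c ψ 0 y) ξ‖ := by positivity
    calc _ ≤ (1 + |ξ|) ^ n * ‖𝓕 (sepF c ψ 0 y) ξ‖ * (y ^ ⌈σ⌉₊ * y ^ (-σ)) :=
          le_mul_of_one_le_right hX b
      _ = (1 + |ξ|) ^ n * (y ^ ⌈σ⌉₊ * ‖𝓕 (sepF c ψ 0 y) ξ‖) * y ^ (-σ) := by ring
      _ ≤ (C₀ + C₁) * y ^ (-σ) := by gcongr; linarith

theorem latSep_fub {c y : ℝ} (hc : 0 < c) (hy : 0 < y) {ψ : ℝ → ℂ} (h1 : Continuous ψ)
    (h2 : HasCompactSupport ψ) (ξ : ℝ) :
    𝓕 (fun u => ψ u * (KK K (c * y * Real.exp (-u)) : ℂ)) ξ =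
      ∫ t : HH K, (wK t : ℂ) * 𝓕 (sepF c ψ 0 (y * Real.exp (-∑ w, t w))) ξ := by
  have hw := continuous_wK (K := K)
  obtain ⟨R, -, hR⟩ := h2.exists_pos_le_norm
  set F : ℝ → HH K → ℂ := fun u t => Complex.exp (((-2 * π * u * ξ : ℝ) : ℂ) * Complex.I) *
    (ψ u * ((wK t * Real.exp (-(c * y * Real.exp (-u) * Real.exp (-∑ w, t w))) : ℝ) : ℂ)) with hF
  have hi : Integrable (Function.uncurry F) (volume.prod volume) := by
    have i1 := (h1.integrable_of_hasCompactSupport (μ := volume) h2).norm.mul_prod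
      (integrable_asym (K := K) (y := c * y * Real.exp (-R)) (by positivity))
    refine i1.mono' (Continuous.aestronglyMeasurable (by simp only [hF]; fun_prop))
      (Eventually.of_forall fun p => ?_)
    simp only [hF, Function.uncurry]
    rw [norm_mul, Complex.norm_exp_ofReal_mul_I, one_mul, norm_mul, Complex.norm_real,
      Real.norm_of_nonneg (mul_pos (wK_pos _) (Real.exp_pos _)).le]
    by_cases hu : R ≤ ‖p.1‖
    · simp [hR _ hu]
    · have hu' : p.1 ≤ R := (le_abs_self _).trans (not_le.mp hu).le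
      exact mul_le_mul_of_nonneg_left (asym_mono (by gcongr) _) (norm_nonneg _)
  rw [Real.fourier_real_eq_integral_exp_smul]
  calc _ = ∫ u, ∫ t, F u t := by
        refine integral_congr_ae (Eventually.of_forall fun u => ?_)
        simp only [hF]
        rw [KK_asym (by positivity), ← integral_complex_ofReal, smul_eq_mul, integral_const_mul,
          integral_const_mul]
    _ = ∫ t, ∫ u, F u t := integral_integral_swap hi
    _ = _ := by
        refine integral_congr_ae (Eventually.of_forall fun t => ?_)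
        simp only [hF]
        rw [Real.fourier_real_eq_integral_exp_smul, ← integral_const_mul]
        refine integral_congr_ae (Eventually.of_forall fun u => ?_)
        simp only [sepF, smul_eq_mul]
        rw [show c * (y * Real.exp (-∑ w, t w)) * Real.exp (-u) =
          c * y * Real.exp (-u) * Real.exp (-∑ w, t w) by ring]
        push_cast
        ring

theorem latSep_bd {c σ : ℝ} (hc : 0 < c) (hσ : 0 < σ) (n : ℕ) {ψ : ℝ → ℂ} (h1 : ContDiff ℝ ∞ ψ)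
    (h2 : HasCompactSupport ψ) : ∃ C : ℝ, 0 < C ∧ ∀ y : ℝ, 0 < y → ∀ ξ : ℝ,
      (1 + |ξ|) ^ n * ‖𝓕 (fun u => ψ u * (KK K (c * y * Real.exp (-u)) : ℂ)) ξ‖ ≤
        C * y ^ (-σ) := by
  obtain ⟨C, hC, H⟩ := latSep_rpow hc hσ.le n h1 h2
  refine ⟨max (C * ∫ t : HH K, wK t * Real.exp (σ * ∑ w, t w)) 1, by positivity,
    fun y hy ξ => ?_⟩
  have hx : 0 < (1 + |ξ|) ^ n := by positivity
  rw [latSep_fub hc hy h1.continuous h2, mul_comm, ← le_div_iff₀ hx]
  refine (norm_integral_le_of_norm_le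
    ((integrable_wK hσ).const_mul (C * y ^ (-σ) / (1 + |ξ|) ^ n))
    (Eventually.of_forall fun t => ?_)).trans ?_
  · have a := H (y * Real.exp (-∑ w, t w)) (by positivity) ξ
    rw [Real.mul_rpow hy.le (Real.exp_pos _).le, ← Real.exp_mul, neg_mul_neg, mul_comm _ σ,
      mul_comm, ← le_div_iff₀ hx] at a
    rw [norm_mul, Complex.norm_real, Real.norm_of_nonneg (wK_pos t).le]
    refine (mul_le_mul_of_nonneg_left a (wK_pos t).le).trans (le_of_eq ?_)
    ring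
  · rw [integral_const_mul, div_mul_eq_mul_div, mul_right_comm]
    gcongr
    exact le_max_left _ _

theorem sepK {c η : ℝ} (hc : 0 < c) (hη : 0 < η) (L : ℝ) (hL : 0 ≤ L) (A : ℕ) :
    ∃ C : ℝ, 0 < C ∧ ∀ y : ℝ, 0 < y → ∃ φ : ℝ → ℂ, Continuous φ ∧
      (∀ t, ‖φ t‖ ≤ C * y ^ (-η) * (1 + y) ^ (-5 : ℝ) * (1 + |t|) ^ (-(A : ℝ))) ∧
      ∀ u : ℝ, |u| ≤ L → ((Real.exp (-u / 2) * KK K (c * y * Real.exp (-u)) : ℝ) : ℂ) =
        ∫ t : ℝ, φ t * Complex.exp (Complex.I * t * u) := by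
  let χ : ContDiffBump (0 : ℝ) := ⟨L + 1, L + 2, by linarith, by linarith⟩
  let ψ : ℝ → ℂ := fun u => ((χ u * Real.exp (-u / 2) : ℝ) : ℂ)
  have h1 : ContDiff ℝ ∞ ψ := Complex.ofRealCLM.contDiff.comp
    (χ.contDiff.mul (by fun_prop : ContDiff ℝ ∞ (fun u : ℝ => Real.exp (-u / 2))))
  have h2 : HasCompactSupport ψ :=
    (χ.hasCompactSupport.mul_right (f' := fun u => Real.exp (-u / 2))).comp_left
      (g := Complex.ofReal) Complex.ofReal_zero
  obtain ⟨C₁, hC₁, H₁⟩ := latSep_bd (K := K) hc hη A h1 h2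
  obtain ⟨C₂, hC₂, H₂⟩ := latSep_bd (K := K) hc (σ := η + 5) (by linarith) A h1 h2
  obtain ⟨C₃, hC₃, H₃⟩ := latSep_bd (K := K) hc hη 2 h1 h2
  have hπ := Real.pi_pos
  refine ⟨(2 * π) ^ A * (max C₁ C₂ * 2 ^ (5 : ℝ)), by positivity, fun y hy => ?_⟩
  set G : ℝ → ℂ := fun u => ψ u * (KK K (c * y * Real.exp (-u)) : ℂ) with hG
  have hK : Continuous fun u : ℝ => KK K (c * y * Real.exp (-u)) :=
    continuousOn_KK.comp_continuous (by fun_prop) fun u => by
      simp only [mem_Ioi]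
      positivity
  have hGc : Continuous G := h1.continuous.mul (Complex.continuous_ofReal.comp hK)
  have hint : Integrable G := hGc.integrable_of_hasCompactSupport h2.mul_right
  have hcont : Continuous (𝓕 G) :=
    VectorFourier.fourierIntegral_continuous Real.continuous_fourierChar (by fun_prop) hint
  refine ⟨fun t => ((2 * π : ℝ) : ℂ)⁻¹ * 𝓕 G (t / (2 * π)), by fun_prop, fun t => ?_,
    fun u hu => ?_⟩
  · rw [norm_mul, norm_inv, Complex.norm_real, Real.norm_of_nonneg (by positivity)]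
    refine (latSep_dec (norm_nonneg _) A (latSep_comb hy (by norm_num) hC₁ (H₁ y hy _)
      (H₂ y hy _))).trans (le_of_eq ?_)
    ring
  · rw [← latSep_inv hGc hint (H₃ y hy) u]
    have hχ : χ u = 1 := χ.one_of_mem_closedBall (by
      simp only [Metric.mem_closedBall, dist_zero_right, Real.norm_eq_abs, χ]; linarith)
    simp only [hG, ψ, hχ]
    push_cast
    ring

end Vale.Agent.P319
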