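import Vale.Agent.P319.N.LatTile
import Vale.Agent.P319.N.LatSep
import Vale.Agent.P319.N.LatHP
import Vale.Agent.P319.N.LatLS

/-! # P319 LAT: everything. -/
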