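import Vale.Agent.P319.N.LatPl
import Vale.Agent.P319.N.Ray

/-! # P319 LAT: the unit group `EU` and its fundamental sets. -/

namespace Vale.Agent.P319

open scoped ComplexConjugate Real ContDiff NumberField nonZeroDivisors Topology
open MeasureTheory Filter Set

variable {K : Type} [Field K] [NumberField K] [Stp K]

theorem lat_mem_EU {u : (R K)ˣ} : u ∈ EU K ↔ InU ((u : R K) : K) := mem_EU

theorem EUO_eq : EUO K = EI (lev K 10) := comap_EU

theorem mem_EUO_iff {ε : (𝓞 K)ˣ} : ε ∈ EUO K ↔ uOR K ε ∈ EU K := Iff.rfl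

theorem EU_int {u : (R K)ˣ} (hu : u ∈ EU K) :
    ∃ ε ∈ EUO K, ((ε : 𝓞 K) : K) = ((u : R K) : K) := by
  obtain ⟨ε, rfl⟩ := EU_le_range hu
  exact ⟨ε, hu, (coe_uOR ε).symm⟩

theorem mem_EUO {ε : (𝓞 K)ˣ} : ε ∈ EUO K ↔ (MM K : 𝓞 K) ^ 10 ∣ (ε : 𝓞 K) - 1 := by
  rw [EUO_eq, mem_EI, lev, Ideal.mem_span_singleton]

theorem idx_pos : 0 < idx K := by
  have h : (EI (lev K 10)).FiniteIndex := finiteIndex_EI (by
    rw [lev, Ne, Ideal.span_singleton_eq_bot]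
    exact pow_ne_zero _ M_int_ne_zero)
  rw [idx, EUO_eq]
  exact Nat.pos_of_ne_zero h.index_ne_zero

theorem unit_ne_zero (u : (R K)ˣ) : ((u : R K) : K) ≠ 0 := coe_unit_ne_zero u

theorem EU_mul_mem {u : (R K)ˣ} (hu : u ∈ EU K) {I : FI K} {x : K} :
    ((u : R K) : K) * x ∈ I ↔ x ∈ I := by
  have key : ∀ {w : (R K)ˣ}, w ∈ EU K → ∀ {y : K}, y ∈ I → ((w : R K) : K) * y ∈ I := by
    intro w hw y hy
    obtain ⟨ε, -, h⟩ := EU_int hw
    rw [← h]
    exact (I : Submodule (𝓞 K) K).smul_mem (ε : 𝓞 K) hy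
  refine ⟨fun h => ?_, key hu⟩
  have := key ((EU K).inv_mem hu) h
  rwa [coe_unit_inv, inv_mul_cancel_left₀ (unit_ne_zero u)] at this

theorem ex_lgH_of {x : K} (h0 : x ≠ 0) (h : nK x = 1) (v : Pl K) : ex (lgH x) v = lg x v := by
  rw [lgH, ex_pr, sum_lg h0, h, Real.log_one, zero_div, sub_zero]

theorem ex_lgH {u : (R K)ˣ} (hu : u ∈ EU K) (v : Pl K) :
    ex (lgH ((u : R K) : K)) v = lg ((u : R K) : K) v :=
  ex_lgH_of (unit_ne_zero u) (nK_EU hu) v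

theorem lgH_unit_mul (u w : (R K)ˣ) :
    lgH (((u * w : (R K)ˣ) : R K) : K) = lgH ((u : R K) : K) + lgH ((w : R K) : K) := by
  rw [Units.val_mul, map_mul, lgH_mul (unit_ne_zero u) (unit_ne_zero w)]

theorem lgH_unit_inv (u : (R K)ˣ) :
    lgH (((u⁻¹ : (R K)ˣ) : R K) : K) = -lgH ((u : R K) : K) := by
  rw [coe_unit_inv, lgH_inv]

theorem lgH_unit_one : lgH (((1 : (R K)ˣ) : R K) : K) = 0 := by
  rw [Units.val_one, map_one, lgH_one]

theorem lgH_unit_pow (u : (R K)ˣ) (n : ℕ) :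
    lgH (((u ^ n : (R K)ˣ) : R K) : K) = (n : ℝ) • lgH ((u : R K) : K) := by
  induction n with
  | zero => rw [pow_zero, lgH_unit_one, Nat.cast_zero, zero_smul]
  | succ n ih => rw [pow_succ, lgH_unit_mul, ih, Nat.cast_succ, add_smul, one_smul]

theorem ex_zero (v : Pl K) : ex (0 : HH K) v = 0 := by
  rw [← zero_smul ℝ (0 : HH K), ex_smul, zero_mul]

theorem lgH_eq_zero {u : (R K)ˣ} (hu : u ∈ EU K) (h : lgH ((u : R K) : K) = 0) : u = 1 := by
  obtain ⟨ε, rfl⟩ := EU_le_range hu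
  have h1 : ε ∈ NumberField.Units.torsion K := by
    refine (NumberField.Units.mem_torsion K).2 fun w => ?_
    obtain ⟨v, rfl⟩ := pl_mk_bij.2 w
    have h2 := exp_lg v (unit_ne_zero (uOR K ε))
    rw [← ex_lgH hu, h, ex_zero, Real.exp_zero, coe_uOR] at h2
    rw [NumberField.InfinitePlace.apply]
    exact (pow_eq_one_iff_of_nonneg (norm_nonneg _) two_ne_zero).1 h2.symm
  obtain ⟨n, hn, e⟩ := isOfFinOrder_iff_pow_eq_one.1 ((CommGroup.mem_torsion _).1 h1)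
  exact EU_torsion_free hu hn.ne' (by rw [← map_pow, e, map_one])

theorem lgH_inj {u w : (R K)ˣ} (hu : u ∈ EU K) (hw : w ∈ EU K)
    (h : lgH ((u : R K) : K) = lgH ((w : R K) : K)) : u = w := by
  refine mul_inv_eq_one.1 (lgH_eq_zero ((EU K).mul_mem hu ((EU K).inv_mem hw)) ?_)
  rw [lgH_unit_mul, lgH_unit_inv, h, add_neg_cancel]

theorem abs_ex_le (t : HH K) (v : Pl K) : |ex t v| ≤ rr K * ‖t‖ := by
  have h1 : (1 : ℝ) ≤ rr K := Nat.one_le_cast.2 rr_pos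
  by_cases h : v = v0 K
  · rw [h, ex_v0, abs_neg]
    refine (Finset.abs_sum_le_sum_abs _ _).trans ?_
    refine (Finset.sum_le_card_nsmul _ _ ‖t‖ fun w _ => norm_le_pi_norm t w).trans ?_
    rw [nsmul_eq_mul, Finset.card_univ]
    gcongr
    exact Fintype.card_subtype_le _
  · rw [show ex t v = t ⟨v, h⟩ from ex_ne t ⟨v, h⟩]
    exact (norm_le_pi_norm t ⟨v, h⟩).trans (le_mul_of_one_le_left (norm_nonneg _) h1)

theorem finite_EU (T : ℝ) : {u : (R K)ˣ | u ∈ EU K ∧ ‖lgH ((u : R K) : K)‖ ≤ T}.Finite := by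
  refine (((lat_finite_norm_le (K := K) (Real.exp (rr K * T / 2))).preimage
    (f := fun ε : (𝓞 K)ˣ => (ε : 𝓞 K)) Units.val_injective.injOn).image (uOR K)).subset ?_
  rintro u ⟨hu, hT⟩
  obtain ⟨ε, rfl⟩ := EU_le_range hu
  refine ⟨ε, fun v => ?_, rfl⟩
  have h2 := exp_lg v (unit_ne_zero (uOR K ε))
  rw [← ex_lgH hu, coe_uOR] at h2
  refine (pow_le_pow_iff_left₀ (norm_nonneg _) (Real.exp_pos _).le two_ne_zero).1 ?_
  rw [← h2, ← Real.exp_nat_mul, Real.exp_le_exp]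
  rw [coe_uOR] at hT
  have h3 := (le_abs_self _).trans (abs_ex_le (lgH ((ε : 𝓞 K) : K)) v)
  have h4 : (rr K : ℝ) * ‖lgH ((ε : 𝓞 K) : K)‖ ≤ rr K * T := by gcongr
  push_cast
  linarith

instance : Countable (EU K) := by
  have h : (EU K : Set (R K)ˣ).Countable := by
    refine (Set.countable_iUnion fun n : ℕ => (finite_EU (K := K) n).countable).mono fun u hu => ?_
    obtain ⟨n, hn⟩ := exists_nat_ge ‖lgH ((u : R K) : K)‖
    exact Set.mem_iUnion.2 ⟨n, hu, hn⟩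
  exact h.to_subtype

/-- the lattice of `k • lgH u`, `u ∈ E` -/
noncomputable def ulat (E : Subgroup (R K)ˣ) (k : ℝ) : Submodule ℤ (HH K) :=
  AddSubgroup.toIntSubmodule
    { carrier := {t | ∃ u ∈ E, k • lgH ((u : R K) : K) = t}
      add_mem' := by
        rintro _ _ ⟨u, hu, rfl⟩ ⟨w, hw, rfl⟩
        exact ⟨u * w, E.mul_mem hu hw, by rw [lgH_unit_mul, smul_add]⟩
      zero_mem' := ⟨1, E.one_mem, by rw [lgH_unit_one, smul_zero]⟩
      neg_mem' := by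
        rintro _ ⟨u, hu, rfl⟩
        exact ⟨u⁻¹, E.inv_mem hu, by rw [lgH_unit_inv, smul_neg]⟩ }

theorem mem_ulat {E : Subgroup (R K)ˣ} {k : ℝ} {t : HH K} :
    t ∈ ulat E k ↔ ∃ u ∈ E, k • lgH ((u : R K) : K) = t := Iff.rfl

theorem discrete_ulat {E : Subgroup (R K)ˣ} (hE : E ≤ EU K) {k : ℝ} (hk : 0 < k) :
    DiscreteTopology (ulat E k) := by
  refine discreteTopology_of_isOpen_singleton_zero ?_
  refine isOpen_singleton_of_finite_mem_nhds 0 (s := Metric.closedBall 0 1)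
    (Metric.closedBall_mem_nhds _ one_pos) ?_
  refine Set.Finite.of_finite_image ?_ (Set.injOn_of_injective Subtype.val_injective)
  refine ((finite_EU (K := K) (1 / k)).image fun u : (R K)ˣ => k • lgH ((u : R K) : K)).subset ?_
  rintro _ ⟨⟨_, u, hu, rfl⟩, h, rfl⟩
  refine ⟨u, ⟨hE hu, ?_⟩, rfl⟩
  have h1 : ‖k • lgH ((u : R K) : K)‖ ≤ 1 := by simpa using h
  rw [norm_smul, Real.norm_of_nonneg hk.le] at h1
  rwa [le_div_iff₀' hk]

theorem span_lgH_units :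
    Submodule.span ℝ (Set.range fun ε : (𝓞 K)ˣ => lgH ((ε : 𝓞 K) : K)) = ⊤ := by
  let e : {v : Pl K // v ≠ v0 K} ≃
      {w : NumberField.InfinitePlace K // w ≠ NumberField.Units.dirichletUnitTheorem.w₀} :=
    (Equiv.ofBijective _ pl_mk_bij).subtypeEquiv fun v => by
      rw [← mk_v0]
      exact pl_mk_inj.ne_iff.symm
  let L := LinearEquiv.funCongrLeft ℝ ℝ e
  have h := congrArg (Submodule.map L.toLinearMap)
    (NumberField.Units.dirichletUnitTheorem.unitLattice_span_eq_top K)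
  rw [Submodule.map_top, LinearMap.range_eq_top.2 L.surjective, Submodule.map_span] at h
  refine top_le_iff.1 (h.symm.le.trans (Submodule.span_mono ?_))
  rintro _ ⟨_, ⟨x, -, rfl⟩, rfl⟩
  refine ⟨x.toMul, funext fun v => ?_⟩
  have h0 : (((x.toMul : (𝓞 K)ˣ) : 𝓞 K) : K) ≠ 0 := by simp
  refine (ex_ne _ v).symm.trans ?_
  rw [ex_lgH_of h0 (nK_unit _), lg, Real.log_pow]
  change _ = ((e v).1.mult : ℝ) * Real.log ((e v).1 _)
  rw [(pl_isComplex (e v).1).mult_eq_two]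
  rfl

theorem span_ulat {E : Subgroup (R K)ˣ} (hi : E.relIndex (EU K) ≠ 0) {k : ℝ} (hk : 0 < k) :
    Submodule.span ℝ (ulat E k : Set (HH K)) = ⊤ := by
  refine top_le_iff.1 (span_lgH_units.symm.le.trans (Submodule.span_le.2 ?_))
  rintro _ ⟨ε, rfl⟩
  obtain ⟨n, hn, -, h1⟩ := (EUO K).exists_pow_mem_of_index_ne_zero idx_pos.ne' ε
  obtain ⟨m, hm, -, h2, -⟩ := Subgroup.exists_pow_mem_of_relIndex_ne_zero hi (mem_EUO_iff.1 h1)
  have h3 := Submodule.smul_mem _ (k * (m * n))⁻¹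
    (Submodule.subset_span (R := ℝ) (s := (ulat E k : Set (HH K))) (mem_ulat.2 ⟨_, h2, rfl⟩))
  rw [map_pow, lgH_unit_pow, lgH_unit_pow, coe_uOR, smul_smul, smul_smul, smul_smul] at h3
  have h4 : (k * ((m : ℝ) * n))⁻¹ * k * m * n = 1 := by field_simp
  rwa [h4, one_smul] at h3

theorem exists_UF {E : Subgroup (R K)ˣ} (hE : E ≤ EU K) (hi : E.relIndex (EU K) ≠ 0) {k : ℝ}
    (hk : 0 < k) : ∃ D, UF E k D := by
  have := discrete_ulat hE hk
  have : IsZLattice ℝ (ulat E k) := ⟨span_ulat hi hk⟩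
  have : Module.Finite ℤ (ulat E k) := ZLattice.module_finite ℝ _
  have : Module.Free ℤ (ulat E k) := ZLattice.module_free ℝ _
  let b := (Module.Free.chooseBasis ℤ (ulat E k)).ofZLatticeBasis ℝ (ulat E k)
  have hb : Submodule.span ℤ (Set.range b) = ulat E k := Module.Basis.ofZLatticeBasis_span ℝ _ _
  refine ⟨ZSpan.fundamentalDomain b, ZSpan.fundamentalDomain_measurableSet b,
    ZSpan.fundamentalDomain_isBounded b, fun t => ?_⟩
  obtain ⟨⟨x, hx⟩, h1, h2⟩ := ZSpan.exist_unique_vadd_mem_fundamentalDomain b t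
  obtain ⟨u, hu, rfl⟩ := mem_ulat.1 (hb ▸ hx)
  refine ⟨⟨u, hu⟩, by beta_reduce; rw [add_comm]; exact h1, fun w hw => Subtype.ext ?_⟩
  have h3 := h2 ⟨k • lgH ((w.1 : R K) : K), hb.symm ▸ mem_ulat.2 ⟨_, w.2, rfl⟩⟩
    (by beta_reduce at hw; rw [add_comm] at hw; exact hw)
  exact lgH_inj (hE w.2) (hE hu) (smul_right_injective _ hk.ne' (congrArg Subtype.val h3))

theorem uf_DD : UF (EU K) 1 (DD K) :=
  Classical.epsilon_spec (exists_UF le_rfl (by simp) one_pos)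

theorem UF.neg {E : Subgroup (R K)ˣ} {k : ℝ} {D : Set (HH K)} (h : UF E k D) : UF E k (-D) := by
  refine ⟨h.1.neg, h.2.1.neg, fun t => ?_⟩
  have key : ∀ u : E, t + k • lgH ((u.1 : R K) : K) ∈ -D ↔
      -t + k • lgH (((u⁻¹ : E).1 : R K) : K) ∈ D := fun u => by
    rw [Set.mem_neg, Subgroup.coe_inv, lgH_unit_inv, smul_neg, neg_add]
  obtain ⟨u, h1, h2⟩ := h.2.2 (-t)
  refine ⟨u⁻¹, (key _).2 (by rwa [inv_inv]), fun w hw => ?_⟩
  rw [← h2 _ ((key w).1 hw), inv_inv]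

end Vale.Agent.P319
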