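import Vale.Agent.P319.N.LatDefs

/-! # P319 LAT: Fourier transforms.
PLAN.  `FT_prod`: `integral_fintype_prod_volume_eq_prod`.  `FT1_gauss`: `GaussianFourier.integral_cexp_neg_mul_sq_norm_add` with
`V = ℂ`, `w = conj ξ`, `c = -4πi` (`Complex.inner`, `finrank = 2`).  `FT1_scale`: `Measure.integral_comp_smul` or `integral_comp_mul_left`.
`FT1_quartic`: `exp (-y^2) = ∫ s, ν s * exp (-(1 + i s) y)` with `ν s = (2 √π)⁻¹ exp ((1 + i s)^2 / 4)` (`integral_cexp_quadratic`);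
Fubini with `y = ‖z‖^2`, `FT1_gauss`; `‖exp (-4π²‖ξ‖²/(1 + i s))‖ = exp (-4π²‖ξ‖²/(1 + s²)) ≤ C (1+s²)^N (1 + ‖ξ‖)^(-N)`
(e.g. `(1 + x)^N exp (-x^2 / b) ≤ C b^N` for `b ≥ 1`), `‖ν s‖ ≤ exp (-s²/4)`.
`FT1_quartic_zero`: the integral of a positive function. -/

namespace Vale.Agent.P319

open scoped ComplexConjugate Real ContDiff NumberField nonZeroDivisors Topology
open MeasureTheory Filter Set

variable {K : Type} [Field K] [NumberField K] [Stp K]

theorem FT_prod (g : Pl K → ℂ → ℂ) (ξ : Pl K → ℂ) :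
    FT (fun x => ∏ v, g v (x v)) ξ = ∏ v, FT1 (g v) (ξ v) := by
  simp only [FT, FT1, ← Finset.prod_mul_distrib]
  exact integral_fintype_prod_volume_eq_prod fun v (z : ℂ) => g v z * ecc (-(z * ξ v))


theorem FT1_gauss {a : ℂ} (ha : 0 < a.re) (ξ : ℂ) :
    FT1 (fun z => Complex.exp (-(a * (‖z‖ ^ 2 : ℝ)))) ξ =
      π / a * Complex.exp (-(4 * π ^ 2 * (‖ξ‖ ^ 2 : ℝ) / a)) := by
  have h := GaussianFourier.integral_cexp_neg_mul_sq_norm_add (V := ℂ) ha (-4 * π * Complex.I)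
    (conj ξ)
  rw [Complex.finrank_real_complex, Complex.norm_conj] at h
  have ha0 : a ≠ 0 := fun h => by simp [h] at ha
  convert h using 2
  · refine integral_congr_ae (Eventually.of_forall fun z => ?_)
    simp only [ecc, ← Complex.exp_add, Complex.inner, Complex.conj_conj, Complex.neg_re]
    congr 1
    push_cast
    ring
  · norm_num
  · congr 1
    push_cast
    field_simp
    rw [Complex.I_sq]
    ring


theorem FT_gauss {a : Pl K → ℝ} (ha : ∀ v, 0 < a v) (ξ : Pl K → ℂ) :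
    FT (fun x => (Real.exp (-∑ v, a v * ‖x v‖ ^ 2) : ℂ)) ξ =
      ((π ^ rr K / ∏ v, a v) * Real.exp (-∑ v, 4 * π ^ 2 / a v * ‖ξ v‖ ^ 2) : ℝ) := by
  have h := FT_prod (fun v z => Complex.exp (-((a v : ℂ) * (‖z‖ ^ 2 : ℝ)))) ξ
  have h1 := fun v => FT1_gauss (a := a v) (by simpa using ha v)
  simp only [h1] at h
  simp only [← Finset.sum_neg_distrib, Real.exp_sum, Complex.ofReal_prod, Complex.ofReal_exp,
    Complex.ofReal_neg, Complex.ofReal_mul, Complex.ofReal_div]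
  rw [h, Finset.prod_mul_distrib, Finset.prod_div_distrib, Finset.prod_const, Finset.card_univ,
    Complex.ofReal_pow]
  congr 1
  refine Finset.prod_congr rfl fun v _ => ?_
  congr 1
  push_cast
  ring


theorem FT1_scale (g : ℂ → ℂ) {l : ℝ} (hl : 0 < l) (ξ : ℂ) :
    FT1 (fun z => g (l * z)) ξ = ((l ^ 2)⁻¹ : ℝ) * FT1 g (ξ / l) := by
  have hl' : (l : ℂ) ≠ 0 := Complex.ofReal_ne_zero.2 hl.ne'
  have h := Measure.integral_comp_smul volume (fun z : ℂ => g z * ecc (-(z * (ξ / l)))) l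
  rw [Complex.finrank_real_complex, abs_of_pos (by positivity), Complex.real_smul] at h
  rw [FT1, FT1, ← h]
  refine integral_congr_ae (Eventually.of_forall fun z => ?_)
  simp only [Complex.real_smul]
  congr 3
  field_simp


private theorem ftq_pow (N : ℕ) {m s : ℝ} (hm : 0 < m) (hs : 0 ≤ s) :
    Real.exp (-(m * s)) ≤ N.factorial * Real.exp m / m ^ N / (1 + s) ^ N := by
  have h := Real.pow_div_factorial_le_exp (x := m * (1 + s)) (by positivity) N
  have h0 : (0 : ℝ) < N.factorial := by exact_mod_cast N.factorial_pos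
  rw [div_le_iff₀ h0, mul_pow, mul_add, mul_one, Real.exp_add] at h
  rw [div_div, le_div_iff₀ (by positivity), Real.exp_neg, inv_mul_le_iff₀ (Real.exp_pos _)]
  exact h.trans_eq (by ring)

private theorem ftq_int : Integrable fun z : ℂ => Real.exp (-‖z‖ ^ 2) := by
  refine (GaussianFourier.integrable_cexp_neg_mul_sq_norm_add (V := ℂ) (b := 1) (by simp) 0
    0).norm.congr (Eventually.of_forall fun z => ?_)
  simp only [Complex.norm_exp]
  congr 1
  simp [← Complex.ofReal_pow]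

/-- the subordinating weight -/
private noncomputable def nu (s : ℝ) : ℂ :=
  (2 * √π : ℝ)⁻¹ * Complex.exp ((1 + Complex.I * s) ^ 2 / 4)

private theorem norm_nu (s : ℝ) : ‖nu s‖ = (2 * √π : ℝ)⁻¹ * Real.exp (1 / 4 - s ^ 2 / 4) := by
  rw [nu, norm_mul, Complex.norm_real, Real.norm_of_nonneg (by positivity),
    Complex.norm_exp]
  congr 2
  simp [pow_two]
  ring

private theorem nu_int (y : ℝ) :
    ∫ s : ℝ, nu s * Complex.exp (-((1 + Complex.I * s) * y)) = Real.exp (-y ^ 2) := by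
  have h := integral_cexp_quadratic (b := -1 / 4) (by norm_num) (Complex.I * (1 / 2 - y)) (1 / 4 - y)
  have e : ∀ s : ℝ, nu s * Complex.exp (-((1 + Complex.I * s) * y)) = (2 * √π : ℝ)⁻¹ *
      Complex.exp (-1 / 4 * s ^ 2 + Complex.I * (1 / 2 - y) * s + (1 / 4 - y)) := fun s => by
    rw [nu, mul_assoc, ← Complex.exp_add]
    congr 2
    linear_combination (s ^ 2 / 4 : ℂ) * Complex.I_sq
  have hπ := Real.pi_pos
  have e2 : ((π : ℂ) / -(-1 / 4)) ^ (1 / 2 : ℂ) = (2 * √π : ℝ) := by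
    have : ((π : ℂ) / -(-1 / 4)) = (((2 * √π) ^ 2 : ℝ) : ℂ) := by
      rw [mul_pow, Real.sq_sqrt hπ.le]; push_cast; ring
    rw [this, show (1 / 2 : ℂ) = ((1 / 2 : ℝ) : ℂ) by push_cast; ring,
      ← Complex.ofReal_cpow (by positivity), ← Real.sqrt_eq_rpow, Real.sqrt_sq (by positivity)]
  simp only [e]
  rw [integral_const_mul, h, e2, ← mul_assoc,
    ← Complex.ofReal_mul, inv_mul_cancel₀ (by positivity), Complex.ofReal_one, one_mul,
    Complex.ofReal_exp]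
  congr 1
  push_cast
  linear_combination (1 / 2 - y : ℂ) ^ 2 * Complex.I_sq

theorem FT1_quartic (N : ℕ) : ∃ C : ℝ, 0 < C ∧ ∀ ξ : ℂ,
    ‖FT1 (fun z => (Real.exp (-‖z‖ ^ 4) : ℂ)) ξ‖ ≤ C / (1 + ‖ξ‖) ^ N := by
  have hπ := Real.pi_pos
  have hc := lat_continuous_ecc
  have hg : Integrable fun s : ℝ => Real.exp (-(1 / 8) * s ^ 2) :=
    integrable_exp_neg_mul_sq (by norm_num)
  have hg0 : 0 < ∫ s : ℝ, Real.exp (-(1 / 8) * s ^ 2) := integral_exp_pos hg
  have h0 : (0 : ℝ) < N.factorial := by exact_mod_cast N.factorial_pos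
  refine ⟨(2 * √π : ℝ)⁻¹ * π * Real.exp (3 / 8) * (N.factorial * Real.exp (1 / 2) / (1 / 2) ^ N) *
    ∫ s : ℝ, Real.exp (-(1 / 8) * s ^ 2), by positivity, fun ξ => ?_⟩
  have hre : ∀ s : ℝ, 0 < (1 + Complex.I * s).re := fun s => by simp
  have hi : Integrable (Function.uncurry fun (z : ℂ) (s : ℝ) =>
      nu s * (Complex.exp (-((1 + Complex.I * s) * (‖z‖ ^ 2 : ℝ))) * ecc (-(z * ξ))))
      (volume.prod volume) := by
    refine (ftq_int.mul_prod (hg.const_mul ((2 * √π : ℝ)⁻¹ * Real.exp (1 / 4)))).mono'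
      (Continuous.aestronglyMeasurable (by unfold Function.uncurry nu; fun_prop))
      (Eventually.of_forall fun p => ?_)
    simp only [Function.uncurry]
    rw [norm_mul, norm_mul, lat_norm_ecc, mul_one, norm_nu, Complex.norm_exp, mul_comm,
      mul_assoc (2 * √π)⁻¹, ← Real.exp_add]
    refine mul_le_mul (le_of_eq ?_) ?_ (by positivity) (by positivity)
    · congr 1
      simp [-Complex.ofReal_pow]
    · gcongr
      nlinarith [sq_nonneg p.2]
  have e : FT1 (fun z => (Real.exp (-‖z‖ ^ 4) : ℂ)) ξ = ∫ s : ℝ, nu s * (π / (1 + Complex.I * s) *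
      Complex.exp (-(4 * π ^ 2 * (‖ξ‖ ^ 2 : ℝ) / (1 + Complex.I * s)))) := by
    simp only [← FT1_gauss (hre _), FT1, ← integral_const_mul]
    rw [← integral_integral_swap hi]
    refine integral_congr_ae (Eventually.of_forall fun z => ?_)
    simp only [← mul_assoc]
    rw [integral_mul_const, nu_int, ← pow_mul]
  rw [e, mul_div_right_comm, ← integral_const_mul]
  refine norm_integral_le_of_norm_le (hg.const_mul _) (Eventually.of_forall fun s => ?_)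
  have h1 : ‖(π : ℂ) / (1 + Complex.I * s)‖ ≤ π := by
    rw [norm_div, Complex.norm_real, Real.norm_of_nonneg hπ.le]
    refine div_le_self hπ.le ?_
    simpa using Complex.re_le_norm (1 + Complex.I * s)
  have h2 : (-(4 * π ^ 2 * (‖ξ‖ ^ 2 : ℝ) / (1 + Complex.I * s)) : ℂ).re =
      -(4 * π ^ 2 * ‖ξ‖ ^ 2 / (1 + s ^ 2)) := by
    rw [show (4 * π ^ 2 * (‖ξ‖ ^ 2 : ℝ) : ℂ) = ((4 * π ^ 2 * ‖ξ‖ ^ 2 : ℝ) : ℂ) by push_cast; ring,
      Complex.neg_re, Complex.div_re, Complex.ofReal_re, Complex.ofReal_im]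
    simp [Complex.normSq_apply, pow_two]
  have hx := norm_nonneg ξ
  have h3 : 1 / 4 - s ^ 2 / 4 + -(4 * π ^ 2 * ‖ξ‖ ^ 2 / (1 + s ^ 2)) ≤
      3 / 8 + -(1 / 2 * ‖ξ‖) + -(1 / 8) * s ^ 2 := by
    have h4 : ‖ξ‖ ^ 2 / (1 + s ^ 2) ≤ 4 * π ^ 2 * ‖ξ‖ ^ 2 / (1 + s ^ 2) := by
      gcongr
      have := Real.pi_gt_three
      exact le_mul_of_one_le_left (by positivity) (by nlinarith)
    have h5 : ‖ξ‖ / 2 - (1 + s ^ 2) / 8 ≤ ‖ξ‖ ^ 2 / (1 + s ^ 2) := by
      rw [le_div_iff₀ (by positivity)]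
      nlinarith [sq_nonneg (‖ξ‖ - (1 + s ^ 2) / 4), sq_nonneg (1 + s ^ 2)]
    linarith
  have h6 := ftq_pow N (m := 1 / 2) (by norm_num) hx
  rw [norm_mul, norm_mul, norm_nu, Complex.norm_exp, h2]
  calc _ ≤ (2 * √π : ℝ)⁻¹ * Real.exp (1 / 4 - s ^ 2 / 4) *
        (π * Real.exp (-(4 * π ^ 2 * ‖ξ‖ ^ 2 / (1 + s ^ 2)))) := by gcongr
    _ = (2 * √π : ℝ)⁻¹ * π *
        Real.exp (1 / 4 - s ^ 2 / 4 + -(4 * π ^ 2 * ‖ξ‖ ^ 2 / (1 + s ^ 2))) := by
        rw [Real.exp_add]; ring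
    _ ≤ (2 * √π : ℝ)⁻¹ * π * Real.exp (3 / 8 + -(1 / 2 * ‖ξ‖) + -(1 / 8) * s ^ 2) := by gcongr
    _ = (2 * √π : ℝ)⁻¹ * π * Real.exp (3 / 8) * Real.exp (-(1 / 2 * ‖ξ‖)) *
        Real.exp (-(1 / 8) * s ^ 2) := by rw [Real.exp_add, Real.exp_add]; ring
    _ ≤ _ := by
        rw [mul_div_assoc]
        gcongr


theorem FT1_quartic_zero : ∃ κ : ℝ, 0 < κ ∧ FT1 (fun z => (Real.exp (-‖z‖ ^ 4) : ℂ)) 0 = κ := by
  have hi : Integrable fun z : ℂ => Real.exp (-‖z‖ ^ 4) := by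
    refine (ftq_int.const_mul (Real.exp 1)).mono' (by fun_prop) (Eventually.of_forall fun z => ?_)
    rw [Real.norm_of_nonneg (Real.exp_pos _).le, ← Real.exp_add]
    gcongr
    nlinarith [sq_nonneg (‖z‖ ^ 2 - 1 / 2)]
  refine ⟨_, integral_exp_pos hi, ?_⟩
  simp only [FT1, mul_zero, neg_zero, lat_ecc_zero, mul_one]
  exact integral_complex_ofReal


/-- decay of `exp (-∑ a v ‖x v‖^(2j))` in the form needed for `pois` -/
theorem exp_decay {a : Pl K → ℝ} (ha : ∀ v, 0 < a v) {j : ℕ} (hj : 0 < j) (N : ℕ) :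
    ∃ C : ℝ, ∀ x : Pl K → ℂ, Real.exp (-∑ v, a v * (‖x v‖ ^ 2) ^ j) ≤ C / (1 + ‖x‖) ^ N := by
  obtain ⟨m, hm, hmt⟩ : ∃ m : ℝ, 0 < m ∧ ∀ v, m ≤ a v := by
    have h0 : 0 ≤ ∑ v, (a v)⁻¹ := Finset.sum_nonneg fun v _ => (inv_pos.2 (ha v)).le
    refine ⟨(1 + ∑ v, (a v)⁻¹)⁻¹, by positivity, fun v => ?_⟩
    rw [inv_le_comm₀ (by positivity) (ha v)]
    have := Finset.single_le_sum (f := fun v => (a v)⁻¹) (fun v _ => (inv_pos.2 (ha v)).le)
      (Finset.mem_univ v)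
    linarith
  refine ⟨Real.exp m * (N.factorial * Real.exp m / m ^ N), fun x => ?_⟩
  have h0 : ∀ v, 0 ≤ a v * (‖x v‖ ^ 2) ^ j := fun v => by have := ha v; positivity
  have hS : 0 ≤ ∑ v, a v * (‖x v‖ ^ 2) ^ j := Finset.sum_nonneg fun v _ => h0 v
  have h1 : ‖x‖ ≤ 1 + (∑ v, a v * (‖x v‖ ^ 2) ^ j) / m := by
    rw [pi_norm_le_iff_of_nonneg (by positivity)]
    intro v
    have h2 := Finset.single_le_sum (fun v _ => h0 v) (Finset.mem_univ v)
    have h3 : ‖x v‖ - 1 ≤ (‖x v‖ ^ 2) ^ j := by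
      rcases le_total ‖x v‖ 1 with h | h
      · exact (sub_nonpos.2 h).trans (by positivity)
      · rw [← pow_mul]
        exact (sub_le_self _ zero_le_one).trans (le_self_pow₀ h (by omega))
    rw [← sub_le_iff_le_add', le_div_iff₀ hm]
    calc _ ≤ (‖x v‖ ^ 2) ^ j * a v := mul_le_mul h3 (hmt v) hm.le (by positivity)
      _ ≤ _ := by rwa [mul_comm]
  rw [← sub_le_iff_le_add', le_div_iff₀ hm] at h1
  calc _ ≤ Real.exp (m + -(m * ‖x‖)) := by
        gcongr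
        linarith
    _ ≤ _ := by
        rw [Real.exp_add, mul_div_assoc]
        gcongr
        exact ftq_pow N hm (norm_nonneg _)


end Vale.Agent.P319
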