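import Vale.Agent.P319.N.LatDefs
import Vale.Agent.P319.N.Places

/-! # P319 LAT: places (on top of BASE `Places`), `lg`, `lgH`. -/

namespace Vale.Agent.P319

open scoped ComplexConjugate Real ContDiff NumberField nonZeroDivisors Topology
open MeasureTheory Filter Set

variable {K : Type} [Field K] [NumberField K] [Stp K]

theorem pl_mk_bij : Function.Bijective fun v : Pl K => NumberField.InfinitePlace.mk v.1 :=
  place_bijective

theorem pl_mk_inj : Function.Injective fun v : Pl K => NumberField.InfinitePlace.mk v.1 :=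
  place_bijective.1

theorem mk_v0 : NumberField.InfinitePlace.mk (v0 K).1 =
    NumberField.Units.dirichletUnitTheorem.w₀ :=
  (lat_exists_pl K NumberField.Units.dirichletUnitTheorem.w₀).choose_spec

theorem pl_isComplex (w : NumberField.InfinitePlace K) : w.IsComplex :=
  (isTotallyComplex (K := K)).isComplex w

theorem two_mul_rr : 2 * rr K = Module.finrank ℚ K := two_mul_card_Pl

theorem lat_prod_ev (x : K) : ∏ v, ‖ev v x‖ ^ 2 = nK x := prod_norm_ev x

theorem lat_eTr (x : K) : eTr x = ∏ v, ecc (ev v x) := eTr_eq_prod x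

theorem lat_trace (x : K) : ((Algebra.trace ℚ K x : ℚ) : ℝ) = ∑ v, 2 * (ev v x).re := trace_eq_sum x

theorem chr_emb (ξ x : K) : chr ξ (emb x) = eTr (ξ * x) := by
  simp only [chr, eTr_eq_prod, ev_mul, emb_apply]

theorem lat_finite_norm_le (B : ℝ) : {x : 𝓞 K | ∀ v, ‖ev v (x : K)‖ ≤ B}.Finite := by
  refine ((NumberField.Embeddings.finite_of_norm_le K ℂ B).preimage
    (f := fun x : 𝓞 K => (x : K)) (NumberField.RingOfIntegers.coe_injective.injOn)).subset
    fun x hx => ⟨x.isIntegral_coe, fun φ => ?_⟩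
  obtain ⟨v | v, rfl⟩ := (emb_bijective (K := K)).2 φ
  · exact hx v
  · simpa [ev] using hx v

omit [Stp K] in
theorem lat_nK_mul (x y : K) : nK (x * y) = nK x * nK y := nK_mul x y

omit [Stp K] in
theorem lat_nK_pos {x : K} (hx : x ≠ 0) : 0 < nK x := nK_pos hx

omit [Stp K] in
theorem lat_one_le_nK {x : 𝓞 K} (hx : x ≠ 0) : 1 ≤ nK (x : K) := one_le_nK hx

omit [Stp K] in
theorem lat_nK_unit (u : (𝓞 K)ˣ) : nK ((u : 𝓞 K) : K) = 1 := nK_unit u

omit [Stp K] in
theorem nK_eq_absNorm (x : K) :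
    nK x = (FractionalIdeal.absNorm (FractionalIdeal.spanSingleton (𝓞 K)⁰ x) : ℚ) :=
  (absNorm_spanSingleton x).symm

omit [Stp K] in
/-- nonzero elements of `I` have norm at least `N I` -/
theorem absNorm_le_nK {I : FI K} {x : K} (hx : x ∈ I) (h0 : x ≠ 0) :
    ((FractionalIdeal.absNorm I : ℚ) : ℝ) ≤ nK x := by
  have hI : I ≠ 0 := by
    rintro rfl
    exact h0 ((FractionalIdeal.mem_zero_iff _).1 hx)
  have h1 : FractionalIdeal.spanSingleton (𝓞 K)⁰ x * I⁻¹ ≤ 1 := by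
    calc _ ≤ I * I⁻¹ := by
          gcongr
          exact FractionalIdeal.spanSingleton_le_iff_mem.2 hx
      _ = 1 := mul_inv_cancel₀ hI
  obtain ⟨J, hJ⟩ := FractionalIdeal.le_one_iff_exists_coeIdeal.1 h1
  have hJ0 : J ≠ ⊥ := by
    rintro rfl
    rw [FractionalIdeal.coeIdeal_bot, eq_comm, mul_eq_zero, FractionalIdeal.spanSingleton_eq_zero_iff,
      inv_eq_zero] at hJ
    exact hJ.elim h0 hI
  have h2 : FractionalIdeal.spanSingleton (𝓞 K)⁰ x = J * I := by
    rw [hJ, mul_assoc, inv_mul_cancel₀ hI, mul_one]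
  have h3 : (1 : ℝ) ≤ Ideal.absNorm J :=
    Nat.one_le_cast.2 (Nat.one_le_iff_ne_zero.2 (mt Ideal.absNorm_eq_zero_iff.1 hJ0))
  rw [nK_eq_absNorm, h2, map_mul, FractionalIdeal.coeIdeal_absNorm]
  push_cast
  exact le_mul_of_one_le_left (absNorm_FI_pos hI).le h3

theorem exp_lg (v : Pl K) {x : K} (hx : x ≠ 0) : Real.exp (lg x v) = ‖ev v x‖ ^ 2 :=
  Real.exp_log (pow_pos (norm_pos_iff.2 (ev_ne_zero v hx)) 2)

theorem lg_mul {x y : K} (hx : x ≠ 0) (hy : y ≠ 0) : lg (x * y) = lg x + lg y := by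
  funext v
  simp only [lg, ev_mul, norm_mul, mul_pow, Pi.add_apply]
  exact Real.log_mul (pow_pos (norm_pos_iff.2 (ev_ne_zero v hx)) 2).ne'
    (pow_pos (norm_pos_iff.2 (ev_ne_zero v hy)) 2).ne'

theorem lg_inv (x : K) : lg x⁻¹ = -lg x := by
  funext v
  simp only [lg, ev_inv, norm_inv, inv_pow, Real.log_inv, Pi.neg_apply]

theorem sum_lg {x : K} (hx : x ≠ 0) : ∑ v, lg x v = Real.log (nK x) := by
  rw [← prod_norm_ev, Real.log_prod fun v _ => (pow_pos (norm_pos_iff.2 (ev_ne_zero v hx)) 2).ne']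
  rfl

theorem lgH_mul {x y : K} (hx : x ≠ 0) (hy : y ≠ 0) : lgH (x * y) = lgH x + lgH y := by
  rw [lgH, lg_mul hx hy, pr_add]
  rfl

theorem lgH_inv (x : K) : lgH x⁻¹ = -lgH x := by
  rw [lgH, lg_inv, ← neg_one_smul ℝ (lg x), pr_smul, neg_one_smul]
  rfl

theorem lgH_one : lgH (1 : K) = 0 := by
  rw [lgH, ← pr_const 0]
  congr 1
  funext v
  simp [lg]

end Vale.Agent.P319
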