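import Vale.Agent.P319.N.LatVol
import Vale.Agent.P319.N.LatZn
import Vale.Agent.P319.N.LatUn

/-! # P319 LAT: Poisson summation, lattice sums and lattice point counts.
PLAN.  `pois`: `pois_zn` for `g = f ∘ c.L` (`1 + ‖x‖ ≤ C (1 + ‖L x‖)`), `Coord.integral_eq`, `conj_chr`/`chr_e'` at `-m` or directly
`∏ ecc (-(x v * ξ v)) = (chr ξ x)⁻¹`.  `FT_shift`: translation invariance.  `tsum_lat_le`: `tsum_zn_le`.
`card_ball_le`: integer points of a box (`Fintype.card_piFinset`, `Int.card_Icc`).  `card_box_le`: multiply by a unit from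
`balanced_vec` (`c v = log (ρ v ^ 2)`), `EU_mul_mem`, then `card_ball_le` and `(1 + C a)^(2r) ≤ C' (1 + a^(2r))`. -/

namespace Vale.Agent.P319

open scoped ComplexConjugate Real ContDiff NumberField nonZeroDivisors Topology
open MeasureTheory Filter Set

variable {K : Type} [Field K] [NumberField K] [Stp K]

theorem FT_eq_chr (f : (Pl K → ℂ) → ℂ) (ξ : K) : FT f (emb ξ) = ∫ z, f z * chr (-ξ) z := by
  simp only [FT, chr, emb, ev, map_neg, mul_neg, mul_comm]

private theorem coord_bd {I : FI K} (c : Coord I) :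
    ∃ A : ℝ, 1 ≤ A ∧ ∀ x, ‖x‖ ≤ A * ‖c.L x‖ := by
  refine ⟨max 1 ‖(c.L.symm : (Pl K → ℂ) →L[ℝ] (Fin (2 * rr K) → ℝ))‖, le_max_left _ _, fun x => ?_⟩
  have h := (c.L.symm : (Pl K → ℂ) →L[ℝ] (Fin (2 * rr K) → ℝ)).le_opNorm (c.L x)
  simp only [ContinuousLinearEquiv.coe_coe, ContinuousLinearEquiv.symm_apply_apply] at h
  exact h.trans (mul_le_mul_of_nonneg_right (le_max_right _ _) (norm_nonneg _))

private theorem div_pow_le {C A a b : ℝ} (n : ℕ) (hC : 0 ≤ C) (ha : 0 ≤ a) (hb : 0 ≤ b)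
    (h : 1 + b ≤ A * (1 + a)) : C / (1 + a) ^ n ≤ C * A ^ n / (1 + b) ^ n := by
  rw [div_le_div_iff₀ (by positivity) (by positivity), mul_assoc, ← mul_pow]
  exact mul_le_mul_of_nonneg_left (pow_le_pow_left₀ (by positivity) h n) hC

private theorem nonneg_of_bd {f : (Pl K → ℂ) → ℂ} {C : ℝ} {n : ℕ}
    (hb : ∀ x, ‖f x‖ ≤ C / (1 + ‖x‖) ^ n) : 0 ≤ C := by
  have := (norm_nonneg _).trans (hb 0)
  simpa using this

theorem pois : PoisStmt K := by
  intro I f C hI hf hb hs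
  obtain ⟨c⟩ := exists_coord hI
  obtain ⟨A, hA, hA'⟩ := coord_bd c
  have hC := nonneg_of_bd hb
  have hv : ((cvol I : ℝ) : ℂ) ≠ 0 := Complex.ofReal_ne_zero.2 (cvol_pos hI).ne'
  have key : ∀ m : Fin (2 * rr K) → ℤ,
      ∫ x, f (c.L x) * Complex.exp (-(2 * π * Complex.I * ((∑ i, x i * m i : ℝ) : ℂ))) =
        ((cvol I : ℝ) : ℂ)⁻¹ * FT f (emb (c.e' m : K)) := by
    intro m
    rw [FT_eq_chr, c.integral_eq hI, Complex.real_smul, inv_mul_cancel_left₀ hv]
    refine integral_congr_ae (Eventually.of_forall fun x => ?_)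
    simp only [← conj_chr, c.chr_e', ← Complex.exp_conj, map_mul, Complex.conj_ofReal,
      Complex.conj_I, map_ofNat, mul_neg, neg_mul]
  have h := pois_zn (fun x => f (c.L x)) (C * A ^ (2 * rr K + 1)) (hf.comp c.L.continuous)
    (fun x => (hb _).trans (div_pow_le _ hC (norm_nonneg _) (norm_nonneg _)
      (by have := hA' x; linarith)))
    (by
      simp only [key]
      exact ((c.e'.summable_iff (f := fun ξ : dl I => FT f (emb (ξ : K)))).2 hs).mul_left _)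
  simp only [key, ← c.emb_e] at h
  rw [tsum_mul_left, c.e'.tsum_eq (fun ξ : dl I => FT f (emb (ξ : K))),
    c.e.tsum_eq (fun x : I => f (emb (x : K)))] at h
  exact h

theorem FT_shift (f : (Pl K → ℂ) → ℂ) (z : Pl K → ℂ) (ξ : K) :
    FT (fun x => f (x + z)) (emb ξ) = FT f (emb ξ) * chr ξ z := by
  rw [FT_eq_chr, FT_eq_chr, ← integral_add_right_eq_self (fun y => f y * chr (-ξ) y) z,
    ← integral_mul_const]
  refine integral_congr_ae (Eventually.of_forall fun x => ?_)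
  have h : chr (-ξ) z * chr ξ z = 1 := by rw [← chr_add, neg_add_cancel, chr_zero]
  simp only [chr_add_right]
  linear_combination (-(f (x + z) * chr (-ξ) x)) * h

theorem pois_shift {I : FI K} (hI : I ≠ 0) {f : (Pl K → ℂ) → ℂ} {C : ℝ} (hf : Continuous f)
    (hb : ∀ x, ‖f x‖ ≤ C / (1 + ‖x‖) ^ (2 * rr K + 1))
    (hs : Summable fun ξ : dl I => FT f (emb (ξ : K))) (z : Pl K → ℂ) :
    ∑' x : I, f (emb (x : K) + z) =
      ((cvol I : ℝ) : ℂ)⁻¹ * ∑' ξ : dl I, FT f (emb (ξ : K)) * chr (ξ : K) z := by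
  have hC := nonneg_of_bd hb
  have h := pois I (fun x => f (x + z)) (C * (1 + ‖z‖) ^ (2 * rr K + 1)) hI
    (hf.comp (continuous_id.add continuous_const))
    (fun x => (hb _).trans (div_pow_le _ hC (norm_nonneg _) (norm_nonneg _) (by
      have h1 := norm_sub_le (x + z) z
      rw [add_sub_cancel_right] at h1
      nlinarith [norm_nonneg z, norm_nonneg (x + z)])))
    (by
      simp only [FT_shift]
      refine Summable.of_norm ?_
      simp only [norm_mul, norm_chr, mul_one]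
      exact hs.norm)
  simp only [FT_shift] at h
  exact h

theorem countable_FI (I : FI K) : Countable I := by
  by_cases hI : I = 0
  · have : Subsingleton I := ⟨fun x y => Subtype.ext (by
      have hx := x.2
      have hy := y.2
      subst hI
      rw [(FractionalIdeal.mem_zero_iff _).1 hx, (FractionalIdeal.mem_zero_iff _).1 hy])⟩
    infer_instance
  · obtain ⟨c⟩ := exists_coord hI
    exact c.e.symm.injective.countable

theorem tsum_lat_le {I : FI K} (hI : I ≠ 0) : ∃ C : ℝ, ∀ z : Pl K → ℂ,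
    Summable (fun x : I => 1 / (1 + ‖emb (x : K) + z‖) ^ (2 * rr K + 1)) ∧
      ∑' x : I, 1 / (1 + ‖emb (x : K) + z‖) ^ (2 * rr K + 1) ≤ C := by
  obtain ⟨c⟩ := exists_coord hI
  obtain ⟨A, hA, hA'⟩ := coord_bd c
  obtain ⟨C, hC⟩ := tsum_zn_le (2 * rr K)
  refine ⟨A ^ (2 * rr K + 1) * C, fun z => ?_⟩
  obtain ⟨h1, h2⟩ := hC (c.L.symm z)
  have h3 : ∀ m : Fin (2 * rr K) → ℤ, 1 / (1 + ‖emb (c.e m : K) + z‖) ^ (2 * rr K + 1) ≤
      A ^ (2 * rr K + 1) * (1 / (1 + ‖(fun i => (m i : ℝ)) + c.L.symm z‖) ^ (2 * rr K + 1)) := by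
    intro m
    have h4 := hA' ((fun i => (m i : ℝ)) + c.L.symm z)
    rw [map_add, c.L.apply_symm_apply, ← c.emb_e] at h4
    rw [mul_one_div, ← one_mul (A ^ _)]
    exact div_pow_le _ zero_le_one (norm_nonneg _) (norm_nonneg _) (by linarith)
  have h5 : Summable fun m : Fin (2 * rr K) → ℤ =>
      1 / (1 + ‖emb (c.e m : K) + z‖) ^ (2 * rr K + 1) :=
    Summable.of_nonneg_of_le (fun m => by positivity) h3 (h1.mul_left _)
  refine ⟨(c.e.summable_iff
    (f := fun x : I => 1 / (1 + ‖emb (x : K) + z‖) ^ (2 * rr K + 1))).1 h5, ?_⟩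
  refine (c.e.tsum_eq (fun x : I => 1 / (1 + ‖emb (x : K) + z‖) ^ (2 * rr K + 1))).symm.trans_le
    ((h5.tsum_le_tsum h3 (h1.mul_left _)).trans ?_)
  rw [tsum_mul_left]
  exact mul_le_mul_of_nonneg_left h2 (by positivity)

theorem card_ball_le (I : FI K) : ∃ C : ℝ, 0 < C ∧ ∀ (z : Pl K → ℂ) (ρ : ℝ) (s : Finset K), 0 ≤ ρ →
    (∀ x ∈ s, x ∈ I ∧ ‖emb x - z‖ ≤ ρ) → (s.card : ℝ) ≤ C * (1 + ρ) ^ (2 * rr K) := by
  classical
  by_cases hI : I = 0
  · refine ⟨1, one_pos, fun z ρ s hρ hs => ?_⟩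
    have h1 : s.card ≤ 1 := Finset.card_le_one.2 fun x hx y hy => by
      have hx' := (hs x hx).1
      have hy' := (hs y hy).1
      subst hI
      rw [(FractionalIdeal.mem_zero_iff _).1 hx', (FractionalIdeal.mem_zero_iff _).1 hy']
    have h2 : (s.card : ℝ) ≤ 1 := by exact_mod_cast h1
    rw [one_mul]
    exact h2.trans (one_le_pow₀ (by linarith))
  obtain ⟨c⟩ := exists_coord hI
  obtain ⟨A, hA, hA'⟩ := coord_bd c
  refine ⟨(2 * A) ^ (2 * rr K), by positivity, fun z ρ s hρ hs => ?_⟩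
  have h1 : s ⊆ (Fintype.piFinset fun i =>
      Finset.Icc ⌈c.L.symm z i - A * ρ⌉ ⌊c.L.symm z i + A * ρ⌋).image fun m => (c.e m : K) := by
    intro x hx
    obtain ⟨m, hm⟩ := c.e.surjective ⟨x, (hs x hx).1⟩
    have hm' : (c.e m : K) = x := congrArg Subtype.val hm
    refine Finset.mem_image.2 ⟨m, Fintype.mem_piFinset.2 fun i => ?_, hm'⟩
    have h2 := hA' ((fun i => (m i : ℝ)) - c.L.symm z)
    rw [map_sub, c.L.apply_symm_apply, ← c.emb_e, hm'] at h2
    have h3 := (norm_le_pi_norm _ i).trans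
      (h2.trans (mul_le_mul_of_nonneg_left (hs x hx).2 (by linarith)))
    rw [Pi.sub_apply, Real.norm_eq_abs, abs_le] at h3
    rw [Finset.mem_Icc, Int.ceil_le, Int.le_floor]
    constructor <;> linarith [h3.1, h3.2]
  have h2 := (Finset.card_le_card h1).trans Finset.card_image_le
  rw [Fintype.card_piFinset] at h2
  have h3 : (s.card : ℝ) ≤ ∏ i : Fin (2 * rr K),
      ((Finset.Icc ⌈c.L.symm z i - A * ρ⌉ ⌊c.L.symm z i + A * ρ⌋).card : ℝ) := by
    exact_mod_cast h2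
  refine h3.trans ?_
  rw [← mul_pow]
  refine (Finset.prod_le_prod (g := fun _ => 2 * A * (1 + ρ)) (fun i _ => Nat.cast_nonneg _)
    fun i _ => ?_).trans (by simp)
  have h4 := Int.floor_le (c.L.symm z i + A * ρ)
  have h5 := Int.le_ceil (c.L.symm z i - A * ρ)
  have h6 : 0 ≤ A * ρ := by positivity
  rw [Int.card_Icc]
  rcases le_total 0 (⌊c.L.symm z i + A * ρ⌋ + 1 - ⌈c.L.symm z i - A * ρ⌉) with h | h
  · have h7 : (((⌊c.L.symm z i + A * ρ⌋ + 1 - ⌈c.L.symm z i - A * ρ⌉).toNat : ℤ) : ℝ) = _ :=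
      congrArg Int.cast (Int.toNat_of_nonneg h)
    push_cast at h7
    rw [h7]
    linarith
  · rw [Int.toNat_of_nonpos h, Nat.cast_zero]
    positivity

theorem card_box_le (I : FI K) : ∃ C : ℝ, 0 < C ∧ ∀ (z : Pl K → ℂ) (ρ : Pl K → ℝ) (s : Finset K),
    (∀ v, 0 < ρ v) → (∀ x ∈ s, x ∈ I ∧ ∀ v, ‖ev v x - z v‖ ≤ ρ v) →
      (s.card : ℝ) ≤ C * (1 + ∏ v, ρ v ^ 2) := by
  classical
  obtain ⟨C, hC, h1⟩ := card_ball_le I
  obtain ⟨T, hT⟩ := balanced_vec (K := K) one_pos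
  have hT0 : 0 ≤ T := by
    obtain ⟨u, -, hu⟩ := hT 0
    exact (abs_nonneg _).trans (hu (v0 K))
  refine ⟨C * 2 ^ (2 * rr K - 1) * Real.exp (rr K * T), by positivity, fun z ρ s hρ hs => ?_⟩
  obtain ⟨u, hu, h2⟩ := hT fun v => Real.log (ρ v ^ 2)
  have hu0 := unit_ne_zero u
  obtain ⟨a, ha⟩ : ∃ a, a = Real.exp ((T + (∑ v, Real.log (ρ v ^ 2)) / rr K) / 2) := ⟨_, rfl⟩
  have ha0 : 0 < a := ha ▸ Real.exp_pos _
  have ha2 : a ^ 2 = Real.exp (T + (∑ v, Real.log (ρ v ^ 2)) / rr K) := by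
    rw [ha, ← Real.exp_nat_mul]
    congr 1
    push_cast
    ring
  have h3 : ∀ v, ‖ev v ((u : R K) : K)‖ * ρ v ≤ a := by
    intro v
    have h4 := (abs_le.1 (h2 v)).2
    have h5 : 0 < ρ v ^ 2 := pow_pos (hρ v) 2
    refine (pow_le_pow_iff_left₀ (mul_nonneg (norm_nonneg _) (hρ v).le) ha0.le two_ne_zero).1 ?_
    rw [mul_pow, ← exp_lg v hu0, ← Real.exp_log h5, ← Real.exp_add, ha2]
    exact Real.exp_le_exp.2 (by linarith)
  have h4 : a ^ (2 * rr K) = Real.exp (rr K * T) * ∏ v, ρ v ^ 2 := by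
    have hr : (rr K : ℝ) ≠ 0 := Nat.cast_ne_zero.2 rr_pos.ne'
    rw [pow_mul, ha2, ← Real.exp_nat_mul, mul_add, Real.exp_add, mul_div_cancel₀ _ hr,
      Real.exp_sum]
    congr 1
    exact Finset.prod_congr rfl fun v _ => Real.exp_log (pow_pos (hρ v) 2)
  have h5 := h1 (fun v => ev v ((u : R K) : K) * z v) a (s.image fun x => ((u : R K) : K) * x)
    ha0.le (by
      intro y hy
      obtain ⟨x, hx, rfl⟩ := Finset.mem_image.1 hy
      refine ⟨(EU_mul_mem hu).2 (hs x hx).1, (pi_norm_le_iff_of_nonneg ha0.le).2 fun v => ?_⟩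
      have h6 : (emb (((u : R K) : K) * x) - fun v => ev v ((u : R K) : K) * z v) v =
          ev v ((u : R K) : K) * (ev v x - z v) := by
        simp only [Pi.sub_apply, emb, ev, map_mul, mul_sub]
      rw [h6, norm_mul]
      exact (mul_le_mul_of_nonneg_left ((hs x hx).2 v) (norm_nonneg _)).trans (h3 v))
  rw [Finset.card_image_of_injective _ (mul_right_injective₀ hu0)] at h5
  have h6 := add_pow_le zero_le_one ha0.le (2 * rr K)
  rw [one_pow, h4] at h6
  have h7 : 1 ≤ Real.exp (rr K * T) := Real.one_le_exp (by positivity)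
  refine h5.trans ?_
  rw [mul_assoc, mul_assoc]
  refine mul_le_mul_of_nonneg_left (h6.trans ?_) hC.le
  exact mul_le_mul_of_nonneg_left (by linarith) (by positivity)

theorem finite_ball (I : FI K) (ρ : ℝ) : {x : K | x ∈ I ∧ ‖emb x‖ ≤ ρ}.Finite := by
  obtain ⟨C, -, h1⟩ := card_ball_le I
  by_contra h
  obtain ⟨n, hn⟩ := exists_nat_gt (C * (1 + |ρ|) ^ (2 * rr K))
  obtain ⟨t, ht, ht'⟩ := Set.Infinite.exists_subset_card_eq h n
  have := h1 0 |ρ| t (abs_nonneg _) fun x hx =>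
    ⟨(ht hx).1, by rw [sub_zero]; exact (ht hx).2.trans (le_abs_self _)⟩
  rw [ht'] at this
  linarith

end Vale.Agent.P319
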