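import Vale.Agent.P319.N.LatVol

/-! # P319 LAT: tiles, orthogonality, Parseval (port of P026 ThCTile, ThCPars).
PLAN.  `exists_par`: `P = c.L '' (0,1]^n` for `c : Coord 𝔪`; copy `orth9`, `parseval9` with `prL := c.L`, `prE := ± c.e'`.
`hasSum_tile`, `bessel`: as in P026.  `measurePreserving_shiftK`: `measurePreserving_pi` of the one place statement
(`hmu` is invariant under `(z, v) ↦ (z + a, v)`; it is sigma-finite).  `Tile.volume_eq`: two fundamental sets. -/

namespace Vale.Agent.P319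

open scoped ComplexConjugate Real ContDiff NumberField nonZeroDivisors Topology
open MeasureTheory Filter Set

variable {K : Type} [Field K] [NumberField K] [Stp K]

private theorem ind_of {p : Prop} (h : p) : ind p = 1 := by simp [ind, h]
private theorem ind_of_not {p : Prop} (h : ¬p) : ind p = 0 := by simp [ind, h]
private theorem ind_congr {p q : Prop} (h : p ↔ q) : ind p = ind q := by rw [propext h]

/-- the unit box -/
private def tBox (n : ℕ) : Set (Fin n → ℝ) :=
  {x | ∀ i, x i ∈ Ioc ((0 : Fin n → ℝ) i) ((0 : Fin n → ℝ) i + 1)}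

private theorem tBox_eq (n : ℕ) : tBox n = univ.pi fun _ => Ioc 0 1 := by
  ext x
  simp [tBox]

private theorem tBox_meas (n : ℕ) : MeasurableSet (tBox n) :=
  tBox_eq n ▸ MeasurableSet.univ_pi fun _ => measurableSet_Ioc

private theorem coord_int {V : Type} [NormedAddCommGroup V] [NormedSpace ℝ V] {I : FI K} (hI : I ≠ 0)
    (c : Coord I) (g : (Pl K → ℂ) → V) :
    ∫ z in c.L.symm ⁻¹' tBox _, g z = cvol I • ∫ x in tBox _, g (c.L x) := by
  rw [← integral_indicator ((tBox_meas _).preimage c.L.symm.continuous.measurable),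
    c.integral_eq hI, ← integral_indicator (tBox_meas _)]
  congr 1
  refine integral_congr_ae (Eventually.of_forall fun x => ?_)
  beta_reduce
  by_cases hx : x ∈ tBox _
  · rw [indicator_of_mem hx, indicator_of_mem (by simpa using hx)]
  · rw [indicator_of_notMem hx, indicator_of_notMem (by simpa using hx)]

private theorem coord_char {I : FI K} (c : Coord I) (m : Fin (2 * rr K) → ℤ)
    (x : Fin (2 * rr K) → ℝ) :
    chr (c.e' m : K) (c.L x) = UnitAddTorus.mFourier m fun i => x i := by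
  rw [c.chr_e', UnitAddTorus.mFourier, ContinuousMap.coe_mk]
  simp only [fourier_coe_apply, ← Complex.exp_sum]
  congr 1
  push_cast
  rw [Finset.mul_sum]
  exact Finset.sum_congr rfl fun i _ => by ring

private theorem box_orth {n : ℕ} (m : Fin n → ℤ) :
    ∫ x in tBox n, UnitAddTorus.mFourier m (fun i => x i) = ind (m = 0) := by
  let _ : MeasureSpace UnitAddCircle := ⟨AddCircle.haarAddCircle⟩
  have k := orthonormal_iff_ite.1 UnitAddTorus.orthonormal_mFourier 0 m
  simp only [ContinuousMap.inner_toLp, UnitAddTorus.mFourier_zero, ContinuousMap.one_apply,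
    map_one, mul_one] at k
  rw [UnitAddTorus.integral_preimage _ 0] at k
  rw [tBox, k]
  by_cases h : m = 0
  · rw [ind_of h, if_pos h.symm]
  · rw [ind_of_not h, if_neg (Ne.symm h)]

theorem exists_par {𝔪 : Ideal (𝓞 K)} (h : 𝔪 ≠ ⊥) : ∃ P, Par 𝔪 P := by
  have hI : (𝔪 : FI K) ≠ 0 := FractionalIdeal.coeIdeal_ne_zero.2 h
  obtain ⟨c⟩ := exists_coord hI
  have hm := (tBox_meas (2 * rr K)).preimage c.L.symm.continuous.measurable
  have hv := cvol_pos hI
  refine ⟨c.L.symm ⁻¹' tBox _, ⟨hm, ⟨‖(c.L : (Fin (2 * rr K) → ℝ) →L[ℝ] (Pl K → ℂ))‖ * 1,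
    fun z hz => ?_⟩, fun z => ?_⟩, ?_, fun ν hν => ?_, fun f B hf hB => ?_⟩
  · rw [← c.L.apply_symm_apply z]
    refine (c.L : (Fin (2 * rr K) → ℝ) →L[ℝ] (Pl K → ℂ)).le_opNorm_of_le ?_
    rw [pi_norm_le_iff_of_nonneg zero_le_one]
    intro i
    have := hz i
    simp only [Pi.zero_apply, zero_add, mem_Ioc] at this
    rw [Real.norm_of_nonneg this.1.le]
    exact this.2
  · have h1 : ∀ m, z + emb (c.e m : K) ∈ c.L.symm ⁻¹' tBox _ ↔
        ∀ i, c.L.symm z i + m i • (1 : ℝ) ∈ Ioc (0 : ℝ) (0 + 1) := fun m => by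
      rw [c.emb_e]
      simp [tBox]
    choose m hm1 hm2 using fun i => existsUnique_add_zsmul_mem_Ioc one_pos (c.L.symm z i) 0
    obtain ⟨y, hy, hy'⟩ := (FractionalIdeal.mem_coeIdeal _).1 (c.e m).2
    refine ⟨y, ⟨hy, ?_⟩, fun w hw => ?_⟩
    · rw [NumberField.RingOfIntegers.coe_eq_algebraMap, hy', h1]
      exact hm1
    · obtain ⟨m', hm'⟩ := c.e.surjective ⟨w, FractionalIdeal.mem_coeIdeal_of_mem _ hw.1⟩
      have h2 : (w : K) = c.e m' := by rw [hm']
      have h3 := hw.2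
      rw [h2, h1] at h3
      apply NumberField.RingOfIntegers.coe_injective
      rw [hy', ← funext fun i => hm2 i _ (h3 i)]
      exact h2
  · rw [c.volume_eq hI, Measure.smul_apply, Measure.map_apply c.L.continuous.measurable hm,
      ← preimage_comp, c.L.symm_comp_self, preimage_id, tBox_eq, Real.volume_pi_Ioc]
    simp
  · have h0 : ∀ m, ∫ z in c.L.symm ⁻¹' tBox _, chr (c.e' m : K) z =
        ind (m = 0) * cvol (𝔪 : FI K) := fun m => by
      simp only [coord_int hI, coord_char, box_orth]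
      rw [Complex.real_smul, mul_comm]
    have h1 : ∀ m, (c.e' m : K) = 0 → m = 0 := fun m hm => by
      by_contra h2
      have h3 := h0 m
      have h4 := box_orth (n := 2 * rr K) 0
      simp only [UnitAddTorus.mFourier_zero, ContinuousMap.one_apply] at h4
      simp only [hm, chr_zero, coord_int hI, h4, ind_of_not h2] at h3
      simp [hv.ne', ind] at h3
    obtain ⟨m, hm⟩ := c.e'.surjective ⟨ν, hν⟩
    obtain rfl : (c.e' m : K) = ν := by rw [hm]
    rw [h0]
    congr 1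
    refine ind_congr ⟨?_, h1 m⟩
    rintro rfl
    obtain ⟨m, hm⟩ := c.e'.surjective ⟨0, FractionalIdeal.zero_mem _⟩
    have h2 : (c.e' m : K) = 0 := by rw [hm]
    rwa [h1 m h2] at h2
  · let _ : MeasureSpace UnitAddCircle := ⟨AddCircle.haarAddCircle⟩
    have _ : IsProbabilityMeasure (volume : Measure UnitAddCircle) :=
      inferInstanceAs (IsProbabilityMeasure AddCircle.haarAddCircle)
    let F : UnitAddTorus (Fin (2 * rr K)) → ℂ :=
      fun t => f (c.L (UnitAddTorus.measurableEquivPiIoc 0 t).1)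
    have hF : MemLp F 2 volume := MemLp.of_bound (hf.comp (c.L.continuous.measurable.comp
      (measurable_subtype_coe.comp (MeasurableEquiv.measurable _)))).aestronglyMeasurable B
      (Eventually.of_forall fun t => hB _)
    have e : ∀ x ∈ tBox _, F (fun i => x i) = f (c.L x) := fun x hx =>
      congrArg (fun y => f (c.L y.1))
        ((UnitAddTorus.measurableEquivPiIoc 0).apply_symm_apply ⟨x, hx⟩)
    have hb := tBox_meas (2 * rr K)
    have k := ((Equiv.neg _).hasSum_iff.2 (UnitAddTorus.hasSum_sq_mFourierCoeff hF.toLp)).mul_left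
      (cvol (𝔪 : FI K) ^ 2)
    have e2 : ∫ t, ‖hF.toLp F t‖ ^ 2 = ∫ x in tBox _, ‖f (c.L x)‖ ^ 2 :=
      (integral_congr_ae (hF.coeFn_toLp.mono fun t ht => congrArg (‖·‖ ^ 2) ht)).trans
        ((UnitAddTorus.integral_preimage _ 0).trans
          (setIntegral_congr_fun hb fun x hx => congrArg (‖·‖ ^ 2) (e x hx)))
    rw [coord_int hI, smul_eq_mul, ← mul_assoc, ← sq, ← e2]
    refine c.e'.hasSum_iff.1 (k.congr_fun fun m => ?_)
    have e1 : UnitAddTorus.mFourierCoeff (hF.toLp F) (-m) = UnitAddTorus.mFourierCoeff F (-m) :=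
      integral_congr_ae (hF.coeFn_toLp.mono fun t ht => by simp only [ht])
    rw [Function.comp, Function.comp, Equiv.neg_apply, e1,
      UnitAddTorus.mFourierCoeff_eq_integral _ _ 0, coord_int hI, norm_smul, mul_pow,
      Real.norm_of_nonneg hv.le]
    congr 3
    refine setIntegral_congr_fun hb fun x hx => ?_
    simp only [e x hx, coord_char, smul_eq_mul, mul_comm, neg_neg]


theorem par_spec {𝔪 : Ideal (𝓞 K)} (h : 𝔪 ≠ ⊥) : Par 𝔪 (par 𝔪) := Classical.epsilon_spec (exists_par h)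

theorem tile_par {𝔪 : Ideal (𝓞 K)} (h : 𝔪 ≠ ⊥) : Tile 𝔪 (par 𝔪) := (par_spec h).1

omit [Stp K] in
theorem coe_FI_ne_zero {𝔪 : Ideal (𝓞 K)} (h : 𝔪 ≠ ⊥) : (𝔪 : FI K) ≠ 0 :=
  FractionalIdeal.coeIdeal_ne_zero.2 h

theorem chr_periodic {𝔪 : Ideal (𝓞 K)} (h : 𝔪 ≠ ⊥) {ν : K} (hν : ν ∈ dl (𝔪 : FI K)) {y : 𝓞 K} (hy : y ∈ 𝔪)
    (z : Pl K → ℂ) : chr ν (z + emb (y : K)) = chr ν z := by
  rw [chr_add_right, chr_emb, (mem_dual_iff (coe_FI_ne_zero h)).1 hν _
    (FractionalIdeal.mem_coeIdeal_of_mem _ hy), mul_one]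


omit [Stp K] in
theorem tile_countable : Countable (𝓞 K) := Finsupp.Countable.of_moduleFinite (R := ℤ)

/-- the pieces of the tiling -/
theorem Tile.pieces {𝔪 : Ideal (𝓞 K)} {P : Set (Pl K → ℂ)} (hP : Tile 𝔪 P) (z : Pl K → ℂ) :
    ∃! y : 𝔪, z - emb ((y : 𝓞 K) : K) ∈ P := by
  obtain ⟨y, ⟨hy, h⟩, h'⟩ := hP.2.2 z
  refine ⟨⟨-y, 𝔪.neg_mem hy⟩, by simpa [emb_neg] using h, fun w hw => Subtype.ext ?_⟩
  have := h' (-w) ⟨𝔪.neg_mem w.2, by simpa [emb_neg, ← sub_eq_add_neg] using hw⟩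
  exact neg_eq_iff_eq_neg.1 this

theorem Tile.hasSum' {X V : Type} [MeasurableSpace X] {μ : Measure X} [NormedAddCommGroup V]
    [NormedSpace ℝ V] {𝔪 : Ideal (𝓞 K)} {P : Set (Pl K → ℂ)} (hP : Tile 𝔪 P) {p : X → Pl K → ℂ}
    (hp : Measurable p) {G : X → V} (hG : Integrable G μ) :
    HasSum (fun y : 𝔪 => ∫ w in {w | p w - emb ((y : 𝓞 K) : K) ∈ P}, G w ∂μ) (∫ w, G w ∂μ) := by
  have := tile_countable (K := K)
  have hu : ⋃ y : 𝔪, {w | p w - emb ((y : 𝓞 K) : K) ∈ P} = univ :=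
    eq_univ_of_forall fun w => mem_iUnion.2 (hP.pieces (p w)).exists
  have k := hasSum_integral_iUnion (μ := μ) (f := G)
    (s := fun y : 𝔪 => {w | p w - emb ((y : 𝓞 K) : K) ∈ P})
    (fun y => hP.1.preimage (hp.sub_const _))
    (fun x y hxy => disjoint_left.2 fun w hx hy => hxy ((hP.pieces (p w)).unique hx hy))
    hG.integrableOn
  rwa [hu, setIntegral_univ] at k

theorem Tile.hasSum {V : Type} [NormedAddCommGroup V] [NormedSpace ℝ V] {𝔪 : Ideal (𝓞 K)}
    {P : Set (Pl K → ℂ)} (hP : Tile 𝔪 P) {G : (Pl K → ℂ) → V} (hG : Integrable G) :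
    HasSum (fun y : 𝔪 => ∫ z in P, G (z + emb ((y : 𝓞 K) : K))) (∫ z, G z) := by
  refine (hP.hasSum' measurable_id hG).congr_fun fun y => ?_
  refine Eq.trans ?_ ((measurePreserving_add_right volume
    (emb ((y : 𝓞 K) : K))).setIntegral_preimage_emb (measurableEmbedding_addRight _) _ _)
  congr 2
  ext z
  simp


theorem Tile.lintegral {𝔪 : Ideal (𝓞 K)} {P : Set (Pl K → ℂ)} (hP : Tile 𝔪 P)
    (G : (Pl K → ℂ) → ENNReal) :
    ∫⁻ z, G z = ∑' y : 𝔪, ∫⁻ z in P, G (z + emb ((y : 𝓞 K) : K)) := by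
  have := tile_countable (K := K)
  have hu : ⋃ y : 𝔪, {w | w - emb ((y : 𝓞 K) : K) ∈ P} = univ :=
    eq_univ_of_forall fun w => mem_iUnion.2 (hP.pieces w).exists
  rw [← setLIntegral_univ, ← hu, lintegral_iUnion
    (s := fun y : 𝔪 => {w | w - emb ((y : 𝓞 K) : K) ∈ P})
    (fun y => hP.1.preimage (measurable_sub_const _)) (fun x y hxy =>
     disjoint_left.2 fun w hx hy => hxy ((hP.pieces w).unique hx hy))]
  refine tsum_congr fun y => ?_
  refine ((measurePreserving_add_right volume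
    (emb ((y : 𝓞 K) : K))).setLIntegral_comp_preimage_emb (measurableEmbedding_addRight _) _ _).symm.trans
    ?_
  congr 2
  ext z
  simp


/-- the translation action -/
@[reducible] private noncomputable def tact (𝔪 : Ideal (𝓞 K)) : AddAction 𝔪 (Pl K → ℂ) where
  vadd y z := z + emb ((y : 𝓞 K) : K)
  zero_vadd z := by
    change z + emb (((0 : 𝓞 K)) : K) = z
    simp [emb_zero]
  add_vadd x y z := by
    change z + emb (((x + y : 𝓞 K)) : K) = z + emb ((y : 𝓞 K) : K) + emb ((x : 𝓞 K) : K)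
    rw [add_assoc, ← emb_add, add_comm (x : 𝓞 K)]
    simp

theorem Tile.compare {𝔪 : Ideal (𝓞 K)} {P Q : Set (Pl K → ℂ)} (hP : Tile 𝔪 P) (hQ : Tile 𝔪 Q) :
    volume P = volume Q ∧ ∀ f : (Pl K → ℂ) → ℂ, (∀ y ∈ 𝔪, ∀ z, f (z + emb (y : K)) = f z) →
      ∫ z in P, f z = ∫ z in Q, f z := by
  have := tile_countable (K := K)
  let := tact 𝔪
  have : MeasurableConstVAdd 𝔪 (Pl K → ℂ) := ⟨fun y => measurable_add_const _⟩
  have : VAddInvariantMeasure 𝔪 (Pl K → ℂ) volume := ⟨fun y s _ => measure_preimage_add_right _ _ s⟩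
  have key : ∀ {P : Set (Pl K → ℂ)}, Tile 𝔪 P → IsAddFundamentalDomain 𝔪 P volume := fun hP =>
    IsAddFundamentalDomain.mk' hP.1.nullMeasurableSet fun z => by
      obtain ⟨y, ⟨hy, h⟩, h'⟩ := hP.2.2 z
      exact ⟨⟨y, hy⟩, h, fun w hw => Subtype.ext (h' w ⟨w.2, hw⟩)⟩
  exact ⟨(key hP).measure_eq (key hQ), fun f hf =>
    (key hP).setIntegral_eq (key hQ) fun y z => hf y y.2 z⟩

theorem Tile.volume_eq {𝔪 : Ideal (𝓞 K)} (h : 𝔪 ≠ ⊥) {P : Set (Pl K → ℂ)} (hP : Tile 𝔪 P) :
    volume P = ENNReal.ofReal (cvol (𝔪 : FI K)) := by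
  exact (hP.compare (tile_par h)).1.trans (par_spec h).2.1


theorem Tile.orth {𝔪 : Ideal (𝓞 K)} (h : 𝔪 ≠ ⊥) {P : Set (Pl K → ℂ)} (hP : Tile 𝔪 P) {ν : K}
    (hν : ν ∈ dl (𝔪 : FI K)) : ∫ z in P, chr ν z = ind (ν = 0) * cvol (𝔪 : FI K) := by
  exact ((hP.compare (tile_par h)).2 _ fun y hy z => chr_periodic h hν hy z).trans
    ((par_spec h).2.2.1 ν hν)


instance sigmaFinite_hmu : SigmaFinite hmu := by unfold hmu; infer_instance

theorem measurePreserving_shiftK (a : Pl K → ℂ) :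
    MeasurePreserving (fun (w : Hy K) v => ((w v).1 + a v, (w v).2)) (hmuK K) (hmuK K) := by
  refine measurePreserving_pi (fun _ => hmu) (fun _ => hmu)
    (f := fun v (w : ℂ × ℝ) => (w.1 + a v, w.2)) fun v => ?_
  have hm : Measurable fun w : ℂ × ℝ => (w.1 + a v, w.2) := by fun_prop
  have hd : Measurable fun w : ℂ × ℝ => ENNReal.ofReal (1 / w.2 ^ 3) := by fun_prop
  have h1 : MeasurePreserving (fun w : ℂ × ℝ => (w.1 + a v, w.2))
      (volume.restrict {w | 0 < w.2}) (volume.restrict {w | 0 < w.2}) := by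
    have h2 : MeasurePreserving (fun w : ℂ × ℝ => (w.1 + a v, w.2)) volume volume :=
      (measurePreserving_add_right volume (a v)).prod (MeasurePreserving.id volume)
    exact h2.restrict_preimage (s := {w | 0 < w.2}) (measurableSet_lt measurable_const measurable_snd)
  refine ⟨hm, Measure.ext_of_lintegral _ fun g hg => ?_⟩
  rw [lintegral_map hg hm, hmu, lintegral_withDensity_eq_lintegral_mul _ hd (hg.fun_comp hm),
    lintegral_withDensity_eq_lintegral_mul _ hd hg, ← h1.lintegral_comp (hd.mul hg)]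
  rfl


theorem hasSum_tile {𝔪 : Ideal (𝓞 K)} {P : Set (Pl K → ℂ)} (hP : Tile 𝔪 P) {G : Hy K → ℂ}
    (hG : Integrable G (hmuK K)) (a : Pl K → ℂ) :
    HasSum (fun y : 𝔪 => ∫ w, P.indicator (fun _ => (1 : ℂ)) (fun v => (w v).1) *
      G (fun v => ((w v).1 + a v + ev v ((y : 𝓞 K) : K), (w v).2)) ∂hmuK K) (∫ w, G w ∂hmuK K) := by
  have hp : Measurable fun (w : Hy K) v => (w v).1 - a v := by fun_prop
  refine (hP.hasSum' hp hG).congr_fun fun y => ?_
  have hS : MeasurableSet {w : Hy K | (fun v => (w v).1 - a v) - emb ((y : 𝓞 K) : K) ∈ P} :=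
    hP.1.preimage (hp.sub_const _)
  rw [← integral_indicator hS]
  refine Eq.trans (integral_congr_ae (Eventually.of_forall fun w => ?_))
    ((measurePreserving_shiftK (a + emb ((y : 𝓞 K) : K))).integral_comp
    (Homeomorph.piCongrRight fun v => (Homeomorph.addRight ((a + emb ((y : 𝓞 K) : K)) v)).prodCongr
      (Homeomorph.refl ℝ)).measurableEmbedding _)
  have e : (fun v => (w v).1 + (a + emb ((y : 𝓞 K) : K)) v - a v) - emb ((y : 𝓞 K) : K) =
      fun v => (w v).1 := funext fun v => by simp only [Pi.add_apply, Pi.sub_apply]; ring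
  beta_reduce
  by_cases hw : (fun v => (w v).1) ∈ P
  · rw [indicator_of_mem hw, indicator_of_mem (by rw [mem_ofPred_eq]; exact e.symm ▸ hw)]
    simp only [one_mul, add_assoc, Pi.add_apply, emb_apply]
  · rw [indicator_of_notMem hw, indicator_of_notMem (by rw [mem_ofPred_eq]; exact e.symm ▸ hw),
      zero_mul]


private theorem pr_int {E : Type*} [NormedAddCommGroup E] [MeasurableSpace E] [BorelSpace E]
    [SecondCountableTopology E] {P : Set (Pl K → ℂ)} (hP : volume P ≠ ⊤) {f : (Pl K → ℂ) → E}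
    (hf : Measurable f) {M : ℝ} (hM : ∀ z, ‖f z‖ ≤ M) : IntegrableOn f P :=
  Measure.integrableOn_of_bounded hP hf.aestronglyMeasurable (Eventually.of_forall hM)

private theorem pr_int' {P : Set (Pl K → ℂ)} (hP : volume P ≠ ⊤) {f : (Pl K → ℂ) → ℂ}
    (hf : Measurable f) {M : ℝ} (hM : ∀ z, ‖f z‖ ≤ M) (ν : K) :
    IntegrableOn (fun z => f z * chr ν z) P :=
  pr_int hP (hf.mul (continuous_chr ν).measurable) (M := M) fun z => by
    rw [norm_mul, norm_chr, mul_one]; exact hM z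

private theorem pr_step {P : Set (Pl K → ℂ)} (hP : volume P ≠ ⊤) {f : (Pl K → ℂ) → ℂ}
    (hf : Measurable f) {M : ℝ} (hM : ∀ z, ‖f z‖ ≤ M) (ν : K) (a : ℂ) :
    ∫ z in P, ‖f z - a * chr (-ν) z‖ ^ 2 = (∫ z in P, ‖f z‖ ^ 2) +
      (volume P).toReal * ‖a‖ ^ 2 - 2 * (conj a * ∫ z in P, f z * chr ν z).re := by
  have i1 : IntegrableOn (fun z => ‖f z‖ ^ 2) P :=
    pr_int hP (hf.norm.pow_const 2) (M := M ^ 2) fun z => by
      rw [norm_pow, norm_norm]
      exact pow_le_pow_left₀ (norm_nonneg _) (hM z) 2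
  have i2 : IntegrableOn (fun _ : Pl K → ℂ => ‖a‖ ^ 2) P := integrableOn_const hP
  have i3 := (pr_int' hP hf hM ν).const_mul (conj a)
  have i4 : IntegrableOn (fun z => ‖f z‖ ^ 2 + ‖a‖ ^ 2) P := i1.add i2
  have e : (volume P).toReal * ‖a‖ ^ 2 = ∫ _ in P, ‖a‖ ^ 2 := by
    rw [setIntegral_const]
    rfl
  rw [← integral_const_mul, ← RCLike.re_to_complex, ← integral_re i3, ← integral_const_mul, e,
    ← integral_add i1 i2, ← integral_sub i4 (i3.re.const_mul 2)]
  refine integral_congr_ae (Eventually.of_forall fun z => ?_)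
  simp only [Complex.sq_norm, Complex.normSq_sub, map_mul, conj_chr, neg_neg, RCLike.re_to_complex]
  rw [← Complex.sq_norm (chr _ _), norm_chr, mul_left_comm (f z)]
  ring

theorem bessel {𝔪 : Ideal (𝓞 K)} (h : 𝔪 ≠ ⊥) {P : Set (Pl K → ℂ)} (hP : Tile 𝔪 P)
    {f : (Pl K → ℂ) → ℂ} (hf : Measurable f) {B : ℝ} (hB : ∀ z, ‖f z‖ ≤ B) (t : Finset K)
    (ht : ∀ ν ∈ t, ν ∈ dl (𝔪 : FI K)) :
    ∫ z in P, ‖f z - ∑ ν ∈ t, (∫ z' in P, f z' * chr ν z') / cvol (𝔪 : FI K) * chr (-ν) z‖ ^ 2 =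
      (∫ z in P, ‖f z‖ ^ 2) - (∑ ν ∈ t, ‖∫ z in P, f z * chr ν z‖ ^ 2) / cvol (𝔪 : FI K) := by
  classical
  have hv := cvol_pos (coe_FI_ne_zero h)
  have hP1 : volume P ≠ ⊤ := by rw [hP.volume_eq h]; exact ENNReal.ofReal_ne_top
  have hP2 : (volume P).toReal = cvol (𝔪 : FI K) := by
    rw [hP.volume_eq h, ENNReal.toReal_ofReal hv.le]
  induction t using Finset.induction_on generalizing f B with
  | empty => simp
  | insert μ t hμ ih =>
    set a := (∫ z' in P, f z' * chr μ z') / cvol (𝔪 : FI K) with ha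
    have k := ih (f := fun z => f z - a * chr (-μ) z) (B := B + ‖a‖)
      (hf.sub ((continuous_chr _).measurable.const_mul a)) (fun z =>
        (norm_sub_le _ _).trans (by rw [norm_mul, norm_chr, mul_one]; linarith [hB z]))
      fun ν hν => ht ν (Finset.mem_insert_of_mem hν)
    have e : ∀ ν ∈ t, ∫ z in P, (f z - a * chr (-μ) z) * chr ν z =
        ∫ z in P, f z * chr ν z := fun ν hν => by
      have k0 := hP.orth h (ν := ν - μ) ((dl (𝔪 : FI K) : Submodule (𝓞 K) K).sub_mem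
        (ht ν (Finset.mem_insert_of_mem hν)) (ht μ (Finset.mem_insert_self _ _)))
      rw [ind_of_not (sub_ne_zero.2 (ne_of_mem_of_not_mem hν hμ)), zero_mul] at k0
      rw [← sub_zero (∫ z in P, f z * _), ← mul_zero a, ← k0, ← integral_const_mul,
        ← integral_sub (pr_int' hP1 hf hB ν) ((pr_int hP1 (continuous_chr _).measurable
          fun z => (norm_chr _ _).le).const_mul a)]
      refine integral_congr_ae (Eventually.of_forall fun z => ?_)
      beta_reduce
      rw [sub_mul, mul_assoc a, ← chr_add, neg_add_eq_sub]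
    rw [Finset.sum_congr rfl fun ν hν => by rw [e ν hν], pr_step hP1 hf hB, hP2] at k
    simp only [Finset.sum_insert hμ, ← ha, ← sub_sub]
    refine (integral_congr_ae (Eventually.of_forall fun z => ?_)).trans (k.trans ?_)
    · rw [Finset.sum_congr rfl fun ν hν => by rw [← e ν hν]]
    · rw [ha, map_div₀, Complex.conj_ofReal, div_mul_eq_mul_div, Complex.conj_mul',
        ← Complex.ofReal_pow, ← Complex.ofReal_div, Complex.ofReal_re, norm_div, Complex.norm_real,
        Real.norm_of_nonneg hv.le]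
      field_simp
      ring


end Vale.Agent.P319
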