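import Vale.Agent.P319.N.Defs

/-! BASE: the localisation `R = 𝓞 K [1/M]`, the contraction `idl n` of `(n)` to `𝓞 K`, the norm `nm`. -/

namespace Vale.Agent.P319

open scoped NumberField nonZeroDivisors

variable {K : Type} [Field K] [NumberField K] [Stp K]

theorem coe_injective : Function.Injective (algebraMap (R K) K) := IsFractionRing.injective _ _
theorem coe_inj {x y : R K} : (x : K) = (y : K) ↔ x = y := coe_injective.eq_iff
theorem coe_eq_zero {x : R K} : (x : K) = 0 ↔ x = 0 := map_eq_zero_iff _ coe_injective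
theorem coe_ne_zero {x : R K} (h : x ≠ 0) : (x : K) ≠ 0 := mt coe_eq_zero.1 h
theorem coe_unit_ne_zero (u : (R K)ˣ) : ((u : R K) : K) ≠ 0 := coe_ne_zero u.ne_zero
@[simp] theorem coe_int (t : 𝓞 K) : ((algebraMap (𝓞 K) (R K) t : R K) : K) = (t : K) :=
  (IsScalarTower.algebraMap_apply (𝓞 K) (R K) K t).symm
theorem coe_mem (x : R K) : (x : K) ∈ RS K := (mem_RS_iff K _).2 ⟨x, rfl⟩
theorem int_mem (t : 𝓞 K) : (t : K) ∈ RS K := (mem_RS_iff K _).2 ⟨_, coe_int t⟩
theorem coe_unit_inv (u : (R K)ˣ) : (((u⁻¹ : (R K)ˣ) : R K) : K) = ((u : R K) : K)⁻¹ :=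
  eq_inv_of_mul_eq_one_left (by rw [← map_mul, Units.inv_mul, map_one])
theorem int_ne_zero {t : 𝓞 K} (h : t ≠ 0) : algebraMap (𝓞 K) (R K) t ≠ 0 :=
  (map_ne_zero_iff _ (algebraMap_R_injective K)).2 h

instance : CharZero (R K) := (algebraMap (R K) K).charZero

theorem M_ne_zero : (MM K : K) ≠ 0 := Nat.cast_ne_zero.2 Stp.M_ne
theorem M_int_ne_zero : (MM K : 𝓞 K) ≠ 0 := Nat.cast_ne_zero.2 Stp.M_ne
theorem six_le_M : 6 ≤ MM K := Nat.le_of_dvd (Nat.pos_of_ne_zero Stp.M_ne) Stp.six_dvd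
theorem isUnit_MR : IsUnit (MM K : R K) := by simpa using isUnit_M K
theorem isUnit_of_dvd_M {k : ℕ} (h : k ∣ MM K) : IsUnit (k : R K) :=
  isUnit_of_dvd_unit (Nat.cast_dvd_cast h) isUnit_MR
theorem isUnit_six : IsUnit (6 : R K) := by exact_mod_cast isUnit_of_dvd_M (K := K) Stp.six_dvd
theorem isUnit_two : IsUnit (2 : R K) := isUnit_of_dvd_unit ⟨3, by norm_num⟩ isUnit_six
theorem isUnit_three : IsUnit (3 : R K) := isUnit_of_dvd_unit ⟨2, by norm_num⟩ isUnit_six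

/-- `M` as a unit of `R` -/
noncomputable def uM (K : Type) [Field K] [NumberField K] [Stp K] : (R K)ˣ := isUnit_MR.unit
@[simp] theorem val_uM : ((uM K : (R K)ˣ) : R K) = MM K := rfl

theorem exists_pow_mul (x : R K) :
    ∃ (k : ℕ) (t : 𝓞 K), (MM K : R K) ^ k * x = algebraMap (𝓞 K) (R K) t := by
  obtain ⟨⟨t, _, k, rfl⟩, h⟩ := IsLocalization.surj (Submonoid.powers (MM K : 𝓞 K)) x
  exact ⟨k, t, by simpa [mul_comm] using h⟩
theorem mem_RS_iff_pow (x : K) :
    x ∈ RS K ↔ ∃ (k : ℕ) (t : 𝓞 K), (MM K : K) ^ k * x = t := by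
  refine ⟨fun h => ?_, fun ⟨k, t, h⟩ => (mem_RS_iff K x).2
    ⟨((uM K)⁻¹ : (R K)ˣ) ^ k * algebraMap (𝓞 K) (R K) t, ?_⟩⟩
  · obtain ⟨y, rfl⟩ := (mem_RS_iff K x).1 h
    obtain ⟨k, t, e⟩ := exists_pow_mul y
    exact ⟨k, t, by simpa using congrArg (algebraMap (R K) K) e⟩
  · rw [map_mul, map_pow, coe_unit_inv, val_uM, map_natCast, coe_int, ← h, inv_pow,
      inv_mul_cancel_left₀ (pow_ne_zero k M_ne_zero)]
/-- an element of `𝓞 K` is a unit of `R` iff it divides a power of `M` -/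
theorem isUnit_int_iff (t : 𝓞 K) :
    IsUnit (algebraMap (𝓞 K) (R K) t) ↔ ∃ k : ℕ, t ∣ (MM K : 𝓞 K) ^ k := by
  refine ⟨fun h => ?_, fun ⟨k, h⟩ => isUnit_of_dvd_unit (map_dvd _ h)
    (by simpa using isUnit_MR.pow k)⟩
  obtain ⟨c, hc⟩ := h.exists_right_inv
  obtain ⟨k, c', e⟩ := exists_pow_mul c
  refine ⟨k, c', algebraMap_R_injective K ?_⟩
  rw [map_mul, ← e, mul_left_comm, hc, map_pow, map_natCast, mul_one]
theorem int_dvd_int_iff (s t : 𝓞 K) : algebraMap (𝓞 K) (R K) s ∣ algebraMap (𝓞 K) (R K) t ↔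
    ∃ k : ℕ, s ∣ (MM K : 𝓞 K) ^ k * t := by
  refine ⟨fun ⟨c, hc⟩ => ?_, fun ⟨k, h⟩ => ?_⟩
  · obtain ⟨k, c', e⟩ := exists_pow_mul c
    refine ⟨k, c', algebraMap_R_injective K ?_⟩
    rw [map_mul, map_mul, ← e, hc, map_pow, map_natCast, mul_left_comm]
  · have h1 := map_dvd (algebraMap (𝓞 K) (R K)) h
    rw [map_mul, map_pow, map_natCast] at h1
    exact (isUnit_MR.pow k).dvd_mul_left.1 h1

/-- the ideal `(n R) ∩ 𝓞 K` -/
noncomputable def idl (n : R K) : Ideal (𝓞 K) := (Ideal.span {n}).comap (algebraMap (𝓞 K) (R K))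

theorem mem_idl {n : R K} {t : 𝓞 K} : t ∈ idl n ↔ n ∣ algebraMap (𝓞 K) (R K) t := by
  rw [idl, Ideal.mem_comap, Ideal.mem_span_singleton]
theorem map_idl (n : R K) : (idl n).map (algebraMap (𝓞 K) (R K)) = Ideal.span {n} :=
  IsLocalization.map_under (Submonoid.powers (MM K : 𝓞 K)) (R K) _
theorem idl_le_iff {m n : R K} : idl n ≤ idl m ↔ m ∣ n := by
  rw [← Ideal.span_singleton_le_span_singleton]
  exact IsLocalization.under_le_under_iff (Submonoid.powers (MM K : 𝓞 K)) (R K)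
theorem idl_dvd_iff {m n : R K} : idl m ∣ idl n ↔ m ∣ n := by
  rw [Ideal.dvd_iff_le, idl_le_iff]
theorem idl_eq_iff {m n : R K} : idl m = idl n ↔ Associated m n := by
  rw [le_antisymm_iff, idl_le_iff, idl_le_iff, and_comm, dvd_dvd_iff_associated]
theorem idl_zero : idl (0 : R K) = ⊥ := by
  ext t
  rw [mem_idl, zero_dvd_iff, map_eq_zero_iff _ (algebraMap_R_injective K), Ideal.mem_bot]
theorem idl_one : idl (1 : R K) = ⊤ := by
  ext t
  simp [mem_idl]
theorem idl_ne_bot {n : R K} (hn : n ≠ 0) : idl n ≠ ⊥ := by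
  obtain ⟨k, t, e⟩ := exists_pow_mul n
  refine (Submodule.ne_bot_iff _).2 ⟨t, mem_idl.2 (e ▸ dvd_mul_left _ _), fun h => ?_⟩
  rw [h, map_zero] at e
  exact mul_ne_zero (isUnit_MR.pow k).ne_zero hn e
theorem idl_coprime {n : R K} (hn : n ≠ 0) : ∃ s ∈ idl n, ∃ t : 𝓞 K, s + t * MM K = 1 := by
  have : Finite (𝓞 K ⧸ idl n) :=
    (Ideal.absNorm_ne_zero_iff _).1 (mt Ideal.absNorm_eq_zero_iff.1 (idl_ne_bot hn))
  have hi : Function.Injective fun x : 𝓞 K ⧸ idl n => x * (MM K : 𝓞 K ⧸ idl n) := by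
    intro x y h
    obtain ⟨x, rfl⟩ := Ideal.Quotient.mk_surjective x
    obtain ⟨y, rfl⟩ := Ideal.Quotient.mk_surjective y
    simp only at h
    rw [← map_natCast (Ideal.Quotient.mk (idl n)), ← map_mul, ← map_mul, Ideal.Quotient.eq,
      ← sub_mul, mem_idl, map_mul, map_natCast, isUnit_MR.dvd_mul_right] at h
    exact Ideal.Quotient.eq.2 (mem_idl.2 h)
  obtain ⟨y, hy⟩ := Finite.surjective_of_injective hi 1
  obtain ⟨t, rfl⟩ := Ideal.Quotient.mk_surjective y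
  simp only at hy
  rw [← map_natCast (Ideal.Quotient.mk (idl n)), ← map_mul, ← map_one (Ideal.Quotient.mk (idl n)),
    eq_comm, Ideal.Quotient.eq] at hy
  exact ⟨_, hy, t, by ring⟩
theorem idl_isCoprime {n : R K} (hn : n ≠ 0) :
    IsCoprime (idl n) (Ideal.span {(MM K : 𝓞 K)}) := by
  obtain ⟨s, hs, t, e⟩ := idl_coprime hn
  exact Ideal.isCoprime_iff_exists.2 ⟨s, hs, _, Ideal.mem_span_singleton'.2 ⟨t, rfl⟩, e⟩
/-- every residue class mod `n` contains an element of `𝓞 K` -/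
theorem exists_int_congr {n : R K} (hn : n ≠ 0) (x : R K) :
    ∃ t : 𝓞 K, n ∣ x - algebraMap (𝓞 K) (R K) t := by
  obtain ⟨s, hs, t, e⟩ := idl_coprime hn
  obtain ⟨k, y, hy⟩ := exists_pow_mul x
  have h1 : n ∣ 1 - algebraMap (𝓞 K) (R K) t * MM K := by
    have e' := congrArg (algebraMap (𝓞 K) (R K)) e
    rw [map_add, map_mul, map_natCast, map_one] at e'
    rw [← e', add_sub_cancel_right]
    exact mem_idl.1 hs
  refine ⟨t ^ k * y, ?_⟩
  have h2 := (h1.trans (sub_dvd_pow_sub_pow _ _ k)).mul_right x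
  rwa [one_pow, sub_mul, one_mul, mul_pow, mul_assoc, hy, ← map_pow, ← map_mul] at h2
/-- `𝓞 K / idl n ≃ R / n` -/
theorem quot_bijective {n : R K} (hn : n ≠ 0) : Function.Bijective
    (Ideal.quotientMap (Ideal.span {n}) (algebraMap (𝓞 K) (R K)) (le_refl (idl n))) := by
  refine ⟨Ideal.quotientMap_injective, fun y => ?_⟩
  obtain ⟨x, rfl⟩ := Ideal.Quotient.mk_surjective y
  obtain ⟨t, ht⟩ := exists_int_congr hn x
  exact ⟨Ideal.Quotient.mk _ t, (Ideal.Quotient.eq.2 (Ideal.mem_span_singleton.2 ht)).symm⟩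
theorem absNorm_idl (n : R K) : Ideal.absNorm (idl n) = nm n := by
  by_cases hn : n = 0
  · rw [hn, idl_zero, Ideal.absNorm_bot, nm, Ideal.span_singleton_zero,
      Nat.card_congr (RingEquiv.quotientBot (R K)).toEquiv, Nat.card_eq_zero_of_infinite]
  · exact Nat.card_eq_of_bijective _ (quot_bijective hn)
theorem comap_map_of_coprime {I : Ideal (𝓞 K)} (h : IsCoprime I (Ideal.span {(MM K : 𝓞 K)})) :
    (I.map (algebraMap (𝓞 K) (R K))).comap (algebraMap (𝓞 K) (R K)) = I := by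
  refine le_antisymm (fun x hx => ?_) Ideal.le_comap_map
  obtain ⟨_, ⟨k, rfl⟩, h1⟩ := (IsLocalization.algebraMap_mem_map_algebraMap_iff
    (Submonoid.powers (MM K : 𝓞 K)) (R K) I x).1 hx
  have h2 := h.pow_right (n := k)
  rw [Ideal.span_singleton_pow] at h2
  obtain ⟨a, ha, b, hb, e⟩ := Ideal.isCoprime_iff_exists.1 h2
  obtain ⟨c, rfl⟩ := Ideal.mem_span_singleton'.1 hb
  rw [← one_mul x, ← e, add_mul, mul_assoc]
  exact I.add_mem (I.mul_mem_right _ ha) (I.mul_mem_left _ h1)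
theorem idl_mul (m n : R K) : idl (m * n) = idl m * idl n := by
  by_cases hm : m = 0
  · simp [hm, idl_zero]
  by_cases hn : n = 0
  · simp [hn, idl_zero]
  rw [← comap_map_of_coprime ((idl_isCoprime hm).mul_left (idl_isCoprime hn)), Ideal.map_mul,
    map_idl, map_idl, Ideal.span_singleton_mul_span_singleton, idl]
theorem idl_pow (n : R K) (k : ℕ) : idl (n ^ k) = idl n ^ k := by
  induction k with
  | zero => simp [idl_one]
  | succ k ih => rw [pow_succ, idl_mul, ih, pow_succ]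
theorem idl_int {t : 𝓞 K} (h : IsCoprime t (MM K : 𝓞 K)) :
    idl (algebraMap (𝓞 K) (R K) t) = Ideal.span {t} := by
  rw [← comap_map_of_coprime ((Ideal.isCoprime_span_singleton_iff _ _).2 h), Ideal.map_span,
    Set.image_singleton, idl]
theorem idl_isCoprime_iff {m n : R K} : IsCoprime (idl m) (idl n) ↔ IsCoprime m n := by
  rw [← Ideal.isCoprime_span_singleton_iff m n, Ideal.isCoprime_iff_sup_eq,
    Ideal.isCoprime_iff_sup_eq]
  refine ⟨fun h => by rw [← map_idl, ← map_idl, ← Ideal.map_sup, h, Ideal.map_top], fun h => ?_⟩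
  have key : ∀ {a : R K}, a ≠ 0 → idl a ≤ idl m ⊔ idl n → idl m ⊔ idl n = ⊤ := fun ha h1 => by
    rw [← comap_map_of_coprime ((idl_isCoprime ha).of_isCoprime_of_dvd_left
      (Ideal.dvd_iff_le.2 h1)), Ideal.map_sup, map_idl, map_idl, h, Ideal.comap_top]
  by_cases hm : m = 0
  · refine key (a := n) (fun hn => ?_) le_sup_right
    simp [hm, hn] at h
  · exact key hm le_sup_left
theorem idl_isMaximal {p : R K} (hp : Prime p) : (idl p).IsMaximal := by
  have : (Ideal.span {p}).IsPrime := (Ideal.span_singleton_prime hp.ne_zero).2 hp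
  exact Ring.DimensionLEOne.maximalOfPrime (idl_ne_bot hp.ne_zero) (Ideal.comap_isPrime _ _)
theorem prime_idl_iff {p : R K} : Prime (idl p) ↔ Prime p := by
  refine ⟨fun h => ?_, fun h => Ideal.prime_of_isPrime (idl_ne_bot h.ne_zero)
    (idl_isMaximal h).isPrime⟩
  have hp : p ≠ 0 := fun e => h.ne_zero (by rw [e, idl_zero]; rfl)
  have h1 := Ideal.isPrime_of_prime h
  refine (Ideal.span_singleton_prime hp).1 ((IsLocalization.isPrime_iff_isPrime_disjoint
    (Submonoid.powers (MM K : 𝓞 K)) (R K) _).2 ⟨h1, (IsLocalization.disjoint_under_iff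
      (Submonoid.powers (MM K : 𝓞 K)) (R K) _).2 fun e => h1.ne_top ?_⟩)
  rw [idl, e, Ideal.comap_top]

theorem finite_quot {n : R K} (hn : n ≠ 0) : Finite (R K ⧸ Ideal.span {n}) := by
  refine Nat.finite_of_card_ne_zero ?_
  rw [← nm, ← absNorm_idl]
  exact mt Ideal.absNorm_eq_zero_iff.1 (idl_ne_bot hn)
theorem card_quot (n : R K) : Nat.card (R K ⧸ Ideal.span {n}) = nm n := rfl
theorem nm_mul (x y : R K) : nm (x * y) = nm x * nm y := by
  rw [← absNorm_idl, ← absNorm_idl, ← absNorm_idl, idl_mul, map_mul]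
theorem nm_eq_zero {x : R K} : nm x = 0 ↔ x = 0 := by
  rw [← absNorm_idl, Ideal.absNorm_eq_zero_iff, ← idl_zero, idl_eq_iff, associated_zero_iff_eq_zero]
theorem isUnit_iff_nm {u : R K} : IsUnit u ↔ nm u = 1 := by
  rw [← absNorm_idl, Ideal.absNorm_eq_one_iff, ← idl_one, idl_eq_iff, associated_one_iff_isUnit]
theorem dvd_nm (x : R K) : x ∣ (nm x : R K) := by
  have h := mem_idl.1 (Ideal.absNorm_mem (idl x))
  rwa [map_natCast, absNorm_idl] at h
theorem finite_prim_le (X : ℝ) : {n : R K | Prim n ∧ (nm n : ℝ) ≤ X}.Finite := by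
  refine Set.Finite.of_finite_image (f := idl)
    ((Ideal.finite_setOfPred_absNorm_le (S := 𝓞 K) ⌊X⌋₊).subset ?_) fun a ha b hb e => ?_
  · rintro _ ⟨n, hn, rfl⟩
    exact (absNorm_idl n).trans_le (Nat.le_floor hn.2)
  · letI := UniqueFactorizationMonoid.strongNormalizationMonoid (α := R K)
    rw [← ha.1.2, ← hb.1.2]
    exact normalize_eq_normalize_iff_associated.2 (idl_eq_iff.1 e)

end Vale.Agent.P319
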