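import Vale.Agent.P319.N.PSHP
import Vale.Agent.P319.N.LatSep

/-! # PSQ: the engine for `PSStmt`: `ι = KQ K`, `L = {I // SF I}`, `lat e α = sp (crep 10 α) * dl (sp e)⁻¹`. -/

namespace Vale.Agent.P319

open scoped ComplexConjugate Real NumberField nonZeroDivisors
open MeasureTheory

variable {K : Type} [Field K] [NumberField K] [Stp K]

theorem sep_KK : Sep (KK K) := fun c L η A hc hL hη => by
  simpa only [rho, mul_assoc] using sepK (K := K) hc hη L hL A

/-- the dual lattice attached to `e` and the class of `α` -/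
noncomputable def latK (e α : R K) : {I : FI K // SF I} :=
  open Classical in
  if h : SF (sp (crep 10 α) * dl (sp e)⁻¹) then ⟨_, h⟩ else ⟨1, sF_one⟩

theorem eng_gp (e α q : R K) (f : R K → ℂ) (Y : ℝ) (he : Prim e) (hq : Cg q α) (hf : Per q f)
    (hu : ∀ u ∈ EU K, ∀ z, f ((u : R K) * z) = f z) (hY : 0 < Y) :
    LS 1 Y⁻¹ (fun z => ind (e ∣ z) * f z) + VV K * f 0 = (c0 K * Y / (nm e * nm q) : ℝ) *
      (LS (latK e α).1 (c0 K ^ 2 * Y / (nm e * nm q)) (hat q fun z => f (e * z)) +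
        VV K * hat q (fun z => f (e * z)) 0) := by
  have he0 := coe_ne_zero he.1
  have hn := nm_pos_real he.1
  have hI := (sF_sp he.1).inv
  have e1 : sp (ng q) = sp (crep 10 α) := by
    rw [← hq.crep_eq]
    exact sp_eq_of_inU (inU_ng hq.1)
  have e2 : (latK e α).1 = sp (ng q) * dl (sp e)⁻¹ := by
    have h := (sF_sp (ng_ne_zero hq.left_ne)).mul hI.dl
    rw [e1] at h ⊢
    rw [latK, dif_pos h]
  have H := hpk hI hq.1 (f := fun z => f (e * z))
    (fun x y h => hf _ _ (by rw [← mul_sub]; exact h.mul_left e))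
    (fun u h z => by rw [mul_left_comm, hu u h]) (div_pos hY hn)
  rw [mul_zero, show c0 K * (Y / nm e) / nm q = c0 K * Y / (nm e * nm q) by field_simp,
    show c0 K ^ 2 * (Y / nm e) / nm q = c0 K ^ 2 * Y / (nm e * nm q) by field_simp] at H
  rw [e2, ← H, LS_eq_mul sF_one _ (fun u h z => by rw [hu u h, u.isUnit.dvd_mul_left]) he0, LS]
  congr 1
  refine tsum_congr fun x => ?_
  by_cases h : x.out ∈ (sp e)⁻¹ ∧ x.out ≠ 0
  · obtain ⟨h1, h2⟩ := (mem_sp_inv he.1).1 h.1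
    have := nK_pos he0
    rw [cut_of h, cut_of ⟨h1, mul_ne_zero he0 h.2⟩, ind_of h2, one_mul, toR_mul _ (hI.mem_RS h.1),
      NI_one, NI_inv, NI_sp he.1, nK_mul]
    congr 3
    field_simp
  · rw [cut_of_not h]
    by_cases h1 : (e : K) * x.out ∈ (1 : FI K) ∧ (e : K) * x.out ≠ 0
    · rw [ind_of_not fun h2 => h ⟨(mem_sp_inv he.1).2 ⟨h1.1, h2⟩, right_ne_zero_of_mul h1.2⟩]
      simp
    · rw [cut_of_not h1]
      simp

/-- the engine -/
noncomputable def engK (K : Type) [Field K] [NumberField K] [Stp K] : Eng K where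
  KK := KK K
  V := VV K
  c0 := c0 K
  L := {I : FI K // SF I}
  ι := KQ K
  x := fun i => toR i.out
  mem := fun l i => i.out ∈ l.1 ∧ i.out ≠ 0
  N := fun l i => nK i.out / NI l.1
  U := fun u => u ∈ EU K
  l0 := ⟨1, sF_one⟩
  lat := latK
  c0_pos := c0_pos
  V_nonneg := ENNReal.toReal_nonneg
  KK_nonneg := fun y _ => KK_nonneg y
  KK_anti := KK_antitone
  sep := sep_KK
  hN := fun l i h => by
    obtain ⟨J, hJ, -, hg, hN⟩ := l.2.exists_ideal h.1 h.2
    refine ⟨toR_ne_zero (l.2.mem_RS h.1) h.2, ?_⟩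
    rw [← hN, absNorm_eq_spart, hg, nm_pp]
    exact_mod_cast Nat.le_mul_of_pos_left _
      (Nat.pos_of_ne_zero (mt Ideal.absNorm_eq_zero_iff.1 (sId_spart hJ).ne_bot))
  summ := fun l _ hy => summable_cut l.2.ne_zero hy
  gp := eng_gp

theorem eng_mult {η : ℝ} (hη : 0 < η) : ∃ C : ℝ, 0 < C ∧ ∀ (I : FI K) (h : R K) (s : Finset (KQ K)),
    SF I → (∀ i ∈ s, (i.out ∈ I ∧ i.out ≠ 0) ∧ pp (toR i.out) = h) →
      ∑ i ∈ s, ((nm (toR i.out) : ℝ) / (nK i.out / NI I)) ^ η ≤ C := by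
  classical
  obtain ⟨C, hC, H⟩ := sum_SId_le (K := K) hη
  have hi : (0 : ℝ) < idx K := by exact_mod_cast idx_pos
  refine ⟨idx K * C, by positivity, fun I h s hI hs => ?_⟩
  obtain ⟨e, he⟩ := exists_idealEquiv I
  have : Finite ((𝓞 K)ˣ ⧸ EUO K) := Nat.finite_of_card_ne_zero idx_pos.ne'
  have := Fintype.ofFinite ((𝓞 K)ˣ ⧸ EUO K)
  choose J hJ h1 h2 h3 using fun i : s => hI.exists_ideal (hs i.1 i.2).1.1 (hs i.1 i.2).1.2
  have inj : Function.Injective fun i : s => (spart (J i), (e ⟨i.1, (hs i.1 i.2).1⟩).2) := by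
    intro i j hij
    obtain ⟨a, b⟩ := Prod.ext_iff.1 hij
    have c : J i = J j := by
      rw [← spart_mul_idl (J i), ← spart_mul_idl (J j), h2, h2, (hs i.1 i.2).2, (hs j.1 j.2).2]
      exact congrArg (· * idl h) a
    have d := h1 i
    rw [c, h1 j, mul_left_inj' (inv_ne_zero hI.ne_zero)] at d
    have := e.injective (Prod.ext (Subtype.ext (by rw [he, he, d])) b)
    exact Subtype.ext (congrArg (·.1) this)
  calc _ = ∑ i : s, (Ideal.absNorm (spart (J i)) : ℝ) ^ (-η) := by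
        rw [← Finset.sum_coe_sort]
        refine Finset.sum_congr rfl fun i _ => ?_
        have := nm_pos_real (toR_ne_zero (hI.mem_RS (hs i.1 i.2).1.1) (hs i.1 i.2).1.2)
        rw [← h3, absNorm_eq_spart, h2, nm_pp, Nat.cast_mul, Real.rpow_neg (Nat.cast_nonneg _),
          ← Real.inv_rpow (Nat.cast_nonneg _), mul_comm, div_mul_cancel_left₀ this.ne']
    _ ≤ ∑ p ∈ (Finset.univ.image fun i => spart (J i)) ×ˢ (Finset.univ : Finset ((𝓞 K)ˣ ⧸ EUO K)),
        (Ideal.absNorm p.1 : ℝ) ^ (-η) := by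
        rw [← Finset.sum_image (f := fun p : Ideal (𝓞 K) × ((𝓞 K)ˣ ⧸ EUO K) =>
          (Ideal.absNorm p.1 : ℝ) ^ (-η)) fun i _ j _ hij => inj hij]
        refine Finset.sum_le_sum_of_subset_of_nonneg (fun p hp => ?_) fun _ _ _ => by positivity
        obtain ⟨i, -, rfl⟩ := Finset.mem_image.1 hp
        exact Finset.mem_product.2 ⟨Finset.mem_image_of_mem _ (Finset.mem_univ i), Finset.mem_univ _⟩
    _ ≤ _ := by
        rw [Finset.sum_product_right]
        simp only [Finset.sum_const, Finset.card_univ, nsmul_eq_mul, ← Nat.card_eq_fintype_card]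
        refine mul_le_mul_of_nonneg_left (H _ fun t ht => ?_) hi.le
        obtain ⟨i, -, rfl⟩ := Finset.mem_image.1 ht
        exact sId_spart (hJ i)

theorem exists_engPS : ∃ E : Eng K, E.PS := by
  refine ⟨engK K, fun u h => mem_EU.1 h, fun y hy => KK_pos hy, fun η hη => ?_, ?_⟩
  · obtain ⟨C, hC, H⟩ := eng_mult (K := K) hη
    exact ⟨C, hC, fun l h s hs => H l.1 h s l.2 hs⟩
  · obtain ⟨C, hC, H⟩ := exists_small (K := K)
    refine ⟨C, hC, fun z hz => ?_⟩
    obtain ⟨t, y, e, hy⟩ := H z hz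
    obtain ⟨u, hu, e'⟩ := KQ_out (y : K)
    have h0 : (y : K) ≠ 0 := by
      rw [← coe_int, ← e]
      exact coe_ne_zero (mul_ne_zero hz (pow_ne_zero _ t.ne_zero))
    refine ⟨(Quot.mk _ (y : K) : KQ K), ⟨?_, ?_⟩, ?_, t, u, mem_EU.1 hu, ?_⟩
    · rw [e', EU_mul_mem hu]
      exact (FractionalIdeal.mem_one_iff _).2 ⟨y, rfl⟩
    · rw [e']
      exact mul_ne_zero (coe_unit_ne_zero u) h0
    · change nK (Quot.mk _ (y : K) : KQ K).out / NI 1 ≤ _
      rwa [e', NI_one, div_one, nK_mul, nK_EU hu, one_mul]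
    · change toR (Quot.mk _ (y : K) : KQ K).out = _
      rw [e', toR_mul _ (int_mem y), toR_int, ← e]
      ring

end Vale.Agent.P319
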