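import Vale.Agent.P319.N.PSC
import Vale.Agent.P319.N.PSEng

/-! # PSQ: the Poisson step. -/

namespace Vale.Agent.P319

variable {K : Type} [Field K] [NumberField K] [Stp K]

theorem ps : PSStmt K := (exists_engPS (K := K)).elim fun _ h => ps_of h

end Vale.Agent.P319
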