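import Vale.Agent.P319.N.Defs

/-! # Poisson step and quadratic large sieve: definitions (part PSQ, see `notes/P319N.md`).

The analytic input (Hecke kernel, Poisson summation over fractional ideals modulo units) is packed into two structures.
`Eng K`: sums over an index type `ι` of points `x i ∈ R`, lattices `l : L`, membership `mem l i` (always `x i ≠ 0`), normalised
norm `N l i`.  In the application `ι = RQ K`, `l` is a fractional ideal supported above `M`, `N l i = nK (x i) / N l`.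
`QEng K`: the same at the level of ideals (`ι = R K`, `mem = Prim`, `N = nm`), for functions invariant under all units. -/

namespace Vale.Agent.P319

open scoped ComplexConjugate Real
open MeasureTheory

variable {K : Type} [Field K] [NumberField K] [Stp K]

/-- the majorant of the kernel -/
noncomputable def rho (η y : ℝ) : ℝ := y ^ (-η) * (1 + y) ^ (-5 : ℝ)

/-- separation of variables for the kernel `κ` -/
def Sep (κ : ℝ → ℝ) : Prop :=
  ∀ (c L η : ℝ) (A : ℕ), 0 < c → 0 ≤ L → 0 < η → ∃ C : ℝ, 0 < C ∧ ∀ y : ℝ, 0 < y →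
    ∃ φ : ℝ → ℂ, Continuous φ ∧ (∀ t, ‖φ t‖ ≤ C * rho η y * (1 + |t|) ^ (-(A : ℝ))) ∧
      ∀ u : ℝ, |u| ≤ L → ((Real.exp (-u / 2) * κ (c * y * Real.exp (-u)) : ℝ) : ℂ) =
        ∫ t : ℝ, φ t * Complex.exp (Complex.I * t * u)

/-- finite Fourier transform modulo `q` -/
noncomputable def hat (q : R K) (f : R K → ℂ) (k : R K) : ℂ :=
  ∑ x ∈ res q, f x * eq (k * x) (ng q)

/-- the part of the weighted mean square coming from pairs with gcd `Δ` -/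
noncomputable def BilW (F : Fam K) {ι : Type} (x : ι → R K) (wt : ι → ℂ) (Z : ℝ)
    (β₁ β₂ : R K → ℂ) (Δ : R K) : ℂ :=
  ∑ m1 ∈ sball K Z, ∑ m2 ∈ sball K Z, ind (IsCoprime m1 m2) * (β₁ m1 * conj (β₂ m2)) *
    ∑' i : ι, wt i * ind (IsCoprime (x i) Δ) * F.X m1 (x i) * conj (F.X m2 (x i))

/-- archimedean factor of the dual sum -/
noncomputable def dker (κ : ℝ → ℝ) (a : ℝ) (m1 m2 : R K) : ℝ :=
  (√(nm m1) * √(nm m2))⁻¹ * κ (a / (nm m1 * nm m2))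

/-- the dual bilinear form -/
noncomputable def Dl (κ : ℝ → ℝ) (Z a : ℝ) (γ₁ γ₂ : R K → ℂ) : ℂ :=
  ∑ m1 ∈ sball K Z, ∑ m2 ∈ sball K Z, ind (IsCoprime m1 m2) * (γ₁ m1 * conj (γ₂ m2)) *
    (dker κ a m1 m2 : ℝ)

/-- the linear forms obtained after separating the variables -/
noncomputable def Tl (Z : ℝ) (γ : R K → ℂ) (f : R K) (t : ℝ) : ℂ :=
  ∑ m ∈ sball K Z, ind (f ∣ m) * γ m * nt m t

/-- coefficients of the dual form at the frequency `k` -/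
noncomputable def dco (F : Fam K) (β : R K → ℂ) (e k m : R K) : ℂ :=
  β m * F.X m e * F.g m * conj (F.X m k)

/-- `φ(D) / N(D)` for squarefree `D` -/
noncomputable def phiS (D : R K) : ℂ := ∑ e ∈ pdiv D, mu e / (nm e : ℂ)

/-- `κ y` on `p`, zero elsewhere -/
noncomputable def cut (p : Prop) (κ : ℝ → ℝ) (y : ℝ) : ℝ := open Classical in if p then κ y else 0

/-- Poisson summation over lattices modulo units -/
structure Eng (K : Type) [Field K] [NumberField K] [Stp K] where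
  KK : ℝ → ℝ
  V : ℝ
  c0 : ℝ
  L : Type
  ι : Type
  x : ι → R K
  mem : L → ι → Prop
  N : L → ι → ℝ
  U : (R K)ˣ → Prop
  l0 : L
  lat : R K → R K → L
  c0_pos : 0 < c0
  V_nonneg : 0 ≤ V
  KK_nonneg : ∀ y, 0 < y → 0 ≤ KK y
  KK_anti : AntitoneOn KK (Set.Ioi 0)
  sep : Sep KK
  hN : ∀ l i, mem l i → x i ≠ 0 ∧ (nm (x i) : ℝ) ≤ N l i
  summ : ∀ (l : L) (y : ℝ), 0 < y → Summable fun i => cut (mem l i) KK (y * N l i)
  gp : ∀ (e α q : R K) (f : R K → ℂ) (Y : ℝ), Prim e → Cg q α → Per q f →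
    (∀ u, U u → ∀ z, f (u * z) = f z) → 0 < Y →
    ∑' i, (cut (mem l0 i) KK (Y⁻¹ * N l0 i) : ℝ) * (ind (e ∣ x i) * f (x i)) + V * f 0 =
      (c0 * Y / (nm e * nm q) : ℝ) *
        (∑' i, (cut (mem (lat e α) i) KK (c0 ^ 2 * Y / (nm e * nm q) * N (lat e α) i) : ℝ) *
          hat q (fun z => f (e * z)) (x i) + V * hat q (fun z => f (e * z)) 0)

/-- the weight of the point `i` in the lattice `l` -/
noncomputable def Eng.wt (E : Eng K) (l : E.L) (y : ℝ) (i : E.ι) : ℝ :=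
  cut (E.mem l i) E.KK (y * E.N l i)

/-- the extra properties needed for `PSStmt` -/
structure Eng.PS (E : Eng K) : Prop where
  U_sub : ∀ u, E.U u → InU ((u : R K) : K)
  KK_pos : ∀ y, 0 < y → 0 < E.KK y
  mult : ∀ η : ℝ, 0 < η → ∃ C : ℝ, 0 < C ∧ ∀ (l : E.L) (h : R K) (s : Finset E.ι),
    (∀ i ∈ s, E.mem l i ∧ pp (E.x i) = h) → ∑ i ∈ s, ((nm (E.x i) : ℝ) / E.N l i) ^ η ≤ C
  low : ∃ C : ℝ, 0 < C ∧ ∀ z : R K, z ≠ 0 → ∃ i, E.mem E.l0 i ∧ E.N E.l0 i ≤ C * nm z ∧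
    ∃ u v : (R K)ˣ, InU ((v : R K) : K) ∧ E.x i = v * u ^ 6 * z

/-- Poisson summation over ideals -/
structure QEng (K : Type) [Field K] [NumberField K] [Stp K] where
  w : ℝ → ℝ
  V : ℝ
  c0 : ℝ
  c0_pos : 0 < c0
  V_nonneg : 0 ≤ V
  w_nonneg : ∀ y, 0 < y → 0 ≤ w y
  w_anti : AntitoneOn w (Set.Ioi 0)
  w_pos : 0 < w 1
  sep : Sep w
  summ : ∀ y : ℝ, 0 < y → Summable fun n : R K => cut (Prim n) w (y * nm n)
  ls0 : ∃ I C : ℝ, 0 < C ∧ ∀ Z : ℝ, 0 < Z →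
    ‖∑' l : R K, ind (Prim l) * (w (((nm l : ℝ) / Z) ^ 2) : ℝ) - (I * Z : ℝ)‖ ≤ C * (1 + √Z)
  pois : ∀ (q : R K) (f : R K → ℂ) (Y : ℝ), q ≠ 0 → Per q f →
    (∀ (u : (R K)ˣ) z, f (u * z) = f z) → 0 < Y →
    ∑' n : R K, (cut (Prim n) w (Y⁻¹ * nm n) : ℝ) * f n + V * f 0 =
      (c0 * Y / nm q : ℝ) *
        (∑' k : R K, (cut (Prim k) w (c0 ^ 2 * Y / nm q * nm k) : ℝ) * hat q f k + V * hat q f 0)

/-- the weight of the ideal `(n)` -/
noncomputable def QEng.wt (Q : QEng K) (y : ℝ) (n : R K) : ℝ := cut (Prim n) Q.w (y * nm n)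

/-- the squarefree kernel of `k` has norm at most `B` -/
def Small (B : ℝ) (k : R K) : Prop := ∃ b ∈ sball K B, ∃ l : R K, Prim l ∧ k = b * l ^ 2

/-- the quadratic family -/
structure QFam (F : Fam K) : Prop where
  X_eq : ∀ n a, F.X n a = quad a n
  g_eq : ∀ n, F.g n = 1
  ε_eq : ∀ m1 m2, IsS m1 → IsS m2 → IsCoprime m1 m2 → Cg m1 m2 → F.ε m1 m2 = 1
  unit : ∀ (m1 m2 : R K) (u : (R K)ˣ), Cg m1 m2 → quad u m1 * quad u m2 = 1

/-- the dual of the trivial large sieve -/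
def Q1 (K : Type) [Field K] [NumberField K] [Stp K] : Prop :=
  ∀ ε : ℝ, 0 < ε → ∃ C : ℝ, 0 < C ∧ ∀ (B X : ℝ) (a : R K → ℂ), 1 ≤ B → 1 ≤ X →
    ∑ k ∈ sball K B, ‖∑ n ∈ sball K X, a n * quad k n‖ ^ 2 ≤
      C * (X + B ^ 2) * B ^ ε * ∑ n ∈ sball K X, ‖a n‖ ^ 2

theorem cut_of {p : Prop} (h : p) (κ : ℝ → ℝ) (y : ℝ) : cut p κ y = κ y := if_pos h

theorem cut_of_not {p : Prop} (h : ¬p) (κ : ℝ → ℝ) (y : ℝ) : cut p κ y = 0 := if_neg h

theorem cut_eq (p : Prop) (κ : ℝ → ℝ) (y : ℝ) : ((cut p κ y : ℝ) : ℂ) = ind p * (κ y : ℝ) := by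
  unfold cut ind
  split_ifs <;> simp

theorem rho_nonneg (η : ℝ) {y : ℝ} (hy : 0 ≤ y) : 0 ≤ rho η y := by
  unfold rho
  positivity

end Vale.Agent.P319
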