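import Vale.Agent.P319.N.PSFI
import Vale.Agent.P319.N.PSDefs
import Vale.Agent.P319.N.LatHP

/-! # PSQ: the Hecke-Poisson formula for functions on `R`. -/

namespace Vale.Agent.P319

open scoped ComplexConjugate Real NumberField nonZeroDivisors
open MeasureTheory

variable {K : Type} [Field K] [NumberField K] [Stp K]

/-- the sum of `f` over the lattice `I` modulo `EU` -/
noncomputable def LS (I : FI K) (y : ℝ) (f : R K → ℂ) : ℂ :=
  ∑' x : KQ K, (cut (x.out ∈ I ∧ x.out ≠ 0) (KK K) (y * (nK x.out / NI I)) : ℝ) * f (toR x.out)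

/-- multiplication by `a` on the orbits -/
noncomputable def mulKQ (a : K) : KQ K → KQ K :=
  Quot.map (fun x => a * x) fun x y ⟨u, hu, e⟩ => ⟨u, hu, by rw [e, mul_left_comm]⟩

theorem tsum_KQ_mul {a : K} (ha : a ≠ 0) (G : K → ℂ)
    (hG : ∀ u ∈ EU K, ∀ x, G (((u : R K) : K) * x) = G x) :
    ∑' x : KQ K, G (a * x.out) = ∑' x : KQ K, G x.out := by
  have h1 : ∀ {a b : K}, a * b = 1 → ∀ x, mulKQ a (mulKQ b x) = x := fun {a b} h x => by
    induction x using Quot.ind with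
    | mk x => exact congrArg (Quot.mk _) (show a * (b * x) = x by rw [← mul_assoc, h, one_mul])
  rw [← (⟨mulKQ a, mulKQ a⁻¹, h1 (inv_mul_cancel₀ ha), h1 (mul_inv_cancel₀ ha)⟩ :
    KQ K ≃ KQ K).tsum_eq fun x => G x.out]
  refine tsum_congr fun x => ?_
  obtain ⟨u, hu, e⟩ := KQ_out (a * x.out)
  have h2 : mulKQ a x = Quot.mk _ (a * x.out) := by
    conv_lhs => rw [← x.out_eq]
    rfl
  simp only [Equiv.coe_fn_mk]
  rw [h2, e, hG u hu]

theorem per_hat {q : R K} {f : R K → ℂ} (hf : Per q f) (k : R K) :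
    Per q fun x => f x * eq (k * x) (ng q) := fun x y h => by
  beta_reduce
  rw [hf x y h, eq_congr (x := k * x) (y := k * y)]
  rw [← mul_sub]
  exact ((associated_ng q).dvd.trans h).mul_left k

theorem hat_unit {q : R K} (hq : q ≠ 0) {f : R K → ℂ} (hf : Per q f) {u : (R K)ˣ}
    (hu : ∀ z, f (u * z) = f z) (k : R K) : hat q f (u * k) = hat q f k := by
  rw [hat, hat, ← sum_res_affine hq (per_hat hf k) (u := u) ⟨↑u⁻¹, 0, by simp⟩ 0]
  refine Finset.sum_congr rfl fun x _ => ?_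
  rw [add_zero, hu, mul_left_comm, mul_assoc]

theorem norm_hat_le {q : R K} (f : R K → ℂ) (k : R K) : ‖hat q f k‖ ≤ ∑ z ∈ res q, ‖f z‖ :=
  norm_sum_le_of_le _ fun z _ => by rw [norm_mul, norm_eq, mul_one]

theorem summable_cut {I : FI K} (hI : I ≠ 0) {y : ℝ} (hy : 0 < y) : Summable fun x : KQ K =>
    cut (x.out ∈ I ∧ x.out ≠ 0) (KK K) (y * (nK x.out / NI I)) := by
  refine (summable_KQ hI (div_pos hy (NI_pos hI)) one_pos).congr fun x => ?_
  rw [pow_one, div_mul_eq_mul_div, mul_div_assoc]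
  by_cases h : x.out ∈ I ∧ x.out ≠ 0
  · rw [cut_of h, ind_of h, norm_one, one_mul]
  · rw [cut_of_not h, ind_of_not h, norm_zero, zero_mul]

/-- the summand of `LS` is invariant under `EU` -/
theorem LS_inv {I : FI K} (hI : SF I) (y : ℝ) {f : R K → ℂ}
    (hu : ∀ u ∈ EU K, ∀ z, f ((u : R K) * z) = f z) (u : (R K)ˣ) (h : u ∈ EU K) (x : K) :
    (cut (((u : R K) : K) * x ∈ I ∧ ((u : R K) : K) * x ≠ 0) (KK K)
      (y * (nK (((u : R K) : K) * x) / NI I)) : ℝ) * f (toR (((u : R K) : K) * x)) =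
    (cut (x ∈ I ∧ x ≠ 0) (KK K) (y * (nK x / NI I)) : ℝ) * f (toR x) := by
  rw [EU_mul_mem h, mul_ne_zero_iff_left (coe_unit_ne_zero u), nK_mul, nK_EU h, one_mul]
  by_cases hx : x ∈ I ∧ x ≠ 0
  · rw [toR_mul _ (hI.mem_RS hx.1), hu u h]
  · simp [cut_of_not hx]

theorem LS_eq_mul {I : FI K} (hI : SF I) (y : ℝ) {f : R K → ℂ}
    (hu : ∀ u ∈ EU K, ∀ z, f ((u : R K) * z) = f z) {a : K} (ha : a ≠ 0) :
    LS I y f = ∑' x : KQ K, (cut (a * x.out ∈ I ∧ a * x.out ≠ 0) (KK K)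
      (y * (nK (a * x.out) / NI I)) : ℝ) * f (toR (a * x.out)) :=
  (tsum_KQ_mul ha (fun x => (cut (x ∈ I ∧ x ≠ 0) (KK K) (y * (nK x / NI I)) : ℝ) * f (toR x))
    (LS_inv hI y hu)).symm

theorem hpk_hat {I : FI K} (hI : SF I) {q : R K} (hq : q ≠ 0) {f : R K → ℂ} (hf : Per q f)
    {T : Finset K} (hT : Reps I (I * (idl q : FI K)) T) {ξ : K} (hξ : ξ ∈ dl (I * (idl q : FI K)))
    (h : (ng q : K) * ξ ∈ RS K) :
    ∑ x ∈ T, f (toR x) * eTr (x * ξ) = hat q f (toR ((ng q : K) * ξ)) := by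
  rw [hat, ← hI.sum_reps hq hT (per_hat hf _)]
  refine Finset.sum_congr rfl fun x hx => ?_
  have h1 := hT.1 x hx
  obtain ⟨s, hs, t, e⟩ := idl_coprime hq
  rw [eq, map_mul, coe_toR h, coe_toR (hI.mem_RS h1), mul_assoc,
    mul_div_cancel_left₀ _ (coe_ne_zero (ng_ne_zero hq)), mul_comm ξ,
    psiK_eq_eTr (s := s) ⟨1, t, by rw [one_mul, e]⟩ fun r => ?_]
  rw [show (s : K) * (x * ξ) * r = x * ((s * r : 𝓞 K) : K) * ξ by push_cast; ring]
  exact eTr_of_mem_dl (mul_ne_zero hI.ne_zero (coe_idl_ne_zero hq)) (FractionalIdeal.mul_mem_mul h1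
    (FractionalIdeal.mem_coeIdeal_of_mem _ (Ideal.mul_mem_right r _ hs))) hξ

theorem hpk {I : FI K} (hI : SF I) {q : R K} (hq : q ≠ 0) {f : R K → ℂ} (hf : Per q f)
    (hu : ∀ u ∈ EU K, ∀ z, f ((u : R K) * z) = f z) {Y : ℝ} (hY : 0 < Y) :
    LS I Y⁻¹ f + VV K * f 0 = (c0 K * Y / nm q : ℝ) *
      (LS (sp (ng q) * dl I) (c0 K ^ 2 * Y / nm q) (hat q f) + VV K * hat q f 0) := by
  have hI0 := hI.ne_zero
  have hJ := mul_ne_zero hI0 (coe_idl_ne_zero hq)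
  have hJI : I * (idl q : FI K) ≤ I := mul_le_of_le_one_right' FractionalIdeal.coeIdeal_le_one
  have hN := NI_pos hI0
  have hn := nm_pos_real hq
  have hg := coe_ne_zero (ng_ne_zero hq)
  have hL := (sF_sp (ng_ne_zero hq)).mul hI.dl
  obtain ⟨T, hT⟩ := exists_reps (I := I) hJ
  have H := HP hJ hJI hT (f := fun x => f (toR x)) (fun x hx y hy => hf _ _ (by
    rw [toR_add (hI.mem_RS hx) (hI.mem_RS (hJI hy)), add_sub_cancel_left]
    exact (hI.mem_mul_idl hq (hJI hy)).1 hy))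
    (fun u h x hx => by rw [toR_mul _ (hI.mem_RS hx), hu u h]) (mul_pos hY hN)
  have e0 : sp (ng q) * dl I =
      FractionalIdeal.spanSingleton (𝓞 K)⁰ (ng q : K) * dl (I * (idl q : FI K)) := by
    rw [sp, dl, dl, FractionalIdeal.dual_eq_mul_inv ℤ ℚ (I * _), FractionalIdeal.dual_eq_mul_inv ℤ ℚ I,
      idl_eq_iff.2 (associated_ng q), mul_inv]
    ring
  have e1 : ∀ ξ : K, (ng q : K) * ξ ∈ sp (ng q) * dl I ↔ ξ ∈ dl (I * (idl q : FI K)) := fun ξ => by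
    rw [e0, FractionalIdeal.mem_singleton_mul]
    exact ⟨fun ⟨y, hy, e⟩ => mul_left_cancel₀ hg e ▸ hy, fun h => ⟨ξ, h, rfl⟩⟩
  have e2 : ((FractionalIdeal.absNorm (I * (idl q : FI K)) : ℚ) : ℝ) = NI I * nm q := by
    rw [← NI, NI_mul, NI_coe, absNorm_idl]
  have hD : 0 < |(NumberField.discr K : ℝ)| :=
    abs_pos.2 (Int.cast_ne_zero.2 (NumberField.discr_ne_zero K))
  have e3 : ∀ ξ : K, c0 K ^ 2 * Y / nm q * (nK ((ng q : K) * ξ) / NI (sp (ng q) * dl I)) =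
      (4 * π ^ 2) ^ rr K * (Y * NI I) * nK ξ := fun ξ => by
    have := nK_pos hg
    rw [e0, NI_mul, NI_span, NI, absNorm_dl hJ, e2, c0_sq, nK_mul]
    field_simp
  have e4 : c0 K * (Y * NI I) / (NI I * nm q) = c0 K * Y / nm q := by field_simp
  rw [toR_zero, e2, e4, hI.sum_reps hq hT hf] at H
  have e5 : hat q f 0 = ∑ z ∈ res q, f z := by simp [hat]
  rw [e5, LS_eq_mul hL _ (fun u h => hat_unit hq hf (hu u h)) hg, LS]
  convert H using 4 with x
  · rw [cut_eq, show Y⁻¹ * (nK x.out / NI I) = nK x.out / (Y * NI I) by field_simp]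
    ring
  · funext ξ
    rw [cut_eq, e3, e1, mul_ne_zero_iff_left hg]
    by_cases h : ξ.out ∈ dl (I * (idl q : FI K)) ∧ ξ.out ≠ 0
    · rw [hpk_hat hI hq hf hT h.1 (hL.mem_RS ((e1 _).2 h.1))]
      ring
    · simp [ind_of_not h]

end Vale.Agent.P319
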