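import Vale.Agent.P319.N.QSep
import Vale.Agent.P319.N.PSHP

/-! # PSQ: Poisson summation over ideals.
`LS_unit`: `tsum_KQ_mul`.  `sum_LS_inv`: `sum_classes` with `G b = KK (y * NI b) * f (gen (b ∩ O))`, `SF.exists_ideal`, `tsum_ideal_wS`.
`sum_LS_mul`: `M ^ k * (D * a c)⁻¹` is an `S`-ideal `b c` (`SF.exists_sId`) of class `(d * c)⁻¹`, `d` the class of `M ^ j * D`;
`LS_unit` with `u = uM K ^ k`, `Equiv.sum_comp`.  `pois_wS`: sum `hpk` for `I = (a c)⁻¹` over `c` (`Stp.cls`), `dual_eq_mul_inv`, divide by `idx K`. -/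

namespace Vale.Agent.P319

open scoped ComplexConjugate Real NumberField nonZeroDivisors
open MeasureTheory

variable {K : Type} [Field K] [NumberField K] [Stp K]

theorem LS_unit {I : FI K} (hI : SF I) (u : (R K)ˣ) (y : ℝ) {f : R K → ℂ}
    (hu : ∀ (u : (R K)ˣ) z, f (u * z) = f z) :
    LS (FractionalIdeal.spanSingleton (𝓞 K)⁰ ((u : R K) : K) * I) y f = LS I y f := by
  have h0 := coe_unit_ne_zero u
  have h1 : sp (u : R K) = FractionalIdeal.spanSingleton (𝓞 K)⁰ ((u : R K) : K) := by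
    rw [sp, idl_eq_iff.2 (associated_one_iff_isUnit.2 u.isUnit), idl_one]
    simp
  rw [LS_eq_mul (h1 ▸ (sF_sp u.ne_zero).mul hI) y (fun u _ => hu u) h0, LS]
  refine tsum_congr fun x => ?_
  have e : ((u : R K) : K) * x.out ∈ FractionalIdeal.spanSingleton (𝓞 K)⁰ ((u : R K) : K) * I ↔
      x.out ∈ I := by
    rw [FractionalIdeal.mem_singleton_mul]
    exact ⟨fun ⟨y, hy, e⟩ => mul_left_cancel₀ h0 e ▸ hy, fun h => ⟨_, h, rfl⟩⟩
  rw [e, mul_ne_zero_iff_left h0, NI_mul, NI_span, nK_mul, mul_div_mul_left _ _ (nK_pos h0).ne']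
  by_cases hx : x.out ∈ I ∧ x.out ≠ 0
  · rw [toR_mul _ (hI.mem_RS hx.1), hu]
  · simp [cut_of_not hx]

theorem sum_LS_inv (a : ClassGroup (𝓞 K) → (Ideal (𝓞 K))⁰) (ha : ∀ c, ClassGroup.mk0 (a c) = c)
    (hs : ∀ c, SId (a c).1) {y : ℝ} (hy : 0 < y) {f : R K → ℂ} {B : ℝ} (hf : ∀ z, ‖f z‖ ≤ B)
    (hu : ∀ (u : (R K)ˣ) z, f (u * z) = f z) :
    ∑ c, LS ((a c).1 : FI K)⁻¹ y f =
      idx K * ∑' n : R K, (cut (Prim n) (wS K) (y * nm n) : ℝ) * f n := by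
  obtain ⟨G, hG⟩ : ∃ G : FI K → ℂ, ∀ J : Ideal (𝓞 K),
      G J = (KK K (y * Ideal.absNorm J) : ℝ) * f (gen J) :=
    ⟨Function.extend (fun J : Ideal (𝓞 K) => (J : FI K)) (fun J => (KK K (y * Ideal.absNorm J) : ℝ) *
      f (gen J)) 0, fun J => (FractionalIdeal.coeIdeal_injective (K := K)).extend_apply _ _ J⟩
  have hS : Summable fun l : (Ideal (𝓞 K))⁰ => G l.1 := by
    refine Summable.of_norm_bounded ((summable_KK_ideal hy one_pos).mul_right B) fun l => ?_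
    rw [hG, norm_mul, Complex.norm_real, Real.norm_of_nonneg (KK_nonneg _), pow_one]
    exact mul_le_mul_of_nonneg_left (hf _) (KK_nonneg _)
  rw [← tsum_ideal_wS hy hf, ← tsum_congr fun l : (Ideal (𝓞 K))⁰ => hG l.1,
    ← (sum_classes a ha hS).2]
  refine Finset.sum_congr rfl fun c _ => tsum_congr fun x => ?_
  by_cases hx : x.out ∈ ((a c).1 : FI K)⁻¹ ∧ x.out ≠ 0
  · obtain ⟨J, -, e, hg, hN⟩ := (hs c).sF.inv.exists_ideal hx.1 hx.2
    obtain ⟨u, hu'⟩ := exists_unit_pp (toR x.out)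
    rw [inv_inv] at e
    rw [cut_of hx, ind_of hx, one_mul, ← e, hG, hg, hN]
    conv_lhs => rw [hu', hu]
  · rw [cut_of_not hx, ind_of_not hx]
    simp

theorem sum_LS_mul (a : ClassGroup (𝓞 K) → (Ideal (𝓞 K))⁰) (ha : ∀ c, ClassGroup.mk0 (a c) = c)
    (hs : ∀ c, SId (a c).1) {D : FI K} (hD : SF D) {y : ℝ} (hy : 0 < y) {f : R K → ℂ} {B : ℝ}
    (hf : ∀ z, ‖f z‖ ≤ B) (hu : ∀ (u : (R K)ˣ) z, f (u * z) = f z) :
    ∑ c, LS (D * ((a c).1 : FI K)) y f =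
      idx K * ∑' n : R K, (cut (Prim n) (wS K) (y * nm n) : ℝ) * f n := by
  obtain ⟨j, d, hd, ed⟩ := hD.exists_sId
  choose k b hb eb using fun c => (hD.mul (hs c).sF).inv.exists_sId
  obtain ⟨d', rfl⟩ : ∃ d' : (Ideal (𝓞 K))⁰, d'.1 = d := ⟨⟨d, mem_nonZeroDivisors_of_ne_zero hd.ne_bot⟩, rfl⟩
  obtain ⟨b', hb'⟩ : ∃ b' : ClassGroup (𝓞 K) → (Ideal (𝓞 K))⁰, ∀ c, (b' c).1 = b c :=
    ⟨fun c => ⟨b c, mem_nonZeroDivisors_of_ne_zero (hb c).ne_bot⟩, fun _ => rfl⟩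
  have cls : ∀ c, ClassGroup.mk0 (b' c) = (ClassGroup.mk0 d' * c)⁻¹ := fun c => by
    refine eq_inv_of_mul_eq_one_left ?_
    conv_lhs => rw [← ha c]
    rw [ha c, ← ha c, ← map_mul, ha c, ← map_mul, ClassGroup.mk0_eq_one_iff]
    refine ⟨(MM K : 𝓞 K) ^ (k c + j), FractionalIdeal.coeIdeal_injective (K := K) ?_⟩
    simp only [Submonoid.coe_mul, FractionalIdeal.coeIdeal_mul, hb', Ideal.submodule_span_eq,
      FractionalIdeal.coeIdeal_span_singleton]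
    rw [eb, ed, mul_assoc _ D, mul_mul_mul_comm, inv_mul_cancel₀ (hD.mul (hs c).sF).ne_zero, mul_one,
      FractionalIdeal.spanSingleton_mul_spanSingleton, ← pow_add]
    simp
  set σ := (Equiv.mulLeft (ClassGroup.mk0 d')).trans (Equiv.inv _) with hσ
  rw [← sum_LS_inv (fun c => b' (σ.symm c)) (fun c => (cls _).trans (σ.apply_symm_apply c))
    (fun c => (hb' _).symm ▸ hb _) hy hf hu,
    ← σ.sum_comp fun c => LS ((b' (σ.symm c)).1 : FI K)⁻¹ y f]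
  refine Finset.sum_congr rfl fun c _ => ?_
  rw [σ.symm_apply_apply, hb', ← LS_unit (hb c).sF.inv (uM K ^ k c) y hu, eb, mul_inv, inv_inv]
  congr 1
  simp only [Units.val_pow_eq_pow_val, val_uM, map_pow, map_natCast]
  rw [mul_inv_cancel_left₀ (span_M_ne_zero _)]

theorem pois_wS (q : R K) (f : R K → ℂ) (Y : ℝ) (hq : q ≠ 0) (hf : Per q f)
    (hu : ∀ (u : (R K)ˣ) z, f (u * z) = f z) (hY : 0 < Y) :
    ∑' n : R K, (cut (Prim n) (wS K) (Y⁻¹ * nm n) : ℝ) * f n +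
        (Fintype.card (ClassGroup (𝓞 K)) * VV K / idx K : ℝ) * f 0 =
      (c0 K * Y / nm q : ℝ) *
        (∑' k : R K, (cut (Prim k) (wS K) (c0 K ^ 2 * Y / nm q * nm k) : ℝ) * hat q f k +
          (Fintype.card (ClassGroup (𝓞 K)) * VV K / idx K : ℝ) * hat q f 0) := by
  choose a ha hs using Stp.cls (K := K)
  have hs' : ∀ c, SId (a c).1 := fun c => ⟨1, by simpa using hs c⟩
  have hb : ∀ z, ‖f z‖ ≤ ∑ x ∈ res q, ‖f x‖ := fun z => by
    obtain ⟨x, ⟨hx, e⟩, -⟩ := res_spec hq z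
    rw [hf z x e]
    exact Finset.single_le_sum (f := fun x => ‖f x‖) (fun _ _ => norm_nonneg _) hx
  have hn := nm_pos_real hq
  have hc := c0_pos (K := K)
  have h1 := sum_LS_inv a ha hs' (inv_pos.2 hY) hb hu
  have h2 := sum_LS_mul a ha hs' ((sF_sp (ng_ne_zero hq)).mul sF_dl_one)
    (y := c0 K ^ 2 * Y / nm q) (by positivity) (norm_hat_le (q := q) f)
    fun u => hat_unit hq hf (hu u)
  have h3 := Finset.sum_congr rfl fun c (_ : c ∈ Finset.univ) =>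
    hpk (hs' c).sF.inv hq hf (fun u _ => hu u) hY
  simp only [dl, FractionalIdeal.dual_inv, ← mul_assoc (sp _), ← Finset.mul_sum,
    Finset.sum_add_distrib, Finset.sum_const, Finset.card_univ, nsmul_eq_mul] at h3
  rw [h1, h2] at h3
  have hi : (idx K : ℂ) ≠ 0 := Nat.cast_ne_zero.2 idx_pos.ne'
  refine mul_left_cancel₀ hi ?_
  push_cast at h3 ⊢
  field_simp at h3 ⊢
  linear_combination h3

end Vale.Agent.P319
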