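import Vale.Agent.P319.N.QSep

/-! # PSQ: the sum over squares for the kernel `wS`.
`ls_avoid`: induction on `T`; `P (insert p T) Z = P T Z - P T (Z / N p)` (`l = p * l'`, `Function.Injective.tsum_eq`); start: `LS0`.
`ls_prim`: `T` = the primes containing `M` (`finite_S`, or the prime factors of `Ideal.span {M}`), `primEquiv`.
`ls_wS`: `∑ n, wS ((nm n / Z) ^ 2) = ∑ s, P (Z / √(N s))`, `summable_SId` with `η = 1 / 2, 1 / 4`; `I = c * ∑' s, N s ^ (-1 / 2)`. -/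

namespace Vale.Agent.P319

open scoped ComplexConjugate Real NumberField nonZeroDivisors
open MeasureTheory

variable {K : Type} [Field K] [NumberField K] [Stp K]

private theorem qsq_summ (p : (Ideal (𝓞 K))⁰ → Prop) {Z : ℝ} (hZ : 0 < Z) :
    Summable fun l : (Ideal (𝓞 K))⁰ => ind (p l) *
      (KK K ((Ideal.absNorm l.1 : ℝ) ^ 2 / Z ^ 2) : ℝ) := by
  have hs : Summable fun l : (Ideal (𝓞 K))⁰ => KK K ((Ideal.absNorm l.1 : ℝ) ^ 2 / Z ^ 2) := by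
    simpa only [div_eq_inv_mul] using summable_KK_ideal (K := K) (inv_pos.2 (pow_pos hZ 2)) two_pos
  refine Summable.of_norm_bounded hs fun l => ?_
  rw [norm_mul, Complex.norm_real, Real.norm_of_nonneg (KK_nonneg _)]
  exact mul_le_of_le_one_left (KK_nonneg _) (norm_ind_le _)

private theorem qsq_step (T : Finset (Ideal (𝓞 K))) (hT : ∀ q ∈ T, Prime q) {p : Ideal (𝓞 K)}
    (hp : Prime p) (hpT : p ∉ T) {Z : ℝ} (hZ : 0 < Z) :
    ∑' l : (Ideal (𝓞 K))⁰, ind (¬p ∣ l.1 ∧ ∀ q ∈ T, ¬q ∣ l.1) *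
        (KK K ((Ideal.absNorm l.1 : ℝ) ^ 2 / Z ^ 2) : ℝ) =
      ∑' l : (Ideal (𝓞 K))⁰, ind (∀ q ∈ T, ¬q ∣ l.1) *
        (KK K ((Ideal.absNorm l.1 : ℝ) ^ 2 / Z ^ 2) : ℝ) -
      ∑' l : (Ideal (𝓞 K))⁰, ind (∀ q ∈ T, ¬q ∣ l.1) *
        (KK K ((Ideal.absNorm l.1 : ℝ) ^ 2 / (Z / Ideal.absNorm p) ^ 2) : ℝ) := by
  set P : (Ideal (𝓞 K))⁰ := ⟨p, mem_nonZeroDivisors_of_ne_zero hp.ne_zero⟩ with hP
  have hN : (1 : ℝ) ≤ Ideal.absNorm p := one_le_absNorm0 P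
  have h1 := (mul_right_injective P).tsum_eq (f := fun l : (Ideal (𝓞 K))⁰ =>
    ind (p ∣ l.1 ∧ ∀ q ∈ T, ¬q ∣ l.1) * (KK K ((Ideal.absNorm l.1 : ℝ) ^ 2 / Z ^ 2) : ℝ))
    fun l hl => by
      by_cases h : p ∣ l.1
      · obtain ⟨m, hm⟩ := h
        have hm0 : m ≠ 0 := fun e => nonZeroDivisors.ne_zero l.2 (by rw [hm, e, mul_zero])
        exact ⟨⟨m, mem_nonZeroDivisors_of_ne_zero hm0⟩, Subtype.ext hm.symm⟩
      · exact absurd (mul_eq_zero_of_left (ind_of_not fun h' => h h'.1) _) hl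
  have h2 : ∀ l : (Ideal (𝓞 K))⁰, ind (p ∣ (P * l).1 ∧ ∀ q ∈ T, ¬q ∣ (P * l).1) *
      ((KK K ((Ideal.absNorm (P * l).1 : ℝ) ^ 2 / Z ^ 2) : ℝ) : ℂ) = ind (∀ q ∈ T, ¬q ∣ l.1) *
        (KK K ((Ideal.absNorm l.1 : ℝ) ^ 2 / (Z / Ideal.absNorm p) ^ 2) : ℝ) := fun l => by
    have e : (P * l).1 = p * l.1 := rfl
    rw [e, map_mul, Nat.cast_mul]
    congr 3
    · refine propext ⟨fun h q hq h' => h.2 q hq (h'.mul_left _), fun h => ⟨dvd_mul_right _ _,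
        fun q hq h' => ?_⟩⟩
      rcases (hT q hq).dvd_or_dvd h' with h3 | h3
      · exact hpT (associated_iff_eq.1 ((hT q hq).associated_of_dvd hp h3) ▸ hq)
      · exact h q hq h3
    · field_simp
  simp only [h2] at h1
  rw [h1, ← (qsq_summ _ hZ).tsum_sub (qsq_summ _ hZ)]
  refine tsum_congr fun l => ?_
  by_cases h : p ∣ l.1
  · rw [ind_of_not fun h' => h'.1 h, ind_congr (and_iff_right h), sub_self, zero_mul]
  · rw [ind_of_not (p := p ∣ l.1 ∧ _) fun h' => h h'.1, ind_congr (and_iff_right h), zero_mul,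
      sub_zero]

theorem ls_avoid (T : Finset (Ideal (𝓞 K))) (hT : ∀ p ∈ T, Prime p) :
    ∃ c C : ℝ, 0 < C ∧ ∀ Z : ℝ, 0 < Z →
      ‖∑' l : (Ideal (𝓞 K))⁰, ind (∀ p ∈ T, ¬p ∣ l.1) *
        (KK K ((Ideal.absNorm l.1 : ℝ) ^ 2 / Z ^ 2) : ℝ) - (c * Z : ℝ)‖ ≤ C * √Z := by
  classical
  induction T using Finset.induction_on with
  | empty =>
    obtain ⟨c, C, -, hC, h⟩ := LS0 (K := K)
    refine ⟨c, C, hC, fun Z hZ => ?_⟩
    simp only [Finset.notMem_empty, false_imp_iff, implies_true, ind_of trivial, one_mul]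
    rw [← Complex.ofReal_tsum, ← Complex.ofReal_sub, Complex.norm_real]
    exact h Z hZ
  | insert p T hpT ih =>
    obtain ⟨c, C, hC, h⟩ := ih fun q hq => hT q (Finset.mem_insert_of_mem hq)
    have hp := hT p (Finset.mem_insert_self _ _)
    have hN : (1 : ℝ) ≤ Ideal.absNorm p :=
      one_le_absNorm0 ⟨p, mem_nonZeroDivisors_of_ne_zero hp.ne_zero⟩
    refine ⟨c - c / Ideal.absNorm p, 2 * C, by positivity, fun Z hZ => ?_⟩
    simp only [Finset.forall_mem_insert]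
    have h1 : (c - c / Ideal.absNorm p) * Z = c * Z - c * (Z / Ideal.absNorm p) := by ring
    rw [qsq_step T (fun q hq => hT q (Finset.mem_insert_of_mem hq)) hp hpT hZ, h1,
      Complex.ofReal_sub, sub_sub_sub_comm]
    refine (norm_sub_le_of_le (h Z hZ) (h _ (by positivity))).trans ?_
    have h2 : √(Z / Ideal.absNorm p) ≤ √Z := Real.sqrt_le_sqrt (div_le_self hZ.le hN)
    nlinarith


private theorem qsq_prim (T : Finset (Ideal (𝓞 K)))
    (hT : ∀ P, P ∈ T ↔ (MM K : 𝓞 K) ∈ P ∧ Prime P) (g : ℝ → ℂ) :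
    ∑' n : R K, ind (Prim n) * g (nm n) =
      ∑' l : (Ideal (𝓞 K))⁰, ind (∀ p ∈ T, ¬p ∣ l.1) * g (Ideal.absNorm l.1) := by
  have h1 := (Subtype.val_injective (p := Prim)).tsum_eq (f := fun n : R K => ind (Prim n) * g (nm n))
    fun n hn => by
      by_cases h : Prim n
      · exact ⟨⟨n, h⟩, rfl⟩
      · exact absurd (mul_eq_zero_of_left (ind_of_not h) _) hn
  have h2 : Function.Injective fun n : {n : R K // Prim n} =>
      (⟨idl n.1, mem_nonZeroDivisors_of_ne_zero (idl_ne_bot n.2.1)⟩ : (Ideal (𝓞 K))⁰) :=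
    fun m n h => (primEquiv K).injective (Subtype.ext (Subtype.mk.inj h))
  have h3 := h2.tsum_eq (f := fun l : (Ideal (𝓞 K))⁰ =>
    ind (∀ p ∈ T, ¬p ∣ l.1) * g (Ideal.absNorm l.1)) fun l hl => by
      by_cases h : ∀ p ∈ T, ¬p ∣ l.1
      · have h4 : IsCoprime l.1 (Ideal.span {(MM K : 𝓞 K)}) := by
          rw [Ideal.isCoprime_iff_sup_eq]
          by_contra h5
          obtain ⟨P, hP, h6⟩ := Ideal.exists_le_maximal _ h5
          have h7 : l.1 ≤ P := le_sup_left.trans h6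
          have h8 : P ≠ ⊥ := fun e => nonZeroDivisors.ne_zero l.2 (le_bot_iff.1 (e ▸ h7))
          exact h P ((hT P).2 ⟨(Ideal.span_singleton_le_iff_mem _).1 (le_sup_right.trans h6),
            Ideal.prime_of_isPrime h8 hP.isPrime⟩) (Ideal.dvd_iff_le.2 h7)
        exact ⟨(primEquiv K).symm ⟨l.1, h4⟩, Subtype.ext (idl_gen h4)⟩
      · exact absurd (mul_eq_zero_of_left (ind_of_not h) _) hl
  rw [← h1, ← h3]
  refine tsum_congr fun n => ?_
  rw [ind_of n.2, ind_of, absNorm_idl]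
  intro p hp h
  exact ((hT p).1 hp).2.not_isUnit ((idl_isCoprime n.2.1).isUnit_of_dvd' h
    (Ideal.dvd_iff_le.2 ((Ideal.span_singleton_le_iff_mem _).2 ((hT p).1 hp).1)))

theorem ls_prim : ∃ c C : ℝ, 0 < C ∧ ∀ Z : ℝ, 0 < Z →
    ‖∑' n : R K, ind (Prim n) * (KK K ((nm n : ℝ) ^ 2 / Z ^ 2) : ℝ) - (c * Z : ℝ)‖ ≤ C * √Z := by
  classical
  obtain ⟨T, hT⟩ : ∃ T : Finset (Ideal (𝓞 K)), ∀ P, P ∈ T ↔ (MM K : 𝓞 K) ∈ P ∧ Prime P :=
    ⟨(finite_sId_mem (K := K) 1).toFinset.filter Prime, fun P => by simp⟩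
  obtain ⟨c, C, hC, h⟩ := ls_avoid T fun p hp => ((hT p).1 hp).2
  refine ⟨c, C, hC, fun Z hZ => ?_⟩
  rw [qsq_prim T hT fun x => (KK K (x ^ 2 / Z ^ 2) : ℝ)]
  exact h Z hZ


theorem ls_wS : ∃ I C : ℝ, 0 < C ∧ ∀ Z : ℝ, 0 < Z →
    ‖∑' l : R K, ind (Prim l) * (wS K (((nm l : ℝ) / Z) ^ 2) : ℝ) - (I * Z : ℝ)‖ ≤ C * (1 + √Z) := by
  obtain ⟨c, C, hC, h⟩ := ls_prim (K := K)
  obtain ⟨A, hA, hK⟩ := KK_le_rpow (K := K) one_pos
  have hN : ∀ s : {s : Ideal (𝓞 K) // SId s}, (1 : ℝ) ≤ Ideal.absNorm s.1 := fun s =>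
    one_le_absNorm0 ⟨s.1, mem_nonZeroDivisors_of_ne_zero s.2.ne_bot⟩
  have s2 := summable_SId (K := K) (η := 1 / 2) (by norm_num)
  have s4 := summable_SId (K := K) (η := 1 / 4) (by norm_num)
  set S4 : ℝ := ∑' s : {s : Ideal (𝓞 K) // SId s}, (Ideal.absNorm s.1 : ℝ) ^ (-(1 / 4) : ℝ) with hS4
  have hS : 0 ≤ S4 := tsum_nonneg fun _ => by positivity
  refine ⟨c * ∑' s : {s : Ideal (𝓞 K) // SId s}, (Ideal.absNorm s.1 : ℝ) ^ (-(1 / 2) : ℝ),
    C * (S4 + 1), by positivity, fun Z hZ => ?_⟩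
  have hs : Summable fun p : {s : Ideal (𝓞 K) // SId s} × R K => ind (Prim p.2) *
      ((KK K (Ideal.absNorm p.1.1 * ((nm p.2 : ℝ) / Z) ^ 2) : ℝ) : ℂ) := by
    have h1 := (summable_mul_of_summable_norm (summable_SId (K := K) one_pos).norm
      (summable_ind_rpow (K := K) one_lt_two).norm).mul_left (A * Z ^ 2)
    refine Summable.of_norm_bounded h1 fun p => ?_
    by_cases hp : Prim p.2
    · have h2 := hN p.1
      have h3 := nm_pos_real hp.1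
      rw [ind_of hp, one_mul, norm_one, one_mul, Complex.norm_real,
        Real.norm_of_nonneg (KK_nonneg _)]
      refine (hK _ (by positivity)).trans_eq ?_
      rw [Real.rpow_neg_one, Real.rpow_neg_one, Real.rpow_neg h3.le, Real.rpow_two]
      field_simp
    · simp only [ind_of_not hp, zero_mul, norm_zero, mul_zero, le_refl]
  have h4 : ∀ s : {s : Ideal (𝓞 K) // SId s},
      ‖∑' n : R K, ind (Prim n) * ((KK K (Ideal.absNorm s.1 * ((nm n : ℝ) / Z) ^ 2) : ℝ) : ℂ) -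
        (c * Z * (Ideal.absNorm s.1 : ℝ) ^ (-(1 / 2) : ℝ) : ℝ)‖ ≤
      C * √Z * (Ideal.absNorm s.1 : ℝ) ^ (-(1 / 4) : ℝ) := fun s => by
    have h5 := hN s
    generalize (Ideal.absNorm s.1 : ℝ) = N at h5 ⊢
    have h6 : 0 < N := by positivity
    have h7 := h (Z * N ^ (-(1 / 2) : ℝ)) (by positivity)
    have h8 : ∀ x : ℝ, x ^ 2 / (Z * N ^ (-(1 / 2) : ℝ)) ^ 2 = N * (x / Z) ^ 2 := fun x => by
      rw [mul_pow, ← Real.rpow_natCast (N ^ _), ← Real.rpow_mul h6.le,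
        show (-(1 / 2) : ℝ) * (2 : ℕ) = -1 by norm_num, Real.rpow_neg_one]
      field_simp
    have h9 : √(Z * N ^ (-(1 / 2) : ℝ)) = √Z * N ^ (-(1 / 4) : ℝ) := by
      rw [Real.sqrt_mul hZ.le, Real.sqrt_eq_rpow (N ^ _), ← Real.rpow_mul h6.le]
      norm_num
    simpa only [h8, h9, mul_assoc] using h7
  have h5 : ∑' l : R K, ind (Prim l) * ((wS K (((nm l : ℝ) / Z) ^ 2) : ℝ) : ℂ) =
      ∑' s : {s : Ideal (𝓞 K) // SId s}, ∑' n : R K, ind (Prim n) *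
        ((KK K (Ideal.absNorm s.1 * ((nm n : ℝ) / Z) ^ 2) : ℝ) : ℂ) := by
    rw [← Summable.tsum_comm (f := fun (s : {s : Ideal (𝓞 K) // SId s}) (n : R K) => ind (Prim n) *
      ((KK K (Ideal.absNorm s.1 * ((nm n : ℝ) / Z) ^ 2) : ℝ) : ℂ)) hs]
    simp only [wS, Complex.ofReal_tsum, tsum_mul_left]
  rw [h5, mul_right_comm, ← tsum_mul_left, Complex.ofReal_tsum,
    ← hs.prod.tsum_sub (Complex.summable_ofReal.2 (s2.mul_left _))]
  refine (tsum_of_norm_bounded (s4.hasSum.mul_left (C * √Z)) h4).trans ?_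
  rw [← hS4]
  have := Real.sqrt_nonneg Z
  nlinarith [mul_nonneg hC.le hS, mul_nonneg hC.le this]


end Vale.Agent.P319
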