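import Vale.Agent.P319.N.QLS
import Vale.Agent.P319.N.QSq
import Vale.Agent.P319.N.QPois
import Vale.Agent.P319.N.PSEng

/-! # PSQ: the quadratic large sieve. -/

namespace Vale.Agent.P319

open scoped ComplexConjugate Real NumberField nonZeroDivisors
open MeasureTheory

variable {K : Type} [Field K] [NumberField K] [Stp K]

/-- the engine for the quadratic large sieve -/
noncomputable def qeng (K : Type) [Field K] [NumberField K] [Stp K] : QEng K where
  w := wS K
  V := Fintype.card (ClassGroup (𝓞 K)) * VV K / idx K
  c0 := c0 K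
  c0_pos := c0_pos
  V_nonneg := div_nonneg (mul_nonneg (Nat.cast_nonneg _) ENNReal.toReal_nonneg) (Nat.cast_nonneg _)
  w_nonneg := fun y _ => wS_nonneg y
  w_anti := wS_anti
  w_pos := wS_pos one_pos
  sep := sep_wS sep_KK
  summ := fun _ => summable_cut_wS
  ls0 := ls_wS
  pois := pois_wS

theorem qls [Rcp K] : QLSStmt K := qls_of (qeng K)

end Vale.Agent.P319
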