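import Vale.Agent.P319.N.QGLat

/-! Part QG: Abel means on fractional ideals and the theta relation (Landsberg-Schaar). -/

namespace Vale.Agent.P319

open scoped ComplexConjugate Real NumberField nonZeroDivisors Topology
open MeasureTheory Filter

variable {K : Type} [Field K] [NumberField K] [Stp K]

namespace QG

/-- all parameters tend to `0+` -/
def Sm (t : ℝ → Pl K → ℝ) : Prop := ∀ v, Tendsto (fun δ => t δ v) (𝓝[>] 0) (𝓝[>] 0)

theorem Sm.pos {t : ℝ → Pl K → ℝ} (ht : Sm t) : ∀ᶠ δ in 𝓝[>] (0 : ℝ), ∀ v, 0 < t δ v :=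
  eventually_all.2 fun v => (tendsto_nhdsWithin_iff.1 (ht v)).2

/-- the Abel mean of `g` on `I` is `B` -/
def LimTo (I : FractionalIdeal (𝓞 K)⁰ K) (g : K → ℂ) (B : ℂ) : Prop :=
  ∀ t : ℝ → Pl K → ℝ, Sm t → Tendsto
    (fun δ => ((∏ v, t δ v : ℝ) : ℂ) * ∑' y : I, g y * Ga (t δ) (y : K)) (𝓝[>] 0) (𝓝 B)

/-- the density of `J` -/
noncomputable def wt (J : FractionalIdeal (𝓞 K)⁰ K) : ℝ := (cv J)⁻¹ * ∏ _v : Pl K, π

theorem wt_pos {J : FractionalIdeal (𝓞 K)⁰ K} (hJ : J ≠ 0) : 0 < wt J := by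
  have := cv_pos hJ
  have := Real.pi_pos
  unfold wt
  positivity

theorem lim_coset (hP : PoisStmt K) {J : FractionalIdeal (𝓞 K)⁰ K} (hJ : J ≠ 0) (a : K)
    {t : ℝ → Pl K → ℝ} (ht : Sm t) :
    Tendsto (fun δ => ((∏ v, t δ v : ℝ) : ℂ) * ∑' y : J, (Ga (t δ) (a + y) : ℂ)) (𝓝[>] 0)
      (𝓝 (wt J)) := by
  classical
  have hπ := Real.pi_pos
  obtain ⟨v0⟩ := pl_nonempty (K := K)
  set z : FractionalIdeal.dual ℤ ℚ J := ⟨0, FractionalIdeal.zero_mem _⟩ with hz
  have h1 : Tendsto (fun δ => ∑' ξ : FractionalIdeal.dual ℤ ℚ J,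
      eTr (a * ξ) * Ga (fun v => 4 * π ^ 2 / t δ v) (ξ : K)) (𝓝[>] 0)
      (𝓝 (∑' ξ : FractionalIdeal.dual ℤ ℚ J, if ξ = z then 1 else 0)) := by
    refine tendsto_tsum_of_dominated_convergence (bound := fun ξ => Ga (fun _ => 1) (ξ : K))
      (summable_Ga _ fun _ => one_pos) (fun ξ => ?_) ?_
    · split_ifs with hξ
      · subst hξ
        simp [hz, Ga, ev, eTr]
      · have hξ' : (ξ : K) ≠ 0 := fun h => hξ (Subtype.ext h)
        have h0 : 0 < 4 * π ^ 2 * ‖ev v0 (ξ : K)‖ ^ 2 := by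
          have := norm_pos_iff.2 (ev_ne v0 hξ')
          positivity
        have h2 := Real.tendsto_exp_neg_atTop_nhds_zero.comp
          ((tendsto_inv_nhdsGT_zero.comp (ht v0)).const_mul_atTop h0)
        refine squeeze_zero_norm' ?_ h2
        filter_upwards [ht.pos] with δ hδ
        rw [norm_mul, norm_eTr, one_mul, Complex.norm_real, Real.norm_of_nonneg (Ga_pos _ _).le]
        refine Real.exp_le_exp.2 (neg_le_neg (le_of_eq_of_le ?_ (Finset.single_le_sum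
          (f := fun v => 4 * π ^ 2 / t δ v * ‖ev v (ξ : K)‖ ^ 2)
          (fun v _ => by have := hδ v; positivity) (Finset.mem_univ v0))))
        simp only [Function.comp]
        ring
    · have h3 : ∀ᶠ δ in 𝓝[>] (0 : ℝ), ∀ v, t δ v < 4 * π ^ 2 := eventually_all.2 fun v =>
        (tendsto_nhdsWithin_iff.1 (ht v)).1.eventually (gt_mem_nhds (by positivity))
      filter_upwards [ht.pos, h3] with δ hδ hδ' ξ
      rw [norm_mul, norm_eTr, one_mul, Complex.norm_real, Real.norm_of_nonneg (Ga_pos _ _).le]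
      exact Ga_mono (fun v => ((one_lt_div (hδ v)).2 (hδ' v)).le) _
  rw [tsum_ite_eq] at h1
  have h2 := h1.const_mul (wt J : ℂ)
  rw [mul_one] at h2
  refine h2.congr' ?_
  filter_upwards [ht.pos] with δ hδ
  rw [pois_shift hP hJ hδ, ← mul_assoc, ← Complex.ofReal_mul, mul_left_comm,
    ← Finset.prod_mul_distrib, wt]
  congr 3
  exact Finset.prod_congr rfl fun v _ => by have := (hδ v).ne'; field_simp

theorem lim_per (hP : PoisStmt K) {I J : FractionalIdeal (𝓞 K)⁰ K} (hJ : J ≠ 0) (hJI : J ≤ I)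
    {ι : Type} (s : Finset ι) (e : ι → K) (he : ∀ i ∈ s, e i ∈ I)
    (hu : ∀ y ∈ I, ∃! i, i ∈ s ∧ y - e i ∈ J) {g : K → ℂ} (hg1 : ∀ y, ‖g y‖ ≤ 1)
    (hg : ∀ y ∈ I, ∀ j ∈ J, g (y + j) = g y) : LimTo I g (wt J * ∑ i ∈ s, g (e i)) := by
  intro t ht
  let φ : s × J → I := fun p => ⟨e p.1 + p.2, (I : Submodule (𝓞 K) K).add_mem (he _ p.1.2)
    (hJI p.2.2)⟩
  have hφ : Function.Bijective φ := by
    constructor
    · rintro ⟨i, j⟩ ⟨i', j'⟩ h
      have h1 : e i + j = e i' + j' := congrArg Subtype.val h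
      have h2 : i = i' := Subtype.ext ((hu _ (φ (i, j)).2).unique
        ⟨i.2, by simp [φ]⟩ ⟨i'.2, by simp [φ, h1]⟩)
      subst h2
      exact Prod.ext rfl (Subtype.ext (add_left_cancel h1))
    · intro y
      obtain ⟨i, ⟨hi, hj⟩, -⟩ := hu y y.2
      exact ⟨(⟨i, hi⟩, ⟨_, hj⟩), Subtype.ext (by simp [φ])⟩
  have h1 := tendsto_finsetSum s fun i _ => (lim_coset hP hJ (e i) ht).const_mul (g (e i))
  rw [← Finset.sum_mul, mul_comm] at h1
  refine h1.congr' ?_
  filter_upwards [ht.pos] with δ hδ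
  have hs := summable_mul_Ga I hδ (g := fun y => g y) fun y => hg1 y
  rw [← (Equiv.ofBijective φ hφ).summable_iff] at hs
  have h2 := hs.tsum_prod
  simp only [Function.comp] at h2
  rw [← (Equiv.ofBijective φ hφ).tsum_eq, h2, tsum_fintype, Finset.mul_sum,
    ← Finset.sum_coe_sort s]
  refine Finset.sum_congr rfl fun i _ => ?_
  rw [mul_left_comm, ← tsum_mul_left]
  congr 1
  refine tsum_congr fun j => ?_
  simp only [Equiv.ofBijective_apply, φ]
  rw [hg _ (he _ i.2) _ j.2]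

theorem lim_one (hP : PoisStmt K) {I : FractionalIdeal (𝓞 K)⁰ K} (hI : I ≠ 0)
    {t : ℝ → Pl K → ℝ} (ht : Sm t) :
    Tendsto (fun δ => (∏ v, t δ v) * ∑' y : I, Ga (t δ) (y : K)) (𝓝[>] 0) (𝓝 (wt I)) := by
  have h := (Complex.continuous_re.tendsto _).comp (lim_coset hP hI 0 ht)
  refine h.congr fun δ => ?_
  simp only [Function.comp, zero_add]
  rw [← Complex.ofReal_tsum, ← Complex.ofReal_mul, Complex.ofReal_re]

omit [Stp K] in
theorem exists_reps {I J : FractionalIdeal (𝓞 K)⁰ K} (hJ : J ≠ 0) :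
    ∃ s : Finset K, (∀ c ∈ s, c ∈ I) ∧ ∀ y ∈ I, ∃! c, c ∈ s ∧ y - c ∈ J := by
  classical
  let H : Submodule ℤ (I : Submodule (𝓞 K) K) := ((J : Submodule (𝓞 K) K).restrictScalars ℤ).comap
    ((I : Submodule (𝓞 K) K).subtype.restrictScalars ℤ)
  have hH : ∀ x y : (I : Submodule (𝓞 K) K), Submodule.Quotient.mk (p := H) x = Submodule.Quotient.mk y ↔
      (x : K) - y ∈ J := fun x y => Submodule.Quotient.eq H
  obtain ⟨j, hj0, hj⟩ := FractionalIdeal.exists_ne_zero_mem_isInteger hJ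
  have hj1 : algebraMap (𝓞 K) K j ≠ 0 := (map_ne_zero_iff _ (IsFractionRing.injective _ _)).2 hj0
  have : Finite ((I : Submodule (𝓞 K) K) ⧸ H) := by
    have : Module.Finite ℤ (I : Submodule (𝓞 K) K) := inferInstanceAs (Module.Finite ℤ I)
    refine Module.finite_of_fg_torsion _ fun q => ?_
    obtain ⟨y, rfl⟩ := Submodule.Quotient.mk_surjective H q
    obtain ⟨n, hn, h⟩ := exists_integral_multiples ℤ ℚ {(y : K) / algebraMap (𝓞 K) K j}
    refine ⟨⟨n, mem_nonZeroDivisors_of_ne_zero hn⟩, ?_⟩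
    rw [Submonoid.mk_smul, ← Submodule.Quotient.mk_smul, Submodule.Quotient.mk_eq_zero]
    have h2 := (J : Submodule (𝓞 K) K).smul_mem ⟨_, h _ (Finset.mem_singleton_self _)⟩ hj
    change (n • ((y : K) / algebraMap (𝓞 K) K j)) * algebraMap (𝓞 K) K j ∈ J at h2
    rw [smul_mul_assoc, div_mul_cancel₀ _ hj1] at h2
    exact h2
  have := Fintype.ofFinite ((I : Submodule (𝓞 K) K) ⧸ H)
  refine ⟨Finset.univ.image fun q : (I : Submodule (𝓞 K) K) ⧸ H =>
    ((Quotient.out q : (I : Submodule (𝓞 K) K)) : K), ?_, fun y hy => ?_⟩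
  · intro c hc
    obtain ⟨q, -, rfl⟩ := Finset.mem_image.1 hc
    exact (Quotient.out q).2
  · refine ⟨_, ⟨Finset.mem_image_of_mem _ (Finset.mem_univ (Submodule.Quotient.mk ⟨y, hy⟩)),
      (hH ⟨y, hy⟩ _).1 (Quotient.out_eq _).symm⟩, ?_⟩
    rintro c ⟨hc, h⟩
    obtain ⟨q, -, rfl⟩ := Finset.mem_image.1 hc
    rw [(hH ⟨y, hy⟩ _).2 h]
    congr 2
    exact (Quotient.out_eq q).symm

theorem exists_lim (hP : PoisStmt K) {I : FractionalIdeal (𝓞 K)⁰ K} (hI : I ≠ 0) (lam : K) :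
    ∃ B, LimTo I (fun y => eTr (lam * y ^ 2)) B := by
  obtain ⟨a, ha, h⟩ := I.isFractional
  obtain ⟨b, hb⟩ := IsLocalization.exists_integer_multiple (𝓞 K)⁰ lam
  obtain ⟨l, hl⟩ := hb
  set D : 𝓞 K := a * b * a with hD
  have hD0 : algebraMap (𝓞 K) K D ≠ 0 := by
    have h1 := nonZeroDivisors.ne_zero ha
    have h2 := nonZeroDivisors.coe_ne_zero b
    exact (map_ne_zero_iff _ (IsFractionRing.injective _ _)).2 (mul_ne_zero (mul_ne_zero h1 h2) h1)
  have hJ : FractionalIdeal.spanSingleton (𝓞 K)⁰ (algebraMap (𝓞 K) K D) * I ≠ 0 :=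
    mul_ne_zero (FractionalIdeal.spanSingleton_ne_zero_iff.2 hD0) hI
  obtain ⟨s, h1, h2⟩ := exists_reps (I := I) hJ
  refine ⟨_, lim_per hP hJ (fun y hy => ?_) s id h1 h2 (fun y => (norm_eTr _).le)
    fun y hy j hj => ?_⟩
  · obtain ⟨y', hy', rfl⟩ := FractionalIdeal.mem_singleton_mul.1 hy
    exact (I : Submodule (𝓞 K) K).smul_mem D hy'
  · obtain ⟨y', hy', rfl⟩ := FractionalIdeal.mem_singleton_mul.1 hj
    obtain ⟨u, hu⟩ := h y hy
    obtain ⟨u', hu'⟩ := h y' hy'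
    have e : lam * (y + algebraMap (𝓞 K) K D * y') ^ 2 =
        lam * y ^ 2 + ((2 * l * u * u' + l * u' ^ 2 * b * a ^ 2 : 𝓞 K) : K) := by
      simp only [hD, map_add, map_mul, map_pow,
        map_ofNat, hu, hu', hl, Algebra.smul_def]
      ring
    rw [e, eTr_add, eTr_int, mul_one]

theorem lim_pert (hP : PoisStmt K) {I : FractionalIdeal (𝓞 K)⁰ K} (hI : I ≠ 0) {g : K → ℂ} {B : ℂ}
    (hg : LimTo I g B) (hg1 : ∀ y, ‖g y‖ ≤ 1) {t : ℝ → Pl K → ℝ} (ht : Sm t) {η : ℝ → ℝ}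
    (hη : Tendsto η (𝓝[>] 0) (𝓝 0)) (F : ℝ → K → ℂ) (hF1 : ∀ δ y, ‖F δ y‖ ≤ 1)
    (hF : ∀ᶠ δ in 𝓝[>] (0 : ℝ), ∀ y, ‖F δ y - g y‖ ≤ η δ * ∑ v, t δ v * ‖ev v y‖ ^ 2) :
    Tendsto (fun δ => ((∏ v, t δ v : ℝ) : ℂ) * ∑' y : I, F δ y * Ga (t δ) (y : K)) (𝓝[>] 0)
      (𝓝 B) := by
  have ht2 : Sm fun δ v => t δ v / 2 := fun v => by
    have h := ht v
    rw [tendsto_nhdsWithin_iff] at h ⊢
    exact ⟨by simpa using h.1.div_const 2, h.2.mono fun δ h => half_pos (show 0 < t δ v from h)⟩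
  have h2 := ((lim_one hP hI ht2).const_mul (2 * ∏ _v : Pl K, (2 : ℝ))).mul hη.abs
  simp only [abs_zero, mul_zero] at h2
  have h3 : Tendsto (fun δ => ((∏ v, t δ v : ℝ) : ℂ) *
      ∑' y : I, (F δ y - g y) * Ga (t δ) (y : K)) (𝓝[>] 0) (𝓝 0) := by
    refine squeeze_zero_norm' ?_ h2
    filter_upwards [hF, ht.pos] with δ h hδ
    have key : ∀ y : I, ‖(F δ y - g y) * Ga (t δ) (y : K)‖ ≤
        2 * |η δ| * Ga (fun v => t δ v / 2) (y : K) := fun y => by
      rw [norm_mul, Complex.norm_real, Real.norm_of_nonneg (Ga_pos _ _).le]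
      have e : ∑ v, t δ v / 2 * ‖ev v (y : K)‖ ^ 2 = (∑ v, t δ v * ‖ev v (y : K)‖ ^ 2) / 2 := by
        rw [Finset.sum_div]
        exact Finset.sum_congr rfl fun v _ => by ring
      have h5 := h y
      have hx : 0 ≤ ∑ v, t δ v * ‖ev v (y : K)‖ ^ 2 :=
        Finset.sum_nonneg fun v _ => by have := hδ v; positivity
      simp only [Ga, e]
      generalize ∑ v, t δ v * ‖ev v (y : K)‖ ^ 2 = S at h5 hx ⊢
      have e2 : Real.exp (-S) = Real.exp (-(S / 2)) * Real.exp (-(S / 2)) := by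
        rw [← Real.exp_add]; congr 1; ring
      have h4 : S * Real.exp (-(S / 2)) ≤ 2 := by
        have h6 := Real.add_one_le_exp (S / 2)
        rw [Real.exp_neg, ← div_eq_mul_inv, div_le_iff₀ (Real.exp_pos _)]
        linarith
      calc ‖F δ y - g y‖ * Real.exp (-S) ≤ |η δ| * S * Real.exp (-S) := by
            refine mul_le_mul_of_nonneg_right (h5.trans ?_) (Real.exp_pos _).le
            exact mul_le_mul_of_nonneg_right (le_abs_self _) hx
        _ = |η δ| * (S * Real.exp (-(S / 2))) * Real.exp (-(S / 2)) := by rw [e2]; ring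
        _ ≤ |η δ| * 2 * Real.exp (-(S / 2)) := by gcongr
        _ = _ := by ring
    have hp : 0 ≤ ∏ v, t δ v := Finset.prod_nonneg fun v _ => (hδ v).le
    rw [norm_mul, Complex.norm_real, Real.norm_of_nonneg hp]
    have hs := (summable_Ga I (t := fun v => t δ v / 2) fun v => half_pos (hδ v)).mul_left
      (2 * |η δ|)
    have := tsum_of_norm_bounded hs.hasSum key
    rw [tsum_mul_left] at this
    refine (mul_le_mul_of_nonneg_left this hp).trans (le_of_eq ?_)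
    have e : ∏ v, t δ v = (∏ _v : Pl K, (2 : ℝ)) * ∏ v, t δ v / 2 := by
      rw [← Finset.prod_mul_distrib]
      exact Finset.prod_congr rfl fun v _ => by ring
    rw [e]
    ring
  have h4 := (hg t ht).add h3
  rw [add_zero] at h4
  refine h4.congr' ?_
  filter_upwards [ht.pos] with δ hδ
  have hs := summable_mul_Ga I hδ (g := fun y => g y) fun y => hg1 y
  have hs' := summable_mul_Ga I hδ (g := fun y => F δ y) fun y => hF1 δ y
  simp only [sub_mul]
  rw [hs'.tsum_sub hs]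
  ring

theorem norm_prod_sub {ι : Type} (s : Finset ι) (a b : ι → ℂ) :
    ‖∏ v ∈ s, ecc (a v) - ∏ v ∈ s, ecc (b v)‖ ≤ ∑ v ∈ s, 4 * π * ‖a v - b v‖ := by
  classical
  induction s using Finset.induction_on with
  | empty => simp
  | insert i s hi ih =>
    rw [Finset.prod_insert hi, Finset.prod_insert hi, Finset.sum_insert hi]
    have e : ecc (a i) * ∏ v ∈ s, ecc (a v) - ecc (b i) * ∏ v ∈ s, ecc (b v) =
        (ecc (a i) - ecc (b i)) * ∏ v ∈ s, ecc (a v) +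
          ecc (b i) * (∏ v ∈ s, ecc (a v) - ∏ v ∈ s, ecc (b v)) := by ring
    rw [e]
    refine (norm_add_le _ _).trans (add_le_add ?_ ?_)
    · simpa [norm_prod, norm_ecc] using norm_ecc_sub (a i) (b i)
    · rwa [norm_mul, norm_ecc, one_mul]

/-- the theta relation -/
theorem theta (hP : PoisStmt K) {I : FractionalIdeal (𝓞 K)⁰ K} (hI : I ≠ 0) {κ : K} (hκ : κ ≠ 0)
    {A B : ℂ} (hA : LimTo I (fun y => eTr (κ * y ^ 2)) A)
    (hB : LimTo (FractionalIdeal.dual ℤ ℚ I) (fun y => eTr (-(4 * κ)⁻¹ * y ^ 2)) B) :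
    ∃ c : ℝ, 0 < c ∧ A = c * B := by
  have hπ := Real.pi_pos
  have hk : ∀ v : Pl K, 0 < ‖ev v κ‖ := fun v => norm_pos_iff.2 (ev_ne v hκ)
  have hD : ∀ (δ : ℝ) (v : Pl K), 0 < De δ κ v := fun δ v => by
    have := hk v
    unfold De
    positivity
  have hDc : ∀ v : Pl K, Continuous fun δ : ℝ => De δ κ v := fun v => by unfold De; fun_prop
  have h1 := hA (fun δ _ => δ) fun _ => tendsto_id
  have ht : Sm fun (δ : ℝ) (v : Pl K) => 4 * π ^ 2 * δ / De δ κ v := fun v => by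
    rw [tendsto_nhdsWithin_iff]
    constructor
    · have : ContinuousAt (fun δ : ℝ => 4 * π ^ 2 * δ / De δ κ v) 0 :=
        ContinuousAt.div (by fun_prop) (hDc v).continuousAt (hD 0 v).ne'
      simpa using this.tendsto.mono_left nhdsWithin_le_nhds
    · filter_upwards [self_mem_nhdsWithin] with δ hδ
      have : 0 < δ := hδ
      have := hD δ v
      rw [Set.mem_Ioi]
      positivity
  have hη : Tendsto (fun δ : ℝ => (∑ v : Pl K, (4 * π * ‖ev v κ‖)⁻¹) * δ) (𝓝[>] 0) (𝓝 0) := by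
    have : ContinuousAt (fun δ : ℝ => (∑ v : Pl K, (4 * π * ‖ev v κ‖)⁻¹) * δ) 0 := by fun_prop
    simpa using this.tendsto.mono_left nhdsWithin_le_nhds
  have h2 := lim_pert hP (FractionalIdeal.dual_ne_zero ℤ ℚ hI) hB (fun y => (norm_eTr _).le) ht hη
    (fun δ ξ => ∏ v, ecc (-((4 * π ^ 2 / De δ κ v : ℝ) * conj (ev v κ) * ev v ξ ^ 2)))
    (fun δ ξ => by simp [norm_prod, norm_ecc]) (by
      filter_upwards [self_mem_nhdsWithin] with δ hδ y
      have hδ' : 0 < δ := hδ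
      rw [eTr_eq_prod]
      refine (norm_prod_sub _ _ _).trans ?_
      rw [Finset.mul_sum]
      refine Finset.sum_le_sum fun v _ => ?_
      have hv := hk v
      have hv' := ev_ne v hκ
      have hd := hD δ v
      have hck : conj (ev v κ) = ((‖ev v κ‖ ^ 2 : ℝ) : ℂ) / ev v κ := by
        rw [eq_div_iff hv', Complex.conj_mul']
        push_cast
        rfl
      have e : -(((4 * π ^ 2 / De δ κ v : ℝ) : ℂ) * conj (ev v κ) * ev v y ^ 2) -
          ev v (-(4 * κ)⁻¹ * y ^ 2) =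
            ((δ ^ 2 / (4 * De δ κ v) : ℝ) : ℂ) * (ev v κ)⁻¹ * ev v y ^ 2 := by
        have h3 : ((De δ κ v : ℝ) : ℂ) ≠ 0 := by exact_mod_cast hd.ne'
        have h4 : ((De δ κ v : ℝ) : ℂ) = δ ^ 2 + 16 * π ^ 2 * ‖ev v κ‖ ^ 2 := by
          unfold De; push_cast; rfl
        have h5 : ev v (-(4 * κ)⁻¹ * y ^ 2) = -(4 * ev v κ)⁻¹ * ev v y ^ 2 := by
          simp [ev, map_ofNat]
        rw [hck, h5]
        push_cast
        field_simp
        rw [h4]
        ring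
      rw [e, norm_mul, norm_mul, norm_pow, norm_inv, Complex.norm_real,
        Real.norm_of_nonneg (by positivity)]
      have h6 := Finset.single_le_sum (f := fun v : Pl K => (4 * π * ‖ev v κ‖)⁻¹)
        (fun v _ => by have := hk v; positivity) (Finset.mem_univ v)
      refine le_of_eq_of_le ?_ (mul_le_mul_of_nonneg_right
        (mul_le_mul_of_nonneg_right h6 hδ'.le) (by positivity))
      field_simp)
  have h3 : Tendsto (fun δ : ℝ => (((cv I)⁻¹ * ∏ v, √(De δ κ v) / (4 * π) : ℝ) : ℂ)) (𝓝[>] 0)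
      (𝓝 (((cv I)⁻¹ * ∏ v, √(De 0 κ v) / (4 * π) : ℝ) : ℂ)) := by
    have : Continuous fun δ : ℝ => (((cv I)⁻¹ * ∏ v, √(De δ κ v) / (4 * π) : ℝ) : ℂ) := by
      fun_prop
    exact (this.tendsto 0).mono_left nhdsWithin_le_nhds
  refine ⟨_, ?_, tendsto_nhds_unique h1 ((h3.mul h2).congr' ?_)⟩
  · have := cv_pos hI
    refine mul_pos (inv_pos.2 this) (Finset.prod_pos fun v _ => ?_)
    have := hD 0 v
    positivity
  · filter_upwards [self_mem_nhdsWithin] with δ hδ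
    have hδ' : 0 < δ := hδ
    rw [pois_phase hP hI hδ', ← mul_assoc, ← mul_assoc, ← Complex.ofReal_mul, ← Complex.ofReal_mul,
      mul_assoc, mul_left_comm (∏ _v : Pl K, δ), ← Finset.prod_mul_distrib,
      ← Finset.prod_mul_distrib]
    congr 3
    refine Finset.prod_congr rfl fun v _ => ?_
    have hd := hD δ v
    have hs := Real.sqrt_pos.2 hd
    have hss := Real.mul_self_sqrt hd.le
    field_simp
    rw [sq, hss]

end QG

end Vale.Agent.P319
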