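import Vale.Agent.P319.N.QGSum
import Vale.Agent.P319.N.QGLim

/-! Part QG: quadratic reciprocity and the values of the quadratic Gauss sums. -/

namespace Vale.Agent.P319

open scoped ComplexConjugate Real NumberField nonZeroDivisors

variable {K : Type} [Field K] [NumberField K] [Stp K]

namespace QG

theorem LimTo.congr {I : FractionalIdeal (𝓞 K)⁰ K} {g g' : K → ℂ} {B : ℂ} (h : LimTo I g B)
    (e : ∀ y ∈ I, g y = g' y) : LimTo I g' B := fun t ht => by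
  have e' : ∀ y : I, g y = g' y := fun y => e y y.2
  simpa only [e'] using h t ht

/-- `M ^ a 𝓞 K` -/
noncomputable def Ia (K : Type) [Field K] [NumberField K] [Stp K] (a : ℕ) :
    FractionalIdeal (𝓞 K)⁰ K := (Ideal.span {(MM K : 𝓞 K) ^ a} : Ideal (𝓞 K))

theorem Ia_ne (a : ℕ) : Ia K a ≠ 0 :=
  FractionalIdeal.coeIdeal_ne_zero.2 (mt Ideal.span_singleton_eq_bot.1 (pow_ne_zero _ M_int_ne_zero))

theorem mem_Ia {a : ℕ} {y : K} : y ∈ Ia K a ↔ ∃ r : R K, SIn a (r : K) ∧ y = r := by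
  rw [Ia, FractionalIdeal.mem_coeIdeal]
  constructor
  · rintro ⟨t, ht, rfl⟩
    refine ⟨algebraMap (𝓞 K) (R K) t, ?_, (coe_int t).symm⟩
    rw [coe_int]
    exact sIn_int_iff.2 (Ideal.mem_span_singleton.1 ht)
  · rintro ⟨r, hr, rfl⟩
    obtain ⟨t, ht⟩ := hr.exists_int (coe_mem r)
    exact ⟨MM K ^ a * t, Ideal.mem_span_singleton.2 (dvd_mul_right _ _), by rw [ht]; simp⟩

theorem eTr_eq_eq {a : ℕ} {x r : R K} (hx : SIn 0 ((MM K : K) ^ a / x)) (hr : SIn a (r : K)) :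
    eTr ((x : K)⁻¹ * (r : K) ^ 2) = eq (1 * r ^ 2) x := by
  have e : (x : K)⁻¹ * (r : K) ^ 2 = ((1 * r ^ 2 : R K) : K) / x := by
    rw [one_mul, map_pow]; ring
  rw [eq, ← e, psiK_of_sIn]
  obtain ⟨y, hy, h⟩ := sIn_iff_exists.1 hr
  have e2 : (x : K)⁻¹ * (r : K) ^ 2 = (MM K : K) ^ a / x * y * r := by
    rw [sq]; nth_rw 1 [h]; ring
  rw [e2]
  exact (hx.mul_right hy).mul_right hr.zero

theorem lim_left (hP : PoisStmt K) {a : ℕ} {x : R K} (hx0 : x ≠ 0)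
    (hx : SIn 0 ((MM K : K) ^ a / x)) :
    ∃ w : ℝ, 0 < w ∧ LimTo (Ia K a) (fun y => eTr ((x : K)⁻¹ * y ^ 2)) (w * GS 1 x) := by
  set J : FractionalIdeal (𝓞 K)⁰ K :=
    FractionalIdeal.coeIdeal (Ideal.span {(MM K : 𝓞 K) ^ a} ⊓ idl x) with hJ
  have hJ0 : J ≠ 0 := by
    refine FractionalIdeal.coeIdeal_ne_zero.2 fun h => ?_
    exact mul_ne_zero (mt Ideal.span_singleton_eq_bot.1 (pow_ne_zero a M_int_ne_zero))
      (idl_ne_bot hx0) (le_bot_iff.1 (h ▸ Ideal.mul_le_inf))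
  have hm : ∀ r : R K, (r : K) ∈ J ↔ SIn a (r : K) ∧ x ∣ r := fun r => by
    rw [hJ, FractionalIdeal.mem_coeIdeal]
    constructor
    · rintro ⟨t, ⟨ht, ht'⟩, h⟩
      obtain rfl : algebraMap (𝓞 K) (R K) t = r := coe_injective ((coe_int t).trans h)
      refine ⟨?_, mem_idl.1 ht'⟩
      rw [coe_int]
      exact sIn_int_iff.2 (Ideal.mem_span_singleton.1 ht)
    · rintro ⟨hr, hr'⟩
      obtain ⟨t, rfl⟩ := sIn_R_iff0.1 hr.zero
      rw [coe_int] at hr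
      exact ⟨t, ⟨Ideal.mem_span_singleton.2 (sIn_int_iff.1 hr), mem_idl.2 hr'⟩, (coe_int t).symm⟩
  have hJI : J ≤ Ia K a := (FractionalIdeal.coeIdeal_le_coeIdeal K).2 inf_le_left
  choose e he he' using fun c : R K => exists_R_approx_mod a (0 : K) hx0 c
  have he1 : ∀ c, SIn a (e c : K) := fun c => by simpa using (he c).neg
  have h := lim_per hP hJ0 hJI (res x) (fun c => (e c : K))
    (fun c _ => mem_Ia.2 ⟨_, he1 c, rfl⟩) (fun y hy => by
      obtain ⟨r, hr, rfl⟩ := mem_Ia.1 hy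
      have : ∀ c, (r : K) - e c ∈ J ↔ x ∣ r - c := fun c => by
        rw [← map_sub, hm, map_sub, and_iff_right (hr.sub (he1 c))]
        exact ⟨fun h => by simpa using h.add (he' c), fun h => by simpa using h.sub (he' c)⟩
      simp only [this]
      exact res_spec hx0 r)
    (g := fun y => eTr ((x : K)⁻¹ * y ^ 2)) (fun y => (norm_eTr _).le) (fun y hy j hj => by
      obtain ⟨r, hr, rfl⟩ := mem_Ia.1 hy
      obtain ⟨s, hs, rfl⟩ := mem_Ia.1 (hJI hj)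
      rw [← map_add, eTr_eq_eq hx (by rw [map_add]; exact hr.add hs), eTr_eq_eq hx hr]
      exact per_sq 1 x _ _ (by simpa using ((hm s).1 hj).2))
  refine ⟨_, wt_pos hJ0, ?_⟩
  convert h using 2
  refine Finset.sum_congr rfl fun c _ => ?_
  rw [eTr_eq_eq hx (he1 c)]
  exact (per_sq 1 x _ _ (he' c)).symm

theorem dual_int {a : ℕ} {ξ : K} (h : ξ ∈ FractionalIdeal.dual ℤ ℚ (Ia K a)) :
    ∃ t : 𝓞 K, (MM K : K) ^ (a + 1) * ξ = t := by
  classical
  rw [← FractionalIdeal.mem_coe, FractionalIdeal.coe_dual ℤ ℚ (Ia_ne a)] at h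
  have h1 := isIntegral_discr_mul_of_mem_traceDual (A := ℤ) (K := ℚ) (Ia K a : Submodule (𝓞 K) K)
    (b := NumberField.integralBasis K)
    (fun i => by rw [NumberField.integralBasis_apply]; exact NumberField.RingOfIntegers.isIntegral_coe _)
    (a := (MM K : K) ^ a) (mem_Ia.2 ⟨MM K ^ a, by simpa using sIn_pow_M a, by simp⟩) h
  rw [← NumberField.coe_discr] at h1
  obtain ⟨k, hk⟩ := Stp.disc_dvd (K := K)
  obtain ⟨t, ht⟩ : ∃ t : 𝓞 K, (t : K) = ((NumberField.discr K : ℚ) • (MM K : K) ^ a * ξ) :=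
    ⟨⟨_, h1⟩, rfl⟩
  refine ⟨k * t, ?_⟩
  have hk' : (MM K : K) = NumberField.discr K * k := by exact_mod_cast congrArg (Int.cast : ℤ → K) hk
  rw [Rat.smul_def, Rat.cast_intCast] at ht
  rw [NumberField.RingOfIntegers.coe_eq_algebraMap] at ht ⊢
  rw [map_mul, map_intCast]
  linear_combination (MM K : K) ^ a * ξ * hk' - k * ht

theorem G2_deep (hP : PoisStmt K) {a : ℕ} {x y : R K} (hx0 : x ≠ 0)
    (h1 : SIn 0 ((MM K : K) ^ a * x)) (h2 : SIn 0 ((MM K : K) ^ a / x))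
    (h : InUq (3 * a + 4) ((y : K) / x)) : G2 y = G2 x := by
  have hx := coe_ne_zero hx0
  have hy : (y : K) ≠ 0 := (div_ne_zero_iff.1 (h.ne_zero (by omega))).1
  have hy0 : y ≠ 0 := mt coe_eq_zero.2 hy
  have h3 : SIn 0 ((MM K : K) ^ a / y) := by
    have := h2.mul_right (h.inv (by omega)).sIn
    rwa [inv_div, div_mul_div_cancel₀ hx] at this
  obtain ⟨w, hw, l1⟩ := lim_left hP hx0 h2
  obtain ⟨w', hw', l2⟩ := lim_left hP hy0 h3
  obtain ⟨B, hB⟩ := exists_lim hP (FractionalIdeal.dual_ne_zero ℤ ℚ (Ia_ne (K := K) a))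
    (-(4 * (x : K)⁻¹)⁻¹)
  have hB' := hB.congr (g' := fun ξ => eTr (-(4 * (y : K)⁻¹)⁻¹ * ξ ^ 2)) fun ξ hξ => by
    obtain ⟨t, ht⟩ := dual_int hξ
    obtain ⟨m, hm⟩ := two_dvd_M (K := K)
    have hm' : (MM K : K) = 2 * m := by exact_mod_cast congrArg (Nat.cast : ℕ → K) hm
    have hξ' : ξ ∈ RS K := (mem_RS_iff_pow _).2 ⟨_, _, ht⟩
    have h4 : (4 : K)⁻¹ ∈ RS K := (mem_RS_iff_pow _).2 ⟨2, m ^ 2, by
      rw [hm']; push_cast; ring⟩
    have h5 : ((y : K) - x) * ξ ^ 2 * 4⁻¹ ∈ RS K :=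
      mul_mem (mul_mem (sub_mem (coe_mem y) (coe_mem x)) (pow_mem hξ' 2)) h4
    have h6 : SIn 0 (((y : K) - x) * ξ ^ 2 * 4⁻¹) := by
      rw [← sIn_pow_mul_iff (a := 3 * a + 4)]
      have e : (MM K : K) ^ (3 * a + 4) * (((y : K) - x) * ξ ^ 2 * 4⁻¹) =
          ((y : K) / x - 1) * ((MM K : K) ^ a * x * ((t : K) ^ 2 * (m : K) ^ 2)) := by
        rw [← ht, show 3 * a + 4 = a + (a + 1) * 2 + 2 by ring, pow_add, pow_add, pow_mul, hm']
        field_simp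
        ring
      rw [e]
      exact SIn.mul_right h (h1.mul_right (((sIn_int t).pow0 2).mul_right ((sIn_natCast m).pow0 2)))
    obtain ⟨s, hs⟩ := h6.exists_int h5
    have e : -(4 * (x : K)⁻¹)⁻¹ * ξ ^ 2 = -(4 * (y : K)⁻¹)⁻¹ * ξ ^ 2 + s := by
      rw [pow_zero, one_mul] at hs
      rw [← hs]
      field_simp
      ring
    rw [e, eTr_add, eTr_int, mul_one]
  obtain ⟨c, hc, e1⟩ := theta hP (Ia_ne a) (inv_ne_zero hx) l1 hB
  obtain ⟨c', hc', e2⟩ := theta hP (Ia_ne a) (inv_ne_zero hy) l2 hB'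
  refine G2_eq_of_pos hx0 hy0 (c := c' * w / (c * w')) (by positivity) ?_
  have hc0 : (c : ℂ) ≠ 0 := by exact_mod_cast hc.ne'
  have hw0 : (w' : ℂ) ≠ 0 := by exact_mod_cast hw'.ne'
  push_cast
  field_simp
  linear_combination c * e2 - c' * e1

theorem G2_congr (hP : PoisStmt K) {x y : R K} (hx0 : x ≠ 0) (h : InU ((y : K) / x)) :
    G2 y = G2 x := by
  obtain ⟨a, h1, h2⟩ := exists_sIn_both (coe_ne_zero hx0)
  obtain ⟨z, hz, hz', -⟩ := hensel (q := 8) (two_dvd_M (K := K)) (by norm_num) (3 * a + 4) h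
    one_ne_zero 0
  have hz0 : z ≠ 0 := mt coe_eq_zero.2 (hz.ne_zero (by norm_num))
  rw [← G2_mul_sq hx0 hz0]
  refine G2_deep hP (a := a) (mul_ne_zero hx0 (pow_ne_zero _ hz0)) ?_ ?_ ?_
  · rw [map_mul, map_pow, ← mul_assoc]
    exact h1.mul_right (hz.sIn.pow0 2)
  · rw [map_mul, map_pow, ← div_div, div_eq_mul_inv _ (_ ^ 2), ← inv_pow]
    exact h2.mul_right ((hz.inv (by norm_num)).sIn.pow0 2)
  · rwa [map_mul, map_pow, ← div_div]

end QG

open QG

theorem qg (h : PoisStmt K) : QGStmt K := by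
  refine ⟨fun x y hx hy hxy => ?_, fun x y sx sy hxy => ?_, fun x z sx hx => ?_⟩
  · have hx0 : x ≠ 0 := mt coe_eq_zero.2 (InUq.ne_zero (by norm_num) hx)
    have h1 := G2_mul hx0 hy hxy
    have h2 : G2 x = 1 := by
      rw [← G2_one (K := K)]
      exact G2_congr h one_ne_zero (by simpa using hx)
    have h3 : G2 (x * y) = G2 y := G2_congr h hy (by
      rwa [map_mul, mul_div_cancel_right₀ _ (coe_ne_zero hy)])
    have h4 : G2 y ≠ 0 := norm_ne_zero_iff.1 (by rw [norm_G2 hy]; exact one_ne_zero)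
    rw [h2, h3, mul_one] at h1
    have h5 : quad y x * quad x y = 1 := mul_right_cancel₀ h4 (by rw [← h1, one_mul])
    have h6 := quad_sq hxy
    linear_combination quad x y * h5 - quad y x * h6
  · rw [gt2_eq sx, gt2_eq sy]
    exact G2_congr h sx.ne_zero hxy
  · obtain ⟨u, v, hv, rfl⟩ := IsFractionRing.div_surjective (A := R K) z
    have hv0 : v ≠ 0 := nonZeroDivisors.ne_zero hv
    have hu0 : u ≠ 0 := by
      rintro rfl
      exact InUq.ne_zero (by norm_num) hx (by simp)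
    rw [gt2_eq sx, ← G2_mul_sq sx.ne_zero hv0, ← G2_one (K := K), ← G2_mul_sq one_ne_zero hu0]
    refine G2_congr h (mul_ne_zero one_ne_zero (pow_ne_zero _ hu0)) ?_
    rwa [one_mul, map_mul, map_pow, map_pow, mul_div_assoc, ← div_pow, ← inv_div, inv_pow,
      ← div_eq_mul_inv]

end Vale.Agent.P319
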