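import Vale.Agent.P319.N.RecHyp
import Vale.Agent.P319.N.RecMax2

/-! REC: the recursion.  Port of P026 `RecStep`. -/

namespace Vale.Agent.P319.Rec

open scoped ComplexConjugate Real

variable {𝕂 : Type} [Field 𝕂] [NumberField 𝕂] [Stp 𝕂]

open Classical in
theorem bil_large {Bil : ℝ → ℝ → (R 𝕂 → ℂ) → R 𝕂 → ℂ}
    (p2 : ∀ η : ℝ, 0 < η → ∃ C : ℝ, 0 < C ∧ ∀ (Y Z D : ℝ) (b : R 𝕂 → ℂ) (Δ : R 𝕂), 1 ≤ Y →
      (∀ (τ : (R 𝕂)ˣ) (s : Finset (R 𝕂)), (∀ h ∈ s, Prim h) →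
        ∑ f ∈ sball 𝕂 Z, ∑ h ∈ s, (1 + (nm h : ℝ) / Y) ^ (-3 : ℝ) *
          ‖∑ m ∈ sball 𝕂 Z, ind (f ∣ m) * b (Δ * m) * sex ((τ : R 𝕂) * h) m‖ ^ 2 ≤ D) →
      ‖Bil Y Z b Δ‖ ≤ C * Y ^ η * D) {θ : ℝ} (hP : PM 𝕂 θ) {B : ℝ}
    {V : ℝ → ℝ} (hV : Adm B V) {ε : ℝ} (hε : 0 < ε) : ∃ C A : ℝ, 0 < C ∧ 0 ≤ A ∧
    ∀ (N H t : ℝ) (α : R 𝕂), 1 ≤ N → N ^ (599 / 500 : ℝ) ≤ H →
      ∑ Δ ∈ sball 𝕂 (B * N) with N ^ (1 / 10000 : ℝ) < nm Δ, ‖Bil H (B * N) (asc α V N t) Δ‖ ≤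
        C * (1 + |t|) ^ A * H ^ (1 + ε) * N ^ (1 + (1 - 1 / 10000) * θ) := by
  obtain ⟨η, hη⟩ : ∃ η : ℝ, η = ε / 6 := ⟨_, rfl⟩
  have hη0 : 0 < η := by rw [hη]; positivity
  have hB : 1 ≤ B := hV.1
  obtain ⟨C₀, A, hC₀, hA, h0⟩ := hP B V η hV hη0
  obtain ⟨C₁, hC₁, h1⟩ := p2 η hη0
  obtain ⟨C₂, hC₂, h2⟩ := tau_pow_le (𝕂 := 𝕂) 2 hη0
  obtain ⟨C₃, hC₃, h3⟩ := sum_inv_le_rpow (K := 𝕂) hη0
  refine ⟨C₀ * C₁ * C₂ * C₃ ^ 2 * (B ^ η) ^ 4, A, by positivity, hA, fun N H t α hN hH => ?_⟩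
  have hN0 : 0 < N := by linarith
  have hNH : N ≤ H := le_trans
    (by simpa using Real.rpow_le_rpow_of_exponent_le hN (show (1 : ℝ) ≤ 599 / 500 by norm_num)) hH
  have hH1 : 1 ≤ H := hN.trans hNH
  have hH0 : 0 < H := by linarith
  have hBN : B * N ≤ B * H := by gcongr
  obtain ⟨G, hG0, hG1, hG2⟩ := h0 H (N ^ (1 - 1 / 10000 : ℝ)) t hH1 (by positivity)
    (le_trans (Real.rpow_le_rpow (by positivity) (by
      simpa using Real.rpow_le_rpow_of_exponent_le hN (show (1 - 1 / 10000 : ℝ) ≤ 1 by norm_num))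
      (by norm_num)) hH)
  obtain ⟨W, hW⟩ : ∃ W : ℝ, W = C₂ * ((B * H) ^ η) ^ 2 * N *
      (C₀ * (1 + |t|) ^ A * H ^ (1 + η) * (N ^ (1 - 1 / 10000 : ℝ)) ^ θ) := ⟨_, rfl⟩
  have hW0 : 0 ≤ W := by rw [hW]; positivity
  have hinv : ∀ s ⊆ sball 𝕂 (B * N), ∑ n ∈ s, (nm n : ℝ)⁻¹ ≤ C₃ * (B * H) ^ η := fun s hs =>
    h3 _ s (by nlinarith) fun n hn =>
      ⟨(mem_sball.1 (hs hn)).1.1, (mem_sball.1 (hs hn)).2.trans hBN⟩
  have key : ∀ Δ ∈ (sball 𝕂 (B * N)).filter (fun Δ => N ^ (1 / 10000 : ℝ) < nm Δ),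
      ‖Bil H (B * N) (asc α V N t) Δ‖ ≤
        C₁ * H ^ η * (W * (C₃ * (B * H) ^ η)) * (nm Δ : ℝ)⁻¹ := by
    intro Δ hΔ
    obtain ⟨hΔ1, hΔ2⟩ := Finset.mem_filter.1 hΔ
    obtain ⟨hΔS, hΔN⟩ := mem_sball.1 hΔ1
    have nΔ : (1 : ℝ) ≤ nm Δ := one_le_nm hΔS.1.1
    refine (h1 H (B * N) (W * (C₃ * (B * H) ^ η) * (nm Δ : ℝ)⁻¹) _ Δ hH1
      fun τ s hs => ?_).trans_eq (by ring)
    refine le_trans (Finset.sum_le_sum (g := fun f => W * (nm Δ : ℝ)⁻¹ * (nm f : ℝ)⁻¹)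
      fun f hf => ?_) ?_
    · obtain ⟨hfS, hfN⟩ := mem_sball.1 hf
      have nf : (1 : ℝ) ≤ nm f := one_le_nm hfS.1.1
      obtain ⟨φ', hφ', hin⟩ := large_inner hV hN0 α hΔS hfS
      have hτ : tau (Δ * f) ^ 2 ≤ C₂ * ((B * H) ^ η) ^ 2 := by
        refine (h2 _ (mul_ne_zero hΔS.1.1 hfS.1.1)).trans ?_
        rw [pow_two, ← Real.mul_rpow (by positivity) (by positivity), nm_mul, Nat.cast_mul]
        gcongr
        exacts [hΔN.trans hBN, hfN.trans hBN]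
      have hM : N / (nm Δ * nm f) ≤ N ^ (1 - 1 / 10000 : ℝ) := by
        rw [Real.rpow_sub hN0, Real.rpow_one]
        exact div_le_div_of_nonneg_left hN0.le (by positivity) (by nlinarith)
      calc _ ≤ ∑ h ∈ s, C₂ * ((B * H) ^ η) ^ 2 * (N / (nm Δ * nm f)) *
            ((1 + (nm h : ℝ) / H) ^ (-3 : ℝ) * G (τ * h)) := by
            refine Finset.sum_le_sum fun h _ => ?_
            have a1 := (pow_le_pow_left₀ (norm_nonneg _) (hin (τ * h) t) 2).trans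
              (hG1 φ' (Δ * f) _ _ hφ' (hΔS.1.mul hfS.1) (by positivity) hM)
            have a2 := hG0 (τ * h)
            refine (mul_le_mul_of_nonneg_left (a1.trans (show _ ≤
              C₂ * ((B * H) ^ η) ^ 2 * (N / (nm Δ * nm f)) * G (τ * h) by gcongr))
              (by positivity)).trans_eq ?_
            ring
        _ ≤ _ := by
            rw [← Finset.mul_sum]
            refine (mul_le_mul_of_nonneg_left (hG2 τ s hs) (by positivity)).trans_eq ?_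
            rw [hW]
            field_simp
    · rw [← Finset.mul_sum]
      refine (mul_le_mul_of_nonneg_left (hinv _ subset_rfl) (by positivity)).trans_eq ?_
      ring
  refine (Finset.sum_le_sum key).trans ?_
  rw [← Finset.mul_sum]
  refine (mul_le_mul_of_nonneg_left (hinv _ (Finset.filter_subset _ _))
    (by positivity)).trans_eq ?_
  have e1 : H ^ ε = (H ^ η) ^ 6 := by
    rw [← Real.rpow_mul_natCast hH0.le, hη]; norm_num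
  rw [hW, ← Real.rpow_mul hN0.le, Real.mul_rpow (by linarith) hH0.le, Real.rpow_add hH0,
    Real.rpow_add hH0, Real.rpow_add hN0, Real.rpow_one, Real.rpow_one, e1]
  ring

open Classical in
theorem bil_small [Rcp 𝕂] (hps : PSStmt 𝕂) (hvb : VBStmt 𝕂)
    {Bil : ℝ → ℝ → (R 𝕂 → ℂ) → R 𝕂 → ℂ}
    (p3 : ∀ (B A η : ℝ), 1 ≤ B → 0 ≤ A → 0 < η → ∃ C : ℝ, 0 < C ∧
      ∀ (X Y D : ℝ) (b : R 𝕂 → ℂ) (c : R 𝕂 → ℝ), 0 < X → 1 ≤ Y → (∀ Δ, 0 ≤ c Δ) →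
        (∀ n, b n ≠ 0 → IsS n ∧ X / B ≤ nm n ∧ (nm n : ℝ) ≤ B * X) →
        (∀ (t : ℝ) (α : R 𝕂) (τ : (R 𝕂)ˣ) (s : Finset (R 𝕂)), (∀ k ∈ s, Prim k) →
          ∑ Δ ∈ sball 𝕂 (B * X), ∑ e ∈ pdiv Δ, c Δ * (Y * nm Δ / (nm e * X)) *
            ∑ f ∈ sball 𝕂 (B * X), ∑ k ∈ s,
              (1 + Y * (nm Δ : ℝ) ^ 2 * nm k / (nm e * X ^ 2)) ^ (-5 : ℝ) *
              ‖∑ m ∈ sball 𝕂 (B * X), ind (Cg m α) * ind (f ∣ m) * b (Δ * m) * sex e m *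
                gt6 (ng m) * conj (sex ((τ : R 𝕂) * k) m) * nt m t‖ ^ 2 ≤ D * (1 + |t|) ^ A) →
        ∑ Δ ∈ sball 𝕂 (B * X), c Δ * ‖Bil Y (B * X) b Δ‖ ≤
          C * ((1 + X ^ 2 / Y) ^ η * D + Y * ∑ Δ ∈ sball 𝕂 (B * X), c Δ * ‖b Δ‖ ^ 2))
    {θ : ℝ} (hθ : 0 ≤ θ)
    (hθ1 : θ ≤ 1) (hP : PM 𝕂 θ) {B : ℝ} {V : ℝ → ℝ} (hV : Adm B V) {ε : ℝ} (hε : 0 < ε) :
    ∃ C A : ℝ, 0 < C ∧ 0 ≤ A ∧ ∀ (N H t : ℝ) (α : R 𝕂), 1 ≤ N → N ^ (599 / 500 : ℝ) ≤ H →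
      ∑ Δ ∈ sball 𝕂 (B * N) with (nm Δ : ℝ) ≤ N ^ (1 / 10000 : ℝ),
          ‖Bil H (B * N) (asc α V N t) Δ‖ ≤
        C * (1 + |t|) ^ A * H ^ (1 + ε) * N ^ (1 + (1 - 1 / 10000) * θ) := by
  obtain ⟨η, hη⟩ : ∃ η : ℝ, η = ε / 4 := ⟨_, rfl⟩
  have hη0 : 0 < η := by rw [hη]; positivity
  have hB : 1 ≤ B := hV.1
  obtain ⟨C₀, A, hC₀, hA, h0⟩ := step_hyp hps hvb hθ hθ1 hP hV hη0
  obtain ⟨C₁, hC₁, h1⟩ := tau_pow_le (𝕂 := 𝕂) 1 hη0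
  obtain ⟨C₂, hC₂, h2⟩ := sum_inv_le_rpow (K := 𝕂) hη0
  obtain ⟨C₃, hC₃, h3⟩ := card_le_of_nm (𝕂 := 𝕂)
  obtain ⟨C₄, hC₄, h4⟩ := adm_bound hV
  obtain ⟨C₅, hC₅, h5⟩ := p3 B A η hB hA hη0
  refine ⟨C₅ * ((2 ^ η * C₀ * C₁ * C₂ + C₃ * B * C₄ ^ 2) * (B ^ η) ^ 2), A, by positivity, hA,
    fun N H t α hN hH => ?_⟩
  have hN0 : 0 < N := by linarith
  have hNH : N ≤ H := le_trans
    (by simpa using Real.rpow_le_rpow_of_exponent_le hN (show (1 : ℝ) ≤ 599 / 500 by norm_num)) hH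
  have hH1 : 1 ≤ H := hN.trans hNH
  have hH0 : 0 < H := by linarith
  have hBN : B * N ≤ B * H := by gcongr
  have hτ : ∀ Δ ∈ sball 𝕂 (B * N), tau Δ ≤ C₁ * (B * H) ^ η := fun Δ hΔ => by
    have := h1 Δ (mem_sball.1 hΔ).1.1.1
    rw [pow_one] at this
    refine this.trans ?_
    gcongr
    exact (mem_sball.1 hΔ).2.trans hBN
  have hinv : ∑ n ∈ sball 𝕂 (B * N), (nm n : ℝ)⁻¹ ≤ C₂ * (B * H) ^ η :=
    h2 _ _ (by nlinarith) fun n hn =>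
      ⟨(mem_sball.1 hn).1.1, (mem_sball.1 hn).2.trans hBN⟩
  have h6 := h5 N H (C₀ * (1 + |t|) ^ A * H ^ (1 + η) * N ^ (1 + (1 - 1 / 10000) * θ) *
      (C₁ * (B * H) ^ η) * (C₂ * (B * H) ^ η)) (asc α V N t)
    (fun Δ => if (nm Δ : ℝ) ≤ N ^ (1 / 10000 : ℝ) then 1 else 0) hN0 hH1
    (fun Δ => by split_ifs; exacts [zero_le_one, le_rfl]) (fun n => asc_supp hV hN0 α t)
    (fun t' al τ s hs => by
      obtain ⟨W, hW⟩ : ∃ W : ℝ, W = C₀ * ((1 + |t|) ^ A * (1 + |t'|) ^ A) * H ^ (1 + η) *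
        N ^ (1 + (1 - 1 / 10000) * θ) := ⟨_, rfl⟩
      have hW0 : 0 ≤ W := by rw [hW]; positivity
      refine le_trans (Finset.sum_le_sum
        (g := fun Δ => W * (C₁ * (B * H) ^ η) * (nm Δ : ℝ)⁻¹) fun Δ hΔ => ?_) ?_
      · have hΔS := (mem_sball.1 hΔ).1
        have nΔ : (1 : ℝ) ≤ nm Δ := one_le_nm hΔS.1.1
        obtain ⟨φ', hφ', hin⟩ := main_inner hV hN0 α hΔS al
        refine (Finset.sum_le_card_nsmul _ _ (W * (nm Δ : ℝ)⁻¹) fun e he => ?_).trans ?_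
        · split_ifs with hc
          · rw [one_mul]
            refine le_trans ?_ ((h0 N H (t + t') φ' Δ e τ s hφ' hΔS he hs hN hH hc).trans ?_)
            · gcongr with f hf k hk
              exact hin e f _ t t'
            · rw [hW, div_eq_mul_inv]
              gcongr
              exact one_add_abs_add_le hA t t'
          · rw [zero_mul, zero_mul]
            positivity
        · rw [nsmul_eq_mul]
          exact (mul_le_mul_of_nonneg_right (hτ Δ hΔ) (by positivity)).trans_eq (by ring)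
      · rw [← Finset.mul_sum]
        refine (mul_le_mul_of_nonneg_left hinv (by positivity)).trans_eq ?_
        rw [hW]
        ring)
  have h7 : ∑ Δ ∈ sball 𝕂 (B * N), (if (nm Δ : ℝ) ≤ N ^ (1 / 10000 : ℝ) then 1 else 0) *
      ‖asc α V N t Δ‖ ^ 2 ≤ C₃ * (B * N) * C₄ ^ 2 := by
    refine (Finset.sum_le_card_nsmul _ _ (C₄ ^ 2) fun Δ _ => ?_).trans ?_
    · split_ifs
      · rw [one_mul]
        exact pow_le_pow_left₀ (norm_nonneg _) ((norm_asc_le α V N t Δ).trans (h4 _)) 2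
      · rw [zero_mul]; positivity
    · rw [nsmul_eq_mul]
      exact mul_le_mul_of_nonneg_right (h3 (B * N) _ (by positivity) fun n hn =>
        ⟨(mem_sball.1 hn).1.1, (mem_sball.1 hn).2⟩) (by positivity)
  have h8 : (1 + N ^ 2 / H) ^ η ≤ 2 ^ η * H ^ η := by
    rw [← Real.mul_rpow (by norm_num) hH0.le]
    refine Real.rpow_le_rpow (by positivity) ?_ hη0.le
    have : N ^ 2 / H ≤ H := by rw [div_le_iff₀ hH0]; nlinarith
    linarith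
  simp only [ite_mul, one_mul, zero_mul] at h6 h7
  rw [Finset.sum_filter]
  refine (h6.trans (mul_le_mul_of_nonneg_left (add_le_add (mul_le_mul_of_nonneg_right h8
    (by positivity)) (mul_le_mul_of_nonneg_left h7 hH0.le)) hC₅.le)).trans ?_
  have e1 : H ^ ε = (H ^ η) ^ 4 := by
    rw [← Real.rpow_mul_natCast hH0.le, hη]; norm_num
  have b1 : 1 ≤ (1 + |t|) ^ A := Real.one_le_rpow (by linarith [abs_nonneg t]) hA
  have b2 : 1 ≤ H ^ η := Real.one_le_rpow hH1 hη0.le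
  have b3 : 1 ≤ B ^ η := Real.one_le_rpow hB hη0.le
  have b4 : 1 ≤ N ^ ((1 - 1 / 10000) * θ) := Real.one_le_rpow hN (by positivity)
  rw [Real.mul_rpow (by linarith) hH0.le, Real.rpow_add hH0,
    Real.rpow_add hH0, Real.rpow_add hN0, Real.rpow_one, Real.rpow_one, e1]
  generalize (1 + |t|) ^ A = T at *
  generalize H ^ η = X at *
  generalize B ^ η = Y at *
  generalize N ^ ((1 - 1 / 10000) * θ) = Z at *
  have b5 : 1 * 1 ^ 4 * 1 ^ 2 * 1 ≤ T * X ^ 4 * Y ^ 2 * Z := by gcongr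
  have b6 := mul_le_mul_of_nonneg_left b5
    (show 0 ≤ C₅ * (H * (C₃ * (B * N) * C₄ ^ 2)) by positivity)
  linarith

theorem p_triv {B : ℝ} {V : ℝ → ℝ} (hV : Adm B V) : ∃ C : ℝ, 0 < C ∧
    ∀ (α τ : R 𝕂) (N H t θ : ℝ), 0 < N → 1 ≤ H → (θ = 1 ∨ (N ≤ 1 ∧ 0 ≤ θ ∧ θ ≤ 1)) →
      ∑ h ∈ pball 𝕂 H, ‖Asum α B V N t (τ * h)‖ ^ 2 ≤ C * H * N ^ (1 + θ) := by
  obtain ⟨C₁, hC₁, h1⟩ := card_le_of_nm (𝕂 := 𝕂)
  obtain ⟨C₂, hC₂, h2⟩ := card_pball_le (K := 𝕂)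
  obtain ⟨C₃, hC₃, h3⟩ := adm_bound hV
  have hB : 0 < B := lt_of_lt_of_le one_pos hV.1
  refine ⟨C₂ * (C₁ * B * C₃) ^ 2, by positivity, fun α τ N H t θ hN hH hθ => ?_⟩
  have a1 : ∀ h, ‖Asum α B V N t h‖ ≤ C₁ * B * C₃ * N := fun h => by
    refine (norm_sum_le _ _).trans ((Finset.sum_le_card_nsmul _ _ C₃ fun n hn => ?_).trans ?_)
    · rw [norm_mul, norm_nt, mul_one, norm_mul, Complex.norm_real, Real.norm_eq_abs]
      exact (mul_le_of_le_one_left (abs_nonneg _) (norm_mul_le_one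
        (norm_mul_le_one (norm_ind_le _) (norm_mu_le _)) (norm_sex_le _ _))).trans (h3 _)
    · rw [nsmul_eq_mul]
      exact (mul_le_mul_of_nonneg_right (h1 (B * N) _ (by positivity) fun n hn =>
        ⟨(mem_sball.1 hn).1.1, (mem_sball.1 hn).2⟩) hC₃.le).trans_eq (by ring)
  have a2 : N ^ 2 ≤ N ^ (1 + θ) := by
    rw [← Real.rpow_natCast]
    rcases hθ with rfl | ⟨b1, -, b2⟩
    · norm_num
    · exact Real.rpow_le_rpow_of_exponent_ge hN b1 (by push_cast; linarith)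
  refine (Finset.sum_le_card_nsmul _ _ ((C₁ * B * C₃ * N) ^ 2) fun h _ =>
    pow_le_pow_left₀ (norm_nonneg _) (a1 _) 2).trans ?_
  rw [nsmul_eq_mul, mul_pow]
  calc _ ≤ C₂ * H * ((C₁ * B * C₃) ^ 2 * N ^ (1 + θ)) := by
        gcongr
        exact h2 H (by linarith)
    _ = _ := by ring

theorem p_one : PStmt 𝕂 1 :=
  fun B V ε hV hε => by
  obtain ⟨C, hC, h⟩ := p_triv (𝕂 := 𝕂) hV
  refine ⟨C, 0, hC, le_rfl, fun N H t α τ hN hH _ => (h α τ N H t 1 hN hH (.inl rfl)).trans ?_⟩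
  rw [Real.rpow_zero, mul_one]
  gcongr
  simpa using Real.rpow_le_rpow_of_exponent_le hH (show 1 ≤ 1 + ε by linarith)

theorem pstmt_mono {θ θ' : ℝ} (h : PStmt 𝕂 θ) (h0 : θ ≤ θ') : PStmt 𝕂 θ' :=
  fun B V ε hV hε => by
  obtain ⟨C, A, hC, hA, h1⟩ := h B V ε hV hε
  have hB : 0 < B := lt_of_lt_of_le one_pos hV.1
  refine ⟨C * B⁻¹ ^ (θ - θ'), A, by positivity, hA, fun N H t α τ hN hH hNH => ?_⟩
  rcases lt_or_ge (B * N) 1 with h2 | h2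
  · simp only [Asum, sball_eq_empty h2, Finset.sum_empty, norm_zero]
    rw [Finset.sum_eq_zero fun _ _ => by norm_num]
    positivity
  have a1 : N ^ (θ - θ') ≤ B⁻¹ ^ (θ - θ') :=
    Real.rpow_le_rpow_of_nonpos (by positivity)
      (by rw [inv_eq_one_div, div_le_iff₀ hB]; linarith) (by linarith)
  refine (h1 N H t α τ hN hH hNH).trans ?_
  rw [show 1 + θ = θ - θ' + (1 + θ') by ring, Real.rpow_add hN]
  calc _ ≤ C * (1 + |t|) ^ A * H ^ (1 + ε) * (B⁻¹ ^ (θ - θ') * N ^ (1 + θ')) := by gcongr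
    _ = _ := by ring

theorem step [Rcp 𝕂] (hps : PSStmt 𝕂) (hvb : VBStmt 𝕂) {θ : ℝ} (hθ : 0 ≤ θ)
    (hθ1 : θ ≤ 1) (hP : PM 𝕂 θ) : PStmt 𝕂 ((1 - 1 / 10000) * θ) :=
  fun B V ε hV hε => by
  classical
  obtain ⟨F, hX, hg⟩ := exists_famS (K := 𝕂)
  obtain ⟨Bil, ⟨C₀, hC₀, p1⟩, p2, p3⟩ := hps F
  simp only [hX, hg] at p1 p2 p3
  obtain ⟨C₁, A₁, hC₁, hA₁, h1⟩ := bil_large p2 hP hV hε
  obtain ⟨C₂, A₂, hC₂, hA₂, h2⟩ := bil_small hps hvb p3 hθ hθ1 hP hV hε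
  obtain ⟨C₃, hC₃, h3⟩ := p_triv (𝕂 := 𝕂) hV
  refine ⟨C₃ + C₀ * (C₂ + C₁), max A₁ A₂, by positivity, le_max_of_le_left hA₁,
    fun N H t α τ hN hH hNH => ?_⟩
  have ht : 1 ≤ 1 + |t| := by linarith [abs_nonneg t]
  have hH0 : 0 < H := by linarith
  rcases le_total N 1 with hN1 | hN1
  · refine (h3 α τ N H t ((1 - 1 / 10000) * θ) hN hH
      (.inr ⟨hN1, by positivity, by linarith⟩)).trans ?_
    have b1 : 1 ≤ (1 + |t|) ^ max A₁ A₂ := Real.one_le_rpow ht (le_max_of_le_left hA₁)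
    have b2 : H ≤ H ^ (1 + ε) := by
      simpa using Real.rpow_le_rpow_of_exponent_le hH (show 1 ≤ 1 + ε by linarith)
    have b3 : C₃ ≤ (C₃ + C₀ * (C₂ + C₁)) * (1 + |t|) ^ max A₁ A₂ :=
      (le_add_of_nonneg_right (by positivity)).trans (le_mul_of_one_le_right (by positivity) b1)
    exact mul_le_mul_of_nonneg_right (mul_le_mul b3 b2 hH0.le (hC₃.le.trans b3))
      (Real.rpow_nonneg hN.le _)
  have a1 := p1 H (B * N) (asc α V N t) 1 τ hH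
    fun n hn => mem_sball.2 ⟨(asc_supp hV hN α t hn).1, (asc_supp hV hN α t hn).2.2⟩
  simp only [← Asum_eq] at a1
  have a2 : ∑ Δ ∈ sball 𝕂 (B * N), ‖ind ((1 : R 𝕂) ∣ Δ)‖ * ‖Bil H (B * N) (asc α V N t) Δ‖ ≤
      ∑ Δ ∈ sball 𝕂 (B * N), ‖Bil H (B * N) (asc α V N t) Δ‖ :=
    le_of_eq (Finset.sum_congr rfl fun Δ _ => by rw [ind_of (one_dvd _), norm_one, one_mul])
  rw [← Finset.sum_filter_add_sum_filter_not _ (fun Δ => (nm Δ : ℝ) ≤ N ^ (1 / 10000 : ℝ))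
    fun Δ => ‖Bil H (B * N) (asc α V N t) Δ‖] at a2
  simp only [not_le] at a2
  have a3 := a2.trans (add_le_add (h2 N H t α hN1 hNH) (h1 N H t α hN1 hNH))
  refine (a1.trans (mul_le_mul_of_nonneg_left a3 hC₀.le)).trans ?_
  have b1 := Real.rpow_le_rpow_of_exponent_le ht (le_max_left A₁ A₂)
  have b2 := Real.rpow_le_rpow_of_exponent_le ht (le_max_right A₁ A₂)
  calc _ ≤ C₀ *
        (C₂ * (1 + |t|) ^ max A₁ A₂ * H ^ (1 + ε) * N ^ (1 + (1 - 1 / 10000) * θ) +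
          C₁ * (1 + |t|) ^ max A₁ A₂ * H ^ (1 + ε) * N ^ (1 + (1 - 1 / 10000) * θ)) := by gcongr
    _ = C₀ * (C₂ + C₁) * (1 + |t|) ^ max A₁ A₂ * H ^ (1 + ε) *
        N ^ (1 + (1 - 1 / 10000) * θ) := by ring
    _ ≤ _ := by
        gcongr
        exact le_add_of_nonneg_left hC₃.le

theorem rec_main0 [Rcp 𝕂] (hps : PSStmt 𝕂) (hvb : VBStmt 𝕂) {θ : ℝ} (hθ : 0 < θ) :
    PStmt 𝕂 θ := by
  have key : ∀ j : ℕ, PStmt 𝕂 ((1 - 1 / 10000) ^ j) := fun j => by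
    induction j with
    | zero => simpa using p_one (𝕂 := 𝕂)
    | succ j ih =>
      rw [pow_succ']
      exact step hps hvb (by positivity) (pow_le_one₀ (by norm_num) (by norm_num))
        (pm_of_p (by positivity) ih)
  obtain ⟨j, hj⟩ := exists_pow_lt_of_lt_one hθ (show (1 - 1 / 10000 : ℝ) < 1 by norm_num)
  exact pstmt_mono (key j) hj.le

end Vale.Agent.P319.Rec

namespace Vale.Agent.P319

theorem rec_main {K : Type} [Field K] [NumberField K] [Stp K] [Rcp K] (hps : PSStmt K)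
    (hvb : VBStmt K) {θ : ℝ} (h : 0 < θ) : PStmt K θ := Rec.rec_main0 hps hvb h

end Vale.Agent.P319
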