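import Vale.Agent.P319.N.ThCusp
import Vale.Agent.P319.N.ThAbs

/-! TH-B: the residue functional. -/

namespace Vale.Agent.P319

open scoped ComplexConjugate Real Topology ENNReal NNReal InnerProductSpace NumberField
open MeasureTheory Filter Set

variable {K : Type} [Field K] [NumberField K] [Stp K]

theorem AutF.integrable_mul {m : Ideal (𝓞 K)} {f F : Hy K → ℂ} (hf : AutF m f) (hF : Test F) :
    Integrable (fun w => f w * F w) (hmuK K) := by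
  obtain ⟨M, hM⟩ := hf.2.1
  exact hF.integrable.bdd_mul hf.1.aestronglyMeasurable (c := M)
    (by filter_upwards [ae_pos] with w hw using hM w hw)

/-- the residue functional at a given level -/
noncomputable def ThF (m : Ideal (𝓞 K)) (ν : Measure (Hy K)) (T : Lp ℂ 2 ν →L[ℂ] Lp ℂ 2 ν)
    (Ψ : R K × R K → ℂ) (F : Hy K → ℂ) : ℂ :=
  ⟪cl ν fun w => conj (Pc m F w), T (cl ν (JJ Ψ (gP K (4 / 3))))⟫_ℂ

variable {a : ℕ} {m : Ideal (𝓞 K)} {ν : Measure (Hy K)} {T : Lp ℂ 2 ν →L[ℂ] Lp ℂ 2 ν}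
  {Ψ : R K × R K → ℂ} {F : Hy K → ℂ}

theorem op_low (hν : IsWt (GamS m) ν) {L : Lp ℂ 2 ν →L[ℂ] Lp ℂ 2 ν}
    (hLf : ∀ f, AutF m f → (L (cl ν f) : Hy K → ℂ) =ᵐ[ν] fun w => ∫ w' in BtK w, f w' ∂hmuK K)
    (hΨ : Cls a m Ψ) {s : ℂ} (h2 : 2 < s.re) :
    L (cl ν (JJ Ψ (lowP s))) - hhat K s • cl ν (JJ Ψ (lowP s)) = cl ν (JJ Ψ (gP K s)) := by
  have hp := prof_lowP h2
  have hlo := hp.aut hΨ
  have e1 : L (cl ν (JJ Ψ (lowP s))) = cl ν (JJ Ψ (conv K (lowP s))) := by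
    apply eq_cl
    filter_upwards [hLf _ hlo, hν.ae_pos] with w h1 hw
    rw [h1, ball_JJ hΨ hp hw]
  rw [e1, ← cl_sub_smul ((hp.conv.aut hΨ).memLp hν) (hlo.memLp hν)]
  apply cl_congr
  filter_upwards [hν.ae_pos] with w hw
  rw [← JJ_sub_smul hΨ hp.conv hp _ hw]; rfl

theorem th_res (hν : IsWt (GamS m) ν) (hΨ : Cls a m Ψ) (hF : Test F)
    {U : ℂ → Lp ℂ 2 ν} (hUd : DifferentiableOn ℂ U Dom)
    (hUu : ∀ s ∈ Dom, 2 < s.re → cl ν (JJ Ψ (lowP s)) = U s)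
    (hUl : Tendsto (fun ε : ℝ => (sE ε - 4 / 3) • U (sE ε)) (𝓝[>] 0)
      (𝓝 (T (cl ν (JJ Ψ (gP K (4 / 3))))))) :
    HasRes (fun s => ∫ w, Eis Ψ w s * F w ∂hmuK K) (ThF m ν T Ψ F) := by
  obtain ⟨M, hM, hFM⟩ := hF.2
  obtain ⟨B, -, hB⟩ := vr_le_box (K := K) a hM
  have hV := (ud_hiP B).differentiable hν hΨ
  refine ⟨fun s => ⟪cl ν fun w => conj (Pc m F w), U s⟫_ℂ +
    ⟪cl ν fun w => conj (Pc m F w), cl ν (JJ Ψ (hiP B s))⟫_ℂ, ?_, ?_, ?_⟩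
  · exact ((innerSL ℂ _).differentiable.comp_differentiableOn hUd).add
      ((innerSL ℂ _).differentiable.comp hV).differentiableOn
  · intro s hs h2
    have hlo := (prof_lowP h2).aut hΨ
    have hhi := ((ud_hiP B).prof s).aut hΨ
    simp only []
    rw [← hUu s hs h2, inner_cl (hF.memLp_Pc hν) (hlo.memLp hν),
      inner_cl (hF.memLp_Pc hν) (hhi.memLp hν), ← unfold_Pc hν hlo hF, ← unfold_Pc hν hhi hF,
      ← integral_add (hlo.integrable_mul hF) (hhi.integrable_mul hF)]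
    apply integral_congr_ae
    filter_upwards [ae_pos] with w hw
    by_cases h0 : F w = 0
    · simp [h0]
    · rw [Eis_split hΨ h2 hw (hB w ((hFM w).2 h0)), add_mul]
  · unfold ThF
    set y := cl ν fun w => conj (Pc m F w)
    have t1 := ((innerSL ℂ y).continuous.tendsto _).comp hUl
    have t2 := (((innerSL ℂ y).continuous.comp hV.continuous).tendsto _).comp tendsto_sE
    have t4 := t1.add ((tendsto_sE.sub_const (4 / 3)).mul t2)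
    simp only [sub_self, zero_mul, add_zero] at t4
    refine t4.congr fun ε => ?_
    simp only [Function.comp, innerSL_apply_apply, inner_smul_right, mul_add]

theorem th_bound (a : ℕ) (hν : IsWt (GamS m) ν) (T : Lp ℂ 2 ν →L[ℂ] Lp ℂ 2 ν) {X : ℝ}
    (hX : 0 < X) : ∃ C : ℝ, 0 ≤ C ∧ ∀ Ψ, Cls a m Ψ → ∀ F, Test F →
      (∀ w, F w ≠ 0 → InBox X w) → ‖ThF m ν T Ψ F‖ ^ 2 ≤ C * ∫ w, ‖F w‖ ^ 2 ∂hmuK K := by
  obtain ⟨-, M, σ, hM, hσ, hb⟩ := (ud_gP (K := K)).prof (4 / 3)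
  obtain ⟨C1, hC1, hJ⟩ := JJ_bound (K := K) a hσ
  obtain ⟨C2, hC2, hcl⟩ := norm_cl_le hν
  obtain ⟨C3, hC3, hP⟩ := Pc_sq (K := K) hX
  refine ⟨(‖T‖ * (C2 * (C1 * M))) ^ 2 * C3, by positivity, ?_⟩
  intro Ψ hΨ F hF hs
  have h1 : ‖T (cl ν (JJ Ψ (gP K (4 / 3))))‖ ≤ ‖T‖ * (C2 * (C1 * M)) :=
    (T.le_opNorm _).trans (mul_le_mul_of_nonneg_left (hcl _ _ (by positivity)
      fun w hw => (hJ m Ψ hΨ _ M hM hb w hw).2.2) (norm_nonneg _))
  have h2 := norm_cl_sq (hF.memLp_Pc hν)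
  simp only [RCLike.norm_conj] at h2
  have h3 := hP m ν hν F hF hs
  calc ‖ThF m ν T Ψ F‖ ^ 2
      ≤ (‖cl ν fun w => conj (Pc m F w)‖ * (‖T‖ * (C2 * (C1 * M)))) ^ 2 := by
        gcongr
        exact (norm_inner_le_norm _ _).trans (mul_le_mul_of_nonneg_left h1 (norm_nonneg _))
    _ = (‖T‖ * (C2 * (C1 * M))) ^ 2 * ∫ w, ‖Pc m F w‖ ^ 2 ∂ν := by rw [mul_pow, h2, mul_comm]
    _ ≤ (‖T‖ * (C2 * (C1 * M))) ^ 2 * (C3 * ∫ w, ‖F w‖ ^ 2 ∂hmuK K) := by gcongr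
    _ = _ := by ring

theorem th_cusp (hm : m ≠ ⊥) (hν : IsWt (GamS m) ν) (hT0 : ∀ x, ⟪x, T x⟫_ℂ = 0 → T x = 0)
    (hΨ : Cls a m Ψ) {m' : Ideal (𝓞 K)} {P : Set (Pl K → ℂ)} (hP : Tile m' P)
    (h0 : ∀ g : SL2 K, MDen a g → ThF m ν T Ψ (fun w =>
      P.indicator (fun _ => (1 : ℂ)) (fun v => (act g w v).1) *
        chi (fun x => conj (gP K (4 / 3) x)) fun v => (act g w v).2) = 0) (F : Hy K → ℂ) :
    ThF m ν T Ψ F = 0 := by
  have hψ := tst_gP (K := K) (4 / 3)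
  obtain ⟨t, c, hc, ht⟩ := conj_JJ hm hΨ hP hψ
  have hG := hP.test (test1_chi (K := K) hψ.conj)
  have e : cl ν (JJ Ψ (gP K (4 / 3))) = ∑ g ∈ t, conj (c g) • cl ν fun w =>
      conj (Pc m (fun w => P.indicator (fun _ => (1 : ℂ)) (fun v => (act g w v).1) *
        chi (fun x => conj (gP K (4 / 3) x)) fun v => (act g w v).2) w) := by
    rw [← cl_sum t _ fun g _ => (hG.comp_act g).memLp_Pc hν]
    apply cl_congr
    filter_upwards [hν.ae_pos] with w hw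
    have := congrArg conj (ht w hw)
    simpa using this
  have e2 : ⟪cl ν (JJ Ψ (gP K (4 / 3))), T (cl ν (JJ Ψ (gP K (4 / 3))))⟫_ℂ = 0 := by
    nth_rewrite 1 [e]
    rw [sum_inner]
    refine Finset.sum_eq_zero fun g hg => ?_
    rw [inner_smul_left]
    exact mul_eq_zero_of_right _ (h0 g (hc g hg))
  rw [ThF, hT0 _ e2, inner_zero_right]

theorem integral_Eis_act (hΨ : EInv Ψ) (hF : Measurable F) (g : SL2 K) (s : ℂ) :
    ∫ w, Eis Ψ w s * F (act g w) ∂hmuK K =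
      ∫ w, Eis (fun r => Ψ (rmul r g)) w s * F w ∂hmuK K := by
  rw [← integral_act g (f := fun w => Eis (fun r => Ψ (rmul r g)) w s * F w)
    ((measurable_Eis _ s).mul hF)]
  apply integral_congr_ae
  filter_upwards [ae_pos] with w hw
  simp only [Eis_act (hΨ.rmul g) g hw, rmul_inv_cancel']

theorem thB [Rcp K] : ThBStmt K := by
  refine ⟨fun a σ T hσ hT => tsum_box a hσ hT, fun Ψ F =>
    Classical.epsilon (HasRes fun s => ∫ w, Eis Ψ w s * F w ∂hmuK K), fun a m hm => ?_⟩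
  obtain ⟨ν, hν⟩ := exists_weight hm.1
  obtain ⟨L, hL, hLf⟩ := exists_op hm hν
  obtain ⟨d, hd, hder⟩ := hhat_deriv (K := K)
  obtain ⟨T, hT0, hT⟩ := res_limit L hL (hhat K) differentiable_hhat (fun s hs => hhat_im_ne hs)
    hhat_im_zero d hd hder
  have hres : ∀ Ψ, Cls a m Ψ → ∀ F, Test F →
      HasRes (fun s => ∫ w, Eis Ψ w s * F w ∂hmuK K) (ThF m ν T Ψ F) := by
    intro Ψ hΨ F hF
    obtain ⟨U, hUd, hUu, hUl⟩ := hT _ ((ud_gP (K := K)).differentiable hν hΨ)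
    exact th_res hν hΨ hF hUd (fun s hs h2 => hUu s hs _ (op_low hν hLf hΨ h2)) hUl
  have he : ∀ Ψ, Cls a m Ψ → ∀ F, Test F →
      Classical.epsilon (HasRes fun s => ∫ w, Eis Ψ w s * F w ∂hmuK K) = ThF m ν T Ψ F :=
    fun Ψ hΨ F hF => (Classical.epsilon_spec ⟨_, hres Ψ hΨ F hF⟩).unique (hres Ψ hΨ F hF)
  refine ⟨fun Ψ hΨ F hF => Classical.epsilon_spec ⟨_, hres Ψ hΨ F hF⟩, fun X hX => ?_,
    fun Ψ hΨ F hF g => ?_, fun Ψ hΨ h0 F hF => ?_⟩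
  · obtain ⟨C, hC, h⟩ := th_bound a hν T hX
    exact ⟨C, hC, fun Ψ hΨ F hF hs => by
      beta_reduce
      rw [he Ψ hΨ F hF]
      exact h Ψ hΨ F hF hs⟩
  · simp only [integral_Eis_act hΨ.einv hF.1 g]
  · obtain ⟨b, hb⟩ := cls_rmul_unif (K := K) a
    have hm' := hm.lev_mul b
    have hψ := test1_chi (K := K) (tst_gP (K := K) (4 / 3)).conj
    have hG := (tile_par hm'.1).test hψ
    beta_reduce
    rw [he Ψ hΨ F hF]
    refine th_cusp hm.1 hν hT0 hΨ (tile_par hm'.1) (fun g hg => ?_) F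
    have h1 := h0 g _ _ _ _ hm' (hb g hg a m Ψ hΨ) (tile_par hm'.1) hψ
    simp only [← integral_Eis_act hΨ.einv hG.1 g] at h1
    exact (he Ψ hΨ _ (hG.comp_act g)).symm.trans h1

end Vale.Agent.P319
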