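import Vale.Agent.P319.N.ThCDecA

/-! # TH-C: every `aD` is a combination of the series `psi`.
PLAN.  `q = 7a`, `b β s = ∑' t, Bc (uo t * β) * cub (uo t) β * NS (uo t * β) ^ (-s)`, `hol_unit`, `norm_Bc_le`.
`dec_fibre`: `tsum_uo_mul` for `F c = Acf Ψ ν c * nK c ^ (-s)` (`Acf_EU`, `nK_EU`) replaces `n` by `n' = u n ∈ β U_q`; then `Acf_eq`, `Bc_congr`,
`g3_unit_mul`, `cub_unit_congr`, `gq_eq`, `nK_cpow`, `NS_eq_of_inUq`.  `dec`: `summable_aD`, `Equiv.prodComm`, `Summable.tsum_prod`; for `Prim n` exactly one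
`β ∈ creps K q` has `Ray q 1 n β` (`creps_spec`, `ray_one_iff`), `gq_of_not` for the others; `Summable.tsum_finsetSum` with `summable_psi`. -/

namespace Vale.Agent.P319.TC

open scoped ComplexConjugate Real Topology NumberField
open MeasureTheory Filter

variable {K : Type} [Field K] [NumberField K] [Stp K] [Rcp K]

theorem dec_fibre {a : ℕ} (ha : 10 ≤ a) {Ψ : R K × R K → ℂ} (h : Cls a (lev K a) Ψ) (ν : R K)
    {β n : R K} {u : (R K)ˣ} (hu : InUq (7 * a) (((u * n : R K) : K) / β)) (s : ℂ) :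
    ∑' t : UQ K, Acf Ψ ν (uo t * n) * (nK ((uo t * n : R K) : K) : ℂ) ^ (-s) =
      (∑' t : UQ K, Bc a Ψ ν (uo t * β) * cub (uo t) β * (NS (uo t * β) : ℂ) ^ (-s)) *
        (gq (7 * a) β ν n * (nm n : ℂ) ^ (-s)) := by
  have hU : InU (((u * n : R K) : K) / β) := hu.mono (by omega)
  have h0 := hU.left_ne
  rw [← tsum_uo_mul (F := fun c => Acf Ψ ν c * (nK (c : K) : ℂ) ^ (-s)) (fun ε hε x => by
    rw [Acf_EU h (lev_ne_bot a) ν hε, map_mul, nK_mul, nK_EU hε, one_mul]) u n, ← tsum_mul_right]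
  refine tsum_congr fun t => ?_
  have h1 := mul_ne_zero (uo_ne_zero t) h0
  have h2 : InUq (7 * a) (((uo t * (u * n) : R K) : K) / (uo t * β : R K)) := by
    rwa [map_mul, map_mul _ _ β, mul_div_mul_left _ _ (coe_ne_zero (uo_ne_zero t))]
  rw [Acf_eq ha h ν h1, Bc_congr ha h ν h2, nK_cpow h1, NS_eq_of_inUq (by omega) h2,
    gq_eq (by omega) hu, uo, g3_unit_mul h0, cub_unit_congr _ hU, nm_unit_mul, nm_unit_mul]
  ring

theorem dec {a : ℕ} (ha : 10 ≤ a) : ∃ (q : ℕ) (C : ℝ), 10 ≤ q ∧ 0 ≤ C ∧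
    ∀ Ψ : R K × R K → ℂ, Cls a (lev K a) Ψ → ∀ ν : R K, ∃ b : R K → ℂ → ℂ,
      (∀ β ∈ creps K q, Hol (b β) ∧ ‖b β (4 / 3)‖ ≤ C) ∧ ∀ (P : R K) (s : ℂ), 2 < s.re →
        aD Ψ ν P s = ∑ β ∈ creps K q, b β s * psi q β ν P s := by
  obtain ⟨C, hC, hh⟩ := hol_unit (K := K) a
  have hq : 1 ≤ 7 * a := by omega
  refine ⟨7 * a, C * nK ((MM K : K) ^ a), by omega, mul_nonneg hC (nK_nonneg _), fun Ψ h ν =>
    ⟨fun β s => ∑' t : UQ K, Bc a Ψ ν (uo t * β) * cub (uo t) β * (NS (uo t * β) : ℂ) ^ (-s),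
      fun β hβ => ?_, fun P s hs => ?_⟩⟩
  · have h0 := ne_zero_of_mem_creps hq hβ
    refine hh β _ _ h0 (nK_nonneg _) fun t => ?_
    rw [norm_mul]
    exact (mul_le_of_le_one_right (norm_nonneg _) (norm_cub_le _ _)).trans
      (norm_Bc_le ha h ν (mul_ne_zero (uo_ne_zero t) h0))
  have h1 := summable_aD h (lev_ne_bot a) ν P hs
  simp only [psi, ← tsum_mul_left]
  rw [aD, ← (Equiv.prodComm _ _).tsum_eq, ← Summable.tsum_finsetSum
    fun β _ => (summable_psi (7 * a) β ν P hs).mul_left _]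
  refine h1.prod_symm.tsum_prod.trans (tsum_congr fun n => ?_)
  simp only [Prod.swap_prod_mk, mul_assoc (ind _), tsum_mul_left]
  by_cases hn : Prim n
  swap
  · simp [ind_of_not fun h' : Prim n ∧ IsCoprime n P => hn h'.1]
  obtain ⟨β, ⟨h2, h3⟩, h4⟩ := creps_spec hq hn.1
  obtain ⟨-, -, u, hu⟩ := ray_one_iff.1 h3
  rw [dec_fibre ha h ν hu, Finset.sum_eq_single_of_mem β h2 fun β' h5 h6 => by
    rw [gq_of_not fun h7 => h6 (h4 β' ⟨h5, ray_one_iff.2 ⟨hn.1, ne_zero_of_mem_creps hq h5, h7⟩⟩),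
      zero_mul, mul_zero, mul_zero], mul_left_comm]

end Vale.Agent.P319.TC
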