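import Vale.Agent.P319.N.ThCHeckeB
import Vale.Agent.P319.N.ThCDec

/-! # TH-C: the Hecke relation (port of `P026/ThCHecke.lean`).
PLAN.  `rs_psi`, `rho_Psb`: `aD_Psb`, `cl_Psb`, `exists_b (ν / β)`, `Rz.of_mul`, `hol_cpow`.  `rs_zero`: `dec`, `ZeroStmt`, `Rz.sum`, `Rz.hol_mul`.
`rs_hecke`: `k = nK p > 0`, `y = k^(1/3)`, `P = nm p`, `t₁ = y⁴ / (y⁴ + P)`, `t₀ = -P / (y⁴ + P)`, so `t₁ P + t₀ y⁴ = 0`; `k^(1 - 4/3) = y⁻¹`, `k^(-1 + 4/3) = y`, `k = y³`.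
Then as in P026 (`sl2_decomp`, `Phi_rmul`, `aD_mN` with `cls_Phi` and `Cls.exists_rmul`, `Cl.rmul`). -/

namespace Vale.Agent.P319.TC

open scoped ComplexConjugate Real Topology NumberField
open MeasureTheory Filter

variable {K : Type} [Field K] [NumberField K] [Stp K] [Rcp K] {q : ℕ} {p β : R K}
  {Ψ : R K × R K → ℂ}

omit [Rcp K] in
theorem exists_b' (β ν : R K) :
    ∃ b : ℕ, ∀ d : R K, SIn b (d : K) → SIn 0 ((ν : K) * d / β) := by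
  obtain ⟨b, hb⟩ := exists_sIn_mul ((ν : K) / β)
  refine ⟨b, fun d hd => ?_⟩
  rw [mul_div_right_comm]
  exact hb 0 _ (by rwa [zero_add])

omit [Rcp K] in
theorem hol_Psb (hβ : β ≠ 0) (b : ℕ) : (Hol fun s =>
    ((nK ((MM K : K) ^ b) : ℝ) : ℂ)⁻¹ * (NS β : ℂ) ^ (1 + -1 * s)) ∧
      ((nK ((MM K : K) ^ b) : ℝ) : ℂ)⁻¹ * (NS β : ℂ) ^ (1 + -1 * (4 / 3) : ℂ) ≠ 0 := by
  have h1 : (NS β : ℂ) ≠ 0 := by exact_mod_cast (NS_pos hβ).ne'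
  have h2 : ((nK ((MM K : K) ^ b) : ℝ) : ℂ) ≠ 0 :=
    Complex.ofReal_ne_zero.2 (nK_pos (pow_ne_zero _ M_ne_zero)).ne'
  exact ⟨(Hol.const _).mul (hol_cpow h1 _ _),
    mul_ne_zero (inv_ne_zero h2) ((Complex.cpow_ne_zero_iff).2 (Or.inl h1))⟩

theorem rs_psi_aux (hR : ResStmt K) (hq : 10 ≤ q) (hβ : β ≠ 0) {b : ℕ} {ν : R K}
    (h : ∀ d : R K, SIn b (d : K) → SIn 0 ((ν : K) * d / β)) :
    Rz (psi q β ν 1) (rho (Psb q β b) ν /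
      (((nK ((MM K : K) ^ b) : ℝ) : ℂ)⁻¹ * (NS β : ℂ) ^ (1 + -1 * (4 / 3) : ℂ))) :=
  ((hR _ (cl_Psb hq hβ b) ν).congr fun s _ => aD_Psb hq hβ h 1 s).of_mul (hol_Psb hβ b).1
    (hol_Psb hβ b).2

theorem rs_psi (hR : ResStmt K) (hq : 10 ≤ q) (hβ : β ≠ 0) (ν : R K) :
    Rz (psi q β ν 1) (rb q β ν) := by
  obtain ⟨b, hb⟩ := exists_b' β ν
  have h := rs_psi_aux hR hq hβ hb
  rwa [h.rb_eq]

theorem rho_Psb (hR : ResStmt K) (hq : 10 ≤ q) (hβ : β ≠ 0) {b : ℕ} {ν : R K}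
    (h : ∀ d : R K, SIn b (d : K) → SIn 0 ((ν : K) * d / β)) :
    rho (Psb q β b) ν =
      ((nK ((MM K : K) ^ b) : ℝ) : ℂ)⁻¹ * (NS β : ℂ) ^ (1 + -1 * (4 / 3) : ℂ) * rb q β ν := by
  rw [(rs_psi_aux hR hq hβ h).rb_eq, mul_div_cancel₀ _ (hol_Psb hβ b).2]

theorem rs_zero (hZ : ZeroStmt K) (hp : Prime p) (hp' : Prim p) (hΨ : Cl Ψ) :
    Rz (aD Ψ 0 p) (rho Ψ 0 / (1 + 1 / (nm p : ℂ))) := by
  obtain ⟨a, ha, hΨ⟩ := hΨ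
  obtain ⟨q, C, hq, -, h⟩ := dec (K := K) ha
  obtain ⟨b, hb, he⟩ := h Ψ hΨ 0
  obtain ⟨x, -, hx⟩ := hZ q hq
  have h0 : ∀ β ∈ creps K q, β ≠ 0 := fun β hβ => ne_zero_of_mem_creps (by omega) hβ
  have h1 : rho Ψ 0 = ∑ β ∈ creps K q, b β (4 / 3) * x β :=
    ((Rz.sum _ fun β hβ => (hx β (h0 β hβ)).1.hol_mul (hb β hβ).1).congr
      fun s hs => (he 1 s hs).symm).rho_eq
  rw [h1, Finset.sum_div]
  simp only [mul_div_assoc]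
  exact (Rz.sum _ fun β hβ => ((hx β (h0 β hβ)).2 p hp hp').hol_mul (hb β hβ).1).congr
    fun s hs => (he p s hs).symm

omit [Rcp K] in
/-- a real cube root of `nK p` -/
theorem exists_cube_root (hp : p ≠ 0) : ∃ y : ℝ, 0 < y ∧ (nK (p : K) : ℂ) = (y : ℂ) ^ 3 ∧
    ∀ k : ℤ, (nK (p : K) : ℂ) ^ ((k : ℂ) / 3) = (y : ℂ) ^ k := by
  have h2 : (0 : ℝ) < nK (p : K) := nK_pos (coe_ne_zero hp)
  have key : ∀ k : ℤ, (nK (p : K) : ℂ) ^ ((k : ℂ) / 3) =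
      ((nK (p : K) ^ (1 / 3 : ℝ) : ℝ) : ℂ) ^ k := by
    intro k
    rw [← Complex.ofReal_zpow, ← Real.rpow_intCast, ← Real.rpow_mul h2.le,
      Complex.ofReal_cpow h2.le]
    push_cast
    congr 1
    ring
  refine ⟨nK (p : K) ^ (1 / 3 : ℝ), Real.rpow_pos_of_pos h2 _, ?_, key⟩
  have := key 3
  rw [zpow_ofNat] at this
  rw [← this]
  norm_num

theorem rs_hecke (hR : ResStmt K) (hC : CuspStmt K) (hZ : ZeroStmt K) (hp : Prime p) (hp' : Prim p)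
    (hΨ : Cl Ψ) (ν : R K) : Rz (aD Ψ ν p) (rho Ψ ν / (1 + 1 / (nm p : ℂ))) := by
  obtain ⟨y, hy, hK, hk⟩ := exists_cube_root hp.ne_zero
  have hP := nm_pos_real hp.ne_zero
  have hy0 : (y : ℂ) ≠ 0 := by exact_mod_cast hy.ne'
  have hK0 := nK_cast_ne hp.ne_zero
  have hP0 : (nm p : ℂ) ≠ 0 := by exact_mod_cast hP.ne'
  have hP1 : (nm p : ℂ) + 1 ≠ 0 := by exact_mod_cast (by positivity : (0 : ℝ) < nm p + 1).ne'
  have hP2 : 1 + (nm p : ℂ) ≠ 0 := by rwa [add_comm]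
  have hD : (0 : ℝ) < y ^ 4 + nm p := by positivity
  have hD0 : (y : ℂ) ^ 4 + nm p ≠ 0 := by exact_mod_cast hD.ne'
  have e2 : (nK (p : K) : ℂ) ^ (1 + -1 * (4 / 3) : ℂ) = (y : ℂ)⁻¹ := by
    rw [show (1 + -1 * (4 / 3) : ℂ) = ((-1 : ℤ) : ℂ) / 3 by norm_num, hk, zpow_neg_one]
  have e3 : (nK (p : K) : ℂ) ^ (-1 + 1 * (4 / 3) : ℂ) = (y : ℂ) := by
    rw [show (-1 + 1 * (4 / 3) : ℂ) = ((1 : ℤ) : ℂ) / 3 by norm_num, hk, zpow_one]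
  set t₁ : ℂ := (y : ℂ) ^ 4 / ((y : ℂ) ^ 4 + nm p) with ht₁
  set t₀ : ℂ := -(nm p : ℂ) / ((y : ℂ) ^ 4 + nm p) with ht₀
  have h₁ : ‖t₁‖ ≤ 1 := by
    rw [show t₁ = ((y ^ 4 / (y ^ 4 + nm p) : ℝ) : ℂ) by push_cast; rfl, Complex.norm_real,
      Real.norm_of_nonneg (by positivity), div_le_one hD]
    linarith
  have h₀ : ‖t₀‖ ≤ 1 := by
    rw [show t₀ = -((nm p / (y ^ 4 + nm p) : ℝ) : ℂ) by push_cast; rw [ht₀, neg_div], norm_neg,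
      Complex.norm_real, Real.norm_of_nonneg (by positivity), div_le_one hD]
    linarith [pow_pos hy 4]
  have hw1 : Hol fun s => t₁ * (nK (p : K) : ℂ) ^ (1 + -1 * s) :=
    (Hol.const _).mul (hol_cpow hK0 _ _)
  have hw2 : Hol fun s => (t₁ * (nK (p : K) : ℂ) ^ (1 + -1 * s) - t₀ * (nK (p : K) : ℂ)) / nm p :=
    DifferentiableOn.div_const (hw1.sub (Hol.const _)) _
  have hw3 : Hol fun s => t₀ * (nK (p : K) : ℂ) ^ (-1 + 1 * s) :=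
    (Hol.const _).mul (hol_cpow hK0 _ _)
  have c1 : ∀ Ψ, Cl Ψ → Rz (aD (Phi p t₁ t₀ Ψ) 0 1) 0 := by
    intro Ψ hΨ
    have h1 := (((hR Ψ hΨ 0).hol_mul hw1).sub ((rs_zero hZ hp hp' hΨ).hol_mul hw2)).congr
      fun s hs => (aD_Phi hp hp' hΨ h₁ h₀ 0 hs).symm
    simp only [e2, mul_zero] at h1
    convert h1 using 1
    rw [ht₁, ht₀, hK]
    field_simp
    ring
  have c2 : ∀ Ψ, Cl Ψ → Rz (aD (fun r => Phi p t₁ t₀ Ψ (rmul r mS)) 0 1) 0 := by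
    intro Ψ hΨ
    have hΨ' := hΨ.rmul mS
    have h1 := (((rs_zero hZ hp hp' hΨ').const_mul (t₁ / (nK (p : K) : ℂ))).add
      (((hR _ hΨ' 0).sub (rs_zero hZ hp hp' hΨ')).hol_mul hw3)).congr
      fun s hs => (aD_Phi_S hp hp' hΨ h₁ h₀ hs).symm
    simp only [e3] at h1
    convert h1 using 1
    rw [ht₁, ht₀, hK]
    field_simp
    ring
  have h0 : Rz (aD (Phi p t₁ t₀ Ψ) (p * ν) 1) 0 := by
    obtain ⟨a, 𝔪, hm, hc⟩ := cls_Phi hp h₁ h₀ hΨ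
    refine hC a 𝔪 _ hm hc (fun g => ?_) _
    rcases sl2_decomp hp g with hg | ⟨x, γ, hγ, rfl⟩
    · obtain ⟨g', -, -, -, -, h⟩ := Phi_rmul hp hg
      simp only [h]
      exact c1 _ (hΨ.rmul g')
    · obtain ⟨g', -, -, -, -, h⟩ := Phi_rmul hp hγ
      have hΨ' := hΨ.rmul g'
      obtain ⟨a', 𝔪', hm', hc'⟩ := cls_Phi hp h₁ h₀ hΨ'
      obtain ⟨a'', 𝔪'', -, -, hm'', hc''⟩ := hc'.exists_rmul hm' mS
      have h1 := aD_mN hc'' hm''.1 x 1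
      simp only [rmul_mul, h]
      rw [h1]
      exact c2 _ hΨ'
  have e4 : (t₁ * (y : ℂ)⁻¹ - t₀ * (nK (p : K) : ℂ)) / nm p =
      (y : ℂ) ^ 3 * (1 + nm p) / (((y : ℂ) ^ 4 + nm p) * nm p) := by
    rw [ht₁, ht₀, hK]
    field_simp
    ring
  have h1 := ((((hR Ψ hΨ ν).hol_mul hw1).sub h0).congr (g := fun s =>
      (t₁ * (nK (p : K) : ℂ) ^ (1 + -1 * s) - t₀ * (nK (p : K) : ℂ)) / nm p * aD Ψ ν p s)
      fun s hs => by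
        rw [aD_Phi hp hp' hΨ h₁ h₀ ν hs]
        ring).of_mul hw2 (by
      simp only [e2, e4]
      exact div_ne_zero (mul_ne_zero (pow_ne_zero _ hy0) hP2) (mul_ne_zero hD0 hP0))
  simp only [e2, e4] at h1
  convert h1 using 1
  rw [ht₁]
  field_simp
  ring

theorem heckeStmt (hR : ResStmt K) (hC : CuspStmt K) (hZ : ZeroStmt K) : HeckeStmt K := by
  intro q p β ν hq hp hp' hβ
  refine ⟨rs_psi hR hq hβ ν, ?_⟩
  obtain ⟨b, hb⟩ := exists_b' β ν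
  have h := ((rs_hecke hR hC hZ hp hp' (cl_Psb hq hβ b) ν).congr
    fun s _ => aD_Psb hq hβ hb p s).of_mul (hol_Psb hβ b).1 (hol_Psb hβ b).2
  rw [rho_Psb hR hq hβ hb] at h
  convert h using 1
  rw [mul_div_assoc, mul_div_cancel_left₀ _ (hol_Psb hβ b).2]

end Vale.Agent.P319.TC
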