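import Vale.Agent.P319.N.ThCEuler

/-! # TH-C: Patterson's relations (port of `P026/ThCRel.lean`).
PLAN.  `rz_rb`: `HeckeStmt` needs a prime `p`; take any (`exists_prime`: `MM K + 1` is not a unit of `R`, `nm_natCast`, `WfDvdMonoid.exists_irreducible_factor`, `pp`).
`rb_unit`, `rb_twist`, `rb_cube`, `rb_one`: `Rz.unique` applied to `psi_unit`, `psi_twist`, `psi_cube`, `psi_one` (`norm_g3_prime`, `norm_bc`).
`rb_cls`: `psi_one'` gives `rb (β p²) (ν p) = conj (g3 ν p * bc β p) P^(-2/3) rb β ν`; compare with `rb_one` for `β p²` (`bc_mul_left`, `bc_self`).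
`rb_two`: `psi_two` gives `rb (β p³) (ν p²) = -rb β (ν p²) / P`; iterate `k` times, `k` from `exists_ray_pow` (`u p^k ∈ U_q`, so `β (p³)^k u³ / β ∈ U_q`;
`rb_congr`, `rb_unit`, `cub_unit_cube`), and `‖(-1/P)^k‖ < 1`.
`rb_sqf`: let `Q c` be the statement for all `a, β`; `Q` holds for units (`g3_unit`, `bc_unit_right`, `conj_cub`), for `Prim` primes (`rb_one`), and
`Q m → Q n → IsCoprime m n → Q (n * m)` (`g3_mul`, `bc_mul_left`, `bc_mul_right`); `sqf_induction`, `exists_unit_prim`.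
`rb_cubes`, `rb_cls_cubes`: `exists_unit_prim`, `Prim.induction`.  `rb_support`: strong induction on `nm`, as in P026.
`norm_rb_le`: `ray_crep`, `rb_congr`, `rb_unit`, `norm_cub`, sum over `creps K q`. -/

namespace Vale.Agent.P319.TC

open scoped ComplexConjugate Real Topology NumberField
open MeasureTheory Filter

variable {K : Type} [Field K] [NumberField K] [Stp K] {q : ℕ} {p β β' ν : R K}

theorem exists_prime : ∃ p : R K, Prime p ∧ Prim p := by
  have h1 := nm_natCast (K := K) (k := MM K + 1) (by simp)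
  have h2 : 1 < nm ((MM K + 1 : ℕ) : R K) := by
    rw [h1]
    exact Nat.one_lt_pow Module.finrank_pos.ne' (by have := six_le_M (K := K); omega)
  obtain ⟨p, hp, -⟩ := WfDvdMonoid.exists_irreducible_factor (a := ((MM K + 1 : ℕ) : R K))
    (fun h => h2.ne' (isUnit_iff_nm.1 h)) (fun h => by rw [h, nm_eq_zero.2 rfl] at h2; omega)
  exact ⟨pp p, (associated_pp p).prime hp.prime, prim_pp hp.ne_zero⟩

theorem rz_rb (hH : HeckeStmt K) (hq : 10 ≤ q) (hβ : β ≠ 0) (ν : R K) :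
    Rz (psi q β ν 1) (rb q β ν) := by
  obtain ⟨p, hp, hp'⟩ := exists_prime (K := K)
  exact (hH q p β ν hq hp hp' hβ).1

private theorem nmC_ne (hp : p ≠ 0) : (nm p : ℂ) ≠ 0 := by
  exact_mod_cast (nm_pos hp).ne'

private theorem k_ne (hp : p ≠ 0) : (1 + 1 / (nm p : ℂ)) ≠ 0 := by
  have h := nm_pos_real hp
  have : (0 : ℝ) < 1 + 1 / nm p := by positivity
  have h2 := Complex.ofReal_ne_zero.2 this.ne'
  push_cast at h2
  exact h2

variable [Rcp K]

private theorem G_sq (hp : Prime p) (hν : ¬p ∣ ν) (β : R K) :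
    conj (g3 ν p * bc β p) * (g3 ν p * bc β p) = nm p := by
  rw [Complex.conj_mul', ← Complex.ofReal_pow, norm_mul, norm_bc, mul_one, norm_g3_prime hp hν]
  simp

theorem rb_congr (hq : 10 ≤ q) (h : InUq q ((β' : K) / β)) (ν : R K) : rb q β' ν = rb q β ν := by
  unfold rb
  rw [psi_congr hq h]

theorem rb_unit (hH : HeckeStmt K) (hq : 10 ≤ q) (hβ : β ≠ 0) (t : (R K)ˣ) (ν : R K) :
    rb q (β * (t : R K)) ν = cub t β * rb q β ν :=
  (((rz_rb hH hq hβ ν).const_mul _).congr fun s _ => (psi_unit hq t β ν 1 s).symm).rb_eq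

theorem rb_twist (hH : HeckeStmt K) (hq : 10 ≤ q) (hβ : β ≠ 0) (t : (R K)ˣ) (ν : R K) :
    rb q β (ν * (t : R K)) = conj (cub t β) * rb q β ν :=
  (((rz_rb hH hq hβ ν).const_mul _).congr fun s _ => (psi_twist hq t β ν 1 s).symm).rb_eq

theorem rb_cube (hH : HeckeStmt K) (hq : 10 ≤ q) (hp : Prime p) (hp' : Prim p) (hβ : β ≠ 0)
    (ν : R K) : rb q β (ν * p ^ 3) = rb q β ν := by
  have h1 := (hH q p β (ν * p ^ 3) hq hp hp' hβ).2
  have h2 := (hH q p β ν hq hp hp' hβ).2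
  rw [psi_cube hq] at h1
  exact (div_left_inj' (k_ne hp.ne_zero)).1 (h1.unique h2)

theorem rb_one (hH : HeckeStmt K) (hq : 10 ≤ q) (hp : Prime p) (hp' : Prim p) (hβ : β ≠ 0)
    (hν : ¬p ∣ ν) : rb q β (ν * p) =
      (((nm p : ℝ) ^ (-2 / 3 : ℝ) : ℝ) : ℂ) * conj (g3 ν p * bc β p) * rb q (β * p) ν := by
  have hP := nmC_ne hp.ne_zero
  have hk := k_ne hp.ne_zero
  obtain ⟨h1, h2⟩ := hH q p (β * p) ν hq hp hp' (mul_ne_zero hβ hp.ne_zero)
  have h3 := (hH q p β (ν * p) hq hp hp' hβ).2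
  have h4 := h2.add (h3.hol_mul ((Hol.const (g3 ν p * bc β p)).mul (hol_cpow hP 0 (-1))))
  have h5 := h1.unique (h4.congr fun s hs => (psi_one hq hp hp' hβ hν hs).symm)
  have h6 := G_sq hp hν β
  have h7 : (((nm p : ℝ) ^ (-2 / 3 : ℝ) : ℝ) : ℂ) * (nm p : ℂ) ^ 2 *
      (nm p : ℂ) ^ (0 + -1 * (4 / 3) : ℂ) = 1 := by
    rw [Complex.ofReal_cpow (Nat.cast_nonneg _), Complex.ofReal_natCast,
      ← Complex.cpow_natCast, ← Complex.cpow_add _ _ hP, ← Complex.cpow_add _ _ hP]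
    convert Complex.cpow_zero _ using 2
    push_cast
    ring
  generalize (nm p : ℂ) ^ (0 + -1 * (4 / 3) : ℂ) = w at h5 h7
  generalize (((nm p : ℝ) ^ (-2 / 3 : ℝ) : ℝ) : ℂ) = v at h7
  generalize g3 ν p * bc β p = G at h5 h6
  have h8 : rb q (β * p) ν = nm p * (G * w * rb q β (ν * p)) := by
    have hk' : (nm p : ℂ) + 1 ≠ 0 := Nat.cast_add_one_ne_zero _
    field_simp at h5
    linear_combination h5
  rw [h8]
  linear_combination (-rb q β (ν * p)) * h7 - v * nm p * w * rb q β (ν * p) * h6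

theorem rb_cls (hH : HeckeStmt K) (hq : 10 ≤ q) (hp : Prime p) (hp' : Prim p) (hβ : β ≠ 0)
    (hν : ¬p ∣ ν) : rb q (β * p ^ 3) ν = rb q β ν := by
  have h0 := hp.ne_zero
  have hP := nmC_ne h0
  have hβ2 := mul_ne_zero hβ (pow_ne_zero 2 h0)
  obtain ⟨h1, h2⟩ := hH q p (β * p ^ 2) (ν * p) hq hp hp' hβ2
  have h3 := (hH q p β ν hq hp hp' hβ).2
  have h4 := h2.add (h3.hol_mul ((Hol.const (conj (g3 ν p * bc β p))).mul (hol_cpow hP 1 (-2))))
  have h5 := h1.unique (h4.congr fun s hs => (psi_one' hq hp hp' hβ hν hs).symm)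
  have h6 := rb_one hH hq hp hp' hβ2 hν
  have h7 : (((nm p : ℝ) ^ (-2 / 3 : ℝ) : ℝ) : ℂ) = nm p * (nm p : ℂ) ^ (1 + -2 * (4 / 3) : ℂ) := by
    rw [Complex.ofReal_cpow (Nat.cast_nonneg _), Complex.ofReal_natCast]
    conv_rhs => lhs; rw [← Complex.cpow_one (nm p : ℂ)]
    rw [← Complex.cpow_add _ _ hP]
    congr 1
    push_cast
    ring
  have hw : (nm p : ℂ) ^ (1 + -2 * (4 / 3) : ℂ) ≠ 0 := Complex.cpow_ne_zero_iff.2 (Or.inl hP)
  have hG : conj (g3 ν p * bc β p) ≠ 0 := fun h => hP (by rw [← G_sq hp hν β, h, zero_mul])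
  rw [bc_mul_left hβ (pow_ne_zero 2 h0) h0, sq, bc_mul_left h0 h0 h0, bc_self h0, mul_one, mul_one,
    ← sq, h7, mul_assoc β, ← pow_succ] at h6
  generalize (nm p : ℂ) ^ (1 + -2 * (4 / 3) : ℂ) = w at h5 h6 hw
  generalize conj (g3 ν p * bc β p) = G at h5 h6 hG
  have hk' : (nm p : ℂ) + 1 ≠ 0 := Nat.cast_add_one_ne_zero _
  field_simp at h5
  refine mul_left_cancel₀ (mul_ne_zero (mul_ne_zero hP hw) hG) ?_
  linear_combination h5 - h6

theorem rb_two (hH : HeckeStmt K) (hq : 10 ≤ q) (hp : Prime p) (hp' : Prim p) (hβ : β ≠ 0)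
    (hν : ¬p ∣ ν) : rb q β (ν * p ^ 2) = 0 := by
  have h0 := hp.ne_zero
  have hP := nmC_ne h0
  have step : ∀ {β : R K}, β ≠ 0 →
      rb q (β * p ^ 3) (ν * p ^ 2) = -(nm p : ℂ)⁻¹ * rb q β (ν * p ^ 2) := fun {β} hβ => by
    obtain ⟨h1, h2⟩ := hH q p (β * p ^ 3) (ν * p ^ 2) hq hp hp' (mul_ne_zero hβ (pow_ne_zero 3 h0))
    have h3 := (hH q p β (ν * p ^ 2) hq hp hp' hβ).2
    have h5 := h1.unique ((h2.sub (h3.hol_mul (hol_cpow hP 2 (-3)))).congr fun s hs =>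
      (psi_two hq hp hp' hβ hν hs).symm)
    have h7 : (nm p : ℂ) ^ (2 + -3 * (4 / 3) : ℂ) = ((nm p : ℂ) ^ 2)⁻¹ := by
      rw [← Complex.cpow_natCast, ← Complex.cpow_neg]
      congr 1
      push_cast
      ring
    rw [h7] at h5
    have hk' : (nm p : ℂ) + 1 ≠ 0 := Nat.cast_add_one_ne_zero _
    field_simp at h5 ⊢
    linear_combination h5
  have iter : ∀ j : ℕ, rb q (β * (p ^ j) ^ 3) (ν * p ^ 2) =
      (-(nm p : ℂ)⁻¹) ^ j * rb q β (ν * p ^ 2) := fun j => by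
    induction j with
    | zero => simp
    | succ j ih =>
      rw [pow_succ p j, mul_pow, ← mul_assoc,
        step (mul_ne_zero hβ (pow_ne_zero 3 (pow_ne_zero j h0))), ih]
      ring
  obtain ⟨k, hk, H⟩ := exists_ray_pow (K := K) (q := q) (m := 1) (by omega) one_ne_zero
  obtain ⟨-, -, u, hu, -⟩ := H p h0 isCoprime_one_right
  have h1 := rb_unit hH hq (mul_ne_zero hβ (pow_ne_zero 3 (pow_ne_zero k h0))) (u ^ 3) (ν * p ^ 2)
  rw [iter, Units.val_pow_eq_pow_val, cub_unit_cube, one_mul, rb_congr hq (β := β) (by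
    convert hu.pow 3 using 1
    have := coe_ne_zero hβ
    simp only [map_mul, map_pow, map_one]
    field_simp)] at h1
  by_contra h
  have h2 := congrArg norm (mul_right_cancel₀ h ((one_mul _).trans h1))
  have h3 : (2 : ℝ) ≤ nm p := by exact_mod_cast two_le_nm hp
  rw [norm_one, norm_pow, norm_neg, norm_inv, Complex.norm_natCast] at h2
  exact (pow_lt_one₀ (by positivity) (inv_lt_one_of_one_lt₀ (by linarith)) hk.ne').ne' h2

theorem rb_cubes (hH : HeckeStmt K) (hq : 10 ≤ q) (hβ : β ≠ 0) {d : R K} (hd : d ≠ 0) (ν : R K) :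
    rb q β (ν * d ^ 3) = rb q β ν := by
  obtain ⟨u, c, hc, rfl⟩ := exists_unit_prim hd
  rw [mul_pow, mul_comm (_ ^ 3), ← mul_assoc, ← Units.val_pow_eq_pow_val, rb_twist hH hq hβ,
    Units.val_pow_eq_pow_val, cub_unit_cube, map_one, one_mul]
  refine Prim.induction (P := fun d => rb q β (ν * d ^ 3) = rb q β ν) (by simp) ?_ hc
  intro p n hp hp' _ ih
  rw [← ih, ← rb_cube hH hq hp hp' hβ (ν * n ^ 3)]
  congr 1
  ring

theorem rb_cls_cubes (hH : HeckeStmt K) (hq : 10 ≤ q) (hβ : β ≠ 0) {d : R K} (hd : d ≠ 0) :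
    rb q (β * d ^ 3) 1 = rb q β 1 := by
  obtain ⟨u, c, hc, rfl⟩ := exists_unit_prim hd
  rw [mul_pow, mul_comm (_ ^ 3), ← mul_assoc, ← Units.val_pow_eq_pow_val,
    rb_unit hH hq (mul_ne_zero hβ (pow_ne_zero 3 hc.1)), Units.val_pow_eq_pow_val, cub_unit_cube,
    one_mul]
  refine Prim.induction (P := fun d => rb q (β * d ^ 3) 1 = rb q β 1) (by simp) ?_ hc
  intro p n hp hp' hn ih
  rw [← ih, ← rb_cls hH hq hp hp' (mul_ne_zero hβ (pow_ne_zero 3 hn.1)) hp.not_dvd_one]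
  congr 1
  ring

theorem rb_sqf (hH : HeckeStmt K) (hq : 10 ≤ q) {c : R K} (hc : Squarefree c) {a : R K}
    (ha : IsCoprime a c) (hβ : β ≠ 0) : rb q β (a * c) =
      (((nm c : ℝ) ^ (-2 / 3 : ℝ) : ℝ) : ℂ) * conj (g3 a c * bc β c) * rb q (β * c) a := by
  obtain ⟨Q, hQ⟩ : ∃ Q : R K → Prop, ∀ c, Q c ↔ ∀ a β : R K, IsCoprime a c → β ≠ 0 → rb q β (a * c) =
      (((nm c : ℝ) ^ (-2 / 3 : ℝ) : ℝ) : ℂ) * conj (g3 a c * bc β c) * rb q (β * c) a :=
    ⟨_, fun _ => Iff.rfl⟩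
  have hu : ∀ u : (R K)ˣ, Q u := fun u => (hQ _).2 fun a β _ hβ => by
    rw [rb_twist hH hq hβ, rb_unit hH hq hβ, g3_unit u.isUnit, bc_unit_right hβ, nm_unit, one_mul,
      Complex.conj_conj, conj_cub]
    simp only [Nat.cast_one, Real.one_rpow, Complex.ofReal_one]
    ring
  have hm : ∀ m n, m ≠ 0 → n ≠ 0 → IsCoprime n m → Q m → Q n → Q (n * m) :=
    fun m n hm hn h qm qn => (hQ _).2 fun a β ha hβ => by
      rw [← mul_assoc, (hQ _).1 qm _ _ (ha.of_mul_right_right.mul_left h) hβ,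
        (hQ _).1 qn _ _ ha.of_mul_right_left (mul_ne_zero hβ hm), g3_mul hn hm h, bc_mul_left hβ hm hn,
        bc_mul_right hβ hn hm, nm_mul, Nat.cast_mul,
        Real.mul_rpow (Nat.cast_nonneg _) (Nat.cast_nonneg _), mul_assoc β, mul_comm m n]
      simp only [map_mul, Complex.ofReal_mul]
      ring
  refine (hQ c).1 (sqf_induction (fun u h => hu h.unit) (fun p n hp hn hpn ih => ?_) hc) a β ha hβ
  refine hm n p hn.ne_zero hp.ne_zero (coprime_of_not_dvd hp hpn).symm ih ?_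
  obtain ⟨u, p', hp', rfl⟩ := exists_unit_prim hp.ne_zero
  have hp2 : Prime p' := (prime_units_mul u).1 hp
  exact hm p' u hp'.1 u.ne_zero (unit_coprime u p')
    ((hQ _).2 fun a β ha hβ => rb_one hH hq hp2 hp' hβ fun h => not_coprime_of_dvd hp2 h ha) (hu u)

theorem rb_formula (hH : HeckeStmt K) (hq : 10 ≤ q) {c d : R K} (hc : Squarefree c) (hd : d ≠ 0)
    (hβ : β ≠ 0) : rb q β (c * d ^ 3) = conj (gt3 c) * (((nm c : ℝ) ^ (-1 / 6 : ℝ) : ℝ) : ℂ) *
      conj (bc β c) * rb q (β * c) 1 := by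
  have hN := nm_pos_real hc.ne_zero
  have h2 : (nm c : ℝ) ^ (-1 / 6 : ℝ) = (nm c : ℝ) ^ (-2 / 3 : ℝ) * √(nm c) := by
    rw [Real.sqrt_eq_rpow, ← Real.rpow_add hN]
    norm_num
  have h3 := G2.sqrt_nm_ne hc.ne_zero
  have h4 := rb_sqf hH hq hc isCoprime_one_left hβ
  rw [one_mul] at h4
  rw [rb_cubes hH hq hβ hd, h4, h2, gt3, map_mul, map_div₀, Complex.conj_ofReal]
  push_cast
  field_simp

theorem rb_support (hH : HeckeStmt K) (hq : 10 ≤ q) (hβ : β ≠ 0) (hν : ν ≠ 0) (h : rb q β ν ≠ 0) :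
    ∃ (u : (R K)ˣ) (c d : R K), IsS c ∧ Prim d ∧ ν = u * c * d ^ 3 := by
  induction hN : nm ν using Nat.strong_induction_on generalizing ν with
  | _ N ih =>
    by_cases hs : Squarefree ν
    · obtain ⟨u, c, hc, rfl⟩ := exists_unit_prim hν
      exact ⟨u, c, 1, ⟨hc, hs.of_mul_right⟩, prim_one, by simp⟩
    · rw [squarefree_iff_no_irreducibles hν] at hs
      push Not at hs
      obtain ⟨r, hr, hrn⟩ := hs
      have hp : Prime (pp r) := (associated_pp r).prime hr.prime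
      have hp' := prim_pp hr.ne_zero
      obtain ⟨m, hm⟩ : pp r ^ 2 ∣ ν := by
        rw [sq, ← pp_mul, pp_dvd_iff]
        exact hrn
      generalize pp r = p at hp hp' hm
      by_cases hpm : p ∣ m
      · obtain ⟨m', rfl⟩ := hpm
        have hm' : m' ≠ 0 := fun e => hν (by rw [hm, e, mul_zero, mul_zero])
        have e1 : ν = m' * p ^ 3 := by rw [hm]; ring
        rw [e1, rb_cube hH hq hp hp' hβ] at h
        have hlt : nm m' < N := by
          have h2 := two_le_nm hp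
          have h3 := nm_pos hm'
          rw [← hN, e1, nm_mul, nm_pow]
          exact lt_mul_of_one_lt_right h3 (Nat.one_lt_pow (by norm_num) h2)
        obtain ⟨u, c, d, h1, h2, h3⟩ := ih _ hlt hm' h rfl
        exact ⟨u, c, p * d, h1, hp'.mul h2, by rw [e1, h3]; ring⟩
      · rw [hm, mul_comm] at h
        exact absurd (rb_two hH hq hp hp' hβ hpm) h

theorem norm_rb_le (hH : HeckeStmt K) (hq : 10 ≤ q) :
    ∃ C : ℝ, 0 ≤ C ∧ ∀ β : R K, β ≠ 0 → ‖rb q β 1‖ ≤ C := by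
  refine ⟨∑ α ∈ creps K q, ‖rb q α 1‖, by positivity, fun β hβ => ?_⟩
  obtain ⟨-, -, u, hu, -⟩ := ray_crep (q := q) (by omega) hβ
  have h1 := rb_congr hq hu 1
  rw [mul_comm, rb_unit hH hq hβ] at h1
  have h2 := congrArg norm h1
  rw [norm_mul, norm_cub (unit_coprime u β), one_mul] at h2
  rw [h2]
  exact Finset.single_le_sum (f := fun α => ‖rb q α 1‖) (fun _ _ => norm_nonneg _) (crep_mem_creps hβ)

end Vale.Agent.P319.TC
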