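import Vale.Agent.P319.N.ThCZA

/-! # TH-C: the residues of the constant terms.
PLAN.  `sum_creps_mul`: `δ ↦ crep q (γ δ)` is injective on `creps K q` (`Ray.cancel`, `crep_eq_iff`), so bijective (`Finset.sum_bij`/`Finset.sum_nbij`,
`Finset.surj_on_of_inj_on_of_card_le`).  `zC_peel`, `zC_mu_peel`: `tsum_peel`, `prim_mul_iff`, `mu_mul`, `mu_prime`, `mu_eq_zero`.
`hasRes_zC`: `zC φ 1 w = ∑ δ ∈ creps, φ δ * ∑' n, ind (Prim n ∧ Ray q 1 n δ) N(n)^(-w)` (`sum_creps_ind`); continuation `∑ φ δ * Z δ (3s-3) / (3s-4)`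
(`3s - 4 ≠ 0` on `Dom` as `0 < Im s`), limit by `tendsto_sE` and continuity of `Z δ`.
`zeroStmt`: `N β = ∑ δ, ind (Ray q 1 (δ³) β)`, `x β = zC mu 1 2 * κ * N β / 3`.  `psi_zero`, `Rz.sum`, `Rz.hol_mul` (`hol_zC` composed with `3s-2`),
`∑ γ, zC (ind (Ray · γ) mu) P w = zC mu P w`; for `P = p` use `zC_peel` (residue `(1 - 1/N p) κ N β / 3`, `sum_creps_mul` with `p`) and
`zC_mu_peel` at `w = 2`.  `x 1 ≠ 0`: `mu_mul_zeta`, the term `δ = crep q 1` of `N 1` (a sum of `0`s and `1`s). -/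

namespace Vale.Agent.P319.TC

open scoped ComplexConjugate Real Topology NumberField
open MeasureTheory Filter

variable {K : Type} [Field K] [NumberField K] [Stp K] {q : ℕ} {φ : R K → ℂ} {p : R K}

theorem sum_creps_mul (hq : 1 ≤ q) (hφ : ∀ x y, Ray q 1 x y → φ x = φ y) {γ : R K} (hγ : γ ≠ 0) :
    ∑ δ ∈ creps K q, φ (γ * δ) = ∑ δ ∈ creps K q, φ δ := by
  have h0 : ∀ δ ∈ creps K q, γ * δ ≠ 0 := fun δ h => mul_ne_zero hγ (ne_zero_of_mem_creps hq h)
  have hi : ∀ δ ∈ creps K q, ∀ δ' ∈ creps K q, crep q (γ * δ) = crep q (γ * δ') → δ = δ' := by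
    intro δ h δ' h' e
    rw [crep_eq_iff hq (h0 δ h) (h0 δ' h'), mul_comm γ, mul_comm γ] at e
    rw [← crep_of_mem h, (e.cancel isCoprime_one_right).crep_eq, crep_of_mem h']
  refine Finset.sum_bij (fun δ _ => crep q (γ * δ)) (fun δ h => crep_mem_creps (h0 δ h)) hi
    (fun b hb => ?_) fun δ h => hφ _ _ (ray_crep hq (h0 δ h))
  obtain ⟨a, ha, e⟩ := Finset.surj_on_of_inj_on_of_card_le (fun δ _ => crep q (γ * δ))
    (fun δ h => crep_mem_creps (h0 δ h)) (fun a a' h h' => hi a h a' h') le_rfl b hb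
  exact ⟨a, ha, e.symm⟩

theorem zC_peel (hp : Prime p) (hp' : Prim p) (hφ : ∀ n, ‖φ n‖ ≤ 1) {w : ℂ} (hw : 1 < w.re) :
    zC φ p w = zC φ 1 w - (nm p : ℂ) ^ (-w) * zC (fun n => φ (p * n)) 1 w := by
  rw [eq_sub_iff_add_eq, zC, zC, zC, tsum_peel hp (summable_zC hφ 1 hw).of_norm, ← tsum_mul_left]
  congr 1 <;> refine tsum_congr fun n => ?_
  · rw [ind_of isCoprime_one_right]; ring
  · rw [ind_of isCoprime_one_right, ind_of isCoprime_one_right, ind_congr (prim_mul_iff hp'),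
      nm_mul_cpow]
    ring

theorem zC_mu_peel (hp : Prime p) (hp' : Prim p) {w : ℂ} (hw : 1 < w.re) :
    zC (mu : R K → ℂ) 1 w = (1 - (nm p : ℂ) ^ (-w)) * zC mu p w := by
  have h : zC (fun n => mu (p * n)) 1 w = -zC mu p w := by
    rw [zC, zC, ← tsum_neg]
    refine tsum_congr fun n => ?_
    rw [ind_of isCoprime_one_right]
    by_cases h : IsCoprime n p
    · rw [ind_of h, mu_mul h.symm, mu_prime hp]; ring
    · rw [ind_of_not h, mu_eq_zero fun h' => h (squarefree_mul_iff.1 h').1.isCoprime.symm]; ring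
  linear_combination -zC_peel hp hp' norm_mu_le hw + (nm p : ℂ) ^ (-w) * h

theorem sum_zC (hq : 1 ≤ q) (hφ : ∀ n, ‖φ n‖ ≤ 1) (P : R K) {w : ℂ} (hw : 1 < w.re) :
    ∑ γ ∈ creps K q, zC (fun f => ind (Ray q 1 f γ) * φ f) P w = zC φ P w := by
  simp only [zC]
  rw [← Summable.tsum_finsetSum fun γ _ => (summable_zC (fun n => by
    rw [norm_mul]; exact mul_le_one₀ (norm_ind_le _) (norm_nonneg _) (hφ n)) P hw).of_norm]
  refine tsum_congr fun n => ?_
  by_cases h : Prim n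
  · rw [← Finset.mul_sum, ← Finset.sum_mul, ← Finset.mul_sum, ← Finset.sum_mul,
      sum_creps_ind hq h.1, one_mul]
  · simp [ind_of_not h]

theorem sum_zC_mu (hq : 1 ≤ q) (P : R K) {w : ℂ} (hw : 1 < w.re) :
    ∑ γ ∈ creps K q, zC (fun f => ind (Ray q 1 f γ) * mu f) P w = zC mu P w := by
  exact sum_zC hq norm_mu_le P hw

theorem hasRes_zC (hz : ZetaStmt K) (hq : 1 ≤ q) : ∃ κ : ℝ, 0 < κ ∧ ∀ φ : R K → ℂ,
    (∀ x y, Ray q 1 x y → φ x = φ y) → (∀ n, ‖φ n‖ ≤ 1) →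
    HasRes (fun s => zC φ 1 (3 * s - 3)) (κ / 3 * ∑ δ ∈ creps K q, φ δ) := by
  obtain ⟨κ, hκ, h⟩ := hz q 1 hq one_ne_zero
  refine ⟨κ, hκ, fun φ h1 h2 => ?_⟩
  choose! Z z1 z2 z3 using fun α hα => h α hα isCoprime_one_right
  have h0 := fun δ (h : δ ∈ creps K q) => ne_zero_of_mem_creps hq h
  have hD : ∀ s ∈ Dom, 3 * s - 3 - 1 ≠ 0 := fun s hs e => by
    have := congrArg Complex.im e
    simp at this
    linarith [hs.2.2.1]
  rw [Finset.mul_sum]
  refine (HasRes.sum (f := fun δ s => zC (fun f => ind (Ray q 1 f δ) * φ f) 1 (3 * s - 3)) _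
    fun δ hδ => ?_).congr fun s _ hs => sum_zC hq h2 1 (by simp; linarith)
  have hd : Differentiable ℂ fun s => Z δ (3 * s - 3) := (z1 δ (h0 δ hδ)).comp (by fun_prop)
  refine ⟨fun s => φ δ * Z δ (3 * s - 3) / (3 * s - 3 - 1),
    (hd.const_mul _).differentiableOn.div (by fun_prop) hD, fun s hs hs' => ?_, ?_⟩
  · beta_reduce
    rw [z3 δ (h0 δ hδ) _ (by simp; linarith), mul_left_comm, mul_div_cancel_left₀ _ (hD s hs), zC,
      ← tsum_mul_left]
    refine tsum_congr fun n => ?_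
    rw [ind_and, ind_of isCoprime_one_right]
    by_cases h : Ray q 1 n δ
    · rw [h1 _ _ h]; ring
    · simp [ind_of_not h]
  · have t := ((hd.continuous.tendsto (4 / 3)).comp tendsto_sE).const_mul (φ δ / 3)
    rw [show (3 : ℂ) * (4 / 3) - 3 = 1 by norm_num, z2 δ (h0 δ hδ)] at t
    rw [show κ / 3 * φ δ = φ δ / 3 * κ by ring]
    refine t.congr' (sE_mem.mono fun ε hε => ?_)
    have := hD _ hε
    simp only [Function.comp]
    rw [mul_div_assoc', eq_div_iff this]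
    ring

theorem hol_zC_two (hφ : ∀ n, ‖φ n‖ ≤ 1) (P : R K) : Hol fun s => zC φ P (3 * s - 2) :=
  (hol_zC hφ P).comp (f := fun s => 3 * s - 2) (by fun_prop) fun s hs => by
    have : 1 < s.re := hs
    simp only [Set.mem_ofPred_eq, Complex.sub_re, Complex.mul_re, Complex.re_ofNat,
      Complex.im_ofNat]
    linarith

theorem zeroStmt (hz : ZetaStmt K) : ZeroStmt K := by
  intro q hq10
  have hq : 1 ≤ q := by omega
  obtain ⟨κ, hκ, h⟩ := hasRes_zC hz hq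
  have hc : ∀ β x y : R K, Ray q 1 x y → ind (Ray q 1 (x ^ 3) β) = ind (Ray q 1 (y ^ 3) β) :=
    fun β x y e => ind_congr ⟨((e.pow 3).symm hq).trans, (e.pow 3).trans⟩
  have h1 : ∀ β γ : R K, γ ≠ 0 → Rz (fun s => zC (fun g => ind (Ray q 1 ((γ * g) ^ 3) β)) 1
      (3 * s - 3)) (κ / 3 * ∑ δ ∈ creps K q, ind (Ray q 1 (δ ^ 3) β)) := fun β γ hγ => by
    rw [← sum_creps_mul hq (hc β) hγ]
    exact rz_of_hasRes (h _ (fun x y e => hc β _ _ (e.mul_left hγ)) fun _ => norm_ind_le _)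
  have h2 : ∀ (β P : R K) (y : ℂ), β ≠ 0 → (∀ γ, γ ≠ 0 → Rz (fun s => zC (fun g =>
      ind (Ray q 1 ((γ * g) ^ 3) β)) P (3 * s - 3)) y) → Rz (psi q β 0 P) (zC mu P 2 * y) := by
    intro β P y hβ hy
    have := Rz.sum (creps K q) fun γ hγ => (hy γ (ne_zero_of_mem_creps hq hγ)).hol_mul
      (hol_zC_two (norm_ind_mu fun f => Ray q 1 f γ) P)
    rw [← Finset.sum_mul, show (3 : ℂ) * (4 / 3) - 2 = 2 by norm_num,
      sum_zC_mu hq P (by norm_num)] at this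
    exact this.congr fun s hs => (psi_zero hq hβ P hs).symm
  refine ⟨fun β => zC mu 1 2 * (κ / 3 * ∑ δ ∈ creps K q, ind (Ray q 1 (δ ^ 3) β)), ?_,
    fun β hβ => ⟨h2 β 1 _ hβ (h1 β), fun p hp hp' => ?_⟩⟩
  · refine mul_ne_zero (left_ne_zero_of_mul ((mu_mul_zeta (w := 2) (by norm_num)).trans_ne
      one_ne_zero)) (mul_ne_zero (div_ne_zero (Complex.ofReal_ne_zero.2 hκ.ne') three_ne_zero) ?_)
    classical
    simp only [ind, Finset.sum_boole, Nat.cast_ne_zero]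
    refine Finset.card_ne_zero_of_mem (Finset.mem_filter.2 ⟨crep_mem_creps one_ne_zero, ?_⟩)
    simpa using ((ray_crep hq (one_ne_zero (α := R K))).symm hq).pow 3
  · have hP : (nm p : ℂ) ≠ 0 := Nat.cast_ne_zero.2 (nm_pos hp.ne_zero).ne'
    have hP1 : (nm p : ℂ) + 1 ≠ 0 := by exact_mod_cast Nat.succ_ne_zero (nm p)
    have h3 := h2 β p _ hβ fun γ hγ => ((h1 β γ hγ).sub ((h1 β (γ * p)
      (mul_ne_zero hγ hp.ne_zero)).hol_mul (hol_cpow hP 3 (-3)))).congr fun s hs => by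
        rw [zC_peel hp hp' (fun _ => norm_ind_le _) (by simp; linarith),
          show -(3 * s - 3) = 3 + -3 * s by ring]
        simp only [mul_assoc]
    convert h3 using 1
    rw [zC_mu_peel hp hp' (w := 2) (by norm_num), show (3 : ℂ) + -3 * (4 / 3) = -1 by norm_num,
      Complex.cpow_neg, Complex.cpow_neg, Complex.cpow_one, Complex.cpow_ofNat]
    field_simp
    ring

end Vale.Agent.P319.TC
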