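import Vale.Agent.P319.N.ThCAut
import Vale.Agent.P319.N.ThCHecke
import Vale.Agent.P319.N.ThCRel
import Vale.Agent.P319.N.ThCZ

/-! # TH-C: the cubic theta functions. -/

namespace Vale.Agent.P319.TC

open scoped ComplexConjugate Real Topology NumberField
open MeasureTheory Filter Set

variable {K : Type} [Field K] [NumberField K] [Stp K] [Rcp K]

omit [Rcp K] in
theorem rho_smul (hR : ResStmt K) {Ψ : R K × R K → ℂ} (hΨ : Cl Ψ) (ζ : ℂ) (ν : R K) :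
    rho (fun r => ζ * Ψ r) ν = ζ * rho Ψ ν := by
  obtain ⟨a, ha, h⟩ := hΨ
  exact (((hR Ψ ⟨a, ha, h⟩ ν).const_mul ζ).congr fun s _ =>
    (aD_smul h (lev_ne_bot a) ζ ν 1 s).symm).rho_eq

theorem rho_dec (hH : HeckeStmt K) {a : ℕ} (ha : 10 ≤ a) : ∃ (q : ℕ) (C : ℝ), 10 ≤ q ∧ 0 ≤ C ∧
    ∀ Ψ : R K × R K → ℂ, Cls a (lev K a) Ψ → ∀ ν : R K, ∃ b : R K → ℂ,
      (∀ β ∈ creps K q, ‖b β‖ ≤ C) ∧ rho Ψ ν = ∑ β ∈ creps K q, b β * rb q β ν := by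
  obtain ⟨q, C, hq, hC, h⟩ := dec (K := K) ha
  refine ⟨q, C, hq, hC, fun Ψ hΨ ν => ?_⟩
  obtain ⟨b, hb, he⟩ := h Ψ hΨ ν
  refine ⟨fun β => b β (4 / 3), fun β hβ => (hb β hβ).2, Rz.rho_eq ?_⟩
  exact (Rz.sum _ fun β hβ => (rz_rb hH hq (ne_zero_of_mem_creps (by omega) hβ) ν).hol_mul
    (hb β hβ).1).congr fun s hs => (he 1 s hs).symm

theorem rho_bound (hH : HeckeStmt K) {a : ℕ} (ha : 10 ≤ a) : ∃ C : ℝ, 0 ≤ C ∧
    ∀ Ψ : R K × R K → ℂ, Cls a (lev K a) Ψ → ∀ ν : R K, ν ≠ 0 → rho Ψ ν ≠ 0 →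
      ∃ (u : (R K)ˣ) (c d : R K), IsS c ∧ Prim d ∧ ν = u * c * d ^ 3 ∧
        ‖rho Ψ ν‖ ≤ C * (nm c : ℝ) ^ (-1 / 6 : ℝ) := by
  obtain ⟨q, C, hq, hC, h⟩ := rho_dec hH ha
  obtain ⟨D, hD, hrb⟩ := norm_rb_le hH hq
  refine ⟨(creps K q).card * (C * D), by positivity, fun Ψ hΨ ν hν h0 => ?_⟩
  obtain ⟨b, hb, he⟩ := h Ψ hΨ ν
  rw [he] at h0 ⊢
  obtain ⟨β₀, hβ₀, h1⟩ := Finset.exists_ne_zero_of_sum_ne_zero h0
  obtain ⟨u, c, d, hc, hd, rfl⟩ := rb_support hH hq (ne_zero_of_mem_creps (by omega) hβ₀) hν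
    (right_ne_zero_of_mul h1)
  refine ⟨u, c, d, hc, hd, rfl, (norm_sum_le _ _).trans ((Finset.sum_le_card_nsmul _ _
    (C * D * (nm c : ℝ) ^ (-1 / 6 : ℝ)) fun β hβ => ?_).trans_eq (by rw [nsmul_eq_mul]; ring))⟩
  have hs := squarefree_unit_mul hc.2 u
  have hβ' := ne_zero_of_mem_creps (by omega) hβ
  have hN : (0 : ℝ) ≤ (nm c : ℝ) ^ (-1 / 6 : ℝ) := by positivity
  rw [rb_formula hH hq hs hd.1 hβ', nm_unit_mul]
  simp only [norm_mul, Complex.norm_conj, norm_gt3 hs, Complex.norm_real, Real.norm_of_nonneg hN,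
    norm_bc, mul_one, one_mul]
  calc _ ≤ C * ((nm c : ℝ) ^ (-1 / 6 : ℝ) * D) := by
        gcongr
        · exact hb β hβ
        · exact hrb _ (mul_ne_zero hβ' hs.ne_zero)
    _ = _ := by ring

theorem bndStmt (hH : HeckeStmt K) : BndStmt K := by
  rintro Ψ ⟨a, ha, hΨ⟩
  obtain ⟨C, hC, h⟩ := rho_bound hH ha
  refine ⟨max C ‖rho Ψ 0‖, fun ν => ?_⟩
  by_cases hν : ν = 0
  · rw [hν]
    exact le_max_right _ _
  by_cases h0 : rho Ψ ν = 0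
  · rw [h0, norm_zero]
    exact le_max_of_le_left hC
  obtain ⟨u, c, d, hc, -, -, h1⟩ := h Ψ hΨ ν hν h0
  exact le_max_of_le_left (h1.trans (mul_le_of_le_one_right hC
    (Real.rpow_le_one_of_one_le_of_nonpos (one_le_nm hc.1.1) (by norm_num))))

omit [Rcp K] in
theorem th_const {τ : R K → ℂ} (h : ∀ ν, ν ≠ 0 → τ ν = 0) {y : ℝ} (hy : 0 < y) :
    th τ (fun _ => (0, y)) = τ 0 * (((3 * π * y ^ (2 / 3 : ℝ)) ^ rr K : ℝ) : ℂ) := by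
  rw [th, tsum_eq_single 0 fun ν hν => by rw [h ν hν, zero_mul]]
  simp only [map_zero, ev_zero, mul_zero, lat_ecc_zero, mul_one, Finset.prod_const, Finset.card_univ]
  rw [Wh_four_thirds 0 hy, Wr_zero hy, Complex.ofReal_pow]

theorem exists_rb_ne_zero (hR : ResStmt K) (hH : HeckeStmt K) (hZ : ZeroStmt K) (hA : AutStmt K) :
    ∃ (q : ℕ) (β : R K), 10 ≤ q ∧ β ≠ 0 ∧ rb q β 1 ≠ 0 := by
  by_contra hcon
  push Not at hcon
  have h1 : ∀ (q : ℕ) (β ν : R K), 10 ≤ q → β ≠ 0 → ν ≠ 0 → rb q β ν = 0 := by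
    intro q β ν hq hβ hν
    by_contra h
    obtain ⟨u, c, d, hc, hd, rfl⟩ := rb_support hH hq hβ hν h
    have hs := squarefree_unit_mul hc.2 u
    rw [rb_formula hH hq hs hd.1 hβ, hcon q _ hq (mul_ne_zero hβ hs.ne_zero), mul_zero] at h
    exact h rfl
  have h2 : ∀ Ψ : R K × R K → ℂ, Cl Ψ → ∀ ν, ν ≠ 0 → rho Ψ ν = 0 := by
    rintro Ψ ⟨a, ha, hΨ⟩ ν hν
    obtain ⟨q, C, hq, -, h⟩ := rho_dec hH ha
    obtain ⟨b, -, he⟩ := h Ψ hΨ ν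
    rw [he]
    exact Finset.sum_eq_zero fun β hβ => by
      rw [h1 q β ν hq (ne_zero_of_mem_creps (by omega) hβ) hν, mul_zero]
  obtain ⟨x, hx, hZ⟩ := hZ 10 le_rfl
  have hΨ := cl_Psb (K := K) le_rfl one_ne_zero 0
  have h4 : rho (Psb 10 (1 : R K) 0) 0 ≠ 0 := by
    rw [rho_Psb hR le_rfl one_ne_zero fun d _ => by simpa using sIn_zero 0,
      (hZ 1 one_ne_zero).1.rb_eq]
    exact mul_ne_zero (mul_ne_zero (by simp) (Complex.cpow_ne_zero_iff.2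
      (Or.inl (Complex.ofReal_ne_zero.2 (NS_pos one_ne_zero).ne')))) hx
  have key : ∀ y : ℝ, 0 < y →
      rho (Psb 10 (1 : R K) 0) 0 * (((3 * π * (1 / y) ^ (2 / 3 : ℝ)) ^ rr K : ℝ) : ℂ) =
      rho (fun r => Psb 10 (1 : R K) 0 (rmul r mS⁻¹)) 0 *
        (((3 * π * y ^ (2 / 3 : ℝ)) ^ rr K : ℝ) : ℂ) := by
    intro y hy
    have h5 := hA _ hΨ mS (fun _ => (0, y)) fun _ => hy
    have h6 : act (mS : SL2 K) (fun _ => (0, y)) = fun _ => (0, 1 / y) := by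
      rw [act_mS]
      funext v
      refine Prod.ext (by simp) ?_
      simp only [norm_zero]
      field_simp
      ring
    rwa [h6, th_const (h2 _ hΨ) (by positivity), th_const (h2 _ (hΨ.rmul _)) hy] at h5
  have k1 := key 1 one_pos
  have k2 := key 2 two_pos
  rw [div_one] at k1
  rw [← mul_right_cancel₀ (Complex.ofReal_ne_zero.2 (by positivity)) k1] at k2
  refine (pow_lt_pow_left₀ ?_ (by positivity) rr_pos.ne').ne
    (Complex.ofReal_injective (mul_left_cancel₀ h4 k2))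
  exact mul_lt_mul_of_pos_left (Real.rpow_lt_rpow (by norm_num) (by norm_num) (by norm_num))
    (by positivity)

theorem rho_basic (hR : ResStmt K) (hH : HeckeStmt K) {q : ℕ} (hq : 10 ≤ q) {β₀ α : R K} (hβ : β₀ ≠ 0)
    (h0 : rb q β₀ 1 ≠ 0) (hα : α ≠ 0) : ∃ (Ψ : R K × R K → ℂ) (κ : ℂ), κ ≠ 0 ∧ Cl Ψ ∧
      ∀ x : R K, InUq q ((x : K) / α) →
        rho Ψ x = κ * th0 x * ((nm x : ℝ) ^ (-1 / 6 : ℝ) : ℝ) := by
  have hβ' : β₀ * α ^ 2 ≠ 0 := mul_ne_zero hβ (pow_ne_zero 2 hα)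
  have hα' := coe_ne_zero hα
  have hβ0 := coe_ne_zero hβ
  obtain ⟨b, hb⟩ := exists_b ((α : K) / (β₀ * α ^ 2 : R K))
  refine ⟨Psb q (β₀ * α ^ 2) b, ((nK ((MM K : K) ^ b) : ℝ) : ℂ)⁻¹ *
    (NS (β₀ * α ^ 2) : ℂ) ^ (1 + -1 * (4 / 3) : ℂ) * (conj (bc (β₀ * α ^ 2) α) * rb q β₀ 1),
    mul_ne_zero (mul_ne_zero (inv_ne_zero (Complex.ofReal_ne_zero.2
      (nK_pos (pow_ne_zero b M_ne_zero)).ne')) (Complex.cpow_ne_zero_iff.2
      (Or.inl (Complex.ofReal_ne_zero.2 (NS_pos hβ').ne')))) (mul_ne_zero ?_ h0),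
    cl_Psb hq hβ' b, fun x hx => ?_⟩
  · rw [← norm_ne_zero_iff, Complex.norm_conj, norm_bc]
    exact one_ne_zero
  have hx0 := (hx.mono hq).left_ne
  rw [rho_Psb hR hq hβ' fun d hd => by
    convert hb _ d hx.sIn hd using 1
    field_simp]
  by_cases hex : ∃ c d, Squarefree c ∧ Prim d ∧ x = c * d ^ 3
  · obtain ⟨c, d, hc, hd, rfl⟩ := hex
    have hd0 := nm_pos_real hd.1
    have h2 : ((nm (c * d ^ 3) : ℕ) : ℝ) ^ (-1 / 6 : ℝ) * √(nm d) = (nm c : ℝ) ^ (-1 / 6 : ℝ) := by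
      rw [nm_mul, nm_pow, Nat.cast_mul, Nat.cast_pow, Real.mul_rpow (by positivity) (by positivity),
        ← Real.rpow_natCast, ← Real.rpow_mul hd0.le, Real.sqrt_eq_rpow, mul_assoc,
        ← Real.rpow_add hd0]
      norm_num
    have h3 : bc (β₀ * α ^ 2) c = bc (β₀ * α ^ 2) α := by
      rw [← bc_congr_right hβ' (hx.mono hq), bc_mul_right hβ' hc.ne_zero (pow_ne_zero 3 hd.1),
        bc_cube_right hβ' hd.1, mul_one]
    have h4 : rb q (β₀ * α ^ 2 * c) 1 = rb q β₀ 1 := by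
      rw [← rb_cls_cubes hH hq (mul_ne_zero hβ' hc.ne_zero) hd.1, ← rb_cls_cubes hH hq hβ hα]
      refine rb_congr hq ?_ 1
      convert hx using 1
      simp only [map_mul, map_pow]
      field_simp
    rw [rb_formula hH hq hc hd.1 hβ', th0_eq hc hd.1, h3, h4, ← h2]
    push_cast
    ring
  · have h1 : rb q (β₀ * α ^ 2) x = 0 := by
      by_contra h
      obtain ⟨u, c, d, hc, hd, e⟩ := rb_support hH hq hβ' hx0 h
      exact hex ⟨u * c, d, squarefree_unit_mul hc.2 u, hd, e⟩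
    have h2 : th0 x = 0 := by
      by_contra h
      exact hex (th0_ne_zero h)
    rw [h1, h2]
    simp

end Vale.Agent.P319.TC

namespace Vale.Agent.P319

open TC

theorem theta {K : Type} [Field K] [NumberField K] [Stp K] [Rcp K] (hz : ZetaStmt K)
    (hB : ThBStmt K) : ThetaStmt K := by
  have hR := resStmt hB
  have hZ := zeroStmt hz
  have hH := heckeStmt hR (cuspStmt hB) hZ
  have hA := autStmt hB (bndStmt hH)
  refine ⟨TC.rho, fun a Ψ ha hΨ => hA Ψ ⟨a, ha, hΨ⟩,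
    fun a Ψ ha hΨ ζ _ ν => rho_smul hR ⟨a, ha, hΨ⟩ ζ ν, fun a ha => ?_, ?_⟩
  · obtain ⟨C, -, h⟩ := rho_bound hH ha
    exact ⟨C, fun Ψ hΨ ν hν h0 =>
      ⟨den_of_dl (dl_of_rho hΨ (lev_ne_bot a) h0), h Ψ hΨ ν hν h0⟩⟩
  · obtain ⟨q, β, hq, hβ, h0⟩ := exists_rb_ne_zero hR hH hZ hA
    refine ⟨q, hq, fun α hα => ?_⟩
    obtain ⟨Ψ, κ, hκ, ⟨a, ha, hΨ⟩, h⟩ := rho_basic hR hH hq hβ h0 hα
    exact ⟨a, Ψ, κ, ha, hκ, hΨ, h⟩

end Vale.Agent.P319
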