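import Vale.Agent.P319.N.VorCore

/-! VOR: `VBStmt`. -/

namespace Vale.Agent.P319

open scoped ComplexConjugate Real

variable {K : Type} [Field K] [NumberField K] [Stp K] [Rcp K]
variable {ρ : (R K × R K → ℂ) → R K → ℂ} {Ψ : R K × R K → ℂ} {a : ℕ}

omit [Rcp K] in
theorem vm_cs {ι κ : Type*} (S : Finset κ) (T : Finset ι) (c : ι → ℂ) (X : ι → κ → ℂ) (D : ι → ℝ)
    {Z : ℝ} (h : ∀ s ∈ T, ∑ k ∈ S, ‖X s k‖ ^ 2 ≤ D s * Z) :
    ∑ k ∈ S, ‖∑ s ∈ T, c s * X s k‖ ^ 2 ≤ (T.card * ∑ s ∈ T, ‖c s‖ ^ 2 * D s) * Z := by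
  calc _ ≤ ∑ k ∈ S, T.card * ∑ s ∈ T, ‖c s‖ ^ 2 * ‖X s k‖ ^ 2 := by
        refine Finset.sum_le_sum fun k _ => ?_
        simp only [← mul_pow, ← norm_mul]
        exact (pow_le_pow_left₀ (norm_nonneg _) (norm_sum_le _ _) 2).trans
          sq_sum_le_card_mul_sum_sq
    _ = T.card * ∑ s ∈ T, ‖c s‖ ^ 2 * ∑ k ∈ S, ‖X s k‖ ^ 2 := by
        rw [← Finset.mul_sum, Finset.sum_comm]
        simp only [Finset.mul_sum]
    _ ≤ T.card * ∑ s ∈ T, ‖c s‖ ^ 2 * (D s * Z) := by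
        gcongr with s hs
        exact h s hs
    _ = _ := by simp only [mul_assoc, Finset.sum_mul]

omit [Rcp K] in
theorem vm_bdd {L : R K} {φ : R K → ℂ} (hφ : Eqv L φ) (k ν : R K) :
    ‖φ ν * (quad ν k * cub ν k)‖ ≤ 1 := by
  rw [norm_mul, norm_mul]
  exact mul_le_one₀ (hφ.2.1 ν) (by positivity)
    (mul_le_one₀ (norm_quad_le _ _) (norm_nonneg _) (norm_cub_le _ _))

open Classical in
theorem vm_class (hq : QLSStmt K) (hρ : VAut ρ) (ha : 10 ≤ a) (hΨ : Cls a (lev K a) Ψ)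
    {T : ℝ} {G : (Pl K → ℝ) → ℝ} (hG : AdmG T G) {B' : ℝ} (hB' : 1 ≤ B') {ε : ℝ} (hε : 0 < ε)
    (q : ℕ) {α : R K} (hα : α ≠ 0) :
    ∃ C : ℝ, 0 < C ∧ ∀ (P Y t : ℝ) (L : R K) (φ : R K → ℂ), 0 < P → 1 / B' ≤ P ^ rr K → 1 ≤ Y →
      L ≠ 0 → Eqv L φ →
      ∑ k ∈ (sball K Y).filter (fun k => IsCoprime k L),
          ‖∑' ν, ρ Ψ ν * (ind (InUq q ((ν : K) / α)) * (φ ν * (quad ν k * cub ν k))) *
            wt G t P ν‖ ^ 2 ≤
        C * (1 + |t|) ^ (12 * rr K + 4) * (Y * nm L) ^ ε * nm L * P ^ rr K *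
          (Y ^ (6 / 5 : ℝ) + (Y ^ 2 * (nm L : ℝ) ^ 2 / P ^ rr K) ^ (41 / 25 : ℝ)) := by
  obtain ⟨S, c, hc⟩ := exists_ind_expand (a + 1) q hα
  choose a' Ψ' h10 hΨ' habs using fun s => th_absorb hρ ha hΨ s
  choose D hD hcore using fun s => vor_core hq hρ (h10 s) (hΨ' s) hG hB' hε
  have h0 : 0 ≤ S.card * ∑ s ∈ S, ‖c s‖ ^ 2 * D s :=
    mul_nonneg (by positivity) (Finset.sum_nonneg fun s _ => mul_nonneg (by positivity) (hD s).le)
  refine ⟨S.card * ∑ s ∈ S, ‖c s‖ ^ 2 * D s + 1, by positivity,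
    fun P Y t L φ hP hN hY hL hφ => ?_⟩
  have hg := hρ.grow ha hΨ
  have h1 : ∀ k ∈ (sball K Y).filter (fun k => IsCoprime k L),
      ∑' ν, ρ Ψ ν * (ind (InUq q ((ν : K) / α)) * (φ ν * (quad ν k * cub ν k))) * wt G t P ν =
        ∑ s ∈ S, c s * ∑' ν, ρ (Ψ' s) ν * (φ ν * (quad ν k * cub ν k)) * wt G t P ν := by
    intro k hk
    have hk0 := (mem_sball.1 (Finset.mem_filter.1 hk).1).1.ne_zero
    have h2 : ∀ s : R K, Grow fun ν => ρ Ψ ν * (eTr ((ν : K) * s) * (φ ν * (quad ν k * cub ν k))) :=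
      fun s => hg.mul_bdd (M := 1) fun ν => by
        rw [norm_mul, norm_eTr, one_mul]
        exact vm_bdd hφ k ν
    have h3 : Per (k * L) fun ν => φ ν * (quad ν k * cub ν k) := fun x y h => by
      simp only
      rw [hφ.1 x y ((dvd_mul_left L k).trans h), quad_congr ((dvd_mul_right k L).trans h),
        cub_congr ((dvd_mul_right k L).trans h)]
    rw [Finset.sum_congr rfl fun s _ => by
      rw [← tsum_wt_congr (h2 s) ((hρ.grow (h10 s) (hΨ' s)).mul_bdd (vm_bdd hφ k)) hG t hP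
        (habs s _ _ (mul_ne_zero hk0 hL) h3), ← tsum_mul_left],
      ← Summable.tsum_finsetSum fun s _ => ((h2 s).summable_wt hG t hP).mul_left _]
    refine tsum_congr fun ν => ?_
    by_cases h : ρ Ψ ν = 0
    · simp [h]
    rw [hc ν (hρ.supp ha hΨ ν h), Finset.sum_mul, Finset.mul_sum, Finset.sum_mul]
    exact Finset.sum_congr rfl fun s _ => by ring
  rw [Finset.sum_congr rfl fun k hk => by rw [h1 k hk]]
  simp only [mul_assoc]
  refine (vm_cs _ S c _ D fun s _ => by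
    simpa only [mul_assoc] using hcore s P Y t L φ hP hN hY hL hφ).trans ?_
  gcongr
  linarith

omit [Rcp K] in
theorem vm_num {M Y L N : ℝ} (hM : 0 < M) (hY : 0 ≤ Y) (hN : 0 < N) :
    N * M * (Y ^ (6 / 5 : ℝ) + (Y ^ 2 * L ^ 2 / (N * M)) ^ (41 / 25 : ℝ)) ≤
      M * (1 + M⁻¹ ^ (41 / 25 : ℝ)) *
        (N * (Y ^ (6 / 5 : ℝ) + (Y ^ 2 * L ^ 2 / N) ^ (41 / 25 : ℝ))) := by
  rw [← div_div, div_eq_mul_inv _ M, Real.mul_rpow (by positivity) (by positivity)]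
  have h1 : 0 ≤ Y ^ (6 / 5 : ℝ) := by positivity
  have h2 : 0 ≤ (Y ^ 2 * L ^ 2 / N) ^ (41 / 25 : ℝ) := by positivity
  have h3 : 0 ≤ M⁻¹ ^ (41 / 25 : ℝ) := by positivity
  generalize Y ^ (6 / 5 : ℝ) = x at *
  generalize (Y ^ 2 * L ^ 2 / N) ^ (41 / 25 : ℝ) = y at *
  generalize M⁻¹ ^ (41 / 25 : ℝ) = z at *
  have : 0 ≤ N * M * (y + z * x) := by positivity
  linarith

theorem vb (hq : QLSStmt K) (ht : ThetaStmt K) : VBStmt K := by
  classical
  obtain ⟨ρ, haut, hsmul, hcoef, q, hq10, hα⟩ := ht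
  have hρ : VAut ρ := ⟨haut, hsmul, hcoef⟩
  intro B V ε hV hε
  obtain ⟨T, G, hG, hsum⟩ := exists_G (K := K) hV
  obtain ⟨S, hS, hS'⟩ := exists_ureps (K := K) hq10
  have hB : 0 < B := by linarith [hV.1]
  have hS0 : ∀ α : S, 0 < NS α.1 := fun α => NS_pos (hS α α.2).1
  choose a Ψ κ ha hκ hΨ hρΨ using fun α : S => hα α (hS α α.2).1
  choose D hD hcl using fun α : S => vm_class hq hρ (ha α) (hΨ α) hG
    (B' := B * (1 + (NS α.1)⁻¹)) (one_le_mul_of_one_le_of_one_le hV.1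
      (le_add_of_nonneg_right (inv_pos.2 (hS0 α)).le)) hε q (hS α α.2).1
  let c : S → ℝ := fun α => (‖κ α‖ * NS α.1 ^ (1 / 6 : ℝ))⁻¹
  let D' : S → ℝ := fun α => D α * (NS α.1 * (1 + (NS α.1)⁻¹ ^ (41 / 25 : ℝ)))
  have h0 : 0 ≤ (Finset.univ : Finset S).card * ∑ α, c α ^ 2 * D' α :=
    mul_nonneg (by positivity) (Finset.sum_nonneg fun α _ => by
      have := hS0 α
      have := hD α
      positivity)
  refine ⟨(Finset.univ : Finset S).card * ∑ α, c α ^ 2 * D' α + 1, (12 * rr K + 4 : ℕ),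
    by positivity, by positivity, fun N Y t L φ hN hY hL hφ => ?_⟩
  have hN0 : 0 < N := lt_of_lt_of_le (by positivity) hN
  choose φ' hφ' hφφ using fun α : S => exists_phi hL (hS α α.2).1 hφ
  let P : S → ℝ := fun α => (N * NS α.1) ^ (1 / (rr K : ℝ))
  have hP : ∀ α, 0 < P α := fun α => Real.rpow_pos_of_pos (mul_pos hN0 (hS0 α)) _
  have hPr : ∀ α, P α ^ rr K = N * NS α.1 := fun α => by
    simp only [P, one_div]
    exact Real.rpow_inv_natCast_pow (mul_pos hN0 (hS0 α)).le rr_pos.ne'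
  let c' : S → ℂ := fun α => (κ α * (NS α.1 ^ (1 / 6 : ℝ) : ℝ) *
    Complex.exp (Complex.I * t * Real.log (NS α.1)))⁻¹
  have hc' : ∀ α, ‖c' α‖ = c α := fun α => by
    simp only [c', c]
    rw [norm_inv, norm_mul, norm_mul, mul_assoc Complex.I, ← Complex.ofReal_mul,
      Complex.norm_exp_I_mul_ofReal, mul_one, Complex.norm_real,
      Real.norm_of_nonneg (Real.rpow_pos_of_pos (hS0 α) _).le]
  have h1 : ∀ k, ∑ n ∈ pball K (B * N), th0 (ng n) * ang (ng n) * φ n *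
      (quad (ng n) k * cub (ng n) k) * V (nm n / N) * nt n t =
      ∑ α, c' α * ∑' ν, ρ (Ψ α) ν * (ind (InUq q ((ν : K) / α.1)) *
        (φ' α ν * (quad ν k * cub ν k))) * wt G t (P α) ν := fun k => by
    have h2 := hsum (fun x => th0 x * ang x * φ (pp x) * (quad x k * cub x k) * nt x t) N hN0
      fun u hu x => by
        rw [vl_th0_EU hu, vl_ang_EU hu, pp_unit_mul, vl_quad_EU hu, vl_cub_EU hu,
          nt_associated (associated_unit_mul_left x _ u.isUnit)]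
    have h3 := hasSum_sum (s := Finset.univ) fun (α : S) _ =>
      ((((hρ.grow (ha α) (hΨ α)).mul_bdd (M := 1) (y := fun ν => ind (InUq q ((ν : K) / α.1)) *
        (φ' α ν * (quad ν k * cub ν k))) fun ν => by
          rw [norm_mul]
          exact mul_le_one₀ (norm_ind_le _) (norm_nonneg _) (vm_bdd (hφ' α) k ν)).summable_wt
            hG t (hP α)).hasSum.mul_left (c' α))
    refine Eq.trans ?_ (h2.tsum_eq.symm.trans ((tsum_congr fun x => ?_).trans h3.tsum_eq))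
    · refine Finset.sum_congr rfl fun n hn => ?_
      rw [pp_ng, (mem_pball.1 hn).1.pp_eq, nt_associated (associated_ng n)]
      ring
    by_cases hx : Nrm x
    swap
    · rw [ind_of_not hx, zero_mul, zero_mul, Finset.sum_eq_zero fun α _ => ?_]
      rw [ind_of_not fun h => hx ((hS α α.2).of_inU (h.mono hq10))]
      simp
    obtain ⟨α, ⟨b1, b2⟩, b3⟩ := hS' x hx
    rw [Finset.sum_eq_single (⟨α, b1⟩ : S) (fun β _ h => by
      rw [ind_of_not fun h' => h (Subtype.ext (b3 β ⟨β.2, h'⟩))]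
      simp) (by simp)]
    have b4 := hS0 ⟨α, b1⟩
    have b5 := nm_pos_real hx.1
    have b6 : NS x = NS α := NS_eq_of_inUq (by omega) b2
    have b7 : (((nm x : ℝ) ^ (-1 / 6 : ℝ) : ℝ) : ℂ) * ((nm x : ℝ) ^ (1 / 6 : ℝ) : ℝ) = 1 := by
      rw [← Complex.ofReal_mul, ← Real.rpow_add b5]
      norm_num
    have b8 : ((NS α ^ (1 / 6 : ℝ) : ℝ) : ℂ) ≠ 0 := by
      exact_mod_cast (Real.rpow_pos_of_pos b4 _).ne'
    have b9 := hκ ⟨α, b1⟩
    have b10 := Complex.exp_ne_zero (Complex.I * t * Real.log (NS α))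
    simp only [c', P, wt]
    rw [ind_of hx, ind_of b2, hρΨ _ x b2, hφφ _ x (b2.mono hq10), nK_eq_nm_mul, b6,
      Real.mul_rpow b5.le b4.le, Real.log_mul b5.ne' b4.ne', Complex.ofReal_add, mul_add,
      Complex.exp_add, Complex.ofReal_mul, nt]
    generalize Complex.exp (Complex.I * t * Real.log (NS α)) = z at *
    generalize ((NS α ^ (1 / 6 : ℝ) : ℝ) : ℂ) = z' at *
    generalize (((nm x : ℝ) ^ (-1 / 6 : ℝ) : ℝ) : ℂ) = z'' at *
    field_simp
    rw [mul_assoc _ z'', b7, mul_one]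
  simp only [h1]
  refine (vm_cs _ Finset.univ c' _ D' (Z := (1 + |t|) ^ (12 * rr K + 4) * (Y * nm L) ^ ε * nm L *
    (N * (Y ^ (6 / 5 : ℝ) + (Y ^ 2 * (nm L : ℝ) ^ 2 / N) ^ (41 / 25 : ℝ)))) fun α _ => ?_).trans ?_
  · have b1 := hS0 α
    have b2 := hD α
    refine (hcl α (P α) Y t L (φ' α) (hP α) ?_ hY hL (hφ' α)).trans ?_
    · rw [hPr, ← div_div, div_le_iff₀ (by positivity)]
      refine hN.trans ?_
      rw [mul_assoc, mul_add, mul_inv_cancel₀ b1.ne']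
      exact le_mul_of_one_le_right hN0.le (by linarith)
    · rw [hPr, mul_assoc _ (N * NS α.1)]
      refine (mul_le_mul_of_nonneg_left (vm_num b1 (by linarith) hN0) (by positivity)).trans_eq ?_
      simp only [D']
      ring
  · simp only [hc', Real.rpow_natCast, mul_assoc _ _ N]
    simp only [← mul_assoc]
    gcongr
    linarith

end Vale.Agent.P319
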