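import Vale.Agent.P319.N.ZetaXi
import Vale.Agent.P319.N.ZetaRay

/-! # P319 ZETA: exports `zeta : ZetaStmt K`, `xi : XiStmt`, `hecke_cont`, `class_sum`, `dedekindZeta_eq_tsum`. -/
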