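import Vale.Agent.P319.N.Final3
import Vale.Agent.P319.N.RecStep
import Vale.Agent.P319.N.Cft
import Vale.Agent.P319.N.QG
import Vale.Agent.P319.N.LatPois
import Vale.Agent.P319.N.PS
import Vale.Agent.P319.N.Q
import Vale.Agent.P319.N.VorMain
import Vale.Agent.P319.N.ThB
import Vale.Agent.P319.N.ThC
import Vale.Agent.P319.N.Zeta

/-! # P319, number theory part: the zero free half plane for every number field with a cube root of unity. -/

namespace Vale.Agent.P319

theorem zf_all (F : Type) [Field F] [NumberField F] (h : ∃ w : F, w ^ 2 + w + 1 = 0) : ZFStmt F := by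
  obtain ⟨S⟩ := exists_stp h
  have : Rcp F := ⟨cubic, qg pois⟩
  exact zf (rec_main ps (vb qls (theta zeta thB)) (by norm_num))

end Vale.Agent.P319
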