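import Vale.Agent.P319.N.PSAux

/-! # PSQ: Poisson summation for one pair.  Port of `P026/PSOne.lean`.
`summable_dker`: on `mem l i`, `dker E.KK (c * N) m₁ m₂ = (√..)⁻¹ * E.wt l (c / (nm m₁ nm m₂)) i`; `E.summ`.
`ps1`: `ind_coprime`, swap, `E.gp` for each `e ∈ pdiv Δ` with `q = m₁ m₂`, `f = X m₁ * conj (X m₂)`;
`hat q (f (e * ·)) k = X m₁ e * conj (X m₂ e) * (F.ft ..)` (`F.mul_right`); the terms with `V` vanish unless `m₁ = m₂ = 1`
(`F.X_eq_zero`, `isCoprime_zero_left`, `F.one_left`), `sum_mu_pdiv`, `phiS`.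
`bil2`: `ps1` for every pair in the support, exchange finite sums and `tsum`; `norm_phiS_le`, `F.norm_g`, `F.norm_ε`. -/

namespace Vale.Agent.P319

open scoped ComplexConjugate Real
open MeasureTheory

variable {K : Type} [Field K] [NumberField K] [Stp K]

theorem Eng.N_pos (E : Eng K) {l : E.L} {i : E.ι} (h : E.mem l i) : 1 ≤ E.N l i := by
  exact (one_le_nm (E.hN l i h).1).trans (E.hN l i h).2

theorem Eng.wt_nonneg (E : Eng K) (l : E.L) {y : ℝ} (hy : 0 < y) (i : E.ι) : 0 ≤ E.wt l y i := by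
  unfold Eng.wt
  by_cases h : E.mem l i
  · rw [cut_of h]
    exact E.KK_nonneg _ (mul_pos hy (one_pos.trans_le (E.N_pos h)))
  · rw [cut_of_not h]

theorem pso_dker (E : Eng K) (l : E.L) (c : ℝ) (m1 m2 : R K) (i : E.ι) :
    ind (E.mem l i) * (dker E.KK (c * E.N l i) m1 m2 : ℝ) =
      (((√(nm m1) * √(nm m2))⁻¹ * E.wt l (c / (nm m1 * nm m2)) i : ℝ) : ℂ) := by
  rw [Eng.wt, Complex.ofReal_mul, cut_eq, dker, Complex.ofReal_mul, div_mul_eq_mul_div]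
  ring

theorem summable_dker (E : Eng K) (l : E.L) {c : ℝ} (hc : 0 < c) {m1 m2 : R K} (h1 : m1 ≠ 0)
    (h2 : m2 ≠ 0) : Summable fun i => ind (E.mem l i) * (dker E.KK (c * E.N l i) m1 m2 : ℝ) := by
  have p1 := nm_pos_real h1
  have p2 := nm_pos_real h2
  simp only [pso_dker]
  exact Complex.summable_ofReal.2 ((E.summ l _ (by positivity)).mul_left _)

theorem pso_pair (E : Eng K) (F : Fam K) (l : E.L) {c : ℝ} (hc : 0 < c) {m1 m2 : R K}
    (h1 : IsS m1) (h2 : IsS m2) : Summable fun i => ind (E.mem l i) *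
      (conj (F.X m1 (E.x i)) * F.X m2 (E.x i) * (dker E.KK (c * E.N l i) m1 m2 : ℝ)) := by
  refine Summable.of_norm_bounded (summable_dker E l hc h1.ne_zero h2.ne_zero).norm fun i => ?_
  rw [mul_left_comm, norm_mul, norm_mul, Complex.norm_conj]
  exact mul_le_of_le_one_left (norm_nonneg _)
    (mul_le_one₀ (psd_norm_X_le F h1.1 _) (norm_nonneg _) (psd_norm_X_le F h2.1 _))

theorem pso_hasSum (E : Eng K) (F : Fam K) (l : E.L) {c : ℝ} (hc : 0 < c) (Z : ℝ)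
    (β₁ β₂ : R K → ℂ) (e : R K) : HasSum (fun i => ind (E.mem l i) *
      Dl E.KK Z (c * E.N l i) (dco F β₁ e (E.x i)) (dco F β₂ e (E.x i)))
      (∑ m1 ∈ sball K Z, ∑ m2 ∈ sball K Z, ind (IsCoprime m1 m2) * (β₁ m1 * conj (β₂ m2)) *
        (F.X m1 e * F.g m1 * conj (F.X m2 e * F.g m2)) * ∑' i, ind (E.mem l i) *
          (conj (F.X m1 (E.x i)) * F.X m2 (E.x i) * (dker E.KK (c * E.N l i) m1 m2 : ℝ))) := by
  have h := hasSum_sum (s := sball K Z) fun m1 h1 => hasSum_sum (s := sball K Z) fun m2 h2 =>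
    (pso_pair E F l hc (mem_sball.1 h1).1 (mem_sball.1 h2).1).hasSum.mul_left
      (ind (IsCoprime m1 m2) * (β₁ m1 * conj (β₂ m2)) *
        (F.X m1 e * F.g m1 * conj (F.X m2 e * F.g m2)))
  refine h.congr_fun fun i => ?_
  rw [Dl, Finset.mul_sum]
  refine Finset.sum_congr rfl fun m1 _ => ?_
  rw [Finset.mul_sum]
  refine Finset.sum_congr rfl fun m2 _ => ?_
  simp only [dco, map_mul, Complex.conj_conj]
  ring

theorem summable_dl (E : Eng K) (F : Fam K) (l : E.L) {c : ℝ} (hc : 0 < c) (Z : ℝ)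
    (β₁ β₂ : R K → ℂ) (e : R K) : Summable fun i => ind (E.mem l i) *
      Dl E.KK Z (c * E.N l i) (dco F β₁ e (E.x i)) (dco F β₂ e (E.x i)) := by
  exact (pso_hasSum E F l hc Z β₁ β₂ e).summable

theorem pso_X_zero (F : Fam K) {m : R K} (hm : Prim m) : F.X m 0 = ind (m = 1) := by
  by_cases h : m = 1
  · rw [ind_of h, h, F.one_left]
  · rw [ind_of_not h]
    exact F.X_eq_zero m 0 hm fun hc => h (hm.eq_one_of_isUnit (isCoprime_zero_left.1 hc))

theorem pso_hat (F : Fam K) {m1 m2 : R K} (h1 : IsS m1) (h2 : IsS m2) (h12 : IsCoprime m1 m2)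
    (e k : R K) : hat (m1 * m2) (fun z => F.X m1 (e * z) * conj (F.X m2 (e * z))) k =
      (√(nm m1) * √(nm m2) : ℝ) * (F.X m1 e * F.g m1 * conj (F.X m2 e * F.g m2) * F.ε m1 m2) *
        (conj (F.X m1 k) * F.X m2 k) := by
  have h := F.ft m1 m2 k h1 h2 h12
  have e1 : hat (m1 * m2) (fun z => F.X m1 (e * z) * conj (F.X m2 (e * z))) k =
      F.X m1 e * conj (F.X m2 e) * ∑ x ∈ res (m1 * m2),
        F.X m1 x * conj (F.X m2 x) * eq (k * x) (ng (m1 * m2)) := by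
    rw [hat, Finset.mul_sum]
    refine Finset.sum_congr rfl fun x _ => ?_
    rw [F.mul_right _ _ _ h1.1, F.mul_right _ _ _ h2.1, map_mul]
    ring
  rw [e1, h, map_mul]
  ring

theorem pso_e (E : Eng K) (F : Fam K) {e m1 m2 α : R K} (he : Prim e) (h1 : IsS m1) (h2 : IsS m2)
    (h12 : IsCoprime m1 m2) (hα : Cg (m1 * m2) α)
    (hU : ∀ u, E.U u → F.X m1 u * conj (F.X m2 u) = 1) {Y : ℝ} (hY : 0 < Y) :
    ∑' i, (E.wt E.l0 Y⁻¹ i : ℝ) * ind (e ∣ E.x i) * F.X m1 (E.x i) * conj (F.X m2 (E.x i)) =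
      (E.c0 * Y / nm e : ℝ) *
        (F.X m1 e * F.g m1 * conj (F.X m2 e * F.g m2) * F.ε m1 m2 *
          ∑' i, ind (E.mem (E.lat e α) i) * (conj (F.X m1 (E.x i)) * F.X m2 (E.x i) *
            (dker E.KK (E.c0 ^ 2 * (Y / nm e) * E.N (E.lat e α) i) m1 m2 : ℝ))) +
      ind (m1 = 1) * ind (m2 = 1) * E.V *
        ((E.c0 * Y / nm e : ℝ) * (F.g 1 * conj (F.g 1) * F.ε 1 1) - 1) := by
  have pe := nm_pos_real he.ne_zero
  have p1 := nm_pos_real h1.ne_zero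
  have p2 := nm_pos_real h2.ne_zero
  have q1 : 0 < √(nm m1 : ℝ) := Real.sqrt_pos.2 p1
  have q2 : 0 < √(nm m2 : ℝ) := Real.sqrt_pos.2 p2
  have hper : Per (m1 * m2) fun x => F.X m1 x * conj (F.X m2 x) := fun x y hxy => by
    beta_reduce
    rw [F.per m1 x y ((dvd_mul_right _ _).trans hxy), F.per m2 x y ((dvd_mul_left _ _).trans hxy)]
  have hP := E.gp e α (m1 * m2) _ Y he hα hper (fun u hu z => by
    rw [F.mul_right _ _ _ h1.1, F.mul_right _ _ _ h2.1, map_mul]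
    linear_combination (F.X m1 z * conj (F.X m2 z)) * hU u hu) hY
  simp only [pso_hat F h1 h2 h12, pso_X_zero F h1.1, pso_X_zero F h2.1, conj_ind] at hP
  have e2 : E.c0 * Y / (nm e * nm (m1 * m2)) * (√(nm m1) * √(nm m2)) =
      E.c0 * Y / nm e * (√(nm m1) * √(nm m2))⁻¹ := by
    rw [nm_mul]
    push_cast
    field_simp
    rw [Real.sq_sqrt p1.le, Real.sq_sqrt p2.le]
  have e3 := congrArg (fun x : ℝ => (x : ℂ)) e2
  simp only [Complex.ofReal_mul (_ / _)] at e3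
  have e4 : ∑' i, (E.wt E.l0 Y⁻¹ i : ℝ) * ind (e ∣ E.x i) * F.X m1 (E.x i) *
      conj (F.X m2 (E.x i)) = ∑' i, (cut (E.mem E.l0 i) E.KK (Y⁻¹ * E.N E.l0 i) : ℝ) *
        (ind (e ∣ E.x i) * (F.X m1 (E.x i) * conj (F.X m2 (E.x i)))) :=
    tsum_congr fun i => by rw [Eng.wt]; ring
  have e5 : ((E.c0 * Y / (nm e * nm (m1 * m2)) : ℝ) : ℂ) * ∑' i, (cut (E.mem (E.lat e α) i) E.KK
      (E.c0 ^ 2 * Y / (nm e * nm (m1 * m2)) * E.N (E.lat e α) i) : ℝ) *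
        ((√(nm m1) * √(nm m2) : ℝ) * (F.X m1 e * F.g m1 * conj (F.X m2 e * F.g m2) * F.ε m1 m2) *
          (conj (F.X m1 (E.x i)) * F.X m2 (E.x i))) = (E.c0 * Y / nm e : ℝ) *
        (F.X m1 e * F.g m1 * conj (F.X m2 e * F.g m2) * F.ε m1 m2 *
          ∑' i, ind (E.mem (E.lat e α) i) * (conj (F.X m1 (E.x i)) * F.X m2 (E.x i) *
            (dker E.KK (E.c0 ^ 2 * (Y / nm e) * E.N (E.lat e α) i) m1 m2 : ℝ))) := by
    simp only [← tsum_mul_left]
    refine tsum_congr fun i => ?_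
    have e6 : E.c0 ^ 2 * Y / (nm e * nm (m1 * m2)) * E.N (E.lat e α) i =
        E.c0 ^ 2 * (Y / nm e) * E.N (E.lat e α) i / (nm m1 * nm m2) := by
      rw [nm_mul]
      push_cast
      field_simp
    rw [cut_eq, dker, e6, Complex.ofReal_mul (√(nm m1) * √(nm m2))⁻¹]
    linear_combination (F.X m1 e * F.g m1 * conj (F.X m2 e * F.g m2) * F.ε m1 m2 *
      conj (F.X m1 (E.x i)) * F.X m2 (E.x i) * ind (E.mem (E.lat e α) i) *
      ((E.KK (E.c0 ^ 2 * (Y / nm e) * E.N (E.lat e α) i / (nm m1 * nm m2)) : ℝ) : ℂ)) * e3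
  rw [e4, ← e5, eq_sub_of_add_eq hP]
  by_cases a1 : m1 = 1
  · by_cases a2 : m2 = 1
    · subst a1 a2
      simp only [mul_one, nm_one, Nat.cast_one, Real.sqrt_one, F.one_left, one_mul,
        Complex.ofReal_one]
      ring
    · simp only [ind_of_not a2]
      ring
  · simp only [ind_of_not a1]
    ring

theorem ps1 (E : Eng K) (F : Fam K) {Δ m1 m2 α : R K} (hΔ : Prim Δ) (h1 : IsS m1) (h2 : IsS m2)
    (h12 : IsCoprime m1 m2) (hα : Cg (m1 * m2) α)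
    (hU : ∀ u, E.U u → F.X m1 u * conj (F.X m2 u) = 1) {Y : ℝ} (hY : 0 < Y) :
    ∑' i, (E.wt E.l0 Y⁻¹ i : ℝ) * ind (IsCoprime (E.x i) Δ) * F.X m1 (E.x i) * conj (F.X m2 (E.x i)) =
      ∑ e ∈ pdiv Δ, mu e * (E.c0 * Y / nm e : ℝ) *
        (F.X m1 e * F.g m1 * conj (F.X m2 e * F.g m2) * F.ε m1 m2 *
          ∑' i, ind (E.mem (E.lat e α) i) * (conj (F.X m1 (E.x i)) * F.X m2 (E.x i) *
            (dker E.KK (E.c0 ^ 2 * (Y / nm e) * E.N (E.lat e α) i) m1 m2 : ℝ))) +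
      ind (m1 = 1) * ind (m2 = 1) * E.V *
        ((E.c0 * Y : ℝ) * phiS Δ * (F.g 1 * conj (F.g 1) * F.ε 1 1) - ind (Δ = 1)) := by
  have hs : ∀ e : R K, Summable fun i =>
      (E.wt E.l0 Y⁻¹ i : ℝ) * ind (e ∣ E.x i) * F.X m1 (E.x i) * conj (F.X m2 (E.x i)) := fun e => by
    refine Summable.of_norm_bounded (E.summ E.l0 _ (inv_pos.2 hY)) fun i => ?_
    have h0 := E.wt_nonneg E.l0 (inv_pos.2 hY) i
    rw [norm_mul, norm_mul, norm_mul, Complex.norm_conj, mul_assoc, mul_assoc, Complex.norm_real,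
      Real.norm_of_nonneg h0]
    exact mul_le_of_le_one_right h0 (mul_le_one₀ (norm_ind_le _) (by positivity)
      (mul_le_one₀ (psd_norm_X_le F h1.1 _) (norm_nonneg _) (psd_norm_X_le F h2.1 _)))
  have h := hasSum_sum (s := pdiv Δ) fun e _ => (hs e).hasSum.mul_left (mu e)
  refine Eq.trans (tsum_congr fun k => ?_) (h.tsum_eq.trans ?_)
  · rw [ind_coprime hΔ, Finset.mul_sum, Finset.sum_mul, Finset.sum_mul]
    exact Finset.sum_congr rfl fun e _ => by ring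
  rw [← sum_mu_pdiv hΔ, phiS, Finset.mul_sum, Finset.sum_mul, ← Finset.sum_sub_distrib,
    Finset.mul_sum, ← Finset.sum_add_distrib]
  refine Finset.sum_congr rfl fun e he => ?_
  rw [pso_e E F ((mem_pdiv hΔ.ne_zero).1 he).1 h1 h2 h12 hα hU hY]
  push_cast
  ring

theorem bil2 (E : Eng K) (F : Fam K) {Δ α : R K} (hΔ : IsS Δ) {Y : ℝ} (hY : 0 < Y) (Z : ℝ)
    (β₁ β₂ : R K → ℂ) (ε₀ : ℂ)
    (h : ∀ m1 ∈ sball K Z, ∀ m2 ∈ sball K Z, IsCoprime m1 m2 → β₁ m1 ≠ 0 → β₂ m2 ≠ 0 →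
      Cg (m1 * m2) α ∧ F.ε m1 m2 = ε₀ ∧ ∀ u, E.U u → F.X m1 u * conj (F.X m2 u) = 1) :
    ‖BilW F E.x (fun i => (E.wt E.l0 Y⁻¹ i : ℝ)) Z β₁ β₂ Δ -
      ε₀ * ∑ e ∈ pdiv Δ, mu e * (E.c0 * Y / nm e : ℝ) * ∑' i, ind (E.mem (E.lat e α) i) *
        Dl E.KK Z (E.c0 ^ 2 * (Y / nm e) * E.N (E.lat e α) i)
          (dco F β₁ e (E.x i)) (dco F β₂ e (E.x i))‖ ≤
      E.V * (E.c0 * Y + 1) * (‖β₁ 1‖ * ‖β₂ 1‖) := by
  have hc := E.c0_pos
  obtain ⟨W, hW⟩ : ∃ W : ℂ, W = E.V *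
    ((E.c0 * Y : ℝ) * phiS Δ * (F.g 1 * conj (F.g 1) * F.ε 1 1) - ind (Δ = 1)) := ⟨_, rfl⟩
  have hWb : ‖W‖ ≤ E.V * (E.c0 * Y + 1) := by
    rw [hW, norm_mul, Complex.norm_real, Real.norm_of_nonneg E.V_nonneg]
    refine mul_le_mul_of_nonneg_left ((norm_sub_le _ _).trans (add_le_add ?_ (norm_ind_le _)))
      E.V_nonneg
    rw [norm_mul, norm_mul, norm_mul, norm_mul, Complex.norm_conj, F.norm_g 1 isS_one,
      Complex.norm_real, Real.norm_of_nonneg (by positivity), one_mul, one_mul, mul_assoc]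
    exact mul_le_of_le_one_right (by positivity)
      (mul_le_one₀ (norm_phiS_le hΔ) (norm_nonneg _) (F.norm_ε 1 1))
  have h1 : ∀ e ∈ pdiv Δ, ∑' i, ind (E.mem (E.lat e α) i) *
      Dl E.KK Z (E.c0 ^ 2 * (Y / nm e) * E.N (E.lat e α) i)
        (dco F β₁ e (E.x i)) (dco F β₂ e (E.x i)) = _ := fun e he => by
    have pe := nm_pos_real ((mem_pdiv hΔ.ne_zero).1 he).1.ne_zero
    exact (pso_hasSum E F (E.lat e α) (by positivity) Z β₁ β₂ e).tsum_eq
  have key : BilW F E.x (fun i => (E.wt E.l0 Y⁻¹ i : ℝ)) Z β₁ β₂ Δ -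
      ε₀ * ∑ e ∈ pdiv Δ, mu e * (E.c0 * Y / nm e : ℝ) * ∑' i, ind (E.mem (E.lat e α) i) *
        Dl E.KK Z (E.c0 ^ 2 * (Y / nm e) * E.N (E.lat e α) i)
          (dco F β₁ e (E.x i)) (dco F β₂ e (E.x i)) =
      (∑ m1 ∈ sball K Z, ind (m1 = 1)) * (∑ m2 ∈ sball K Z, ind (m2 = 1)) *
        (W * (β₁ 1 * conj (β₂ 1))) := by
    rw [Finset.sum_congr rfl fun e he => by rw [h1 e he], Finset.sum_mul_sum, Finset.sum_mul]
    simp only [Finset.mul_sum, BilW]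
    rw [Finset.sum_comm (s := pdiv Δ), ← Finset.sum_sub_distrib]
    refine Finset.sum_congr rfl fun m1 hm1 => ?_
    rw [Finset.sum_comm (s := pdiv Δ), ← Finset.sum_sub_distrib, Finset.sum_mul]
    refine Finset.sum_congr rfl fun m2 hm2 => ?_
    have e0 : ind (m1 = 1) * ind (m2 = 1) * (W * (β₁ 1 * conj (β₂ 1))) =
        ind (IsCoprime m1 m2) * (β₁ m1 * conj (β₂ m2)) * (ind (m1 = 1) * ind (m2 = 1) * W) := by
      by_cases a1 : m1 = 1
      · by_cases a2 : m2 = 1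
        · rw [a1, a2, ind_of isCoprime_one_left]
          ring
        · simp [ind_of_not a2]
      · simp [ind_of_not a1]
    rw [e0]
    by_cases hc : IsCoprime m1 m2
    · by_cases b1 : β₁ m1 = 0
      · simp [b1]
      by_cases b2 : β₂ m2 = 0
      · simp [b2]
      obtain ⟨c1, c2, c3⟩ := h m1 hm1 m2 hm2 hc b1 b2
      rw [ps1 E F hΔ.1 (mem_sball.1 hm1).1 (mem_sball.1 hm2).1 hc c1 c3 hY, c2, hW, mul_add,
        Finset.mul_sum, add_sub_right_comm, ← Finset.sum_sub_distrib,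
        Finset.sum_eq_zero fun e _ => by ring]
      ring
    · simp [ind_of_not hc]
  have hs : ‖∑ m ∈ sball K Z, ind (m = (1 : R K))‖ ≤ 1 := by
    classical
    by_cases a : (1 : R K) ∈ sball K Z
    · rw [Finset.sum_eq_single_of_mem 1 a fun m _ hm => ind_of_not hm]
      exact norm_ind_le _
    · rw [Finset.sum_eq_zero fun m hm => ind_of_not fun e : m = 1 => a (e ▸ hm), norm_zero]
      exact zero_le_one
  rw [key, norm_mul, norm_mul, norm_mul, norm_mul, Complex.norm_conj]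
  exact (mul_le_of_le_one_left (by positivity) (mul_le_one₀ hs (norm_nonneg _) hs)).trans
    (mul_le_mul_of_nonneg_right hWb (by positivity))

end Vale.Agent.P319
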