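import Vale.Agent.P319.N.Basic

/-! BASE: valuations; bounded `S`-content; units of `R` modulo sixth powers.
PLAN.  `P.valuation K` (`IsDedekindDomain.HeightOneSpectrum`), values in `ℤᵐ⁰`.
`sIn_iff_val` (reduce to `a = 0` by `sIn_iff_div`): `→` `s ∉ P`, `valuation_le_one`; `←` the denominator ideal
`D = {d | d x ∈ 𝓞 K}` is in no `P ∋ M`: if `D ≤ P` take `d ∈ P⁻¹ D`, or directly: write `x = y / d`; by
`IsDedekindDomain.exists_forall_sub_mem_ideal` / powers of the primes of `d` not above `M` find `s` coprime to `M` with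
`v_Q (s x) ≤ 1` for all `Q` (`mem_integers_of_valuation_le_one`), e.g. `s ∈ J`, `s ≡ 1 mod M`, `J` the part of `(d)` prime to `M`
(`idl (algebraMap d)`, `idl_coprime`).  `mem_RS_iff_val` similarly with `M ^ k` (`finite_factors`, bound the exponents).
`exists_pi`: `P ^ h` is principal (`ClassGroup`, `pow_card_eq_one`, `ClassGroup.mk0_eq_one_iff`), the generator divides `M ^ h`.
`exists_shift`: `t = ∏ P ∣ M, pi P ^ (e P)` (`zpow`), `e P` = integer quotient of the exponent of `x` by `6 h`; `a = 6 h`.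
`exists_sgen`: choose `g ∈ {c, d}`-combination with `v_P g = max (v_P c) (v_P d)` for all `P ∋ M`: `g = s c + s' d`, `s = 1, s' = 0`
mod `P` or the reverse (CRT in `𝓞 K`).  `treps`: by `exists_shift` `u t^6 = y ∈ 𝓞 K`, `y ∣ M^a`; finitely many ideals contain `M ^ a`
(`Ideal.finite_setOf_absNorm_le`), and `(𝓞 K)ˣ` modulo sixth powers is finite (finitely generated commutative group;
`NumberField.Units.exist_unique_eq_mul_prod` or `Monoid.FG`). -/

namespace Vale.Agent.P319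

open scoped NumberField nonZeroDivisors
open IsDedekindDomain

variable {K : Type} [Field K] [NumberField K] [Stp K]

omit [Stp K] in
private theorem val_pos (P : HeightOneSpectrum (𝓞 K)) {x : K} (hx : x ≠ 0) :
    0 < P.valuation K x := zero_lt_iff.2 ((map_ne_zero _).2 hx)

private theorem val_M_eq {P : HeightOneSpectrum (𝓞 K)} (h : (MM K : 𝓞 K) ∉ P.asIdeal) :
    P.valuation K (MM K : K) = 1 := by
  simpa using (P.valuation_eq_one_iff_notMem (K := K)).2 h

/-- the ideal of denominators -/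
private def den (x : K) : Ideal (𝓞 K) where
  carrier := {d | ∃ t : 𝓞 K, (d : K) * x = t}
  add_mem' := by
    rintro a b ⟨s, hs⟩ ⟨t, ht⟩
    exact ⟨s + t, by simp [add_mul, hs, ht]⟩
  zero_mem' := ⟨0, by simp⟩
  smul_mem' := by
    rintro c a ⟨s, hs⟩
    exact ⟨c * s, by simp [mul_assoc, hs]⟩

omit [Stp K] in
private theorem den_not_le {x : K} (P : HeightOneSpectrum (𝓞 K)) (h : P.valuation K x ≤ 1) :
    ¬den x ≤ P.asIdeal := fun hle => by
  obtain ⟨n, d, e⟩ := P.exists_primeCompl_mul_eq_of_integer x h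
  exact d.2 (hle ⟨n, by rw [mul_comm]; exact e⟩)

omit [Stp K] in
private theorem den_ne_bot (x : K) : den x ≠ ⊥ := fun e => by
  obtain ⟨⟨n, d⟩, h⟩ := IsLocalization.surj (𝓞 K)⁰ x
  have h1 : (d : 𝓞 K) ∈ den x := ⟨n, by rw [mul_comm]; exact h⟩
  rw [e, Ideal.mem_bot] at h1
  exact nonZeroDivisors.coe_ne_zero d h1

private theorem val_zero_iff {x : K} : SIn 0 x ↔ ∀ P : HeightOneSpectrum (𝓞 K),
    (MM K : 𝓞 K) ∈ P.asIdeal → P.valuation K x ≤ 1 := by
  constructor
  · rintro ⟨s, t, ⟨u, v, huv⟩, e⟩ P hP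
    have hs : s ∉ P.asIdeal := fun hs => P.isPrime.ne_top ((Ideal.eq_top_iff_one _).2
      (huv ▸ add_mem (Ideal.mul_mem_left _ _ hs) (Ideal.mul_mem_left _ _ hP)))
    have h1 := congrArg (P.valuation K) e
    rw [map_mul, (P.valuation_eq_one_iff_notMem (K := K)).2 hs, one_mul, pow_zero, one_mul] at h1
    rw [h1]
    exact P.valuation_le_one t
  · intro h
    have h1 : den x ⊔ Ideal.span {(MM K : 𝓞 K)} = ⊤ := by
      by_contra h1
      obtain ⟨J, hJ, hle⟩ := Ideal.exists_le_maximal _ h1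
      have hM : (MM K : 𝓞 K) ∈ J := hle (Ideal.mem_sup_right (Ideal.mem_span_singleton_self _))
      exact den_not_le ⟨J, hJ.isPrime, fun e => M_int_ne_zero (Ideal.mem_bot.1 (e ▸ hM))⟩
        (h _ hM) (le_sup_left.trans hle)
    obtain ⟨s, ⟨t, ht⟩, m, hm, e⟩ := Submodule.mem_sup.1 ((Ideal.eq_top_iff_one _).1 h1)
    obtain ⟨c, rfl⟩ := Ideal.mem_span_singleton'.1 hm
    exact ⟨s, t, ⟨1, c, by rw [one_mul, e]⟩, by rw [ht, pow_zero, one_mul]⟩

private theorem val_up {a b : ℕ} {x : K} (h : SIn 0 ((MM K : K) ^ a * x)) (hab : a ≤ b) :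
    SIn 0 ((MM K : K) ^ b * x) := by
  obtain ⟨c, rfl⟩ := Nat.exists_eq_add_of_le hab
  rw [add_comm, pow_add, mul_assoc]
  exact h.mul_left (sIn_pow_M c).zero

theorem sIn_iff_val {a : ℕ} {x : K} : SIn a x ↔ ∀ P : HeightOneSpectrum (𝓞 K),
    (MM K : 𝓞 K) ∈ P.asIdeal → P.valuation K x ≤ P.valuation K ((MM K : K) ^ a) := by
  rw [sIn_iff_div, val_zero_iff]
  refine forall_congr' fun P => imp_congr_right fun _ => ?_
  rw [map_div₀, div_le_one₀ (val_pos P (pow_ne_zero a M_ne_zero))]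
theorem sIn_zero_iff_val {x : K} : SIn 0 x ↔ ∀ P : HeightOneSpectrum (𝓞 K),
    (MM K : 𝓞 K) ∈ P.asIdeal → P.valuation K x ≤ 1 := by
  exact val_zero_iff
theorem mem_RS_iff_val {x : K} : x ∈ RS K ↔ ∀ P : HeightOneSpectrum (𝓞 K),
    (MM K : 𝓞 K) ∉ P.asIdeal → P.valuation K x ≤ 1 := by
  rw [mem_RS_iff_pow]
  constructor
  · rintro ⟨k, t, e⟩ P hP
    have h1 := congrArg (P.valuation K) e
    rw [map_mul, map_pow, val_M_eq hP, one_pow, one_mul] at h1
    rw [h1]
    exact P.valuation_le_one t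
  · intro h
    have h1 : (MM K : 𝓞 K) ∈ (den x).radical := by
      rw [Ideal.radical_eq_sInf, Ideal.mem_sInf]
      rintro J ⟨hJ, hp⟩
      by_contra hM
      exact den_not_le ⟨J, hp, fun e => den_ne_bot x (le_bot_iff.1 (e ▸ hJ))⟩ (h _ hM) hJ
    obtain ⟨k, t, e⟩ := h1
    exact ⟨k, t, by simpa using e⟩
theorem val_unit (u : (R K)ˣ) {P : HeightOneSpectrum (𝓞 K)} (h : (MM K : 𝓞 K) ∉ P.asIdeal) :
    P.valuation K ((u : R K) : K) = 1 := by
  have h1 := mem_RS_iff_val.1 (coe_mem (u : R K)) P h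
  have h2 := mem_RS_iff_val.1 (coe_mem ((u⁻¹ : (R K)ˣ) : R K)) P h
  rw [coe_unit_inv, map_inv₀, inv_le_one₀ (val_pos P (coe_unit_ne_zero u))] at h2
  exact le_antisymm h1 h2
theorem InUq.val_eq_one {q : ℕ} {x : K} (hq : 1 ≤ q) (hx : InUq q x) {P : HeightOneSpectrum (𝓞 K)}
    (h : (MM K : 𝓞 K) ∈ P.asIdeal) : P.valuation K x = 1 := by
  have h1 := val_zero_iff.1 hx.sIn P h
  have h2 := val_zero_iff.1 (hx.inv hq).sIn P h
  rw [map_inv₀, inv_le_one₀ (val_pos P (hx.ne_zero hq))] at h2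
  exact le_antisymm h1 h2
theorem finite_S : {P : HeightOneSpectrum (𝓞 K) | (MM K : 𝓞 K) ∈ P.asIdeal}.Finite := by
  have h : Ideal.span {(MM K : 𝓞 K)} ≠ 0 := by
    rw [Ne, Ideal.zero_eq_bot, Ideal.span_singleton_eq_bot]
    exact M_int_ne_zero
  refine (Ideal.finite_factors h).subset fun P hP => ?_
  exact Ideal.dvd_span_singleton.2 hP
/-- a power of a prime above `M` is generated by a unit of `R` -/
theorem exists_pi : ∃ h : ℕ, 0 < h ∧ ∀ P : HeightOneSpectrum (𝓞 K), (MM K : 𝓞 K) ∈ P.asIdeal →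
    ∃ (π : 𝓞 K) (u : (R K)ˣ), (u : R K) = algebraMap (𝓞 K) (R K) π ∧
      P.asIdeal ^ h = Ideal.span {π} := by
  refine ⟨Fintype.card (ClassGroup (𝓞 K)), Fintype.card_pos, fun P hP => ?_⟩
  have h0 : P.asIdeal ∈ (Ideal (𝓞 K))⁰ := mem_nonZeroDivisors_of_ne_zero P.ne_bot
  have h1 : ClassGroup.mk0 ⟨_, pow_mem h0 (Fintype.card (ClassGroup (𝓞 K)))⟩ = 1 := by
    rw [← pow_card_eq_one (x := ClassGroup.mk0 ⟨_, h0⟩), ← map_pow]
    rfl
  obtain ⟨π, hπ⟩ := (ClassGroup.mk0_eq_one_iff _).1 h1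
  have h2 : π ∣ (MM K : 𝓞 K) ^ Fintype.card (ClassGroup (𝓞 K)) := by
    rw [← Ideal.mem_span_singleton]
    exact (show _ = Ideal.span {π} from hπ) ▸ Ideal.pow_mem_pow hP _
  exact ⟨π, ((isUnit_int_iff π).2 ⟨_, h2⟩).unit, rfl, hπ⟩

/-- bounded `S`-content after multiplication by the `k`-th power of a unit of `R` -/
theorem exists_shift {k : ℕ} (hk : k ≠ 0) : ∃ a : ℕ, ∀ x : K, x ≠ 0 → ∃ t : (R K)ˣ,
    SIn 0 (((t : R K) : K) ^ k * x) ∧ SIn 0 ((MM K : K) ^ a / (((t : R K) : K) ^ k * x)) := by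
  classical
  obtain ⟨h, h0, H⟩ := exists_pi (K := K)
  choose! π u hu hπ using H
  refine ⟨h * k, fun x hx => ?_⟩
  have hne : ∀ P : HeightOneSpectrum (𝓞 K), (MM K : 𝓞 K) ∈ P.asIdeal →
      ((u P : R K) : K) = π P := fun P hP => by rw [hu P hP, coe_int]
  set g : HeightOneSpectrum (𝓞 K) → ℤ := fun P => -WithZero.log (P.valuation K (u P : R K))
    with hg
  set n : HeightOneSpectrum (𝓞 K) → ℤ := fun P => WithZero.log (P.valuation K x) with hn
  have hv : ∀ (P : HeightOneSpectrum (𝓞 K)) {y : K}, y ≠ 0 → P.valuation K y ≠ 0 :=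
    fun P _ hy => (val_pos P hy).ne'
  set t : (R K)ˣ := ∏ P ∈ finite_S.toFinset, u P ^ (-(-n P / (k * g P))) with ht
  have key : ∀ P : HeightOneSpectrum (𝓞 K), (MM K : 𝓞 K) ∈ P.asIdeal →
      P.valuation K (((t : R K) : K) ^ k * x) ≤ 1 ∧
        P.valuation K ((MM K : K) ^ (h * k)) ≤ P.valuation K (((t : R K) : K) ^ k * x) := by
    intro P hP
    have h1 : 0 < g P := by
      rw [hg, neg_pos, WithZero.log_lt_iff_lt_exp (hv P (coe_unit_ne_zero _)), WithZero.exp_zero,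
        hne P hP]
      refine (P.valuation_lt_one_iff_mem _).2 (Ideal.pow_le_self h0.ne' ?_)
      rw [hπ P hP]
      exact Ideal.mem_span_singleton_self _
    have h2 : P.valuation K ((t : R K) : K) =
        P.valuation K (u P : R K) ^ (-(-n P / (k * g P))) := by
      have e : ∀ w : (R K)ˣ, P.valuation K ((w : R K) : K) =
          ((P.valuation K).toMonoidWithZeroHom.toMonoidHom.comp
            ((algebraMap (R K) K).toMonoidHom.comp (Units.coeHom (R K)))) w := fun _ => rfl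
      have e2 : ∀ (w : (R K)ˣ) (m : ℤ), P.valuation K ((w ^ m : (R K)ˣ) : R K) =
          P.valuation K (w : R K) ^ m := fun w m => by
        rw [← map_zpow₀]
        congr 1
        rcases m with m | m
        · simp
        · rw [zpow_negSucc, zpow_negSucc, coe_unit_inv]
          simp
      rw [e, ht, map_prod, Finset.prod_eq_single_of_mem P (finite_S.mem_toFinset.2 hP), ← e, e2]
      intro Q hQ hQP
      have hQ' := finite_S.mem_toFinset.1 hQ
      rw [← e, e2, hne Q hQ', (P.valuation_eq_one_iff_notMem (K := K)).2, one_zpow]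
      intro hm
      have h3 : Q.asIdeal ^ h ≤ P.asIdeal := by
        rw [hπ Q hQ']
        exact (Ideal.span_singleton_le_iff_mem _).2 hm
      exact hQP (HeightOneSpectrum.ext
        (Q.isMaximal.eq_of_le P.isPrime.ne_top (P.isPrime.le_of_pow_le h3)))
    have hk0 : (0 : ℤ) < k := by exact_mod_cast Nat.pos_of_ne_zero hk
    have hc : 0 < k * g P := mul_pos hk0 h1
    have h3 : WithZero.log (P.valuation K (((t : R K) : K) ^ k * x)) = -(-n P % (k * g P)) := by
      rw [map_mul, map_pow, WithZero.log_mul (pow_ne_zero _ (hv P (coe_unit_ne_zero _))) (hv P hx),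
        WithZero.log_pow, h2, WithZero.log_zpow, Int.emod_def]
      simp only [hg, hn, nsmul_eq_mul, smul_eq_mul]
      ring
    have hne' := hv P (mul_ne_zero (pow_ne_zero k (coe_unit_ne_zero t)) hx)
    have h4 := Int.emod_nonneg (-n P) hc.ne'
    have h5 := Int.emod_lt_of_pos (-n P) hc
    constructor
    · rw [← WithZero.exp_zero, ← WithZero.log_le_iff_le_exp hne', h3]
      linarith
    · have h6 : P.valuation K ((MM K : K) ^ h) ≤ P.valuation K (u P : R K) := by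
        have h7 : π P ∣ (MM K : 𝓞 K) ^ h := by
          rw [← Ideal.mem_span_singleton, ← hπ P hP]
          exact Ideal.pow_mem_pow hP _
        obtain ⟨c, hc⟩ := h7
        have h8 : (MM K : K) ^ h = (π P : K) * c := by
          have := congrArg (algebraMap (𝓞 K) K) hc
          simpa using this
        rw [h8, map_mul, hne P hP]
        exact mul_le_of_le_one_right' (P.valuation_le_one c)
      rw [pow_mul, map_pow]
      refine (pow_le_pow_left' h6 k).trans ?_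
      rw [← WithZero.log_le_log (pow_ne_zero _ (hv P (coe_unit_ne_zero _))) hne', h3,
        WithZero.log_pow]
      simp only [hg, nsmul_eq_mul] at h5 ⊢
      linarith
  refine ⟨t, val_zero_iff.2 fun P hP => (key P hP).1, val_zero_iff.2 fun P hP => ?_⟩
  rw [map_div₀, div_le_one₀ (val_pos P (mul_ne_zero (pow_ne_zero k (coe_unit_ne_zero t)) hx))]
  exact (key P hP).2
/-- `O_S` is a Bezout ring -/
theorem exists_sgen {c d : K} (h : c ≠ 0 ∨ d ≠ 0) : ∃ g s s' : K, g ≠ 0 ∧ SIn 0 s ∧ SIn 0 s' ∧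
    g = s * c + s' * d ∧ SIn 0 (c / g) ∧ SIn 0 (d / g) := by
  classical
  obtain ⟨s, hs⟩ := IsDedekindDomain.exists_forall_sub_mem_ideal (s := (finite_S (K := K)).toFinset)
    (fun P => P.asIdeal) (fun _ => 1) (fun P _ => P.prime)
    (fun P _ Q _ hPQ e => hPQ (HeightOneSpectrum.ext e))
    (fun P => if P.1.valuation K d ≤ P.1.valuation K c then 1 else 0)
  have key : ∀ P : HeightOneSpectrum (𝓞 K), (MM K : 𝓞 K) ∈ P.asIdeal →
      P.valuation K c ≤ P.valuation K ((s : K) * c + (1 - s) * d) ∧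
        P.valuation K d ≤ P.valuation K ((s : K) * c + (1 - s) * d) := by
    intro P hP
    have h1 := hs P (finite_S.mem_toFinset.2 hP)
    rw [pow_one] at h1
    split_ifs at h1 with h2
    · have hc : c ≠ 0 := by
        rintro rfl
        rw [map_zero, le_zero_iff, map_eq_zero] at h2
        simp [h2] at h
      have h3 : P.valuation K ((s : K) - 1) < 1 := by
        simpa using (P.valuation_lt_one_iff_mem (K := K) _).2 h1
      have h4 : P.valuation K ((s : K) * c + (1 - s) * d) = P.valuation K c := by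
        rw [show (s : K) * c + (1 - s) * d = c + (s - 1) * (c - d) by ring]
        refine Valuation.map_add_eq_of_lt_left _ ?_
        rw [map_mul]
        calc _ ≤ P.valuation K ((s : K) - 1) * P.valuation K c :=
              mul_le_mul_right ((P.valuation K).map_sub_le le_rfl h2) _
          _ < _ := mul_lt_of_lt_one_left (val_pos P hc) h3
      rw [h4]
      exact ⟨le_rfl, h2⟩
    · have h2' := (not_le.1 h2).le
      have hd : d ≠ 0 := by
        rintro rfl
        simp at h2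
      have h3 : P.valuation K (s : K) < 1 := by
        simpa using (P.valuation_lt_one_iff_mem (K := K) _).2 h1
      have h4 : P.valuation K ((s : K) * c + (1 - s) * d) = P.valuation K d := by
        rw [show (s : K) * c + (1 - s) * d = d + s * (c - d) by ring]
        refine Valuation.map_add_eq_of_lt_left _ ?_
        rw [map_mul]
        calc _ ≤ P.valuation K (s : K) * P.valuation K d :=
              mul_le_mul_right ((P.valuation K).map_sub_le h2' le_rfl) _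
          _ < _ := mul_lt_of_lt_one_left (val_pos P hd) h3
      rw [h4]
      exact ⟨h2', le_rfl⟩
  have hg : (s : K) * c + (1 - s) * d ≠ 0 := by
    intro e
    have h1 : ∀ y : K, (∀ P : HeightOneSpectrum (𝓞 K), (MM K : 𝓞 K) ∈ P.asIdeal →
        P.valuation K y ≤ P.valuation K ((s : K) * c + (1 - s) * d)) → y = 0 := fun y hy =>
      eq_zero_of_forall_sIn fun a => sIn_iff_val.2 fun P hP => (hy P hP).trans (by simp [e])
    exact h.elim (fun h => h (h1 c fun P hP => (key P hP).1))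
      fun h => h (h1 d fun P hP => (key P hP).2)
  refine ⟨_, s, 1 - s, hg, sIn_int s, sIn_one.sub (sIn_int s), rfl,
    val_zero_iff.2 fun P hP => ?_, val_zero_iff.2 fun P hP => ?_⟩
  · rw [map_div₀, div_le_one₀ (val_pos P hg)]
    exact (key P hP).1
  · rw [map_div₀, div_le_one₀ (val_pos P hg)]
    exact (key P hP).2
/-- rows: bounded `S`-content after multiplication by the `k`-th power of a unit of `R` -/
theorem exists_shift_row {k : ℕ} (hk : k ≠ 0) : ∃ a : ℕ, ∀ c d : K, c ≠ 0 ∨ d ≠ 0 → ∃ t : (R K)ˣ,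
    SIn 0 (((t : R K) : K) ^ k * c) ∧ SIn 0 (((t : R K) : K) ^ k * d) ∧
      ∃ s s' : K, SIn 0 s ∧ SIn 0 s' ∧
        s * (((t : R K) : K) ^ k * c) + s' * (((t : R K) : K) ^ k * d) = (MM K : K) ^ a := by
  obtain ⟨a, ha⟩ := exists_shift (K := K) hk
  refine ⟨a, fun c d h => ?_⟩
  obtain ⟨g, s, s', hg, hs, hs', e, hc, hd⟩ := exists_sgen h
  obtain ⟨t, h1, h2⟩ := ha g hg
  have ht := pow_ne_zero k (coe_unit_ne_zero t)
  refine ⟨t, ?_⟩
  generalize ((t : R K) : K) ^ k = T at h1 h2 ht ⊢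
  refine ⟨?_, ?_, _, _, h2.mul_right hs, h2.mul_right hs', ?_⟩
  · rw [show T * c = T * g * (c / g) by field_simp]
    exact h1.mul_right hc
  · rw [show T * d = T * g * (d / g) by field_simp]
    exact h1.mul_right hd
  · field_simp
    rw [e]
/-- every coprime row of `R` lies in some box -/
theorem exists_box {r : R K × R K} (h : IsCoprime r.1 r.2) : ∃ a, Box a r := by
  obtain ⟨a, ha⟩ := exists_sIn_pow (r.1 : K)
  obtain ⟨b, hb⟩ := exists_sIn_pow (r.2 : K)
  obtain ⟨s, t, e⟩ := id h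
  obtain ⟨c, hc⟩ := exists_sIn_pow (s : K)
  obtain ⟨d, hd⟩ := exists_sIn_pow (t : K)
  refine ⟨a + b + c + d, h, val_up ha (by omega), val_up hb (by omega), _, _,
    val_up (b := a + b + c + d) hc (by omega), val_up (b := a + b + c + d) hd (by omega), ?_⟩
  have e' := congrArg (algebraMap (R K) K) e
  rw [map_add, map_mul, map_mul, map_one] at e'
  linear_combination (MM K : K) ^ (a + b + c + d) * e'
theorem Box.mono {a b : ℕ} {r : R K × R K} (h : Box a r) (hab : a ≤ b) : Box b r := by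
  obtain ⟨h1, h2, h3, s, t, hs, ht, e⟩ := h
  obtain ⟨c, rfl⟩ := Nat.exists_eq_add_of_le hab
  refine ⟨h1, val_up h2 hab, val_up h3 hab, _, _, hs.mul_left (sIn_pow_M c).zero,
    ht.mul_left (sIn_pow_M c).zero, ?_⟩
  rw [pow_add]
  linear_combination (MM K : K) ^ c * e
/-- the units of `R` with bounded `S`-content form finitely many cosets of `(𝓞 K)ˣ` -/
theorem exists_unit_reps (a : ℕ) : ∃ T : Finset (R K)ˣ, ∀ u : (R K)ˣ,
    SIn 0 ((MM K : K) ^ a * (u : R K)) → SIn 0 ((MM K : K) ^ a / (u : R K)) →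
      ∃ τ ∈ T, ∃ ε : (𝓞 K)ˣ, (u : R K) = τ * algebraMap (𝓞 K) (R K) ε := by
  classical
  have hfin := Ring.HasFiniteQuotients.finite_setOfPred_mem _
    (pow_ne_zero (a + a) (M_int_ne_zero (K := K)))
  have key : ∀ I : Ideal (𝓞 K), ∃ τ : (R K)ˣ, ∀ (u : (R K)ˣ) (y : 𝓞 K),
      (MM K : R K) ^ a * u = algebraMap (𝓞 K) (R K) y → Ideal.span {y} = I →
        ∃ ε : (𝓞 K)ˣ, (u : R K) = τ * algebraMap (𝓞 K) (R K) ε := by
    intro I
    by_cases hI : ∃ (u : (R K)ˣ) (y : 𝓞 K),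
        (MM K : R K) ^ a * u = algebraMap (𝓞 K) (R K) y ∧ Ideal.span {y} = I
    · obtain ⟨τ, z, hz, rfl⟩ := hI
      refine ⟨τ, fun u y hy e => ?_⟩
      obtain ⟨ε, hε⟩ := Ideal.span_singleton_eq_span_singleton.1 e.symm
      refine ⟨ε, mul_left_cancel₀ (isUnit_MR.pow a).ne_zero ?_⟩
      rw [hy, ← mul_assoc, hz, ← map_mul, hε]
    · exact ⟨1, fun u y hy e => absurd ⟨u, y, hy, e⟩ hI⟩
  choose τ hτ using key
  refine ⟨hfin.toFinset.image τ, fun u h1 h2 => ?_⟩
  obtain ⟨y, hy⟩ := (sIn_R_iff0 (x := (MM K : R K) ^ a * (u : R K))).1 (by simpa using h1)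
  obtain ⟨z, hz⟩ := (sIn_R_iff0 (x := (MM K : R K) ^ a * ((u⁻¹ : (R K)ˣ) : R K))).1 (by
    rw [map_mul, map_pow, map_natCast, coe_unit_inv, ← div_eq_mul_inv]
    exact h2)
  refine ⟨τ (Ideal.span {y}), Finset.mem_image_of_mem _ (hfin.mem_toFinset.2 ?_), hτ _ u y hy rfl⟩
  refine Ideal.mem_span_singleton.2 ⟨z, algebraMap_R_injective K ?_⟩
  rw [map_mul, ← hy, ← hz, map_pow, map_natCast, pow_add, mul_mul_mul_comm, Units.mul_inv,
    mul_one]
omit [Stp K] in
theorem exists_int_unit_reps {k : ℕ} (hk : k ≠ 0) :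
    ∃ T : Finset (𝓞 K)ˣ, ∀ ε : (𝓞 K)ˣ, ∃ τ ∈ T, ∃ η : (𝓞 K)ˣ, ε = τ * η ^ k := by
  classical
  set H : Subgroup (𝓞 K)ˣ := (powMonoidHom k : (𝓞 K)ˣ →* (𝓞 K)ˣ).range with hH
  have h1 : Group.FG (𝓞 K)ˣ := Group.fg_iff_monoid_fg.2 inferInstance
  have h2 : Group.FG ((𝓞 K)ˣ ⧸ H) := Group.fg_of_surjective (QuotientGroup.mk'_surjective H)
  have h3 : Finite ((𝓞 K)ˣ ⧸ H) := by
    refine CommGroup.finite_of_fg_isMulTorsion _ fun q => ?_
    obtain ⟨x, rfl⟩ := QuotientGroup.mk_surjective q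
    refine isOfFinOrder_iff_pow_eq_one.2 ⟨k, Nat.pos_of_ne_zero hk, ?_⟩
    rw [← QuotientGroup.mk_pow, QuotientGroup.eq_one_iff]
    exact ⟨x, rfl⟩
  have := Fintype.ofFinite ((𝓞 K)ˣ ⧸ H)
  refine ⟨Finset.univ.image (Quotient.out : (𝓞 K)ˣ ⧸ H → (𝓞 K)ˣ), fun ε => ?_⟩
  obtain ⟨η, hη⟩ := QuotientGroup.eq.1 (QuotientGroup.out_eq' (ε : (𝓞 K)ˣ ⧸ H))
  refine ⟨_, Finset.mem_image_of_mem _ (Finset.mem_univ (ε : (𝓞 K)ˣ ⧸ H)), η, ?_⟩
  rw [show η ^ k = _ from hη, mul_inv_cancel_left]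
theorem exists_treps {k : ℕ} (hk : k ≠ 0) :
    ∃ T : Finset (R K)ˣ, ∀ u : (R K)ˣ, ∃ τ ∈ T, ∃ t : (R K)ˣ, u = τ * t ^ k := by
  classical
  obtain ⟨a, ha⟩ := exists_shift (K := K) hk
  obtain ⟨T, hT⟩ := exists_unit_reps (K := K) a
  obtain ⟨T', hT'⟩ := exists_int_unit_reps (K := K) hk
  set φ : (𝓞 K)ˣ →* (R K)ˣ := Units.map (algebraMap (𝓞 K) (R K)).toMonoidHom with hφ
  refine ⟨(T ×ˢ T').image fun p => p.1 * φ p.2, fun u => ?_⟩
  obtain ⟨t, h1, h2⟩ := ha _ (coe_unit_ne_zero u)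
  have e : (((t ^ k * u : (R K)ˣ) : R K) : K) = ((t : R K) : K) ^ k * (u : R K) := by simp
  obtain ⟨τ, hτ, ε, h3⟩ := hT (t ^ k * u) (e ▸ h1.mul_left (sIn_pow_M a).zero) (e ▸ h2)
  obtain ⟨σ, hσ, η, rfl⟩ := hT' ε
  have h4 : t ^ k * u = τ * φ (σ * η ^ k) := Units.ext h3
  refine ⟨_, Finset.mem_image_of_mem _ (Finset.mk_mem_product hτ hσ), φ η * t⁻¹, ?_⟩
  rw [map_mul, map_pow] at h4
  rw [mul_pow, inv_pow, ← mul_assoc, mul_assoc τ, ← h4, mul_inv_cancel_comm]

/-- representatives of the units of `R` modulo sixth powers -/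
noncomputable def treps (K : Type) [Field K] [NumberField K] [Stp K] : Finset (R K)ˣ :=
  (exists_treps (K := K) (k := 6) (by norm_num)).choose
theorem treps_spec (u : (R K)ˣ) : ∃ τ ∈ treps K, ∃ t : (R K)ˣ, u = τ * t ^ 6 :=
  (exists_treps (K := K) (k := 6) (by norm_num)).choose_spec u
theorem exists_trep {x : R K} (hx : x ≠ 0) :
    ∃ τ ∈ treps K, ∃ (t : (R K)ˣ) (n : R K), Prim n ∧ x = τ * t ^ 6 * n := by
  obtain ⟨u, n, hn, rfl⟩ := exists_unit_prim hx
  obtain ⟨τ, hτ, t, rfl⟩ := treps_spec u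
  exact ⟨τ, hτ, t, n, hn, by push_cast; ring⟩

end Vale.Agent.P319
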