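import Vale.Agent.P319.N.PSSq
import Vale.Agent.P319.N.PSOne
import Vale.Agent.P319.N.Val

/-! # PSQ: parts (a), (b) of `PSStmt` for `Bil = Eng.Bil`. -/

namespace Vale.Agent.P319

open scoped ComplexConjugate Real
open MeasureTheory

variable {K : Type} [Field K] [NumberField K] [Stp K]

/-- the bilinear form of `PSStmt` -/
noncomputable def Eng.Bil (E : Eng K) (F : Fam K) (Y Z : ℝ) (b : R K → ℂ) (Δ : R K) : ℂ :=
  BilW F E.x (fun i => (E.wt E.l0 Y⁻¹ i : ℝ)) Z (fun m => b (Δ * m)) (fun m => b (Δ * m)) Δ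

theorem mult_sum {E : Eng K} (h : E.PS) {η : ℝ} (hη : 0 < η) : ∃ C : ℝ, 0 < C ∧
    ∀ (l : E.L) (s : Finset E.ι) (s' : Finset (R K)) (G : R K → ℝ), (∀ z, 0 ≤ G z) →
      (∀ (u : (R K)ˣ) z, G (u ^ 6 * z) = G z) → (∀ i ∈ s, E.mem l i ∧ pp (E.x i) ∈ s') →
      ∑ i ∈ s, ((nm (E.x i) : ℝ) / E.N l i) ^ η * G (E.x i) ≤
        C * ∑ τ ∈ treps K, ∑ k ∈ s', G (τ * k) := by
  classical
  obtain ⟨C, hC, hm⟩ := h.mult η hη
  refine ⟨C, hC, fun l s s' G h0 h6 hs => ?_⟩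
  rw [← Finset.sum_fiberwise_of_maps_to (g := fun i => pp (E.x i)) (t := s') fun i hi => (hs i hi).2,
    Finset.sum_comm, Finset.mul_sum]
  refine Finset.sum_le_sum fun k _ => ?_
  refine (Finset.sum_le_sum (g := fun i => ((nm (E.x i) : ℝ) / E.N l i) ^ η *
    ∑ τ ∈ treps K, G (τ * k)) fun i hi => ?_).trans ?_
  · obtain ⟨hi, e⟩ := Finset.mem_filter.1 hi
    obtain ⟨τ, hτ, t, n, hn, e'⟩ := exists_trep (E.hN l i (hs i hi).1).1
    have h1 : n = k := by
      rw [← e, e', ← Units.val_pow_eq_pow_val, ← Units.val_mul, hn.pp_unit_mul]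
    have h2 := E.N_pos (hs i hi).1
    refine mul_le_mul_of_nonneg_left ?_ (by positivity)
    rw [e', h1, mul_comm (τ : R K), mul_assoc, h6]
    exact Finset.single_le_sum (f := fun τ : (R K)ˣ => G (τ * k)) (fun _ _ => h0 _) hτ
  · rw [← Finset.sum_mul]
    exact mul_le_mul_of_nonneg_right (hm l k _ fun i hi =>
      ⟨(hs i (Finset.mem_filter.1 hi).1).1, (Finset.mem_filter.1 hi).2⟩)
      (Finset.sum_nonneg fun _ _ => h0 _)

private theorem summable_wt (E : Eng K) (l : E.L) {y : ℝ} (hy : 0 < y) : Summable (E.wt l y) :=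
  E.summ l y hy

theorem ps_a {E : Eng K} (h : E.PS) (F : Fam K) : ∃ C : ℝ, 0 < C ∧
    ∀ (Y Z : ℝ) (b : R K → ℂ) (g : R K) (τ : (R K)ˣ), 1 ≤ Y → (∀ n, b n ≠ 0 → n ∈ sball K Z) →
      ∑ h ∈ pball K Y, ‖∑ n ∈ sball K Z, ind (g ∣ n) * b n * F.X n (τ * h)‖ ^ 2 ≤
        C * ∑ Δ ∈ sball K Z, ‖ind (g ∣ Δ)‖ * ‖E.Bil F Y Z b Δ‖ := by
  classical
  obtain ⟨C, hC, hl⟩ := h.low
  have : Nonempty E.ι := ⟨(hl 1 one_ne_zero).choose⟩
  choose! ι h1 h2 u v h3 h4 using hl
  have hK := h.KK_pos C hC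
  refine ⟨(E.KK C)⁻¹, inv_pos.2 hK, fun Y Z b g τ hY hb => ?_⟩
  have hY' : 0 < Y⁻¹ := by positivity
  have hne : ∀ k ∈ pball K Y, (τ : R K) * k ≠ 0 := fun k hk =>
    mul_ne_zero τ.ne_zero (mem_pball.1 hk).1.1
  have hpp : ∀ k ∈ pball K Y, pp (E.x (ι (τ * k))) = k := fun k hk => by
    rw [h4 _ (hne k hk), ← Units.val_pow_eq_pow_val, ← mul_assoc, ← Units.val_mul, ← Units.val_mul,
      (mem_pball.1 hk).1.pp_unit_mul]
  rw [le_inv_mul_iff₀ hK]
  refine le_trans ?_ (sq_expand_le F E.x (summable_wt E E.l0 hY') hb g)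
  refine le_trans ?_ ((summable_sq F E.x (summable_wt E E.l0 hY') (E.wt_nonneg _ hY') Z
    fun n => ind (g ∣ n) * b n).sum_le_tsum ((pball K Y).image fun k => ι (τ * k))
    fun i _ => mul_nonneg (E.wt_nonneg _ hY' i) (by positivity))
  rw [Finset.sum_image fun k hk k' hk' e => by rw [← hpp k hk, e, hpp k' hk'], Finset.mul_sum]
  refine Finset.sum_le_sum fun k hk => mul_le_mul ?_ (le_of_eq ?_) (by positivity) (E.wt_nonneg _ hY' _)
  · have h5 := E.N_pos (h1 _ (hne k hk))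
    rw [Eng.wt, cut_of (h1 _ (hne k hk))]
    refine E.KK_anti (mul_pos hY' (by positivity)) hC ?_
    rw [inv_mul_le_iff₀' (by positivity)]
    refine (h2 _ (hne k hk)).trans ?_
    rw [nm_unit_mul]
    exact mul_le_mul_of_nonneg_left (mem_pball.1 hk).2 hC.le
  · congr 2
    refine Finset.sum_congr rfl fun n hn => ?_
    have h5 := (mem_sball.1 hn).1.1
    rw [h4 _ (hne k hk), F.mul_right n _ (τ * k) h5, F.mul_right n _ (_ ^ 6) h5, F.six n _ h5,
      F.unitU n _ h5 (h3 _ (hne k hk)), one_mul, one_mul]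

theorem ps_b {E : Eng K} (h : E.PS) (F : Fam K) (η : ℝ) (hη : 0 < η) : ∃ C : ℝ, 0 < C ∧
    ∀ (Y Z D : ℝ) (b : R K → ℂ) (Δ : R K), 1 ≤ Y →
      (∀ (τ : (R K)ˣ) (s : Finset (R K)), (∀ h ∈ s, Prim h) →
        ∑ f ∈ sball K Z, ∑ h ∈ s, (1 + (nm h : ℝ) / Y) ^ (-3 : ℝ) *
          ‖∑ m ∈ sball K Z, ind (f ∣ m) * b (Δ * m) * F.X m (τ * h)‖ ^ 2 ≤ D) →
      ‖E.Bil F Y Z b Δ‖ ≤ C * Y ^ η * D := by
  classical
  obtain ⟨C, hC, h1⟩ := mult_sum h hη
  obtain ⟨C', hC', h2⟩ := E.sep.le hη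
  have hT : (0 : ℝ) < (treps K).card :=
    Nat.cast_pos.2 (Finset.card_pos.2 ⟨_, (treps_spec 1).choose_spec.1⟩)
  refine ⟨C' * C * (treps K).card, by positivity, fun Y Z D b Δ hY hD => ?_⟩
  have hY' : 0 < Y⁻¹ := by positivity
  refine (bil_mobius F E.x (summable_wt E E.l0 hY') (E.wt_nonneg _ hY') Z _ Δ).trans ?_
  rw [← Summable.tsum_finsetSum fun f _ => summable_sq F E.x (summable_wt E E.l0 hY')
    (E.wt_nonneg _ hY') Z fun m => ind (f ∣ m) * b (Δ * m)]
  refine Real.tsum_le_of_sum_le (fun i => Finset.sum_nonneg fun f _ =>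
    mul_nonneg (E.wt_nonneg _ hY' i) (by positivity)) fun s => ?_
  set G : R K → ℝ := fun z => (1 + (nm z : ℝ) / Y) ^ (-3 : ℝ) *
    ∑ f ∈ sball K Z, ‖∑ m ∈ sball K Z, ind (f ∣ m) * b (Δ * m) * F.X m z‖ ^ 2 with hG
  have h3 := h1 E.l0 (s.filter (E.mem E.l0)) ((s.filter (E.mem E.l0)).image fun i => pp (E.x i)) G
    (fun z => by positivity) (fun u z => by
      simp only [hG]
      rw [← Units.val_pow_eq_pow_val, nm_unit_mul]
      congr 1
      refine Finset.sum_congr rfl fun f _ => ?_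
      congr 2
      refine Finset.sum_congr rfl fun n hn => ?_
      have h5 := (mem_sball.1 hn).1.1
      rw [F.mul_right n _ _ h5, Units.val_pow_eq_pow_val, F.six n _ h5, one_mul])
    fun i hi => ⟨(Finset.mem_filter.1 hi).2, Finset.mem_image_of_mem _ hi⟩
  have h4 : ∑ τ ∈ treps K, ∑ k ∈ (s.filter (E.mem E.l0)).image fun i => pp (E.x i), G (τ * k) ≤
      (treps K).card * D := by
    rw [← nsmul_eq_mul]
    refine Finset.sum_le_card_nsmul _ _ _ fun τ _ => ?_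
    simp only [hG, nm_unit_mul, Finset.mul_sum]
    rw [Finset.sum_comm]
    refine hD τ _ fun k hk => ?_
    obtain ⟨i, hi, rfl⟩ := Finset.mem_image.1 hk
    exact prim_pp (E.hN _ i (Finset.mem_filter.1 hi).2).1
  calc _ = ∑ i ∈ s.filter (E.mem E.l0), E.KK (Y⁻¹ * E.N E.l0 i) *
        ∑ f ∈ sball K Z, ‖∑ m ∈ sball K Z, ind (f ∣ m) * b (Δ * m) * F.X m (E.x i)‖ ^ 2 := by
        rw [Finset.sum_filter]
        refine Finset.sum_congr rfl fun i _ => ?_
        rw [← Finset.mul_sum, Eng.wt, cut]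
        split_ifs
        exacts [rfl, zero_mul _]
    _ ≤ ∑ i ∈ s.filter (E.mem E.l0), C' * Y ^ η *
        (((nm (E.x i) : ℝ) / E.N E.l0 i) ^ η * G (E.x i)) := by
        refine Finset.sum_le_sum fun i hi => ?_
        have hi := (Finset.mem_filter.1 hi).2
        have h5 := E.N_pos hi
        obtain ⟨h6, h7⟩ := E.hN _ i hi
        have h8 := one_le_nm h6
        simp only [hG, ← mul_assoc]
        refine mul_le_mul_of_nonneg_right (((le_abs_self _).trans (h2 _ (by positivity))).trans ?_)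
          (by positivity)
        rw [rho, ← mul_assoc, mul_assoc C' (Y ^ η), ← Real.mul_rpow (by positivity) (by positivity),
          Real.rpow_neg (by positivity), ← Real.inv_rpow (by positivity), mul_inv, inv_inv,
          ← one_div, ← div_eq_inv_mul]
        have h9 : 0 ≤ (nm (E.x i) : ℝ) / Y := by positivity
        refine mul_le_mul (by gcongr) ?_ (by positivity) (by positivity)
        refine (Real.rpow_le_rpow_of_nonpos (x := 1 + (nm (E.x i) : ℝ) / Y) (by positivity)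
          (by gcongr) (by norm_num)).trans ?_
        exact Real.rpow_le_rpow_of_exponent_le (by linarith) (by norm_num)
    _ ≤ C' * Y ^ η * (C * ((treps K).card * D)) := by
        rw [← Finset.mul_sum]
        exact mul_le_mul_of_nonneg_left (h3.trans (mul_le_mul_of_nonneg_left h4 hC.le)) (by positivity)
    _ = _ := by ring

end Vale.Agent.P319
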