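import Vale.Agent.P319.N.PSDefs
import Vale.Agent.P319.N.Count

/-! # PSQ: divisor bookkeeping.  Port of the lemmas of `P026/PSDefs.lean` (same proofs; `O ↦ R K`, `IsP ↦ Prim`).
`Sep.le`: `c = 1`, `L = 0`, `A = 2`, `u = 0`, `norm_integral_le_of_norm_le`, `integrable_one_add_norm`. -/

namespace Vale.Agent.P319

open scoped ComplexConjugate Real
open MeasureTheory

variable {K : Type} [Field K] [NumberField K] [Stp K]

theorem sum_pdiv_mul {M : Type*} [AddCommMonoid M] {a b : R K} (ha : Prim a) (hb : Prim b)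
    (h : IsCoprime a b) (f : R K → M) :
    ∑ e ∈ pdiv (a * b), f e = ∑ e₁ ∈ pdiv a, ∑ e₂ ∈ pdiv b, f (e₁ * e₂) := by
  have ha0 := ha.ne_zero
  have hb0 := hb.ne_zero
  rw [← Finset.sum_product']
  symm
  refine Finset.sum_bij (fun p _ => p.1 * p.2) ?_ ?_ ?_ (fun _ _ => rfl)
  · intro p hp
    rw [Finset.mem_product, mem_pdiv ha0, mem_pdiv hb0] at hp
    exact (mem_pdiv (mul_ne_zero ha0 hb0)).2 ⟨hp.1.1.mul hp.2.1, mul_dvd_mul hp.1.2 hp.2.2⟩
  · intro p hp q hq e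
    rw [Finset.mem_product, mem_pdiv ha0, mem_pdiv hb0] at hp hq
    have c1 : IsCoprime p.1 q.2 := (h.of_isCoprime_of_dvd_left hp.1.2).of_isCoprime_of_dvd_right hq.2.2
    have c2 : IsCoprime q.1 p.2 := (h.of_isCoprime_of_dvd_left hq.1.2).of_isCoprime_of_dvd_right hp.2.2
    have e' : p.1 * p.2 = q.1 * q.2 := e
    have d1 : p.1 ∣ q.1 := c1.dvd_of_dvd_mul_right (e' ▸ dvd_mul_right _ _)
    have d2 : q.1 ∣ p.1 := c2.dvd_of_dvd_mul_right (e' ▸ dvd_mul_right _ _)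
    have e1 : p.1 = q.1 := hp.1.1.eq_of_associated hq.1.1 (associated_of_dvd_dvd d1 d2)
    rw [e1] at e'
    exact Prod.ext e1 (mul_left_cancel₀ hq.1.1.ne_zero e')
  · intro e he
    rw [mem_pdiv (mul_ne_zero ha0 hb0)] at he
    obtain ⟨d1, d2, h1, h2, rfl⟩ := exists_dvd_and_dvd_of_dvd_mul he.2
    obtain ⟨u, c, hu, hc, rfl⟩ := exists_prim (n := d1) (ne_zero_of_dvd_ne_zero ha0 h1)
    refine ⟨(c, u * d2), ?_, by ring⟩
    rw [Finset.mem_product, mem_pdiv ha0, mem_pdiv hb0]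
    refine ⟨⟨hc, (dvd_mul_left _ _).trans h1⟩, hc.of_mul ?_, hu.mul_left_dvd.2 h2⟩
    rw [show c * (u * d2) = u * c * d2 by ring]
    exact he.1

theorem card_pdiv_mul {a b : R K} (ha : Prim a) (hb : Prim b) (h : IsCoprime a b) :
    (pdiv (a * b)).card = (pdiv a).card * (pdiv b).card := by
  rw [Finset.card_eq_sum_ones, sum_pdiv_mul ha hb h]
  simp

theorem phiS_mul {a b : R K} (ha : Prim a) (hb : Prim b) (h : IsCoprime a b) :
    phiS (a * b) = phiS a * phiS b := by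
  unfold phiS
  rw [sum_pdiv_mul ha hb h, Finset.sum_mul_sum]
  refine Finset.sum_congr rfl fun e₁ h1 => Finset.sum_congr rfl fun e₂ h2 => ?_
  rw [mem_pdiv ha.ne_zero] at h1
  rw [mem_pdiv hb.ne_zero] at h2
  rw [mu_mul ((h.of_isCoprime_of_dvd_left h1.2).of_isCoprime_of_dvd_right h2.2), nm_mul,
    div_mul_div_comm]
  push_cast
  rfl

open Classical in
theorem psd_pdiv_prime {p : R K} (hp : Prime p) (hp' : Prim p) : pdiv p = {1, p} := by
  ext e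
  rw [mem_pdiv hp.ne_zero, Finset.mem_insert, Finset.mem_singleton]
  constructor
  · rintro ⟨h1, h2⟩
    rcases (hp.irreducible.dvd_iff).1 h2 with h | h
    · exact Or.inl (h1.eq_one_of_isUnit h)
    · exact Or.inr (h1.eq_of_associated hp' h.symm)
  · rintro (rfl | rfl)
    · exact ⟨prim_one, one_dvd _⟩
    · exact ⟨hp', dvd_rfl⟩

theorem norm_phiS_le {D : R K} (hD : IsS D) : ‖phiS D‖ ≤ 1 := by
  classical
  refine IsS.induction (P := fun D => ‖phiS D‖ ≤ 1) ?_ ?_ hD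
  · simp [phiS, pdiv_one, mu_one]
  · intro p n hp hpS hn hpn ih
    rw [phiS_mul hpS.1 hn.1 ((Irreducible.coprime_iff_not_dvd hp.irreducible).2 hpn), norm_mul]
    refine mul_le_one₀ ?_ (norm_nonneg _) ih
    have h1 : (1 : R K) ≠ p := fun e => hp.not_isUnit (e ▸ isUnit_one)
    have h2 : (1 : ℝ) ≤ nm p := one_le_nm hp.ne_zero
    have h3 : phiS p = ((1 - 1 / (nm p : ℝ) : ℝ) : ℂ) := by
      rw [phiS, psd_pdiv_prime hp hpS.1, Finset.sum_pair h1, mu_one, mu_prime hp, nm_one]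
      push_cast
      ring
    have h4 : 1 / (nm p : ℝ) ≤ 1 := (div_le_one (by linarith)).2 h2
    have h5 : 0 ≤ 1 / (nm p : ℝ) := by positivity
    rw [h3, Complex.norm_real, Real.norm_eq_abs, abs_le]
    constructor <;> linarith

theorem psd_pdiv_subset {Z : ℝ} {m : R K} (h : m ∈ sball K Z) : pdiv m ⊆ sball K Z := by
  intro e he
  rw [mem_sball] at h ⊢
  have h0 := h.1.ne_zero
  rw [mem_pdiv h0] at he
  refine ⟨h.1.of_dvd he.1 he.2, le_trans ?_ h.2⟩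
  exact_mod_cast nm_le_of_dvd h0 he.2

theorem ind_coprime_sball {Z : ℝ} {m1 : R K} (h1 : m1 ∈ sball K Z) (m2 : R K) :
    ind (IsCoprime m1 m2) = ∑ f ∈ sball K Z, mu f * (ind (f ∣ m1) * ind (f ∣ m2)) := by
  rw [mem_sball] at h1
  have h0 := h1.1.ne_zero
  rw [show ind (IsCoprime m1 m2) = ind (IsCoprime m2 m1) by rw [isCoprime_comm],
    ind_coprime h1.1.1]
  symm
  rw [← Finset.sum_subset (psd_pdiv_subset (mem_sball.2 h1))]
  · refine Finset.sum_congr rfl fun e he => ?_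
    rw [ind_of ((mem_pdiv h0).1 he).2, one_mul]
  · intro f hf hf'
    rw [mem_pdiv h0] at hf'
    rw [ind_of_not (p := f ∣ m1) fun h => hf' ⟨(mem_sball.1 hf).1.1, h⟩]
    simp

theorem psd_norm_X_le (F : Fam K) {n : R K} (hn : Prim n) (a : R K) : ‖F.X n a‖ ≤ 1 := by
  by_cases h : IsCoprime a n
  · exact (F.norm_X n a hn h).le
  · rw [F.X_eq_zero n a hn h, norm_zero]
    exact zero_le_one

theorem norm_dco_le (F : Fam K) (β : R K → ℂ) (e k : R K) {m : R K} (hm : IsS m) :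
    ‖dco F β e k m‖ ≤ ‖β m‖ := by
  unfold dco
  rw [norm_mul, norm_mul, norm_mul, F.norm_g m hm, mul_one, Complex.norm_conj, mul_assoc]
  exact mul_le_of_le_one_right (norm_nonneg _)
    (mul_le_one₀ (psd_norm_X_le F hm.1 e) (norm_nonneg _) (psd_norm_X_le F hm.1 k))

theorem psd_sum_mul_le {Z : ℝ} (G : R K → ℝ) (hG : ∀ n, 0 ≤ G n) (hs : ∀ n, G n ≠ 0 → n ∈ sball K Z) :
    ∑ Δ ∈ sball K Z, ∑ m ∈ sball K Z, G (Δ * m) ≤ ∑ n ∈ sball K Z, (pdiv n).card * G n := by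
  classical
  have h1 : ∀ Δ ∈ sball K Z, ∑ m ∈ sball K Z, G (Δ * m) ≤ ∑ n ∈ sball K Z, if Δ ∣ n then G n else 0 := by
    intro Δ hΔ
    have h0 := (mem_sball.1 hΔ).1.ne_zero
    rw [← Finset.sum_image (f := G) (g := fun m => Δ * m)
      (fun x _ y _ e => mul_left_cancel₀ h0 e), ← Finset.sum_filter, ← Finset.sum_filter_ne_zero]
    refine Finset.sum_le_sum_of_subset_of_nonneg (fun n hn => ?_) fun n _ _ => hG n
    rw [Finset.mem_filter, Finset.mem_image] at hn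
    obtain ⟨⟨m, _, rfl⟩, h2⟩ := hn
    exact Finset.mem_filter.2 ⟨hs _ h2, dvd_mul_right _ _⟩
  refine (Finset.sum_le_sum h1).trans ?_
  rw [Finset.sum_comm]
  refine Finset.sum_le_sum fun n hn => ?_
  rw [← Finset.sum_filter, Finset.sum_const, nsmul_eq_mul]
  refine mul_le_mul_of_nonneg_right ?_ (hG n)
  have : (sball K Z).filter (· ∣ n) ⊆ pdiv n := fun e he => by
    rw [Finset.mem_filter] at he
    exact (mem_pdiv (mem_sball.1 hn).1.ne_zero).2 ⟨(mem_sball.1 he.1).1.1, he.2⟩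
  exact_mod_cast Finset.card_le_card this

theorem psd_sum_tau_le (ε : ℝ) (hε : 0 < ε) : ∃ C : ℝ, 0 < C ∧ ∀ (Z : ℝ) (a : R K → ℂ), 1 ≤ Z →
    (∀ n, a n ≠ 0 → n ∈ sball K Z) →
    ∑ Δ ∈ sball K Z, (pdiv Δ).card * ∑ f ∈ sball K Z, ∑ m ∈ sball K Z, ‖ind (f ∣ m) * a (Δ * m)‖ ^ 2 ≤
      C * Z ^ ε * ∑ n ∈ sball K Z, ‖a n‖ ^ 2 := by
  obtain ⟨C, hC, hle⟩ := card_pdiv_le (K := K) (ε / 3) (by positivity)
  refine ⟨C ^ 3, by positivity, fun Z a hZ ha => ?_⟩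
  have h1 : ∀ Δ ∈ sball K Z, ((pdiv Δ).card : ℝ) *
      ∑ f ∈ sball K Z, ∑ m ∈ sball K Z, ‖ind (f ∣ m) * a (Δ * m)‖ ^ 2 ≤
      ∑ m ∈ sball K Z, ((pdiv (Δ * m)).card : ℝ) ^ 2 * ‖a (Δ * m)‖ ^ 2 := by
    intro Δ hΔ
    rw [Finset.sum_comm, Finset.mul_sum]
    refine Finset.sum_le_sum fun m hm => ?_
    have h0 : Δ * m ≠ 0 := mul_ne_zero (mem_sball.1 hΔ).1.ne_zero (mem_sball.1 hm).1.ne_zero
    have k1 : ((pdiv Δ).card : ℝ) ≤ (pdiv (Δ * m)).card := by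
      exact_mod_cast card_pdiv_mono h0 (dvd_mul_right _ _)
    have k2 : ((pdiv m).card : ℝ) ≤ (pdiv (Δ * m)).card := by
      exact_mod_cast card_pdiv_mono h0 (dvd_mul_left _ _)
    have k3 : ∑ f ∈ sball K Z, ‖ind (f ∣ m) * a (Δ * m)‖ ^ 2 ≤ (pdiv m).card * ‖a (Δ * m)‖ ^ 2 := by
      rw [← Finset.sum_subset (psd_pdiv_subset hm), ← nsmul_eq_mul]
      · refine Finset.sum_le_card_nsmul _ _ _ fun f _ => ?_
        rw [norm_mul]
        exact pow_le_pow_left₀ (by positivity)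
          (mul_le_of_le_one_left (norm_nonneg _) (norm_ind_le _)) 2
      · intro f hf hf'
        rw [mem_pdiv (mem_sball.1 hm).1.ne_zero] at hf'
        rw [ind_of_not (p := f ∣ m) fun h => hf' ⟨(mem_sball.1 hf).1.1, h⟩]
        simp
    calc ((pdiv Δ).card : ℝ) * ∑ f ∈ sball K Z, ‖ind (f ∣ m) * a (Δ * m)‖ ^ 2
        ≤ (pdiv (Δ * m)).card * ((pdiv (Δ * m)).card * ‖a (Δ * m)‖ ^ 2) :=
          mul_le_mul k1 (k3.trans (mul_le_mul_of_nonneg_right k2 (by positivity)))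
            (Finset.sum_nonneg fun _ _ => by positivity) (by positivity)
      _ = _ := by ring
  refine (Finset.sum_le_sum h1).trans ((psd_sum_mul_le
    (fun n => ((pdiv n).card : ℝ) ^ 2 * ‖a n‖ ^ 2) (fun n => by positivity)
    (fun n hn => ha n fun e => hn (by simp [e]))).trans ?_)
  rw [Finset.mul_sum]
  refine Finset.sum_le_sum fun n hn => ?_
  rw [mem_sball] at hn
  have k1 := hle n hn.1.ne_zero
  have k2 : (nm n : ℝ) ^ (ε / 3) ≤ Z ^ (ε / 3) :=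
    Real.rpow_le_rpow (by positivity) hn.2 (by positivity)
  have k3 : ((pdiv n).card : ℝ) ^ 3 ≤ (C * Z ^ (ε / 3)) ^ 3 :=
    pow_le_pow_left₀ (by positivity) (k1.trans (mul_le_mul_of_nonneg_left k2 hC.le)) 3
  have k4 : (C * Z ^ (ε / 3)) ^ 3 = C ^ 3 * Z ^ ε := by
    rw [mul_pow, ← Real.rpow_natCast (Z ^ (ε / 3)), ← Real.rpow_mul (by linarith)]
    norm_num
  calc ((pdiv n).card : ℝ) * (((pdiv n).card : ℝ) ^ 2 * ‖a n‖ ^ 2)
      = ((pdiv n).card : ℝ) ^ 3 * ‖a n‖ ^ 2 := by ring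
    _ ≤ _ := mul_le_mul_of_nonneg_right (k4 ▸ k3) (by positivity)

theorem psd_sum_tau_le' (ε : ℝ) (hε : 0 < ε) : ∃ C : ℝ, 0 < C ∧ ∀ (Z : ℝ) (a : R K → ℂ), 1 ≤ Z →
    (∀ n, a n ≠ 0 → n ∈ sball K Z) →
    ∑ Δ ∈ sball K Z, (pdiv Δ).card * ∑ m ∈ sball K Z, ‖a (Δ * m)‖ ^ 2 ≤
      C * Z ^ ε * ∑ n ∈ sball K Z, ‖a n‖ ^ 2 := by
  obtain ⟨C, hC, hle⟩ := psd_sum_tau_le (K := K) ε hε
  refine ⟨C, hC, fun Z a hZ ha => le_trans (Finset.sum_le_sum fun Δ _ => ?_) (hle Z a hZ ha)⟩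
  refine mul_le_mul_of_nonneg_left ?_ (by positivity)
  have h1 : (1 : R K) ∈ sball K Z := mem_sball.2 ⟨isS_one, by rw [nm_one]; exact_mod_cast hZ⟩
  refine le_trans (le_of_eq ?_) (Finset.single_le_sum
    (f := fun f => ∑ m ∈ sball K Z, ‖ind (f ∣ m) * a (Δ * m)‖ ^ 2)
    (fun _ _ => Finset.sum_nonneg fun _ _ => by positivity) h1)
  refine Finset.sum_congr rfl fun m _ => ?_
  rw [ind_of (one_dvd m), one_mul]

theorem Sep.le {κ : ℝ → ℝ} (h : Sep κ) {η : ℝ} (hη : 0 < η) :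
    ∃ C : ℝ, 0 < C ∧ ∀ y : ℝ, 0 < y → |κ y| ≤ C * rho η y := by
  obtain ⟨C, hC, H⟩ := h 1 0 η 2 one_pos le_rfl hη
  have hi : Integrable fun t : ℝ => (1 + ‖t‖) ^ (-((2 : ℕ) : ℝ)) :=
    integrable_one_add_norm (by norm_num)
  have hI : 0 ≤ ∫ t : ℝ, (1 + ‖t‖) ^ (-((2 : ℕ) : ℝ)) := integral_nonneg fun t => by positivity
  refine ⟨C * ((∫ t : ℝ, (1 + ‖t‖) ^ (-((2 : ℕ) : ℝ))) + 1), by positivity, fun y hy => ?_⟩
  obtain ⟨φ, -, h1, h2⟩ := H y hy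
  have h3 := h2 0 (by simp)
  simp only [neg_zero, zero_div, Real.exp_zero, one_mul, mul_one, Complex.ofReal_zero, mul_zero,
    Complex.exp_zero] at h3
  have h4 := norm_integral_le_of_norm_le (hi.const_mul (C * rho η y)) (f := φ)
    (Filter.Eventually.of_forall fun t => by simpa only [Real.norm_eq_abs] using h1 t)
  rw [← h3, Complex.norm_real, Real.norm_eq_abs, integral_const_mul] at h4
  have h5 := mul_nonneg hC.le (rho_nonneg η hy.le)
  linarith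

end Vale.Agent.P319
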