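import Vale.Agent.P319.N.PSTwo

/-! # PSQ: from the infinite dual sums to finite ones.  Port of `ps3` in `P026/PS.lean`:
`‖∑' i, ..‖ ≤ ∑' i, ‖..‖`, `Real.tsum_le_of_sum_le`, then `ps2` (`c = c0 ^ 2`) on the triples `(Δ, e, i)` with `w = c Δ * (Y / nm e)`,
`X / nm Δ`, `a = Y / nm e * N Δ e i`. -/

namespace Vale.Agent.P319

open scoped ComplexConjugate Real
open MeasureTheory

variable {K : Type} [Field K] [NumberField K] [Stp K]

open Classical in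
theorem ps3 {κ : ℝ → ℝ} (hκ : Sep κ) {c0 B η : ℝ} (hc : 0 < c0) (hB : 1 ≤ B) (hη : 0 < η) (A' : ℝ) :
    ∃ C : ℝ, 0 < C ∧ ∀ (ι : Type) (X Y D : ℝ) (c : R K → ℝ) (p : R K → R K → ι → Prop)
      (N : R K → R K → ι → ℝ) (γ₁ γ₂ : R K → R K → ι → R K → ℂ), 0 < X → 0 < Y → (∀ Δ, 0 ≤ c Δ) →
      (∀ Δ e i, p Δ e i → 0 < N Δ e i) →
      (∀ Δ e i m, γ₁ Δ e i m ≠ 0 ∨ γ₂ Δ e i m ≠ 0 → X / B ≤ nm (Δ * m) ∧ nm (Δ * m) ≤ B * X) →
      (∀ Δ ∈ sball K (B * X), ∀ e ∈ pdiv Δ, Summable fun i => ind (p Δ e i) *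
        Dl κ (B * X) (c0 ^ 2 * (Y / nm e) * N Δ e i) (γ₁ Δ e i) (γ₂ Δ e i)) →
      (∀ (t : ℝ) (s : Finset ι),
        ∑ Δ ∈ sball K (B * X), ∑ e ∈ pdiv Δ, c Δ * (Y * nm Δ / (nm e * X)) *
          ∑ f ∈ sball K (B * X), ∑ i ∈ s.filter (p Δ e),
            rho η (Y * (nm Δ : ℝ) ^ 2 * N Δ e i / (nm e * X ^ 2)) *
              ‖Tl (B * X) (γ₁ Δ e i) f t‖ ^ 2 ≤ D * (1 + |t|) ^ A') →
      (∀ (t : ℝ) (s : Finset ι),
        ∑ Δ ∈ sball K (B * X), ∑ e ∈ pdiv Δ, c Δ * (Y * nm Δ / (nm e * X)) *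
          ∑ f ∈ sball K (B * X), ∑ i ∈ s.filter (p Δ e),
            rho η (Y * (nm Δ : ℝ) ^ 2 * N Δ e i / (nm e * X ^ 2)) *
              ‖Tl (B * X) (γ₂ Δ e i) f t‖ ^ 2 ≤ D * (1 + |t|) ^ A') →
      ∑ Δ ∈ sball K (B * X), c Δ * ‖∑ e ∈ pdiv Δ, mu e * (c0 * Y / nm e : ℝ) *
        ∑' i, ind (p Δ e i) * Dl κ (B * X) (c0 ^ 2 * (Y / nm e) * N Δ e i)
          (γ₁ Δ e i) (γ₂ Δ e i)‖ ≤ C * D := by
  obtain ⟨C, hC, h2⟩ := ps2 (K := K) hκ (pow_pos hc 2) hB hη A'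
  refine ⟨c0 * C, mul_pos hc hC, fun ι X Y D c p N γ₁ γ₂ hX hY hcΔ hN hb hsum hD₁ hD₂ => ?_⟩
  obtain ⟨g, hg⟩ : ∃ g : (Σ _ : R K, R K) → ι → ℝ, ∀ x k, g x k = c x.1 * (Y / nm x.2) *
    ‖ind (p x.1 x.2 k) * Dl κ (B * X) (c0 ^ 2 * (Y / nm x.2) * N x.1 x.2 k) (γ₁ x.1 x.2 k)
      (γ₂ x.1 x.2 k)‖ := ⟨_, fun _ _ => rfl⟩
  have hg0 : ∀ x k, 0 ≤ g x k := fun x k => by
    rw [hg]
    exact mul_nonneg (mul_nonneg (hcΔ _) (by positivity)) (norm_nonneg _)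
  have hI : ∀ x ∈ (sball K (B * X)).sigma fun Δ => pdiv Δ,
      (0 : ℝ) < nm x.1 ∧ (0 : ℝ) < nm x.2 := fun x hx => by
    obtain ⟨a1, a2⟩ := Finset.mem_sigma.1 hx
    have := (mem_sball.1 a1).1.ne_zero
    exact ⟨nm_pos_real this, nm_pos_real ((mem_pdiv this).1 a2).1.ne_zero⟩
  have hs : ∀ x ∈ (sball K (B * X)).sigma fun Δ => pdiv Δ, Summable fun k =>
      ‖ind (p x.1 x.2 k) * Dl κ (B * X) (c0 ^ 2 * (Y / nm x.2) * N x.1 x.2 k) (γ₁ x.1 x.2 k)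
        (γ₂ x.1 x.2 k)‖ := fun x hx =>
    (hsum _ (Finset.mem_sigma.1 hx).1 _ (Finset.mem_sigma.1 hx).2).norm
  have hs' : ∀ x ∈ (sball K (B * X)).sigma fun Δ => pdiv Δ, Summable (g x) := fun x hx => by
    rw [funext (hg x)]
    exact (hs x hx).mul_left _
  have key : ∀ (γ : R K → R K → ι → R K → ℂ) (t : ℝ) (s : Finset ι),
      ∑ i ∈ ((sball K (B * X)).sigma fun Δ => pdiv Δ).sigma fun x => s.filter (p x.1 x.2),
        c i.1.1 * (Y / nm i.1.2) / (X / nm i.1.1) *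
          rho η (Y / nm i.1.2 * N i.1.1 i.1.2 i.2 / (X / nm i.1.1) ^ 2) *
          ∑ f ∈ sball K (B * X), ‖Tl (B * X) (γ i.1.1 i.1.2 i.2) f t‖ ^ 2 =
      ∑ Δ ∈ sball K (B * X), ∑ e ∈ pdiv Δ, c Δ * (Y * nm Δ / (nm e * X)) *
        ∑ f ∈ sball K (B * X), ∑ i ∈ s.filter (p Δ e),
          rho η (Y * (nm Δ : ℝ) ^ 2 * N Δ e i / (nm e * X ^ 2)) *
            ‖Tl (B * X) (γ Δ e i) f t‖ ^ 2 := fun γ t s => by
    rw [Finset.sum_sigma, Finset.sum_sigma]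
    refine Finset.sum_congr rfl fun Δ hΔ => Finset.sum_congr rfl fun e he => ?_
    obtain ⟨a1, a2⟩ := hI ⟨Δ, e⟩ (Finset.mem_sigma.2 ⟨hΔ, he⟩)
    rw [Finset.sum_comm, Finset.mul_sum]
    refine Finset.sum_congr rfl fun k _ => ?_
    rw [← Finset.mul_sum, ← mul_assoc]
    simp only at a1 a2 ⊢
    congr 2
    · field_simp
    · congr 1
      field_simp
  calc _ ≤ c0 * ∑ x ∈ (sball K (B * X)).sigma fun Δ => pdiv Δ, ∑' k, g x k := by
        rw [Finset.sum_sigma, Finset.mul_sum]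
        refine Finset.sum_le_sum fun Δ hΔ => ?_
        refine (mul_le_mul_of_nonneg_left (norm_sum_le _ _) (hcΔ Δ)).trans ?_
        rw [Finset.mul_sum, Finset.mul_sum]
        refine Finset.sum_le_sum fun e he => ?_
        have hx : (⟨Δ, e⟩ : Σ _ : R K, R K) ∈ (sball K (B * X)).sigma fun Δ => pdiv Δ :=
          Finset.mem_sigma.2 ⟨hΔ, he⟩
        have h0 : 0 ≤ c0 * Y / nm e := div_nonneg (mul_pos hc hY).le (Nat.cast_nonneg _)
        simp only [hg, tsum_mul_left]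
        rw [norm_mul, norm_mul, Complex.norm_real, Real.norm_of_nonneg h0]
        refine (mul_le_mul_of_nonneg_left (mul_le_mul (mul_le_of_le_one_left h0 (norm_mu_le e))
          (norm_tsum_le_tsum_norm (hs _ hx)) (norm_nonneg _) h0) (hcΔ Δ)).trans_eq (by ring)
    _ ≤ _ := by
        rw [mul_assoc, ← Summable.tsum_finsetSum hs']
        refine mul_le_mul_of_nonneg_left (Real.tsum_le_of_sum_le
          (fun k => Finset.sum_nonneg fun x _ => hg0 x k) fun s => ?_) hc.le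
        have h3 := h2 _ (((sball K (B * X)).sigma fun Δ => pdiv Δ).sigma fun x =>
          s.filter (p x.1 x.2)) (fun i => c i.1.1 * (Y / nm i.1.2)) (fun i => X / nm i.1.1)
          (fun i => Y / nm i.1.2 * N i.1.1 i.1.2 i.2) (fun i => γ₁ i.1.1 i.1.2 i.2)
          (fun i => γ₂ i.1.1 i.1.2 i.2) (B * X) D (fun i hi => ?_)
          (fun t => (key γ₁ t s).trans_le (hD₁ t s)) fun t => (key γ₂ t s).trans_le (hD₂ t s)
        · rw [Finset.sum_sigma] at h3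
          rw [Finset.sum_comm]
          refine le_trans (Finset.sum_le_sum fun x _ => ?_) h3
          rw [Finset.sum_filter]
          refine Finset.sum_le_sum fun k _ => ?_
          rw [hg]
          split_ifs with h
          · rw [ind_of h, one_mul, mul_assoc (c0 ^ 2)]
          · rw [ind_of_not h, zero_mul, norm_zero, mul_zero]
        · obtain ⟨a1, a2⟩ := hI _ (Finset.mem_sigma.1 hi).1
          have a3 := hN _ _ _ (Finset.mem_filter.1 (Finset.mem_sigma.1 hi).2).2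
          refine ⟨mul_nonneg (hcΔ _) (by positivity), by positivity, by positivity,
            fun m _ hm => ?_⟩
          obtain ⟨b1, b2⟩ := hb _ _ _ _ hm
          rw [nm_mul, Nat.cast_mul] at b1 b2
          rw [div_right_comm, div_le_iff₀' a1, ← mul_div_assoc, le_div_iff₀' a1]
          exact ⟨b1, b2⟩

end Vale.Agent.P319
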