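import Vale.Agent.P319.N.PSAB
import Vale.Agent.P319.N.PSThree
import Vale.Agent.P319.N.Ray

/-! # PSQ: part (c) of `PSStmt`.
`bil_classes`: `β m = ∑ α ∈ creps K 10, ind (Cg m α) * β m` (`sum_cg_ind`), bilinearity.
`ps_dual`: with `y = Y nm Δ ^ 2 N / (nm e X ^ 2) ≥ Y N / X ^ 2`: `rho η y ≤ (1 + X ^ 2 / Y) ^ η (nm x / N) ^ η (1 + Y nm Δ ^ 2 nm x / (nm e X ^ 2)) ^ (-5)`;
`mult_sum` for every `(Δ, e)` with `s' = (s.image (pp ∘ x)).filter Prim`; move `∑ τ` outside.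
`ps_c`: for every pair of classes `bil2` (`α = α₁ α₂`, `ε₀ = ε α₁ α₂`, `Ray.mul`, `F.ε_per`, `h.U_sub`, `F.unitU`), `ps3`, `ps_dual`. -/

namespace Vale.Agent.P319

open scoped ComplexConjugate Real
open MeasureTheory

variable {K : Type} [Field K] [NumberField K] [Stp K]

theorem bil_classes (F : Fam K) {ι : Type} (x : ι → R K) (w : ι → ℂ) (Z : ℝ) (β : R K → ℂ) (Δ : R K) :
    BilW F x w Z β β Δ = ∑ α₁ ∈ creps K 10, ∑ α₂ ∈ creps K 10,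
      BilW F x w Z (fun m => ind (Cg m α₁) * β m) (fun m => ind (Cg m α₂) * β m) Δ := by
  unfold BilW
  have h : ∀ m1 ∈ sball K Z, ∀ m2 ∈ sball K Z, ∀ T : ℂ,
      ind (IsCoprime m1 m2) * (β m1 * conj (β m2)) * T = ∑ α₁ ∈ creps K 10, ∑ α₂ ∈ creps K 10,
        ind (IsCoprime m1 m2) * (ind (Cg m1 α₁) * β m1 * conj (ind (Cg m2 α₂) * β m2)) * T := by
    intro m1 h1 m2 h2 T
    have e1 := sum_cg_ind (mem_sball.1 h1).1.ne_zero
    have e2 := sum_cg_ind (mem_sball.1 h2).1.ne_zero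
    calc _ = (∑ α₁ ∈ creps K 10, ind (Cg m1 α₁)) * (∑ α₂ ∈ creps K 10, ind (Cg m2 α₂)) *
          (ind (IsCoprime m1 m2) * (β m1 * conj (β m2)) * T) := by rw [e1, e2, one_mul, one_mul]
      _ = _ := by
          rw [Finset.sum_mul_sum, Finset.sum_mul]
          refine Finset.sum_congr rfl fun α₁ _ => ?_
          rw [Finset.sum_mul]
          refine Finset.sum_congr rfl fun α₂ _ => ?_
          rw [map_mul, conj_ind]
          ring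
  rw [Finset.sum_congr rfl fun m1 h1 => Finset.sum_congr rfl fun m2 h2 => h m1 h1 m2 h2 _]
  rw [Finset.sum_congr rfl fun m1 _ => Finset.sum_comm, Finset.sum_comm]
  refine Finset.sum_congr rfl fun α₁ _ => ?_
  rw [Finset.sum_congr rfl fun m1 _ => Finset.sum_comm, Finset.sum_comm]

private theorem psc_rho {η X Y d e n N : ℝ} (hη : 0 < η) (hX : 0 < X) (hY : 0 < Y) (he : 0 < e)
    (hed : e ≤ d ^ 2) (hn : 1 ≤ n) (hN : n ≤ N) :
    rho η (Y * d ^ 2 * N / (e * X ^ 2)) ≤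
      (1 + X ^ 2 / Y) ^ η * ((n / N) ^ η * (1 + Y * d ^ 2 * n / (e * X ^ 2)) ^ (-5 : ℝ)) := by
  have hd : 0 < d ^ 2 := he.trans_le hed
  have hn0 : 0 < n := one_pos.trans_le hn
  have hN0 : 0 < N := hn0.trans_le hN
  unfold rho
  rw [← mul_assoc]
  refine mul_le_mul ?_ ?_ (by positivity) (by positivity)
  · rw [← Real.mul_rpow (by positivity) (by positivity), Real.rpow_neg (by positivity),
      ← Real.inv_rpow (by positivity)]
    refine Real.rpow_le_rpow (by positivity) ?_ hη.le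
    rw [inv_div, div_le_iff₀ (by positivity)]
    have e1 : (1 + X ^ 2 / Y) * (n / N) * (Y * d ^ 2 * N) = (Y + X ^ 2) * n * d ^ 2 := by
      field_simp
    rw [e1]
    have h1 : e * X ^ 2 ≤ d ^ 2 * X ^ 2 := by gcongr
    have h2 : (Y + X ^ 2) * 1 * d ^ 2 ≤ (Y + X ^ 2) * n * d ^ 2 := by gcongr
    nlinarith [mul_pos hY hd]
  · refine Real.rpow_le_rpow_of_nonpos (by positivity) ?_ (by norm_num)
    gcongr

open Classical in
theorem ps_dual {E : Eng K} (h : E.PS) (F : Fam K) {η : ℝ} (hη : 0 < η) : ∃ C : ℝ, 0 < C ∧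
    ∀ (X Y Z D t : ℝ) (b : R K → ℂ) (c : R K → ℝ) (α : R K) (l : R K → E.L) (s : Finset E.ι),
      0 < X → 0 < Y → (∀ Δ, 0 ≤ c Δ) →
      (∀ (τ : (R K)ˣ) (s : Finset (R K)), (∀ k ∈ s, Prim k) →
        ∑ Δ ∈ sball K Z, ∑ e ∈ pdiv Δ, c Δ * (Y * nm Δ / (nm e * X)) *
          ∑ f ∈ sball K Z, ∑ k ∈ s,
            (1 + Y * (nm Δ : ℝ) ^ 2 * nm k / (nm e * X ^ 2)) ^ (-5 : ℝ) *
            ‖∑ m ∈ sball K Z, ind (Cg m α) * ind (f ∣ m) * b (Δ * m) * F.X m e *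
              F.g m * conj (F.X m (τ * k)) * nt m t‖ ^ 2 ≤ D) →
      ∑ Δ ∈ sball K Z, ∑ e ∈ pdiv Δ, c Δ * (Y * nm Δ / (nm e * X)) *
        ∑ f ∈ sball K Z, ∑ i ∈ s.filter (E.mem (l e)),
          rho η (Y * (nm Δ : ℝ) ^ 2 * E.N (l e) i / (nm e * X ^ 2)) *
            ‖Tl Z (dco F (fun m => ind (Cg m α) * b (Δ * m)) e (E.x i)) f t‖ ^ 2 ≤
        C * (1 + X ^ 2 / Y) ^ η * D := by
  obtain ⟨C, hC, hm⟩ := mult_sum h hη
  refine ⟨C * ((treps K).card + 1), by positivity, fun X Y Z D t b c α l s hX hY hc hD => ?_⟩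
  have hD0 : 0 ≤ D := by simpa using hD 1 ∅ (by simp)
  obtain ⟨s', hs'⟩ : ∃ s' : Finset (R K), s' = (s.image fun i => pp (E.x i)).filter Prim := ⟨_, rfl⟩
  have hP : ∀ k ∈ s', Prim k := fun k hk => (Finset.mem_filter.1 (hs' ▸ hk)).2
  obtain ⟨G, hG⟩ : ∃ G : R K → R K → R K → R K → ℝ, ∀ Δ e f z, G Δ e f z =
      (1 + Y * (nm Δ : ℝ) ^ 2 * nm z / (nm e * X ^ 2)) ^ (-5 : ℝ) *
        ‖Tl Z (dco F (fun m => ind (Cg m α) * b (Δ * m)) e z) f t‖ ^ 2 := ⟨_, fun _ _ _ _ => rfl⟩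
  have hG0 : ∀ Δ e f z, 0 ≤ G Δ e f z := fun Δ e f z => by rw [hG]; positivity
  have hG6 : ∀ Δ e f (u : (R K)ˣ) z, G Δ e f (u ^ 6 * z) = G Δ e f z := fun Δ e f u z => by
    rw [hG, hG, ← Units.val_pow_eq_pow_val, nm_unit_mul]
    congr 3
    refine Finset.sum_congr rfl fun m hm => ?_
    have hm' := (mem_sball.1 hm).1.1
    unfold dco
    rw [F.mul_right _ _ _ hm', Units.val_pow_eq_pow_val, F.six _ _ hm', one_mul]
  have h1 : ∀ Δ ∈ sball K Z, ∀ e ∈ pdiv Δ, ∀ f, ∑ i ∈ s.filter (E.mem (l e)),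
      rho η (Y * (nm Δ : ℝ) ^ 2 * E.N (l e) i / (nm e * X ^ 2)) *
        ‖Tl Z (dco F (fun m => ind (Cg m α) * b (Δ * m)) e (E.x i)) f t‖ ^ 2 ≤
      (1 + X ^ 2 / Y) ^ η * C * ∑ τ ∈ treps K, ∑ k ∈ s', G Δ e f (τ * k) := by
    intro Δ hΔ e he f
    have hΔ0 := (mem_sball.1 hΔ).1.ne_zero
    obtain ⟨he1, he2⟩ := (mem_pdiv hΔ0).1 he
    have hed : (nm e : ℝ) ≤ (nm Δ : ℝ) ^ 2 := by
      have a1 : (nm e : ℝ) ≤ nm Δ := by exact_mod_cast nm_le_of_dvd hΔ0 he2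
      have a2 := one_le_nm hΔ0
      nlinarith
    rw [mul_assoc]
    refine le_trans ?_ (mul_le_mul_of_nonneg_left (hm (l e) (s.filter (E.mem (l e))) s' (G Δ e f)
      (hG0 Δ e f) (hG6 Δ e f) fun i hi => ?_) (by positivity))
    · rw [Finset.mul_sum]
      refine Finset.sum_le_sum fun i hi => ?_
      obtain ⟨a1, a2⟩ := E.hN _ _ (Finset.mem_filter.1 hi).2
      refine (mul_le_mul_of_nonneg_right (psc_rho hη hX hY (nm_pos_real he1.1) hed (one_le_nm a1) a2)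
        (sq_nonneg _)).trans_eq ?_
      rw [hG]
      ring
    · obtain ⟨a1, a2⟩ := Finset.mem_filter.1 hi
      refine ⟨a2, ?_⟩
      rw [hs']
      exact Finset.mem_filter.2 ⟨Finset.mem_image_of_mem _ a1, prim_pp (E.hN _ _ a2).1⟩
  have h2 : ∀ τ : (R K)ˣ, ∑ Δ ∈ sball K Z, ∑ e ∈ pdiv Δ, c Δ * (Y * nm Δ / (nm e * X)) *
      ∑ f ∈ sball K Z, ∑ k ∈ s', G Δ e f (τ * k) ≤ D := fun τ => by
    refine le_trans (le_of_eq ?_) (hD τ s' hP)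
    refine Finset.sum_congr rfl fun Δ _ => Finset.sum_congr rfl fun e _ => ?_
    congr 1
    refine Finset.sum_congr rfl fun f _ => Finset.sum_congr rfl fun k _ => ?_
    rw [hG, nm_unit_mul]
    congr 3
    refine Finset.sum_congr rfl fun m _ => ?_
    unfold dco
    ring
  calc _ ≤ ∑ Δ ∈ sball K Z, ∑ e ∈ pdiv Δ, c Δ * (Y * nm Δ / (nm e * X)) *
        ∑ f ∈ sball K Z, (1 + X ^ 2 / Y) ^ η * C * ∑ τ ∈ treps K, ∑ k ∈ s', G Δ e f (τ * k) :=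
        Finset.sum_le_sum fun Δ hΔ => Finset.sum_le_sum fun e he =>
          mul_le_mul_of_nonneg_left (Finset.sum_le_sum fun f _ => h1 Δ hΔ e he f)
            (mul_nonneg (hc Δ) (by positivity))
    _ = (1 + X ^ 2 / Y) ^ η * C * ∑ τ ∈ treps K, ∑ Δ ∈ sball K Z, ∑ e ∈ pdiv Δ,
        c Δ * (Y * nm Δ / (nm e * X)) * ∑ f ∈ sball K Z, ∑ k ∈ s', G Δ e f (τ * k) := by
        rw [Finset.sum_comm (s := treps K), Finset.mul_sum]
        refine Finset.sum_congr rfl fun Δ _ => ?_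
        rw [Finset.sum_comm (s := treps K), Finset.mul_sum]
        refine Finset.sum_congr rfl fun e _ => ?_
        rw [← Finset.mul_sum, ← Finset.mul_sum, Finset.sum_comm (s := treps K)]
        ring
    _ ≤ (1 + X ^ 2 / Y) ^ η * C * (((treps K).card + 1) * D) := by
        refine mul_le_mul_of_nonneg_left ?_ (by positivity)
        refine (Finset.sum_le_card_nsmul _ _ _ fun τ _ => h2 τ).trans ?_
        rw [nsmul_eq_mul]
        nlinarith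
    _ = _ := by ring

theorem ps_c {E : Eng K} (h : E.PS) (F : Fam K) (B A η : ℝ) (hB : 1 ≤ B) (hη : 0 < η) :
    ∃ C : ℝ, 0 < C ∧
      ∀ (X Y D : ℝ) (b : R K → ℂ) (c : R K → ℝ), 0 < X → 1 ≤ Y → (∀ Δ, 0 ≤ c Δ) →
        (∀ n, b n ≠ 0 → IsS n ∧ X / B ≤ nm n ∧ (nm n : ℝ) ≤ B * X) →
        (∀ (t : ℝ) (α : R K) (τ : (R K)ˣ) (s : Finset (R K)), (∀ k ∈ s, Prim k) →
          ∑ Δ ∈ sball K (B * X), ∑ e ∈ pdiv Δ, c Δ * (Y * nm Δ / (nm e * X)) *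
            ∑ f ∈ sball K (B * X), ∑ k ∈ s,
              (1 + Y * (nm Δ : ℝ) ^ 2 * nm k / (nm e * X ^ 2)) ^ (-5 : ℝ) *
              ‖∑ m ∈ sball K (B * X), ind (Cg m α) * ind (f ∣ m) * b (Δ * m) * F.X m e *
                F.g m * conj (F.X m (τ * k)) * nt m t‖ ^ 2 ≤ D * (1 + |t|) ^ A) →
        ∑ Δ ∈ sball K (B * X), c Δ * ‖E.Bil F Y (B * X) b Δ‖ ≤
          C * ((1 + X ^ 2 / Y) ^ η * D + Y * ∑ Δ ∈ sball K (B * X), c Δ * ‖b Δ‖ ^ 2) := by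
  classical
  obtain ⟨C3, hC3, h3⟩ := ps3 (K := K) E.sep E.c0_pos hB hη A
  obtain ⟨Cd, hCd, hd⟩ := ps_dual h F hη
  have hV := E.V_nonneg
  have hc0 := E.c0_pos
  refine ⟨(((creps K 10).card : ℝ) ^ 2 + 1) * (C3 * Cd + E.V * (E.c0 + 1)), by positivity,
    fun X Y D b c hX hY hc hb hD => ?_⟩
  have hY0 : 0 < Y := one_pos.trans_le hY
  have hD0 : 0 ≤ D := by simpa using hD 0 0 1 ∅ (by simp)
  obtain ⟨S, hS⟩ : ∃ S : R K → R K → R K → ℂ, ∀ α₁ α₂ Δ, S α₁ α₂ Δ =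
      ∑ e ∈ pdiv Δ, mu e * (E.c0 * Y / nm e : ℝ) * ∑' i, ind (E.mem (E.lat e (α₁ * α₂)) i) *
        Dl E.KK (B * X) (E.c0 ^ 2 * (Y / nm e) * E.N (E.lat e (α₁ * α₂)) i)
          (dco F (fun m => ind (Cg m α₁) * b (Δ * m)) e (E.x i))
          (dco F (fun m => ind (Cg m α₂) * b (Δ * m)) e (E.x i)) := ⟨_, fun _ _ _ => rfl⟩
  have hind : ∀ {p : Prop} {z : ℂ}, ind p * z ≠ 0 → p := fun hz =>
    by_contra fun hp => hz (by rw [ind_of_not hp, zero_mul])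
  have h1 : ∀ α₁ α₂, ∀ Δ ∈ sball K (B * X),
      ‖BilW F E.x (fun i => (E.wt E.l0 Y⁻¹ i : ℝ)) (B * X) (fun m => ind (Cg m α₁) * b (Δ * m))
        (fun m => ind (Cg m α₂) * b (Δ * m)) Δ‖ ≤
        ‖S α₁ α₂ Δ‖ + E.V * (E.c0 + 1) * (Y * ‖b Δ‖ ^ 2) := by
    intro α₁ α₂ Δ hΔ
    have h2 := bil2 E F (α := α₁ * α₂) (mem_sball.1 hΔ).1 hY0 (B * X)
      (fun m => ind (Cg m α₁) * b (Δ * m)) (fun m => ind (Cg m α₂) * b (Δ * m)) (F.ε α₁ α₂)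
      fun m1 a1 m2 a2 _ b1 b2 => ⟨Ray.mul (hind b1) (hind b2), F.ε_per _ _ _ _ (hind b1) (hind b2),
        fun u hu => by
          rw [F.unitU _ _ (mem_sball.1 a1).1.1 (h.U_sub u hu),
            F.unitU _ _ (mem_sball.1 a2).1.1 (h.U_sub u hu), map_one, one_mul]⟩
    rw [← hS] at h2
    have a1 : ‖F.ε α₁ α₂ * S α₁ α₂ Δ‖ ≤ ‖S α₁ α₂ Δ‖ := by
      rw [norm_mul]
      exact mul_le_of_le_one_left (norm_nonneg _) (F.norm_ε _ _)
    have a2 : ∀ α : R K, ‖ind (Cg 1 α) * b (Δ * 1)‖ ≤ ‖b Δ‖ := fun α => by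
      rw [norm_mul, mul_one]
      exact mul_le_of_le_one_left (norm_nonneg _) (norm_ind_le _)
    have a3 : E.V * (E.c0 * Y + 1) * (‖ind (Cg 1 α₁) * b (Δ * 1)‖ * ‖ind (Cg 1 α₂) * b (Δ * 1)‖) ≤
        E.V * ((E.c0 + 1) * Y) * (‖b Δ‖ * ‖b Δ‖) :=
      mul_le_mul (mul_le_mul_of_nonneg_left (by nlinarith) hV)
        (mul_le_mul (a2 _) (a2 _) (norm_nonneg _) (norm_nonneg _)) (by positivity) (by positivity)
    refine (norm_le_norm_add_norm_sub' _ (F.ε α₁ α₂ * S α₁ α₂ Δ)).trans (add_le_add a1 ?_)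
    exact (h2.trans a3).trans_eq (by ring)
  have h4 : ∀ α₁ α₂, ∑ Δ ∈ sball K (B * X), c Δ * ‖S α₁ α₂ Δ‖ ≤
      C3 * (Cd * (1 + X ^ 2 / Y) ^ η * D) := by
    intro α₁ α₂
    simp only [hS]
    refine h3 E.ι X Y _ c (fun _ e i => E.mem (E.lat e (α₁ * α₂)) i)
      (fun _ e i => E.N (E.lat e (α₁ * α₂)) i)
      (fun Δ e i => dco F (fun m => ind (Cg m α₁) * b (Δ * m)) e (E.x i))
      (fun Δ e i => dco F (fun m => ind (Cg m α₂) * b (Δ * m)) e (E.x i)) hX hY0 hc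
      (fun _ e i hi => one_pos.trans_le (E.N_pos hi)) (fun Δ e i m hm => ?_)
      (fun Δ hΔ e he => ?_) (fun t s => ?_) fun t s => ?_
    · refine (hb (Δ * m) fun h0 => ?_).2
      simp [dco, h0] at hm
    · have := nm_pos_real ((mem_pdiv (mem_sball.1 hΔ).1.ne_zero).1 he).1.1
      exact summable_dl E F _ (by positivity) _ _ _ _
    · exact (hd X Y (B * X) _ t b c α₁ (fun e => E.lat e (α₁ * α₂)) s hX hY0 hc
        (hD t α₁)).trans_eq (by ring)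
    · exact (hd X Y (B * X) _ t b c α₂ (fun e => E.lat e (α₁ * α₂)) s hX hY0 hc
        (hD t α₂)).trans_eq (by ring)
  obtain ⟨W, hW⟩ : ∃ W, W = Y * ∑ Δ ∈ sball K (B * X), c Δ * ‖b Δ‖ ^ 2 := ⟨_, rfl⟩
  have hW0 : 0 ≤ W := hW ▸
    mul_nonneg hY0.le (Finset.sum_nonneg fun Δ _ => mul_nonneg (hc Δ) (sq_nonneg _))
  have hT0 : 0 ≤ (1 + X ^ 2 / Y) ^ η * D := by positivity
  have h5 : ∀ α₁ α₂, ∑ Δ ∈ sball K (B * X), c Δ *
      (‖S α₁ α₂ Δ‖ + E.V * (E.c0 + 1) * (Y * ‖b Δ‖ ^ 2)) ≤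
      (C3 * Cd + E.V * (E.c0 + 1)) * ((1 + X ^ 2 / Y) ^ η * D + W) := by
    intro α₁ α₂
    have e1 : ∑ Δ ∈ sball K (B * X), c Δ * (E.V * (E.c0 + 1) * (Y * ‖b Δ‖ ^ 2)) =
        E.V * (E.c0 + 1) * W := by
      rw [hW, Finset.mul_sum, Finset.mul_sum]
      exact Finset.sum_congr rfl fun _ _ => by ring
    simp only [mul_add (c _), Finset.sum_add_distrib]
    rw [e1]
    have a1 := mul_nonneg (mul_pos hC3 hCd).le hW0
    have a2 : 0 ≤ E.V * (E.c0 + 1) * ((1 + X ^ 2 / Y) ^ η * D) := by positivity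
    nlinarith [h4 α₁ α₂]
  rw [← hW]
  calc _ ≤ ∑ Δ ∈ sball K (B * X), ∑ α₁ ∈ creps K 10, ∑ α₂ ∈ creps K 10, c Δ *
        (‖S α₁ α₂ Δ‖ + E.V * (E.c0 + 1) * (Y * ‖b Δ‖ ^ 2)) := by
        refine Finset.sum_le_sum fun Δ hΔ => ?_
        simp only [← Finset.mul_sum]
        refine mul_le_mul_of_nonneg_left ?_ (hc Δ)
        rw [Eng.Bil, bil_classes]
        refine (norm_sum_le _ _).trans (Finset.sum_le_sum fun α₁ _ => ?_)
        exact (norm_sum_le _ _).trans (Finset.sum_le_sum fun α₂ _ => h1 α₁ α₂ Δ hΔ)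
    _ ≤ ∑ α₁ ∈ creps K 10, ∑ α₂ ∈ creps K 10,
        (C3 * Cd + E.V * (E.c0 + 1)) * ((1 + X ^ 2 / Y) ^ η * D + W) := by
        rw [Finset.sum_comm]
        refine Finset.sum_le_sum fun α₁ _ => ?_
        rw [Finset.sum_comm]
        exact Finset.sum_le_sum fun α₂ _ => h5 α₁ α₂
    _ ≤ _ := by
        rw [Finset.sum_const, Finset.sum_const, nsmul_eq_mul, nsmul_eq_mul]
        have : 0 ≤ (C3 * Cd + E.V * (E.c0 + 1)) * ((1 + X ^ 2 / Y) ^ η * D + W) := by positivity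
        nlinarith

theorem ps_of {E : Eng K} (h : E.PS) : PSStmt K := fun F =>
  ⟨E.Bil F, ps_a h F, ps_b h F, fun B A η hB _ hη => ps_c h F B A η hB hη⟩

end Vale.Agent.P319
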