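import Vale.Agent.P319.N.Basic

/-! BASE: residue systems and additive characters (port of P026 Res). -/

namespace Vale.Agent.P319

open scoped ComplexConjugate Real NumberField nonZeroDivisors

variable {K : Type} [Field K] [NumberField K] [Stp K]

theorem mk_eq_mk {n x y : R K} :
    Ideal.Quotient.mk (Ideal.span {n}) x = Ideal.Quotient.mk _ y ↔ n ∣ x - y := by
  rw [Ideal.Quotient.eq, Ideal.mem_span_singleton]
open Classical in
theorem res_eq_image {n : R K} [Fintype (R K ⧸ Ideal.span {n})] :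
    res n = Finset.univ.image (Quotient.out : R K ⧸ Ideal.span {n} → R K) := by
  ext x
  simp [res, dif_pos (Set.finite_range (Quotient.out : R K ⧸ Ideal.span {n} → R K))]
theorem res_spec {n : R K} (hn : n ≠ 0) (x : R K) : ∃! y, y ∈ res n ∧ n ∣ x - y := by
  have := finite_quot hn
  have := Fintype.ofFinite (R K ⧸ Ideal.span {n})
  simp only [res_eq_image, Finset.mem_image, Finset.mem_univ, true_and, ← mk_eq_mk]
  refine ⟨(Ideal.Quotient.mk _ x).out, ⟨⟨_, rfl⟩, (Ideal.Quotient.mk_out _).symm⟩, ?_⟩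
  rintro _ ⟨⟨y, rfl⟩, h⟩
  rw [h, Ideal.Quotient.mk_out]
theorem card_res {n : R K} (hn : n ≠ 0) : (res n).card = nm n := by
  classical
  have := finite_quot hn
  have := Fintype.ofFinite (R K ⧸ Ideal.span {n})
  rw [res_eq_image, Finset.card_image_of_injective _ Quotient.out_injective, ← card_quot n,
    Nat.card_eq_fintype_card, Finset.card_univ]
  rfl
theorem sum_res_quot {M : Type*} [AddCommMonoid M] {n : R K} [Fintype (R K ⧸ Ideal.span {n})]
    (f : R K ⧸ Ideal.span {n} → M) : ∑ x ∈ res n, f (Ideal.Quotient.mk _ x) = ∑ y, f y := by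
  classical
  rw [res_eq_image, Finset.sum_image fun _ _ _ _ h => Quotient.out_injective h]
  simp only [Ideal.Quotient.mk_out]
  rfl
/-- any complete residue system gives the same sum -/
theorem sum_res_eq {n : R K} (hn : n ≠ 0) {f : R K → ℂ} (hf : Per n f) {ι : Type*} (s : Finset ι)
    (σ : ι → R K) (h : ∀ x, ∃! i, i ∈ s ∧ n ∣ x - σ i) : ∑ x ∈ res n, f x = ∑ i ∈ s, f (σ i) := by
  choose τ hτ hu using h
  refine Finset.sum_bij (fun x _ => τ x) (fun x _ => (hτ x).1) (fun x hx y hy e => ?_)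
    (fun i hi => ?_) fun x _ => hf _ _ (hτ x).2
  · refine (res_spec hn x).unique ⟨hx, by simp⟩ ⟨hy, ?_⟩
    have := dvd_sub (hτ x).2 (hτ y).2
    rw [show τ x = τ y from e] at this
    rwa [sub_sub_sub_cancel_right] at this
  · obtain ⟨y, ⟨hy, h1⟩, -⟩ := res_spec hn (σ i)
    exact ⟨y, hy, (hu y i ⟨hi, dvd_sub_comm.1 h1⟩).symm⟩
theorem sum_res_perm {n : R K} (hn : n ≠ 0) {f : R K → ℂ} (hf : Per n f) (σ : R K → R K)
    (hσ : ∀ x y, n ∣ σ x - σ y ↔ n ∣ x - y) : ∑ x ∈ res n, f (σ x) = ∑ x ∈ res n, f x := by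
  have := finite_quot hn
  let F : R K ⧸ Ideal.span {n} → R K ⧸ Ideal.span {n} := fun q => Ideal.Quotient.mk _ (σ q.out)
  have hF : Function.Surjective F := Finite.surjective_of_injective fun a b h => by
    have := mk_eq_mk.2 ((hσ _ _).1 (mk_eq_mk.1 h))
    rwa [Ideal.Quotient.mk_out, Ideal.Quotient.mk_out] at this
  refine (sum_res_eq hn hf _ σ fun x => ?_).symm
  obtain ⟨q, hq⟩ := hF (Ideal.Quotient.mk _ x)
  obtain ⟨y, ⟨hy, h1⟩, h2⟩ := res_spec hn q.out
  have h3 : n ∣ x - σ q.out := mk_eq_mk.1 hq.symm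
  refine ⟨y, ⟨hy, ?_⟩, fun z hz => h2 z ⟨hz.1, (hσ _ _).1 ?_⟩⟩
  · simpa using dvd_add h3 ((hσ _ _).2 h1)
  · simpa using dvd_sub hz.2 h3
theorem sum_res_affine {n u : R K} (hn : n ≠ 0) {f : R K → ℂ} (hf : Per n f) (hu : IsCoprime u n)
    (a : R K) : ∑ x ∈ res n, f (u * x + a) = ∑ x ∈ res n, f x := by
  refine sum_res_perm hn hf (fun x => u * x + a) fun x y => ?_
  rw [add_sub_add_right_eq_sub, ← mul_sub]
  exact ⟨hu.symm.dvd_of_dvd_mul_left, fun h => h.mul_left u⟩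
theorem sum_res_mul {m n : R K} (hm : m ≠ 0) (hn : n ≠ 0) {f : R K → ℂ} (hf : Per (m * n) f) :
    ∑ x ∈ res (m * n), f x = ∑ y ∈ res m, ∑ x ∈ res n, f (x + n * y) := by
  rw [← Finset.sum_product']
  refine sum_res_eq (mul_ne_zero hm hn) hf _ (fun p : R K × R K => p.2 + n * p.1) fun z => ?_
  obtain ⟨x, ⟨hx, c, hc⟩, ux⟩ := res_spec hn z
  obtain ⟨y, ⟨hy, d, hd⟩, uy⟩ := res_spec hm c
  refine ⟨(y, x), ⟨Finset.mem_product.2 ⟨hy, hx⟩, d, by linear_combination hc + n * hd⟩, ?_⟩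
  rintro ⟨y', x'⟩ ⟨h1, e, he⟩
  obtain rfl := ux x' ⟨(Finset.mem_product.1 h1).2, y' + m * e, by linear_combination he⟩
  rw [uy y' ⟨(Finset.mem_product.1 h1).1, e,
    mul_left_cancel₀ hn (by linear_combination he - hc)⟩]
theorem sum_res_crt {m n : R K} (hm : m ≠ 0) (hn : n ≠ 0) (h : IsCoprime m n) {f : R K → ℂ}
    (hf : Per (m * n) f) :
    ∑ x ∈ res (m * n), f x = ∑ x ∈ res m, ∑ y ∈ res n, f (n * x + m * y) := by
  rw [← Finset.sum_product']
  refine sum_res_eq (mul_ne_zero hm hn) hf _ (fun p : R K × R K => n * p.1 + m * p.2) fun z => ?_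
  obtain ⟨a, b, hab⟩ := h
  obtain ⟨x, ⟨hx, c, hc⟩, ux⟩ := res_spec hm (b * z)
  obtain ⟨y, ⟨hy, d, hd⟩, uy⟩ := res_spec hn (a * z)
  refine ⟨(x, y), ⟨Finset.mem_product.2 ⟨hx, hy⟩, c + d,
    by linear_combination n * hc + m * hd - z * hab⟩, ?_⟩
  rintro ⟨x', y'⟩ ⟨h1, e, he⟩
  rw [ux x' ⟨(Finset.mem_product.1 h1).1, b * n * e + b * y' - a * x',
      by linear_combination b * he + x' * hab⟩,
    uy y' ⟨(Finset.mem_product.1 h1).2, a * m * e + a * x' - b * y',
      by linear_combination a * he + y' * hab⟩]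
theorem sum_res_associated {m n : R K} (hm : m ≠ 0) (h : Associated m n) {f : R K → ℂ}
    (hf : Per m f) : ∑ x ∈ res m, f x = ∑ x ∈ res n, f x := by
  refine sum_res_eq hm hf _ id fun x => ?_
  simp only [id, h.dvd_iff_dvd_left]
  exact res_spec (h.ne_zero_iff.1 hm) x
theorem sum_res_ind {q : R K} (hq : q ≠ 0) (x : R K) : ∑ α ∈ res q, ind (q ∣ x - α) = 1 := by
  obtain ⟨y, ⟨hy, h1⟩, h2⟩ := res_spec hq x
  rw [Finset.sum_eq_single_of_mem y hy fun b hb hne => ind_of_not fun h => hne (h2 b ⟨hb, h⟩),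
    ind_of h1]
theorem tsum_res {q : R K} (hq : q ≠ 0) {f : R K → ℂ} (hf : Summable f) :
    ∑' x, f x = ∑ x ∈ res q, ∑' y, f (x + q * y) := by
  let e : res q × R K ≃ R K := Equiv.ofBijective (fun p => p.1.1 + q * p.2) ⟨?_, fun z => ?_⟩
  · have hs : Summable fun c => f (e c) := (e.summable_iff).2 hf
    rw [← e.tsum_eq, hs.tsum_prod, tsum_fintype,
      ← Finset.sum_coe_sort (res q)]
    rfl
  · rintro ⟨⟨x, hx⟩, y⟩ ⟨⟨x', hx'⟩, y'⟩ h
    simp only at h
    obtain rfl := (res_spec hq x).unique ⟨hx, by simp⟩ ⟨hx', y' - y, by linear_combination h⟩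
    rw [mul_left_cancel₀ hq (add_left_cancel h)]
  · obtain ⟨x, ⟨hx, c, hc⟩, -⟩ := res_spec hq z
    exact ⟨(⟨x, hx⟩, c), by simp only; linear_combination -hc⟩
theorem Per.mul_left {q : R K} {f : R K → ℂ} (hf : Per q f) (r : R K) : Per (r * q) f := by
  exact fun x y h => hf x y ((dvd_mul_left q r).trans h)
theorem Per.of_dvd {q r : R K} {f : R K → ℂ} (hf : Per q f) (h : q ∣ r) : Per r f := by
  exact fun x y h' => hf x y (h.trans h')
/-- a complete residue system inside `𝓞 K` -/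
theorem sum_res_int {n : R K} (hn : n ≠ 0) {f : R K → ℂ} (hf : Per n f)
    [Fintype (𝓞 K ⧸ idl n)] :
    ∑ x ∈ res n, f x = ∑ y : 𝓞 K ⧸ idl n, f (algebraMap (𝓞 K) (R K) y.out) := by
  refine sum_res_eq hn hf _ _ fun x => ?_
  obtain ⟨t, ht⟩ := exists_int_congr hn x
  refine ⟨Ideal.Quotient.mk _ t, ⟨Finset.mem_univ _, ?_⟩, fun y hy => ?_⟩
  · have h1 : t - (Ideal.Quotient.mk (idl n) t).out ∈ idl n :=
      Ideal.Quotient.eq.1 (Ideal.Quotient.mk_out _).symm
    rw [mem_idl, map_sub] at h1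
    simpa using dvd_add ht h1
  · rw [← Ideal.Quotient.mk_out y, Ideal.Quotient.eq, mem_idl, map_sub]
    simpa using dvd_sub ht hy.2

theorem psiK_eq {x y : K} (hy : SIn 0 y) (h : x - y ∈ RS K) : psiK x = eTr y := by
  have h1 : ∃ y : K, SIn 0 y ∧ x - y ∈ RS K := ⟨y, hy, h⟩
  rw [psiK, dif_pos h1]
  obtain ⟨t, ht⟩ := (h1.choose_spec.1.sub hy).exists_int
    (by simpa using (RS K).sub_mem h h1.choose_spec.2)
  rw [pow_zero, one_mul, sub_eq_iff_eq_add] at ht
  rw [ht, eTr_add, eTr_int, one_mul]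
theorem exists_psiK (x : K) : ∃ y : K, SIn 0 y ∧ x - y ∈ RS K := by
  obtain ⟨r, hr⟩ := exists_R_approx 0 x
  exact ⟨x - r, hr, by simpa using coe_mem r⟩
theorem psiK_of_sIn {x : K} (h : SIn 0 x) : psiK x = eTr x := psiK_eq h (by simp)
theorem psiK_of_mem {x : K} (h : x ∈ RS K) : psiK x = 1 := by
  rw [psiK_eq (sIn_zero 0) (by simpa using h), eTr_zero]
theorem psiK_coe (x : R K) : psiK (x : K) = 1 := psiK_of_mem (coe_mem x)
@[simp] theorem psiK_zero : psiK (0 : K) = 1 := psiK_of_mem (RS K).zero_mem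
theorem psiK_add (x y : K) : psiK (x + y) = psiK x * psiK y := by
  obtain ⟨a, h1, h2⟩ := exists_psiK x
  obtain ⟨b, h3, h4⟩ := exists_psiK y
  rw [psiK_eq h1 h2, psiK_eq h3 h4, ← eTr_add]
  exact psiK_eq (h1.add h3) (by rw [add_sub_add_comm]; exact (RS K).add_mem h2 h4)
theorem norm_psiK (x : K) : ‖psiK x‖ = 1 := by
  obtain ⟨a, h1, h2⟩ := exists_psiK x
  rw [psiK_eq h1 h2, norm_eTr]
theorem conj_psiK (x : K) : conj (psiK x) = psiK (-x) := by
  obtain ⟨a, h1, h2⟩ := exists_psiK x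
  rw [psiK_eq h1 h2, conj_eTr]
  exact (psiK_eq h1.neg (by rw [neg_sub_neg]; simpa using (RS K).neg_mem h2)).symm
theorem psiK_add_coe (x : K) (r : R K) : psiK (x + r) = psiK x := by
  rw [psiK_add, psiK_coe, mul_one]
/-- `psiK = eTr` on `𝔡⁻¹ O_S`: here `s x` lies in the inverse different, `s` prime to `M` -/
theorem psiK_eq_eTr {x : K} {s : 𝓞 K} (hs : IsCoprime s (MM K : 𝓞 K))
    (h : ∀ t : 𝓞 K, eTr (s * x * t) = 1) : psiK x = eTr x := by
  obtain ⟨y, hy, hr⟩ := exists_psiK x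
  obtain ⟨s', t', hs', e⟩ := id hy
  obtain ⟨k, t, ht⟩ := (mem_RS_iff_pow _).1 hr
  obtain ⟨a, b, hab⟩ := (hs.mul_left hs').pow_right (n := k)
  have hab' := congrArg (algebraMap (𝓞 K) K) hab
  simp only [map_add, map_mul, map_pow, map_natCast, map_one] at hab'
  rw [pow_zero, one_mul] at e
  have e2 : x = y + (s * x * ((a * s' : 𝓞 K) : K) + ((b * t - a * s * t' : 𝓞 K) : K)) := by
    simp only [map_mul, map_sub]
    linear_combination (y - x) * hab' + (b : K) * ht - (a : K) * s * e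
  rw [psiK_eq hy hr]
  conv_rhs => rw [e2]
  rw [eTr_add, eTr_add, h, eTr_int, mul_one, mul_one]
/-- `R` is self-dual -/
theorem psiK_dual {x : K} (h : ∀ r : R K, psiK (x * r) = 1) : x ∈ RS K := by
  obtain ⟨y, hy, hr⟩ := exists_psiK x
  obtain ⟨r, hr'⟩ := (mem_RS_iff K _).1 hr
  obtain ⟨t, ht⟩ := exists_int_of_eTr (ξ := y) fun t => by
    rw [← psiK_of_sIn (hy.mul_right (sIn_int t)), ← h (algebraMap (𝓞 K) (R K) t),
      ← psiK_add_coe _ (r * algebraMap (𝓞 K) (R K) t), map_mul, hr', coe_int]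
    ring_nf
  simpa using (RS K).add_mem hr ((mem_RS_iff_pow y).2 ⟨1, t, by rw [pow_one, ht]⟩)

theorem eq_add (x y n : R K) : eq (x + y) n = eq x n * eq y n := by
  rw [eq, eq, eq, map_add, add_div, psiK_add]
@[simp] theorem eq_zero (n : R K) : eq 0 n = 1 := by
  simp [eq]
theorem norm_eq (x n : R K) : ‖eq x n‖ = 1 := norm_psiK _
theorem conj_eq (x n : R K) : conj (eq x n) = eq (-x) n := by
  rw [eq, eq, conj_psiK, map_neg, neg_div]
theorem eq_of_dvd {x n : R K} (h : n ∣ x) : eq x n = 1 := by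
  obtain ⟨c, rfl⟩ := h
  by_cases hn : n = 0
  · simp [hn]
  · rw [eq, map_mul, mul_div_cancel_left₀ _ (coe_ne_zero hn), psiK_coe]
theorem eq_congr {x y n : R K} (h : n ∣ x - y) : eq x n = eq y n := by
  rw [← sub_add_cancel x y, eq_add, eq_of_dvd h, one_mul]
theorem eq_mul_cancel {a : R K} (ha : a ≠ 0) (x n : R K) : eq (a * x) (a * n) = eq x n := by
  rw [eq, eq, map_mul, map_mul, mul_div_mul_left _ _ (coe_ne_zero ha)]
theorem eq_unit_mul (u : (R K)ˣ) (x n : R K) :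
    eq x ((u : R K) * n) = eq (((u⁻¹ : (R K)ˣ) : R K) * x) n := by
  rw [← eq_mul_cancel u.ne_zero (((u⁻¹ : (R K)ˣ) : R K) * x), Units.mul_inv_cancel_left]
/-- explicit form: if `x / n` is integral at the primes above `M` -/
theorem eq_of_sIn {x n : R K} (h : SIn 0 ((x : K) / n)) : eq x n = eTr ((x : K) / n) :=
  psiK_of_sIn h
theorem eq_crt {m n : R K} (hm : m ≠ 0) (hn : n ≠ 0) (x y : R K) :
    eq (n * x + m * y) (m * n) = eq x m * eq y n := by
  rw [eq_add, eq_mul_cancel hm, mul_comm m, eq_mul_cancel hn]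
theorem sum_eq {n : R K} (hn : n ≠ 0) (k : R K) :
    ∑ x ∈ res n, eq (k * x) n = ind (n ∣ k) * nm n := by
  by_cases h : n ∣ k
  · rw [ind_of h, one_mul, Finset.sum_congr rfl fun x _ => eq_of_dvd (h.mul_right x),
      Finset.sum_const, card_res hn, nsmul_eq_mul, mul_one]
  rw [ind_of_not h, zero_mul]
  have hp : Per n fun x => eq (k * x) n := fun x y h => eq_congr (mul_sub k x y ▸ h.mul_left k)
  by_contra h0
  have h1 : ∀ a, eq (k * a) n = 1 := fun a => by
    have h2 := sum_res_affine hn hp isCoprime_one_left a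
    simp only [one_mul, mul_add, eq_add, ← Finset.sum_mul] at h2
    exact (mul_eq_left₀ h0).1 h2
  obtain ⟨c, hc⟩ := (mem_RS_iff K _).1 (psiK_dual (x := (k : K) / n) fun r => by
    rw [← h1 r, eq, map_mul, div_mul_eq_mul_div])
  refine h ⟨c, coe_inj.1 ?_⟩
  rw [map_mul, hc, mul_div_cancel₀ _ (coe_ne_zero hn)]
/-- the same with an associated denominator -/
theorem sum_eq' {n c : R K} (hn : n ≠ 0) (hc : Associated n c) (k : R K) :
    ∑ x ∈ res n, eq (k * x) c = ind (n ∣ k) * nm n := by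
  rw [sum_res_associated hn hc fun x y h => eq_congr (mul_sub k x y ▸ (hc.symm.dvd.trans h).mul_left k),
    sum_eq (hc.ne_zero_iff.1 hn), nm_of_associated hc, hc.dvd_iff_dvd_left]

/-- finite Fourier transform -/
noncomputable def fhat (q : R K) (f : R K → ℂ) (a : R K) : ℂ :=
  (∑ x ∈ res q, f x * eq (-(a * x)) q) / nm q
theorem fhat_per (q : R K) (f : R K → ℂ) : Per q (fhat q f) := by
  intro x y h
  simp only [fhat]
  refine congrArg (· / _) (Finset.sum_congr rfl fun z _ => congrArg _ (eq_congr ?_))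
  rw [neg_sub_neg, ← sub_mul]
  exact (dvd_sub_comm.1 h).mul_right z
theorem fourier_inv {q : R K} (hq : q ≠ 0) {f : R K → ℂ} (hf : Per q f) (x : R K) :
    f x = ∑ a ∈ res q, fhat q f a * eq (a * x) q := by
  have h4 : (nm q : ℂ) ≠ 0 := by exact_mod_cast (nm_pos hq).ne'
  simp only [fhat, div_mul_eq_mul_div, ← Finset.sum_div, Finset.sum_mul]
  rw [Finset.sum_comm, eq_div_iff h4]
  have : ∀ y, ∑ a ∈ res q, f y * eq (-(a * y)) q * eq (a * x) q = f x * nm q * ind (q ∣ x - y) :=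
    fun y => by
      simp only [mul_assoc, ← eq_add, ← Finset.mul_sum]
      rw [Finset.sum_congr rfl fun a _ => show eq (-(a * y) + a * x) q = eq ((x - y) * a) q by
        ring_nf, sum_eq hq]
      by_cases h : q ∣ x - y
      · rw [hf x y h, mul_comm (ind _)]
      · simp [ind_of_not h]
  simp only [this, ← Finset.mul_sum, sum_res_ind hq, mul_one]
theorem parseval {q : R K} (hq : q ≠ 0) (f : R K → ℂ) :
    ∑ a ∈ res q, ‖fhat q f a‖ ^ 2 = (∑ x ∈ res q, ‖f x‖ ^ 2) / nm q := by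
  have h4 : (nm q : ℂ) ≠ 0 := by exact_mod_cast (nm_pos hq).ne'
  have key : ∀ x ∈ res q, ∑ a ∈ res q, fhat q f a * eq (a * x) q = f x := fun x hx => by
    simp only [fhat, div_mul_eq_mul_div, ← Finset.sum_div, Finset.sum_mul]
    rw [Finset.sum_comm, div_eq_iff h4]
    have : ∀ y, ∑ a ∈ res q, f y * eq (-(a * y)) q * eq (a * x) q = f y * (ind (q ∣ x - y) * nm q) :=
      fun y => by
        simp only [mul_assoc, ← eq_add, ← Finset.mul_sum]
        rw [Finset.sum_congr rfl fun a _ => show eq (-(a * y) + a * x) q = eq ((x - y) * a) q by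
          ring_nf, sum_eq hq]
    simp only [this]
    rw [Finset.sum_eq_single_of_mem x hx fun b hb hne => by
      rw [ind_of_not fun h => hne ((res_spec hq x).unique ⟨hb, h⟩ ⟨hx, by simp⟩), zero_mul,
        mul_zero], ind_of (by simp), one_mul]
  apply Complex.ofReal_injective
  push_cast
  simp only [← Complex.mul_conj']
  rw [Finset.sum_congr rfl fun x hx => congrArg (· * conj (f x)) (key x hx).symm]
  simp only [Finset.sum_mul, Finset.sum_div]
  rw [Finset.sum_comm]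
  refine Finset.sum_congr rfl fun a _ => ?_
  conv_lhs => rw [fhat.eq_1 q f a, map_div₀, map_sum, ← fhat]
  simp only [map_mul, conj_eq, neg_neg, map_natCast, Finset.sum_div, Finset.mul_sum]
  exact Finset.sum_congr rfl fun x _ => by ring
theorem sum_norm_fhat_le {q : R K} (hq : q ≠ 0) {f : R K → ℂ} (h : ∀ x, ‖f x‖ ≤ 1) :
    ∑ a ∈ res q, ‖fhat q f a‖ ≤ √(nm q) := by
  have h4 : (0 : ℝ) < nm q := by exact_mod_cast nm_pos hq
  refine Real.le_sqrt_of_sq_le ((sq_sum_le_card_mul_sum_sq).trans ?_)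
  rw [parseval hq, card_res hq, mul_div_cancel₀ _ h4.ne']
  refine (Finset.sum_le_card_nsmul _ _ 1 fun x _ => ?_).trans (by simp [card_res hq])
  exact pow_le_one₀ (norm_nonneg _) (h x)

end Vale.Agent.P319
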