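import Vale.Agent.P319.N.Ideals
import Vale.Agent.P319.N.LatEU
import Vale.Agent.P319.N.Res

/-! # PSQ: fractional ideals supported above `M`. -/

namespace Vale.Agent.P319

open scoped ComplexConjugate Real NumberField nonZeroDivisors
open MeasureTheory

variable {K : Type} [Field K] [NumberField K] [Stp K]

/-- the element of `R` given by `x : K` -/
noncomputable def toR (x : K) : R K :=
  open Classical in if h : ∃ y : R K, (y : K) = x then h.choose else 0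

/-- the norm of a fractional ideal -/
noncomputable def NI (I : FI K) : ℝ := (FractionalIdeal.absNorm I : ℚ)

/-- fractional ideals supported above `M` -/
def SF (I : FI K) : Prop :=
  ∃ k : ℕ, (MM K : K) ^ k ∈ I ∧ ∀ x ∈ I, ∃ t : 𝓞 K, (MM K : K) ^ k * x = t

/-- the part of `(x)` supported above `M` -/
noncomputable def sp (x : R K) : FI K :=
  FractionalIdeal.spanSingleton (𝓞 K)⁰ (x : K) * (idl x : FI K)⁻¹

theorem coe_toR {x : K} (h : x ∈ RS K) : (toR x : K) = x := by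
  have h' := (mem_RS_iff K x).1 h
  rw [toR, dif_pos h']
  exact h'.choose_spec

theorem toR_coe (y : R K) : toR (y : K) = y := coe_injective (coe_toR (coe_mem y))

theorem toR_mul (y : R K) {x : K} (h : x ∈ RS K) : toR ((y : K) * x) = y * toR x := by
  obtain ⟨z, rfl⟩ := (mem_RS_iff K x).1 h
  rw [← map_mul, toR_coe, toR_coe]

theorem toR_add {x y : K} (hx : x ∈ RS K) (hy : y ∈ RS K) : toR (x + y) = toR x + toR y := by
  obtain ⟨z, rfl⟩ := (mem_RS_iff K x).1 hx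
  obtain ⟨w, rfl⟩ := (mem_RS_iff K y).1 hy
  rw [← map_add, toR_coe, toR_coe, toR_coe]

theorem toR_sub {x y : K} (hx : x ∈ RS K) (hy : y ∈ RS K) : toR (x - y) = toR x - toR y := by
  obtain ⟨z, rfl⟩ := (mem_RS_iff K x).1 hx
  obtain ⟨w, rfl⟩ := (mem_RS_iff K y).1 hy
  rw [← map_sub, toR_coe, toR_coe, toR_coe]

theorem toR_zero : toR (0 : K) = 0 := by
  rw [← map_zero (algebraMap (R K) K), toR_coe]

theorem toR_int (t : 𝓞 K) : toR (t : K) = algebraMap (𝓞 K) (R K) t := by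
  rw [← coe_int, toR_coe]

theorem toR_ne_zero {x : K} (h : x ∈ RS K) (h0 : x ≠ 0) : toR x ≠ 0 := fun e =>
  h0 (by rw [← coe_toR h, e, map_zero])

omit [Stp K] in
theorem NI_pos {I : FI K} (h : I ≠ 0) : 0 < NI I := absNorm_FI_pos h

omit [Stp K] in
theorem NI_mul (I J : FI K) : NI (I * J) = NI I * NI J := by
  rw [NI, map_mul, Rat.cast_mul, NI, NI]

omit [Stp K] in
theorem NI_inv (I : FI K) : NI I⁻¹ = (NI I)⁻¹ := by
  rw [NI, map_inv₀, Rat.cast_inv, NI]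

omit [Stp K] in
theorem NI_one : NI (1 : FI K) = 1 := by
  rw [NI, map_one, Rat.cast_one]

omit [Stp K] in
theorem NI_coe (J : Ideal (𝓞 K)) : NI (J : FI K) = Ideal.absNorm J := by
  rw [NI, FractionalIdeal.coeIdeal_absNorm]
  push_cast
  rfl

omit [Stp K] in
theorem NI_span (x : K) : NI (FractionalIdeal.spanSingleton (𝓞 K)⁰ x) = nK x :=
  absNorm_spanSingleton x

theorem NI_sp {x : R K} (h : x ≠ 0) : NI (sp x) = nK (x : K) / nm x := by
  have _ := h
  rw [sp, NI_mul, NI_inv, NI_span, NI_coe, absNorm_idl, div_eq_mul_inv]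

theorem coe_idl_ne_zero {x : R K} (h : x ≠ 0) : (idl x : FI K) ≠ 0 :=
  FractionalIdeal.coeIdeal_ne_zero.2 (idl_ne_bot h)

omit [Stp K] in
theorem span_mul_le_one {a : K} {I : FI K} :
    FractionalIdeal.spanSingleton (𝓞 K)⁰ a * I ≤ 1 ↔ ∀ x ∈ I, ∃ t : 𝓞 K, a * x = t := by
  refine ⟨fun h x hx => ?_, fun h => FractionalIdeal.mul_le.2 fun i hi j hj => ?_⟩
  · obtain ⟨t, ht⟩ := (FractionalIdeal.mem_one_iff _).1 (h (FractionalIdeal.mul_mem_mul
      (FractionalIdeal.mem_spanSingleton_self _ a) hx))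
    exact ⟨t, ht.symm⟩
  · obtain ⟨z, rfl⟩ := (FractionalIdeal.mem_spanSingleton _).1 hi
    obtain ⟨t, ht⟩ := h j hj
    exact (FractionalIdeal.mem_one_iff _).2 ⟨z * t, by rw [smul_mul_assoc, ht, map_mul, Algebra.smul_def]⟩

theorem sF_iff {I : FI K} : SF I ↔ ∃ k : ℕ,
    FractionalIdeal.spanSingleton (𝓞 K)⁰ ((MM K : K) ^ k) ≤ I ∧
      FractionalIdeal.spanSingleton (𝓞 K)⁰ ((MM K : K) ^ k) * I ≤ 1 := by
  simp only [SF, FractionalIdeal.spanSingleton_le_iff_mem, span_mul_le_one]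

theorem span_M_ne_zero (k : ℕ) : FractionalIdeal.spanSingleton (𝓞 K)⁰ ((MM K : K) ^ k) ≠ 0 :=
  FractionalIdeal.spanSingleton_ne_zero_iff.2 (pow_ne_zero k M_ne_zero)

theorem SF.ne_zero {I : FI K} (h : SF I) : I ≠ 0 := by
  obtain ⟨k, h1, -⟩ := h
  rintro rfl
  exact pow_ne_zero k M_ne_zero ((FractionalIdeal.mem_zero_iff _).1 h1)

theorem SF.mem_RS {I : FI K} (h : SF I) {x : K} (hx : x ∈ I) : x ∈ RS K := by
  obtain ⟨k, -, h2⟩ := h
  exact (mem_RS_iff_pow x).2 ⟨k, h2 x hx⟩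

/-- `M ^ k * I` is an `S`-ideal -/
theorem SF.exists_sId {I : FI K} (h : SF I) : ∃ (k : ℕ) (s : Ideal (𝓞 K)), SId s ∧
    (s : FI K) = FractionalIdeal.spanSingleton (𝓞 K)⁰ ((MM K : K) ^ k) * I := by
  obtain ⟨k, h1, h2⟩ := sF_iff.1 h
  obtain ⟨s, hs⟩ := FractionalIdeal.le_one_iff_exists_coeIdeal.1 h2
  refine ⟨k, s, ⟨k + k, ?_⟩, hs⟩
  have : (MM K : K) ^ k * (MM K : K) ^ k ∈ (s : FI K) := hs ▸ FractionalIdeal.mul_mem_mul
    (FractionalIdeal.mem_spanSingleton_self _ _) (FractionalIdeal.spanSingleton_le_iff_mem.1 h1)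
  obtain ⟨t, ht, e⟩ := (FractionalIdeal.mem_coeIdeal _).1 this
  have : t = (MM K : 𝓞 K) ^ (k + k) := NumberField.RingOfIntegers.coe_injective (by
    simpa [pow_add] using e)
  exact this ▸ ht

theorem SId.sF {s : Ideal (𝓞 K)} (h : SId s) : SF (s : FI K) := by
  obtain ⟨k, hk⟩ := h
  refine ⟨k, (FractionalIdeal.mem_coeIdeal _).2 ⟨_, hk, by simp⟩, fun x hx => ?_⟩
  obtain ⟨t, -, rfl⟩ := (FractionalIdeal.mem_coeIdeal _).1 hx
  exact ⟨(MM K : 𝓞 K) ^ k * t, by simp⟩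

theorem sF_one : SF (1 : FI K) := by
  simpa using (sId_top (K := K)).sF

theorem SF.mul {I J : FI K} (hI : SF I) (hJ : SF J) : SF (I * J) := by
  obtain ⟨k, h1, h2⟩ := sF_iff.1 hI
  obtain ⟨l, h3, h4⟩ := sF_iff.1 hJ
  refine sF_iff.2 ⟨k + l, ?_, ?_⟩
  · rw [pow_add, ← FractionalIdeal.spanSingleton_mul_spanSingleton]
    exact mul_le_mul' h1 h3
  · rw [pow_add, ← FractionalIdeal.spanSingleton_mul_spanSingleton, mul_mul_mul_comm]
    exact mul_le_one' h2 h4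

theorem SF.inv {I : FI K} (h : SF I) : SF I⁻¹ := by
  have h0 := h.ne_zero
  obtain ⟨k, h1, h2⟩ := sF_iff.1 h
  refine sF_iff.2 ⟨k, ?_, ?_⟩
  · calc _ = FractionalIdeal.spanSingleton (𝓞 K)⁰ ((MM K : K) ^ k) * I * I⁻¹ := by
          rw [mul_inv_cancel_right₀ h0]
      _ ≤ 1 * I⁻¹ := by gcongr
      _ = _ := one_mul _
  · calc _ ≤ I * I⁻¹ := by gcongr
      _ = 1 := mul_inv_cancel₀ h0

theorem sF_dl_one : SF (dl (1 : FI K)) := by
  refine ⟨1, FractionalIdeal.one_le_dual_one ℤ ℚ ((FractionalIdeal.mem_one_iff _).2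
    ⟨MM K, by simp⟩), fun x hx => ?_⟩
  rw [pow_one]
  exact exists_int_of_eTr fun t => (mem_dual_iff sF_one.ne_zero).1 hx t
    ((FractionalIdeal.mem_one_iff _).2 ⟨t, rfl⟩)

theorem SF.dl {I : FI K} (h : SF I) : SF (dl I) := by
  rw [Vale.Agent.P319.dl, FractionalIdeal.dual_eq_mul_inv]
  exact sF_dl_one.mul h.inv

theorem sp_mul (x y : R K) : sp (x * y) = sp x * sp y := by
  rw [sp, sp, sp, idl_mul, map_mul, FractionalIdeal.coeIdeal_mul, mul_inv,
    ← FractionalIdeal.spanSingleton_mul_spanSingleton, mul_mul_mul_comm]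

theorem sp_int {t : 𝓞 K} (h : t ≠ 0) :
    sp (algebraMap (𝓞 K) (R K) t) = (spart (Ideal.span {t}) : FI K) := by
  have h1 : idl (gen (Ideal.span {t})) = idl (algebraMap (𝓞 K) (R K) t) := by
    rw [gen_span]
    exact idl_eq_iff.2 (associated_pp _).symm
  have h2 := congrArg (fun I : Ideal (𝓞 K) => (I : FI K)) (spart_mul_idl (Ideal.span {t}))
  simp only [FractionalIdeal.coeIdeal_mul, h1, FractionalIdeal.coeIdeal_span_singleton] at h2
  rw [sp, coe_int, ← h2, mul_inv_cancel_right₀ (coe_idl_ne_zero (int_ne_zero h))]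

theorem sp_ne_zero {x : R K} (h : x ≠ 0) : sp x ≠ 0 :=
  mul_ne_zero (FractionalIdeal.spanSingleton_ne_zero_iff.2 (coe_ne_zero h))
    (inv_ne_zero (coe_idl_ne_zero h))

theorem sF_sp {x : R K} (h : x ≠ 0) : SF (sp x) := by
  obtain ⟨k, t, e⟩ := exists_pow_mul x
  have hM : (MM K : R K) ^ k = algebraMap (𝓞 K) (R K) ((MM K : 𝓞 K) ^ k) := by simp
  have h1 := pow_ne_zero k (M_int_ne_zero (K := K))
  have ht : t ≠ 0 := by
    rintro rfl
    exact mul_ne_zero (isUnit_MR.pow k).ne_zero h (by rw [e, map_zero])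
  have h2 : ∀ {t : 𝓞 K}, t ≠ 0 → SF (sp (algebraMap (𝓞 K) (R K) t)) := fun ht => by
    rw [sp_int ht]
    exact (sId_spart (Ideal.span_singleton_eq_bot.not.2 ht)).sF
  have h3 := (h2 h1).inv.mul (h2 ht)
  rwa [← e, hM, sp_mul, inv_mul_cancel_left₀ (h2 h1).ne_zero] at h3

theorem sp_coprime {t : 𝓞 K} (h : IsCoprime t (MM K : 𝓞 K)) (h0 : t ≠ 0) :
    sp (algebraMap (𝓞 K) (R K) t) = 1 := by
  rw [sp, idl_int h, coe_int, FractionalIdeal.coeIdeal_span_singleton]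
  exact mul_inv_cancel₀ (FractionalIdeal.spanSingleton_ne_zero_iff.2 (by simpa using h0))

theorem sp_eq_of_inU {x y : R K} (h : InU ((x : K) / y)) : sp x = sp y := by
  have h0 := h.ne_zero (by norm_num)
  have hy : (y : K) ≠ 0 := fun e => h0 (by rw [e, div_zero])
  obtain ⟨s, t, hs, e⟩ := h
  have hs0 : s ≠ 0 := by
    rintro rfl
    exact not_sIn_one (K := K) ⟨MM K, 1, isCoprime_self.2 (isCoprime_zero_left.1 hs), by simp⟩
  have hs' : IsCoprime (s + (MM K : 𝓞 K) * ((MM K : 𝓞 K) ^ 9 * t)) (MM K : 𝓞 K) :=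
    hs.add_mul_left_left _
  have e1 : algebraMap (𝓞 K) (R K) s * x =
      algebraMap (𝓞 K) (R K) (s + (MM K : 𝓞 K) * ((MM K : 𝓞 K) ^ 9 * t)) * y := by
    apply coe_injective
    rw [map_mul, map_mul, coe_int, coe_int]
    push_cast
    field_simp at e
    linear_combination e
  have hx : x ≠ 0 := fun e => h0 (by rw [e, map_zero, zero_div])
  have hs1 : s + (MM K : 𝓞 K) * ((MM K : 𝓞 K) ^ 9 * t) ≠ 0 := fun e => by
    rw [e, map_zero, zero_mul] at e1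
    exact mul_ne_zero (int_ne_zero hs0) hx e1
  have e2 := congrArg sp e1
  rwa [sp_mul, sp_mul, sp_coprime hs hs0, sp_coprime hs' hs1, one_mul, one_mul] at e2

theorem mem_sp_inv {e : R K} (he : e ≠ 0) {x : K} :
    x ∈ (sp e)⁻¹ ↔ (e : K) * x ∈ (1 : FI K) ∧ e ∣ toR ((e : K) * x) := by
  have h0 := coe_ne_zero he
  have h1 : x ∈ (sp e)⁻¹ ↔ (e : K) * x ∈ (idl e : FI K) := by
    rw [sp, mul_inv, inv_inv, FractionalIdeal.spanSingleton_inv, FractionalIdeal.mem_singleton_mul]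
    exact ⟨fun ⟨y, hy, e⟩ => by rwa [e, mul_inv_cancel_left₀ h0],
      fun h => ⟨_, h, (inv_mul_cancel_left₀ h0 x).symm⟩⟩
  rw [h1, FractionalIdeal.mem_coeIdeal, FractionalIdeal.mem_one_iff]
  refine ⟨fun ⟨t, ht, e⟩ => ⟨⟨t, e⟩, ?_⟩, fun ⟨⟨t, e⟩, h⟩ => ⟨t, ?_, e⟩⟩
  · rw [← e]
    exact (toR_int t).symm ▸ mem_idl.1 ht
  · rw [← e] at h
    exact mem_idl.2 (toR_int t ▸ h)

/-- the integral ideal `(x) / I` -/
theorem SF.exists_ideal {I : FI K} (h : SF I) {x : K} (hx : x ∈ I) (h0 : x ≠ 0) :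
    ∃ J : Ideal (𝓞 K), J ≠ ⊥ ∧ (J : FI K) = FractionalIdeal.spanSingleton (𝓞 K)⁰ x * I⁻¹ ∧
      gen J = pp (toR x) ∧ (Ideal.absNorm J : ℝ) = nK x / NI I := by
  have hI := h.ne_zero
  have h1 : FractionalIdeal.spanSingleton (𝓞 K)⁰ x * I⁻¹ ≤ 1 := by
    calc _ ≤ I * I⁻¹ := by
          gcongr
          exact FractionalIdeal.spanSingleton_le_iff_mem.2 hx
      _ = 1 := mul_inv_cancel₀ hI
  obtain ⟨J, hJ⟩ := FractionalIdeal.le_one_iff_exists_coeIdeal.1 h1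
  refine ⟨J, ?_, hJ, ?_, by rw [← NI_coe, hJ, NI_mul, NI_inv, NI_span, div_eq_mul_inv]⟩
  · rw [← FractionalIdeal.coeIdeal_ne_zero (K := K), hJ]
    exact mul_ne_zero (FractionalIdeal.spanSingleton_ne_zero_iff.2 h0) (inv_ne_zero hI)
  · obtain ⟨k, s, hs, e⟩ := h.exists_sId
    have h2 : (MM K : K) ^ k * x ∈ (s : FI K) := e ▸ FractionalIdeal.mul_mem_mul
      (FractionalIdeal.mem_spanSingleton_self _ _) hx
    obtain ⟨t, -, ht⟩ := (FractionalIdeal.mem_coeIdeal _).1 h2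
    have h3 : Ideal.span {t} = J * s := FractionalIdeal.coeIdeal_injective (K := K) (by
      simp only [FractionalIdeal.coeIdeal_mul, FractionalIdeal.coeIdeal_span_singleton]
      rw [hJ, e, ht, ← FractionalIdeal.spanSingleton_mul_spanSingleton, mul_mul_mul_comm,
        inv_mul_cancel₀ hI, mul_one, mul_comm])
    have h4 := congrArg gen h3
    rw [gen_mul, sId_iff_gen.1 hs, mul_one, gen_span, ← toR_int] at h4
    have h5 : (t : K) = (((uM K ^ k : (R K)ˣ) : R K) : K) * x := by simpa using ht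
    rw [← h4, h5, toR_mul _ (h.mem_RS hx), pp_unit_mul]

theorem SF.mem_mul_idl {I : FI K} (h : SF I) {q : R K} (hq : q ≠ 0) {x : K} (hx : x ∈ I) :
    x ∈ I * (idl q : FI K) ↔ q ∣ toR x := by
  have _ := hq
  by_cases h0 : x = 0
  · simp [h0, toR_zero, FractionalIdeal.zero_mem]
  obtain ⟨J, hJ, e, hg, -⟩ := h.exists_ideal hx h0
  have h1 : x ∈ I * (idl q : FI K) ↔ J ≤ idl q := by
    rw [← FractionalIdeal.spanSingleton_le_iff_mem, ← FractionalIdeal.coeIdeal_le_coeIdeal K, e,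
      mul_inv_le_iff₀ (pos_iff_ne_zero.2 h.ne_zero), mul_comm]
  rw [h1, ← dvd_pp_iff, ← hg]
  refine ⟨fun h2 => ?_, fun h2 => (le_idl_gen J).trans (idl_le_iff.2 h2)⟩
  rw [← Ideal.span_singleton_le_span_singleton, span_gen, ← map_idl]
  exact Ideal.map_mono h2

theorem SF.exists_congr {I : FI K} (h : SF I) {q : R K} (hq : q ≠ 0) (z : R K) :
    ∃ x ∈ I, q ∣ z - toR x := by
  obtain ⟨k, h1, -⟩ := h
  obtain ⟨t, ht⟩ := exists_int_congr hq ((((uM K ^ k)⁻¹ : (R K)ˣ) : R K) * z)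
  refine ⟨t • (MM K : K) ^ k, Submodule.smul_mem (I : Submodule (𝓞 K) K) t h1, ?_⟩
  have e : t • (MM K : K) ^ k = (((uM K ^ k : (R K)ˣ) : R K) : K) * t := by
    simp [Algebra.smul_def, mul_comm]
  have h2 := ht.mul_left ((uM K ^ k : (R K)ˣ) : R K)
  rwa [mul_sub, Units.mul_inv_cancel_left, ← toR_int, ← toR_mul _ (int_mem t), ← e] at h2

theorem SF.sum_reps {I : FI K} (h : SF I) {q : R K} (hq : q ≠ 0) {T : Finset K}
    (hT : Reps I (I * (idl q : FI K)) T) {g : R K → ℂ} (hg : Per q g) :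
    ∑ x ∈ T, g (toR x) = ∑ z ∈ res q, g z := by
  refine (sum_res_eq hq hg T toR fun z => ?_).symm
  obtain ⟨x, hx, hz⟩ := h.exists_congr hq z
  have key : ∀ y ∈ T, (x - y ∈ I * (idl q : FI K) ↔ q ∣ z - toR y) := fun y hy => by
    rw [h.mem_mul_idl hq (Submodule.sub_mem (I : Submodule (𝓞 K) K) hx (hT.1 y hy)),
      toR_sub (h.mem_RS hx) (h.mem_RS (hT.1 y hy)), ← dvd_add_right hz, sub_add_sub_cancel]
  exact (existsUnique_congr fun y => and_congr_right (key y)).1 (hT.2 x hx)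

end Vale.Agent.P319
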