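import Vale.Agent.P319.N.PSAux

/-! # PSQ: square expansion according to the gcd.  Port of `P026/PSSq.lean`: the sum over `h : O` with weight `exp (-(nm h / Y))`
becomes a sum over `i : ι` of points `x i` with a summable weight `w i`. -/

namespace Vale.Agent.P319

open scoped ComplexConjugate Real
open MeasureTheory

variable {K : Type} [Field K] [NumberField K] [Stp K]

theorem pss_dvd_iff {m1 m2 : R K} (h : IsCoprime m1 m2) (g Δ : R K) :
    g ∣ Δ * m1 ∧ g ∣ Δ * m2 ↔ g ∣ Δ := by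
  refine ⟨fun ⟨h1, h2⟩ => ?_, fun h1 => ⟨h1.mul_right _, h1.mul_right _⟩⟩
  obtain ⟨u, v, huv⟩ := h
  have : Δ = u * (Δ * m1) + v * (Δ * m2) := by linear_combination (-Δ) * huv
  rw [this]
  exact dvd_add (h1.mul_left _) (h2.mul_left _)

theorem pss_X_mul_conj (F : Fam K) {Δ : R K} (hΔ : Prim Δ) (h : R K) :
    F.X Δ h * conj (F.X Δ h) = ind (IsCoprime h Δ) := by
  by_cases hc : IsCoprime h Δ
  · rw [ind_of hc, Complex.mul_conj, Complex.normSq_eq_norm_sq,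
      F.norm_X Δ h hΔ hc]
    norm_num
  · rw [ind_of_not hc, F.X_eq_zero Δ h hΔ hc, zero_mul]

theorem pss_summable (F : Fam K) {ι : Type} (x : ι → R K) {w : ι → ℂ} (hw : Summable w) (Δ : R K)
    {m1 m2 : R K} (h1 : Prim m1) (h2 : Prim m2) :
    Summable fun i => w i * ind (IsCoprime (x i) Δ) * F.X m1 (x i) * conj (F.X m2 (x i)) := by
  refine Summable.of_norm_bounded hw.norm fun h => ?_
  rw [norm_mul, norm_mul, norm_mul, Complex.norm_conj, mul_assoc, mul_assoc]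
  exact mul_le_of_le_one_right (norm_nonneg _) (mul_le_one₀ (norm_ind_le _) (by positivity)
    (mul_le_one₀ (psd_norm_X_le F h1 _) (norm_nonneg _) (psd_norm_X_le F h2 _)))

theorem sq_point (F : Fam K) {Z : ℝ} {b : R K → ℂ} (hb : ∀ n, b n ≠ 0 → n ∈ sball K Z) (g h : R K) :
    ((‖∑ n ∈ sball K Z, ind (g ∣ n) * b n * F.X n h‖ ^ 2 : ℝ) : ℂ) =
      ∑ Δ ∈ sball K Z, ind (g ∣ Δ) * ∑ m1 ∈ sball K Z, ∑ m2 ∈ sball K Z,
        ind (IsCoprime m1 m2) * (b (Δ * m1) * conj (b (Δ * m2))) *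
          (ind (IsCoprime h Δ) * F.X m1 h * conj (F.X m2 h)) := by
  classical
  have hL : ((‖∑ n ∈ sball K Z, ind (g ∣ n) * b n * F.X n h‖ ^ 2 : ℝ) : ℂ) =
      ∑ p ∈ sball K Z ×ˢ sball K Z,
        ind (g ∣ p.1) * b p.1 * F.X p.1 h * conj (ind (g ∣ p.2) * b p.2 * F.X p.2 h) := by
    rw [Finset.sum_product, ← Complex.normSq_eq_norm_sq, ← Complex.mul_conj, map_sum,
      Finset.sum_mul_sum]
  have hR : ∑ Δ ∈ sball K Z, ind (g ∣ Δ) * ∑ m1 ∈ sball K Z, ∑ m2 ∈ sball K Z,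
        ind (IsCoprime m1 m2) * (b (Δ * m1) * conj (b (Δ * m2))) *
          (ind (IsCoprime h Δ) * F.X m1 h * conj (F.X m2 h)) =
      ∑ q ∈ (sball K Z ×ˢ sball K Z ×ˢ sball K Z).filter
        (fun q => IsCoprime q.2.1 q.2.2 ∧ q.1 * q.2.1 ∈ sball K Z ∧ q.1 * q.2.2 ∈ sball K Z),
        ind (g ∣ q.1) * ((b (q.1 * q.2.1) * conj (b (q.1 * q.2.2))) *
          (ind (IsCoprime h q.1) * F.X q.2.1 h * conj (F.X q.2.2 h))) := by
    rw [Finset.sum_filter, Finset.sum_product]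
    refine Finset.sum_congr rfl fun Δ _ => ?_
    rw [Finset.sum_product, Finset.mul_sum]
    refine Finset.sum_congr rfl fun m1 _ => ?_
    rw [Finset.mul_sum]
    refine Finset.sum_congr rfl fun m2 _ => ?_
    split_ifs with hc
    · rw [ind_of hc.1, one_mul]
    · by_cases h1 : IsCoprime m1 m2
      · by_cases h2 : b (Δ * m1) = 0
        · simp [h2]
        · by_cases h3 : b (Δ * m2) = 0
          · simp [h3]
          · exact absurd ⟨h1, hb _ h2, hb _ h3⟩ hc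
      · simp [ind_of_not h1]
  rw [hL, hR]
  symm
  refine Finset.sum_bij (fun q _ => (q.1 * q.2.1, q.1 * q.2.2)) ?_ ?_ ?_ ?_
  · intro q hq
    rw [Finset.mem_filter] at hq
    exact Finset.mem_product.2 ⟨hq.2.2.1, hq.2.2.2⟩
  · intro q hq r hr e
    rw [Finset.mem_filter, Finset.mem_product] at hq hr
    have pq := (mem_sball.1 hq.1.1).1.1
    have pr := (mem_sball.1 hr.1.1).1.1
    have e1 : q.1 * q.2.1 = r.1 * r.2.1 := congrArg Prod.fst e
    have e2 : q.1 * q.2.2 = r.1 * r.2.2 := congrArg Prod.snd e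
    have d1 : q.1 ∣ r.1 := (pss_dvd_iff hr.2.1 _ _).1 ⟨e1 ▸ dvd_mul_right _ _, e2 ▸ dvd_mul_right _ _⟩
    have d2 : r.1 ∣ q.1 := (pss_dvd_iff hq.2.1 _ _).1 ⟨e1 ▸ dvd_mul_right _ _, e2 ▸ dvd_mul_right _ _⟩
    have e3 : q.1 = r.1 := pq.eq_of_associated pr (associated_of_dvd_dvd d1 d2)
    rw [e3] at e1 e2
    exact Prod.ext e3 (Prod.ext (mul_left_cancel₀ pr.ne_zero e1) (mul_left_cancel₀ pr.ne_zero e2))
  · rintro ⟨n1, n2⟩ hp
    rw [Finset.mem_product] at hp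
    obtain ⟨hp1, hp2⟩ := hp
    have s1 := (mem_sball.1 hp1).1
    have s2 := (mem_sball.1 hp2).1
    obtain ⟨d, hd, ⟨m1, rfl⟩, ⟨m2, rfl⟩, hmax⟩ := exists_prim_gcd n2 s1.1
    have k1 : m1 ∈ sball K Z := psd_pdiv_subset hp1
      ((mem_pdiv s1.ne_zero).2 ⟨hd.of_mul s1.1, dvd_mul_left _ _⟩)
    have k2 : m2 ∈ sball K Z := psd_pdiv_subset hp2
      ((mem_pdiv s2.ne_zero).2 ⟨hd.of_mul s2.1, dvd_mul_left _ _⟩)
    have k3 : d ∈ sball K Z := psd_pdiv_subset hp1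
      ((mem_pdiv s1.ne_zero).2 ⟨hd, dvd_mul_right _ _⟩)
    refine ⟨(d, m1, m2), ?_, rfl⟩
    rw [Finset.mem_filter, Finset.mem_product, Finset.mem_product]
    refine ⟨⟨k3, k1, k2⟩, ?_, hp1, hp2⟩
    refine IsRelPrime.isCoprime fun e h1 h2 => ?_
    have := hmax (d * e) (mul_dvd_mul_left d h1) (mul_dvd_mul_left d h2)
    exact isUnit_of_dvd_one ((mul_dvd_mul_iff_left hd.ne_zero).1 (by rwa [mul_one]))
  · intro q hq
    rw [Finset.mem_filter, Finset.mem_product, Finset.mem_product] at hq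
    have p0 := (mem_sball.1 hq.1.1).1.1
    have p1 := (mem_sball.1 hq.1.2.1).1.1
    have p2 := (mem_sball.1 hq.1.2.2).1.1
    have e1 : ind (g ∣ q.1) = ind (g ∣ q.1 * q.2.1) * ind (g ∣ q.1 * q.2.2) := by
      rw [← ind_and, pss_dvd_iff hq.2.1]
    rw [e1, ← pss_X_mul_conj F p0, F.mul_left _ _ _ p0 p1, F.mul_left _ _ _ p0 p2]
    simp only [map_mul, conj_ind]
    ring

theorem sq_expand_w (F : Fam K) {ι : Type} (x : ι → R K) {w : ι → ℂ} (hw : Summable w) {Z : ℝ}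
    {b : R K → ℂ} (hb : ∀ n, b n ≠ 0 → n ∈ sball K Z) (g : R K) :
    ∑' i, w i * ((‖∑ n ∈ sball K Z, ind (g ∣ n) * b n * F.X n (x i)‖ ^ 2 : ℝ) : ℂ) =
      ∑ Δ ∈ sball K Z, ind (g ∣ Δ) *
        BilW F x w Z (fun m => b (Δ * m)) (fun m => b (Δ * m)) Δ := by
  have hs : ∀ Δ, ∀ m1 ∈ sball K Z, ∀ m2 ∈ sball K Z, HasSum (fun i =>
      ind (IsCoprime m1 m2) * (b (Δ * m1) * conj (b (Δ * m2))) *
        (w i * ind (IsCoprime (x i) Δ) * F.X m1 (x i) * conj (F.X m2 (x i))))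
      (ind (IsCoprime m1 m2) * (b (Δ * m1) * conj (b (Δ * m2))) *
        ∑' i, w i * ind (IsCoprime (x i) Δ) * F.X m1 (x i) * conj (F.X m2 (x i))) :=
    fun Δ m1 h1 m2 h2 =>
      (pss_summable F x hw Δ (mem_sball.1 h1).1.1 (mem_sball.1 h2).1.1).hasSum.mul_left _
  have h := hasSum_sum (s := sball K Z) fun Δ _ =>
    (hasSum_sum fun m1 h1 => hasSum_sum fun m2 h2 => hs Δ m1 h1 m2 h2).mul_left (ind (g ∣ Δ))
  refine Eq.trans (tsum_congr fun k => ?_) h.tsum_eq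
  rw [sq_point F hb g (x k), Finset.mul_sum]
  refine Finset.sum_congr rfl fun Δ _ => ?_
  rw [mul_left_comm, Finset.mul_sum]
  congr 1
  refine Finset.sum_congr rfl fun m1 _ => ?_
  rw [Finset.mul_sum]
  refine Finset.sum_congr rfl fun m2 _ => ?_
  ring

theorem summable_sq (F : Fam K) {ι : Type} (x : ι → R K) {w : ι → ℝ} (hw : Summable w)
    (h0 : ∀ i, 0 ≤ w i) (Z : ℝ) (b : R K → ℂ) :
    Summable fun i => w i * ‖∑ n ∈ sball K Z, b n * F.X n (x i)‖ ^ 2 := by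
  refine Summable.of_nonneg_of_le (fun i => mul_nonneg (h0 i) (by positivity)) (fun i => ?_)
    (hw.mul_right ((∑ n ∈ sball K Z, ‖b n‖) ^ 2))
  refine mul_le_mul_of_nonneg_left (pow_le_pow_left₀ (norm_nonneg _) ?_ 2) (h0 i)
  refine (norm_sum_le _ _).trans (Finset.sum_le_sum fun n hn => ?_)
  rw [norm_mul]
  exact mul_le_of_le_one_right (norm_nonneg _) (psd_norm_X_le F (mem_sball.1 hn).1.1 _)

theorem sq_expand_le (F : Fam K) {ι : Type} (x : ι → R K) {w : ι → ℝ} (hw : Summable w) {Z : ℝ}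
    {b : R K → ℂ} (hb : ∀ n, b n ≠ 0 → n ∈ sball K Z) (g : R K) :
    ∑' i, w i * ‖∑ n ∈ sball K Z, ind (g ∣ n) * b n * F.X n (x i)‖ ^ 2 ≤
      ∑ Δ ∈ sball K Z, ‖ind (g ∣ Δ)‖ *
        ‖BilW F x (fun i => (w i : ℂ)) Z (fun m => b (Δ * m)) (fun m => b (Δ * m)) Δ‖ := by
  refine (Real.le_norm_self _).trans ?_
  rw [← Complex.norm_real, Complex.ofReal_tsum, tsum_congr fun i => Complex.ofReal_mul _ _,
    sq_expand_w F x (Complex.summable_ofReal.2 hw) hb g]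
  exact (norm_sum_le _ _).trans (Finset.sum_le_sum fun Δ _ => (norm_mul _ _).le)

theorem bil_mobius (F : Fam K) {ι : Type} (x : ι → R K) {w : ι → ℝ} (hw : Summable w)
    (h0 : ∀ i, 0 ≤ w i) (Z : ℝ) (β : R K → ℂ) (Δ : R K) :
    ‖BilW F x (fun i => (w i : ℂ)) Z β β Δ‖ ≤ ∑ f ∈ sball K Z, ∑' i, w i *
      ‖∑ m ∈ sball K Z, ind (f ∣ m) * β m * F.X m (x i)‖ ^ 2 := by
  have hw' : Summable fun i => ((w i : ℝ) : ℂ) := Complex.summable_ofReal.2 hw
  have key : BilW F x (fun i => (w i : ℂ)) Z β β Δ = ∑ f ∈ sball K Z, mu f *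
      ∑' i, ind (IsCoprime (x i) Δ) *
        ((w i * ‖∑ m ∈ sball K Z, ind (f ∣ m) * β m * F.X m (x i)‖ ^ 2 : ℝ) : ℂ) := by
    have h1 : ∀ f : R K, ∑' i, ind (IsCoprime (x i) Δ) *
        ((w i * ‖∑ m ∈ sball K Z, ind (f ∣ m) * β m * F.X m (x i)‖ ^ 2 : ℝ) : ℂ) =
        ∑ m1 ∈ sball K Z, ∑ m2 ∈ sball K Z, (ind (f ∣ m1) * ind (f ∣ m2)) *
          (β m1 * conj (β m2)) * ∑' i, (w i : ℂ) *
            ind (IsCoprime (x i) Δ) * F.X m1 (x i) * conj (F.X m2 (x i)) := by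
      intro f
      have h := hasSum_sum (s := sball K Z) fun m1 h1 => hasSum_sum (s := sball K Z) fun m2 h2 =>
        (pss_summable F x hw' Δ (mem_sball.1 h1).1.1 (mem_sball.1 h2).1.1).hasSum.mul_left
          ((ind (f ∣ m1) * ind (f ∣ m2)) * (β m1 * conj (β m2)))
      refine Eq.trans (tsum_congr fun k => ?_) h.tsum_eq
      rw [Complex.ofReal_mul, ← Complex.normSq_eq_norm_sq, ← Complex.mul_conj, map_sum,
        Finset.sum_mul_sum, Finset.mul_sum, Finset.mul_sum]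
      refine Finset.sum_congr rfl fun m1 _ => ?_
      rw [Finset.mul_sum, Finset.mul_sum]
      refine Finset.sum_congr rfl fun m2 _ => ?_
      simp only [map_mul, conj_ind]
      ring
    simp only [h1, Finset.mul_sum]
    rw [Finset.sum_comm]
    refine Finset.sum_congr rfl fun m1 hm1 => ?_
    rw [Finset.sum_comm]
    refine Finset.sum_congr rfl fun m2 _ => ?_
    rw [ind_coprime_sball hm1 m2, Finset.sum_mul, Finset.sum_mul]
    refine Finset.sum_congr rfl fun f _ => ?_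
    ring
  rw [key]
  refine (norm_sum_le _ _).trans (Finset.sum_le_sum fun f _ => ?_)
  rw [norm_mul]
  refine (mul_le_of_le_one_left (norm_nonneg _) (norm_mu_le f)).trans ?_
  have hs := summable_sq F x hw h0 Z fun m => ind (f ∣ m) * β m
  refine tsum_of_norm_bounded hs.hasSum fun i => ?_
  have h2 := mul_nonneg (h0 i) (sq_nonneg ‖∑ m ∈ sball K Z, ind (f ∣ m) * β m * F.X m (x i)‖)
  rw [norm_mul, Complex.norm_real, Real.norm_of_nonneg h2]
  exact mul_le_of_le_one_left h2 (norm_ind_le _)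

end Vale.Agent.P319
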