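import Vale.Agent.P319.N.PSAux

/-! # PSQ: the dual form is bounded by mean squares of linear forms.  Port of `P026/PSTwo.lean` (simpler: no classes, no `Fam`;
two coefficient sequences; `sep` is the hypothesis `Sep κ` with `L = 2 log B`; `y = a / X ^ 2`). -/

namespace Vale.Agent.P319

open scoped ComplexConjugate Real
open MeasureTheory

variable {K : Type} [Field K] [NumberField K] [Stp K]

theorem pstwo_cont_nt (m : R K) : Continuous fun t : ℝ => nt m t := by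
  unfold nt
  fun_prop

theorem pstwo_int {A : ℝ} (hA : 1 < A) : Integrable fun t : ℝ => (1 + |t|) ^ (-A) := by
  simpa only [Real.norm_eq_abs] using
    integrable_one_add_norm (E := ℝ) (μ := volume) (r := A) (by simpa using hA)

theorem pstwo_dker (κ : ℝ → ℝ) {B X c a : ℝ} (hB : 1 ≤ B) (hX : 0 < X) {m1 m2 : R K}
    (h1 : X / B ≤ nm m1 ∧ nm m1 ≤ B * X) (h2 : X / B ≤ nm m2 ∧ nm m2 ≤ B * X) :
    ∃ u : ℝ, |u| ≤ 2 * Real.log B ∧ dker κ (c * a) m1 m2 = X⁻¹ *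
      (Real.exp (-u / 2) * κ (c * (a / X ^ 2) * Real.exp (-u))) ∧
      ∀ t : ℝ, Complex.exp (Complex.I * t * u) =
        Complex.exp (-(Complex.I * t * (2 * Real.log X : ℝ))) * (nt m1 t * nt m2 t) := by
  have hB0 : 0 < B := by linarith
  have key : ∀ {a : ℝ}, X / B ≤ a ∧ a ≤ B * X → 0 < a ∧ |Real.log a - Real.log X| ≤ Real.log B :=
    fun {a} h => by
      have ha : 0 < a := lt_of_lt_of_le (by positivity) h.1
      have e1 := Real.log_le_log (by positivity) h.1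
      have e2 := Real.log_le_log ha h.2
      rw [Real.log_div hX.ne' hB0.ne'] at e1
      rw [Real.log_mul hB0.ne' hX.ne'] at e2
      exact ⟨ha, abs_le.2 ⟨by linarith, by linarith⟩⟩
  obtain ⟨a1, b1⟩ := key h1
  obtain ⟨a2, b2⟩ := key h2
  refine ⟨Real.log (nm m1) - Real.log X + (Real.log (nm m2) - Real.log X),
    (abs_add_le _ _).trans (by linarith), ?_, fun t => ?_⟩
  · have e1 : Real.exp (-(Real.log (nm m1) - Real.log X + (Real.log (nm m2) - Real.log X))) =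
        X ^ 2 / (nm m1 * nm m2) := by
      rw [Real.exp_neg, Real.exp_add, Real.exp_sub, Real.exp_sub, Real.exp_log a1, Real.exp_log a2,
        Real.exp_log hX]
      field_simp
    rw [Real.exp_half, e1, dker, Real.sqrt_div (sq_nonneg _), Real.sqrt_sq hX.le,
      Real.sqrt_mul a1.le, ← mul_assoc]
    congr 1
    · field_simp
    · congr 1
      field_simp
  · simp only [nt, ← Complex.exp_add]
    congr 1
    push_cast
    ring

theorem dual_alg (Z : ℝ) (γ₁ γ₂ : R K → ℂ) (t : ℝ) :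
    ‖∑ m1 ∈ sball K Z, ∑ m2 ∈ sball K Z, ind (IsCoprime m1 m2) * (γ₁ m1 * conj (γ₂ m2)) *
        (nt m1 t * nt m2 t)‖ ≤
      (∑ f ∈ sball K Z, ‖Tl Z γ₁ f t‖ ^ 2 + ∑ f ∈ sball K Z, ‖Tl Z γ₂ f (-t)‖ ^ 2) / 2 := by
  have e1 : ∑ m1 ∈ sball K Z, ∑ m2 ∈ sball K Z, ind (IsCoprime m1 m2) * (γ₁ m1 * conj (γ₂ m2)) *
      (nt m1 t * nt m2 t) =
      ∑ f ∈ sball K Z, mu f * (Tl Z γ₁ f t * conj (Tl Z γ₂ f (-t))) := by
    simp only [Tl, map_sum, map_mul, conj_ind, conj_nt, neg_neg, Finset.sum_mul_sum]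
    simp only [Finset.mul_sum]
    rw [Finset.sum_comm (s := sball K Z) (t := sball K Z) (f := fun f m1 => ∑ m2 ∈ sball K Z,
      mu f * (ind (f ∣ m1) * γ₁ m1 * nt m1 t * (ind (f ∣ m2) * conj (γ₂ m2) * nt m2 t)))]
    refine Finset.sum_congr rfl fun m1 h1 => ?_
    rw [Finset.sum_comm (s := sball K Z) (t := sball K Z) (f := fun f m2 =>
      mu f * (ind (f ∣ m1) * γ₁ m1 * nt m1 t * (ind (f ∣ m2) * conj (γ₂ m2) * nt m2 t)))]
    refine Finset.sum_congr rfl fun m2 _ => ?_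
    rw [ind_coprime_sball h1, Finset.sum_mul, Finset.sum_mul]
    exact Finset.sum_congr rfl fun x _ => by ring
  rw [e1, ← Finset.sum_add_distrib, Finset.sum_div]
  refine (norm_sum_le _ _).trans (Finset.sum_le_sum fun f _ => ?_)
  rw [norm_mul, norm_mul, Complex.norm_conj]
  refine (mul_le_of_le_one_left (by positivity) (norm_mu_le f)).trans ?_
  nlinarith [sq_nonneg (‖Tl Z γ₁ f t‖ - ‖Tl Z γ₂ f (-t)‖)]

theorem integrable_Tl (Z : ℝ) (γ : R K → ℂ) (f : R K) {A : ℝ} (hA : 1 < A) :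
    Integrable fun t : ℝ => (1 + |t|) ^ (-A) * ‖Tl Z γ f t‖ ^ 2 := by
  have hc : Continuous fun t : ℝ => ‖Tl Z γ f t‖ ^ 2 := by
    have := pstwo_cont_nt (K := K)
    unfold Tl
    fun_prop
  refine (pstwo_int hA).mul_bdd (c := (∑ m ∈ sball K Z, ‖ind (f ∣ m) * γ m‖) ^ 2)
    hc.aestronglyMeasurable (Filter.Eventually.of_forall fun t => ?_)
  rw [norm_pow, norm_norm]
  refine pow_le_pow_left₀ (norm_nonneg _) ((norm_sum_le _ _).trans_eq ?_) 2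
  exact Finset.sum_congr rfl fun m _ => by rw [norm_mul, norm_nt, mul_one]

theorem pstwo_intS (Z : ℝ) (γ : R K → ℂ) {A : ℝ} (hA : 1 < A) :
    Integrable fun t : ℝ => (1 + |t|) ^ (-A) * ∑ f ∈ sball K Z, ‖Tl Z γ f t‖ ^ 2 := by
  simp only [Finset.mul_sum]
  exact integrable_finsetSum _ fun f _ => integrable_Tl Z γ f hA

theorem dual_sep {κ : ℝ → ℝ} (hκ : Sep κ) {c B η : ℝ} (hc : 0 < c) (hB : 1 ≤ B) (hη : 0 < η) (A : ℕ)
    (hA : 2 ≤ A) : ∃ C : ℝ, 0 < C ∧ ∀ (Z X a : ℝ) (γ₁ γ₂ : R K → ℂ), 0 < X → 0 < a →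
      (∀ m ∈ sball K Z, γ₁ m ≠ 0 ∨ γ₂ m ≠ 0 → X / B ≤ nm m ∧ nm m ≤ B * X) →
      ‖Dl κ Z (c * a) γ₁ γ₂‖ ≤ C / X * rho η (a / X ^ 2) *
        ∫ t : ℝ, (1 + |t|) ^ (-(A : ℝ)) *
          (∑ f ∈ sball K Z, ‖Tl Z γ₁ f t‖ ^ 2 + ∑ f ∈ sball K Z, ‖Tl Z γ₂ f t‖ ^ 2) := by
  obtain ⟨C, hC, hs⟩ := hκ c (2 * Real.log B) η A hc
    (mul_nonneg zero_le_two (Real.log_nonneg hB)) hη
  refine ⟨C / 2, by positivity, fun Z X y γ₁ γ₂ hX hy hβ => ?_⟩
  obtain ⟨φ, hφc, hφb, hφ⟩ := hs (y / X ^ 2) (by positivity)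
  have hA1 : (1 : ℝ) < A := by exact_mod_cast hA
  have hφi : Integrable φ := ((pstwo_int hA1).const_mul _).mono' hφc.aestronglyMeasurable
    (Filter.Eventually.of_forall hφb)
  obtain ⟨E, hE⟩ : ∃ E : ℝ → ℂ, ∀ t, E t = Complex.exp (-(Complex.I * t * (2 * Real.log X : ℝ))) :=
    ⟨_, fun _ => rfl⟩
  have hE1 : ∀ t, ‖E t‖ = 1 := fun t => by
    rw [hE, Complex.norm_exp]
    simp
  have hEc : Continuous E := by
    rw [funext hE]
    fun_prop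
  obtain ⟨a, ha⟩ : ∃ a : R K → R K → ℂ, ∀ m1 m2, a m1 m2 = ind (IsCoprime m1 m2) *
    (γ₁ m1 * conj (γ₂ m2)) := ⟨_, fun _ _ => rfl⟩
  have hi : ∀ m1 m2, Integrable fun t => φ t * (X⁻¹ * E t * (a m1 m2 * (nt m1 t * nt m2 t))) :=
    fun m1 m2 => hφi.mul_bdd (c := ‖((X⁻¹ : ℝ) : ℂ)‖ * ‖a m1 m2‖) (by
      have := pstwo_cont_nt (K := K)
      fun_prop) (Filter.Eventually.of_forall fun t => by
        simp only [norm_mul, hE1, norm_nt, mul_one, le_refl])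
  have e1 : Dl κ Z (c * y) γ₁ γ₂ = ∫ t, φ t * (X⁻¹ * E t *
      ∑ m1 ∈ sball K Z, ∑ m2 ∈ sball K Z, a m1 m2 * (nt m1 t * nt m2 t)) := by
    simp only [Finset.mul_sum]
    rw [integral_finsetSum _ fun m1 _ => integrable_finsetSum _ fun m2 _ => hi m1 m2]
    refine Finset.sum_congr rfl fun m1 h1 => ?_
    rw [integral_finsetSum _ fun m2 _ => hi m1 m2]
    refine Finset.sum_congr rfl fun m2 h2 => ?_
    rw [← ha]
    by_cases h0 : γ₁ m1 = 0 ∨ γ₂ m2 = 0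
    · have : a m1 m2 = 0 := by rcases h0 with h | h <;> simp [ha, h]
      simp [this]
    push Not at h0
    obtain ⟨u, hu, e2, e3⟩ := pstwo_dker κ (c := c) (a := y) hB hX (hβ m1 h1 (Or.inl h0.1))
      (hβ m2 h2 (Or.inr h0.2))
    rw [e2, Complex.ofReal_mul, hφ u hu, ← integral_const_mul, ← integral_const_mul]
    refine integral_congr_ae (Filter.Eventually.of_forall fun t => ?_)
    simp only [e3, hE]
    push_cast
    ring
  obtain ⟨S₁, hS₁⟩ : ∃ S : ℝ → ℝ, ∀ t, S t = (1 + |t|) ^ (-(A : ℝ)) *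
    ∑ f ∈ sball K Z, ‖Tl Z γ₁ f t‖ ^ 2 := ⟨_, fun _ => rfl⟩
  obtain ⟨S₂, hS₂⟩ : ∃ S : ℝ → ℝ, ∀ t, S t = (1 + |t|) ^ (-(A : ℝ)) *
    ∑ f ∈ sball K Z, ‖Tl Z γ₂ f t‖ ^ 2 := ⟨_, fun _ => rfl⟩
  have hS₁i : Integrable S₁ := funext hS₁ ▸ pstwo_intS Z γ₁ hA1
  have hS₂i : Integrable S₂ := funext hS₂ ▸ pstwo_intS Z γ₂ hA1
  simp only [mul_add, ← hS₁, ← hS₂]
  obtain ⟨P, hP⟩ : ∃ P : ℝ, P = C * rho η (y / X ^ 2) := ⟨_, rfl⟩
  have hP0 : 0 ≤ P := hP ▸ mul_nonneg hC.le (rho_nonneg _ (by positivity))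
  rw [← hP] at hφb
  rw [e1]
  refine (norm_integral_le_of_norm_le ((hS₁i.add hS₂i.comp_neg).const_mul (P / 2 / X))
    (Filter.Eventually.of_forall fun t => ?_)).trans_eq ?_
  · rw [norm_mul, norm_mul, norm_mul, hE1, mul_one, Complex.norm_real,
      Real.norm_of_nonneg (inv_pos.2 hX).le]
    simp only [ha]
    refine (mul_le_mul (hφb t) (mul_le_mul_of_nonneg_left (dual_alg Z γ₁ γ₂ t) (by positivity))
      (by positivity) (by positivity)).trans_eq ?_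
    simp only [Pi.add_apply, hS₁, hS₂, abs_neg]
    ring
  · rw [integral_const_mul]
    simp only [Pi.add_apply]
    rw [integral_add hS₁i hS₂i.comp_neg, integral_neg_eq_self, integral_add hS₁i hS₂i, hP]
    ring

theorem ps2 {κ : ℝ → ℝ} (hκ : Sep κ) {c B η : ℝ} (hc : 0 < c) (hB : 1 ≤ B) (hη : 0 < η) (A' : ℝ) :
    ∃ C : ℝ, 0 < C ∧ ∀ (ι : Type) (I : Finset ι) (w X a : ι → ℝ) (γ₁ γ₂ : ι → R K → ℂ) (Z D : ℝ),
      (∀ i ∈ I, 0 ≤ w i ∧ 0 < X i ∧ 0 < a i ∧ ∀ m ∈ sball K Z, γ₁ i m ≠ 0 ∨ γ₂ i m ≠ 0 →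
        X i / B ≤ nm m ∧ nm m ≤ B * X i) →
      (∀ t : ℝ, ∑ i ∈ I, w i / X i * rho η (a i / X i ^ 2) *
        ∑ f ∈ sball K Z, ‖Tl Z (γ₁ i) f t‖ ^ 2 ≤ D * (1 + |t|) ^ A') →
      (∀ t : ℝ, ∑ i ∈ I, w i / X i * rho η (a i / X i ^ 2) *
        ∑ f ∈ sball K Z, ‖Tl Z (γ₂ i) f t‖ ^ 2 ≤ D * (1 + |t|) ^ A') →
      ∑ i ∈ I, w i * ‖Dl κ Z (c * a i) (γ₁ i) (γ₂ i)‖ ≤ C * D := by
  obtain ⟨A, hA2, hA⟩ : ∃ A : ℕ, 2 ≤ A ∧ A' + 2 ≤ A :=
    ⟨⌈A'⌉₊ + 2, by omega, by push_cast; linarith [Nat.le_ceil A']⟩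
  obtain ⟨C, hC, hs⟩ := dual_sep (K := K) hκ hc hB hη A hA2
  have hA1 : (1 : ℝ) < A := by exact_mod_cast hA2
  have h2 := pstwo_int (A := 2) one_lt_two
  have hI : 0 ≤ ∫ t : ℝ, (1 + |t|) ^ (-(2 : ℝ)) := integral_nonneg fun _ => by positivity
  refine ⟨C * 2 * (∫ t : ℝ, (1 + |t|) ^ (-(2 : ℝ))) + 1, by positivity,
    fun ι I w X y γ₁ γ₂ Z D h hD₁ hD₂ => ?_⟩
  have hD0 : 0 ≤ D := by
    have := hD₁ 0
    rw [abs_zero, add_zero, Real.one_rpow, mul_one] at this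
    refine le_trans (Finset.sum_nonneg fun i hi => ?_) this
    obtain ⟨a, b, c, -⟩ := h i hi
    have := rho_nonneg η (y := y i / X i ^ 2) (by positivity)
    positivity
  obtain ⟨v, hv⟩ : ∃ v : ι → ℝ, ∀ i, v i = w i / X i * rho η (y i / X i ^ 2) :=
    ⟨_, fun _ => rfl⟩
  have hi : ∀ i, Integrable fun t : ℝ => v i * ((1 + |t|) ^ (-(A : ℝ)) *
      (∑ f ∈ sball K Z, ‖Tl Z (γ₁ i) f t‖ ^ 2 + ∑ f ∈ sball K Z, ‖Tl Z (γ₂ i) f t‖ ^ 2)) :=
    fun i => by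
      refine Integrable.const_mul ?_ _
      simp only [mul_add]
      exact (pstwo_intS Z _ hA1).add (pstwo_intS Z _ hA1)
  calc _ ≤ ∑ i ∈ I, C * ∫ t : ℝ, v i * ((1 + |t|) ^ (-(A : ℝ)) *
        (∑ f ∈ sball K Z, ‖Tl Z (γ₁ i) f t‖ ^ 2 + ∑ f ∈ sball K Z, ‖Tl Z (γ₂ i) f t‖ ^ 2)) := by
        refine Finset.sum_le_sum fun i hi => ?_
        obtain ⟨a, b, c, d⟩ := h i hi
        refine (mul_le_mul_of_nonneg_left (hs Z (X i) (y i) (γ₁ i) (γ₂ i) b c d) a).trans_eq ?_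
        rw [integral_const_mul, hv]
        ring
    _ ≤ C * ∫ t : ℝ, 2 * D * (1 + |t|) ^ (-(2 : ℝ)) := by
        rw [← Finset.mul_sum, ← integral_finsetSum _ fun i _ => hi i]
        refine mul_le_mul_of_nonneg_left (integral_mono (integrable_finsetSum _ fun i _ => hi i)
          (h2.const_mul _) fun t => ?_) hC.le
        have ht : 1 ≤ 1 + |t| := by linarith [abs_nonneg t]
        calc _ = (1 + |t|) ^ (-(A : ℝ)) * (∑ i ∈ I, v i * ∑ f ∈ sball K Z, ‖Tl Z (γ₁ i) f t‖ ^ 2 +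
              ∑ i ∈ I, v i * ∑ f ∈ sball K Z, ‖Tl Z (γ₂ i) f t‖ ^ 2) := by
              rw [← Finset.sum_add_distrib, Finset.mul_sum]
              exact Finset.sum_congr rfl fun i _ => by ring
          _ ≤ (1 + |t|) ^ (-(A : ℝ)) * (D * (1 + |t|) ^ A' + D * (1 + |t|) ^ A') := by
              refine mul_le_mul_of_nonneg_left (add_le_add ?_ ?_) (by positivity)
              · simpa only [hv] using hD₁ t
              · simpa only [hv] using hD₂ t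
          _ = 2 * D * (1 + |t|) ^ (-(A : ℝ) + A') := by
              rw [Real.rpow_add (by linarith)]
              ring
          _ ≤ _ := mul_le_mul_of_nonneg_left
              (Real.rpow_le_rpow_of_exponent_le ht (by linarith)) (by positivity)
    _ ≤ _ := by
        rw [integral_const_mul]
        have := mul_nonneg (mul_nonneg hC.le hI) hD0
        nlinarith

end Vale.Agent.P319
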