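import Mathlib
import Vale.Agent.P319.N.Defs
import Vale.Agent.P319.N.PntAlg
import Vale.Agent.P319.N.PntFin

/-! # P319, part PNT: a small prime `r ≡ 1 mod 12 l` modulo which `p` is not an `l`-th power

The logarithmic derivatives of the zeta functions of `K = ℚ(ζ_{12 l})` and `L = K(p^{1/l})` are
compared through their Taylor coefficients at `1 + 1/4000`. -/

namespace Vale.Agent.P319

open NumberField Module

theorem pnt_size (F : Type) [Field F] [NumberField F] (l p : ℕ) (hl : 0 < l) (hp : 0 < p)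
    (hn : finrank ℚ F ≤ 12 * l ^ 2)
    (hd : |(discr F : ℝ)| ≤ ((finrank ℚ F : ℝ) * p) ^ (2 * finrank ℚ F)) :
    Real.log |(discr F : ℝ)| + finrank ℚ F ≤ 324 * ((l * (Nat.log 2 p + 1) : ℕ) : ℝ) ^ 4 := by
  set n : ℝ := (finrank ℚ F : ℝ) with hn'
  have n0 : 0 < n := by rw [hn']; exact_mod_cast finrank_pos
  have n1 : n ≤ 12 * (l : ℝ) ^ 2 := by rw [hn']; exact_mod_cast hn
  have p0 : (0 : ℝ) < p := by exact_mod_cast hp
  set G : ℝ := (Nat.log 2 p : ℝ) + 1 with hG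
  have G1 : 1 ≤ G := by rw [hG]; linarith [Nat.cast_nonneg (α := ℝ) (Nat.log 2 p)]
  have l1 : (1 : ℝ) ≤ l := by exact_mod_cast hl
  have h1 : Real.log p ≤ G := by
    have h2 : (p : ℝ) ≤ 2 ^ (Nat.log 2 p + 1) := by
      exact_mod_cast (Nat.lt_pow_succ_log_self one_lt_two p).le
    have h3 := Real.log_le_log p0 h2
    rw [Real.log_pow] at h3
    push_cast at h3
    have h4 := Real.log_two_lt_d9
    nlinarith
  have h2 : Real.log |(discr F : ℝ)| ≤ 2 * n * (n + G) := by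
    refine (Real.log_le_log (abs_pos.2 (Int.cast_ne_zero.2 (discr_ne_zero F))) hd).trans ?_
    rw [Real.log_pow, Real.log_mul n0.ne' p0.ne']
    push_cast
    have := Real.log_le_self n0.le
    gcongr
  push_cast
  rw [← hG, mul_pow]
  have a1 : G ≤ G ^ 4 := le_self_pow₀ G1 (by norm_num)
  have a2 : (l : ℝ) ^ 2 ≤ l ^ 4 := pow_le_pow_right₀ l1 (by norm_num)
  have a3 : n * n ≤ 144 * ((l : ℝ) ^ 4 * G ^ 4) :=
    calc n * n ≤ (12 * (l : ℝ) ^ 2) * (12 * (l : ℝ) ^ 2) * 1 := by rw [mul_one]; gcongr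
      _ ≤ (12 * (l : ℝ) ^ 2) * (12 * (l : ℝ) ^ 2) * G ^ 4 := by gcongr; exact G1.trans a1
      _ = _ := by ring
  have a4 : n * G ≤ 12 * ((l : ℝ) ^ 4 * G ^ 4) := by
    rw [← mul_assoc]
    gcongr
    linarith
  nlinarith

theorem nt_of (hx : XiStmt)
    (hz : ∀ (F : Type) [Field F] [NumberField F], (∃ w : F, w ^ 2 + w + 1 = 0) → ZFStmt F) :
    NTStmt := by
  obtain ⟨C, hC, hx⟩ := hx
  obtain ⟨D, hD, hfin⟩ := pnt_fin
  obtain ⟨A, hA⟩ := pow_unbounded_of_one_lt (D * (648 * C + 4012)) (one_lt_two (α := ℝ))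
  refine ⟨(A + 4) * 80000, fun l p hl hp h3 hlp => ?_⟩
  obtain ⟨K, L, _, _, _, _, wK, wL, nK, nL, dK, dL, hcount⟩ := pnt_alg l p hl hp h3 hlp
  set y := l * (Nat.log 2 p + 1) with hy
  have hly : l ≤ y := Nat.le_mul_of_pos_right _ (Nat.succ_pos _)
  have y2 : (2 : ℝ) ≤ y := by exact_mod_cast hl.two_le.trans hly
  have y4 : (1 : ℝ) ≤ (y : ℝ) ^ 4 := one_le_pow₀ (by linarith)
  have key : ∀ (F : Type) [Field F] [NumberField F], (∃ w : F, w ^ 2 + w + 1 = 0) →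
      finrank ℚ F ≤ 12 * l ^ 2 → |(discr F : ℝ)| ≤ ((finrank ℚ F : ℝ) * p) ^ (2 * finrank ℚ F) →
      ∀ k : ℕ, ∃ S, HasSum (fun n => pntW k n * pntL F n) S ∧
        |S - 1| ≤ 4 * ((648 * C + 12) * (y : ℝ) ^ 4 + 4000) * (k + 1) / 2 ^ (k + 1) := by
    intro F _ _ w n d
    obtain ⟨Z, z1, z2, z3⟩ := hx F w
    refine pnt_an (pntA F) (pntL F) _ _ Z (pntA_one F) (pntA_summable F) (pntL_nonneg F)
      (pntL_le F) (pntL_conv F) z1 z2 (hz F w Z z1 z2) (by positivity) fun s s1 s2 s3 => ?_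
    refine (z3 s s1 s2).trans (Real.exp_le_exp.2 ?_)
    have h1 := pnt_size F l p hl.pos hp.pos n d
    calc C * (Real.log |(discr F : ℝ)| + finrank ℚ F) * (1 + |s.im|)
        ≤ C * (324 * (y : ℝ) ^ 4) * (1 + |s.im|) := by gcongr
      _ ≤ C * (324 * (y : ℝ) ^ 4) * (1 + 1) := by gcongr
      _ ≤ _ := by nlinarith
  obtain ⟨r, hr, r1, r2, r3, r4, r5, r6⟩ := hfin (pntL K) (pntL L)
    ((648 * C + 12) * (y : ℝ) ^ 4 + 4000) (y ^ (A + 4)) l p
    (by nlinarith) (by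
      push_cast
      calc D * ((648 * C + 12) * (y : ℝ) ^ 4 + 4000) ≤ D * (648 * C + 4012) * (y : ℝ) ^ 4 := by
            rw [mul_assoc]; gcongr; linarith
        _ ≤ (y : ℝ) ^ A * (y : ℝ) ^ 4 := by
            gcongr
            exact hA.le.trans (pow_le_pow_left₀ zero_le_two y2 A)
        _ = _ := (pow_add _ _ _).symm)
    (pntL_nonneg L) (fun n => (pntL_le K n).trans (by
      refine mul_le_mul_of_nonneg_right ?_ (Real.log_natCast_nonneg n)
      have h1 : (finrank ℚ K : ℝ) ≤ 12 * (y : ℝ) ^ 4 := by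
        exact_mod_cast nK.trans (Nat.mul_le_mul_left 12 ((Nat.pow_le_pow_left hly 2).trans
          (Nat.pow_le_pow_right (hl.pos.trans_le hly) (by norm_num))))
      nlinarith))
    (pntL_eq_zero K) (key K wK nK dK) (key L wL nL dL)
  by_contra hcon
  have h1 := hcount r hr r2 r3 r4 r5 fun h => by
    by_contra h2
    exact hcon ⟨r, hr, h, by rwa [pow_mul], h2⟩
  rw [pntL_prime _ r hr, pntL_prime _ r hr, ← mul_assoc] at r6
  have h2 : (2 : ℝ) * pntA K r ≤ pntA L r := by exact_mod_cast h1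
  exact absurd (mul_le_mul_of_nonneg_right h2 (Real.log_natCast_nonneg r)) (not_le.2 r6)

end Vale.Agent.P319
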