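import Vale.Agent.P319.N.PSAux
import Vale.Agent.P319.N.Ray
import Vale.Agent.P319.N.Sym
import Vale.Agent.P319.N.Fam

/-! # PSQ: quadratic reciprocity in the form used by the large sieve.
`exists_flip`: `n = τ t ^ 6 * ng n` (`exists_unit_ng`, `treps_spec`), `cl n = (crep 10 n, τ)`.  For `α ≠ 0`, `k ≠ 0` choose `z = z α k` in `R`, coprime to `k`,
with `z * α ∈ U` (`exists_R_inUq_coprime` for `x = α⁻¹`); `z * ng n ∈ U` (`inU_ng`), so `Rcp.quadr.1` gives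
`quad k (z * ng n) = quad (z * ng n) k`; `ζ (α, τ) k = quad τ k * quad z k * quad k z`.  If `n`, `k` are not coprime both sides vanish.
`flip_red`: split `a` along the fibres of `cl`, Cauchy-Schwarz (`sq_sum_le_card_mul_sum_sq`), `C = card T + 1`.
`exists_qfam`: from part GAUSS (`exists_famQ`); `unit`: `quad u x = quad x u = 1` for `x ∈ U`, multiply `m₂` and `v m₁` by `z` with `z m₂ ∈ U`. -/

namespace Vale.Agent.P319

open scoped ComplexConjugate Real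
open MeasureTheory

variable {K : Type} [Field K] [NumberField K] [Stp K]

theorem exists_flip [Rcp K] : ∃ (T : Finset (R K × (R K)ˣ)) (cl : R K → R K × (R K)ˣ)
    (ζ : R K × (R K)ˣ → R K → ℂ), (∀ n, n ≠ 0 → cl n ∈ T ∧ Cg n (cl n).1) ∧ (∀ c k, ‖ζ c k‖ ≤ 1) ∧
      ∀ n k, n ≠ 0 → k ≠ 0 → quad n k = ζ (cl n) k * quad k n := by
  choose u hu using exists_unit_ng (K := K)
  choose τ hτ t ht using treps_spec (K := K)
  refine ⟨creps K 10 ×ˢ treps K, fun n => (crep 10 n, τ (u n)), fun c k => quad c.2 k * bq c.1 k,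
    fun n hn => ⟨Finset.mem_product.2 ⟨crep_mem_creps hn, hτ _⟩, ray_crep (by norm_num) hn⟩,
    fun c k => ?_, fun n k hn hk => ?_⟩
  · rw [norm_mul, norm_bq, mul_one]
    exact norm_quad_le _ _
  · have h1 : n = (τ (u n) : R K) * ((t (u n) ^ 3 : (R K)ˣ) : R K) ^ 2 * ng n := by
      have h2 := congrArg (Units.val) (ht (u n))
      rw [Units.val_mul, Units.val_pow_eq_pow_val] at h2
      rw [Units.val_pow_eq_pow_val, ← pow_mul, ← h2]
      exact hu n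
    have h3 : quad n k = quad (τ (u n) : R K) k * quad (ng n) k := by
      conv_lhs => rw [h1]
      rw [quad_mul_left, quad_mul_left, quad_unit_sq, mul_one]
    rw [h3, quad_recip (ng_ne_zero hn) hk, quad_ng, bq_congr_left (inU_ng hn) hk, mul_assoc]

theorem flip_red [Rcp K] : ∃ C : ℝ, 0 < C ∧ ∀ (s t : Finset (R K)) (D : ℝ), 0 ≤ D →
    (∀ n ∈ s, n ≠ 0) → (∀ k ∈ t, k ≠ 0) →
    (∀ (α : R K) (a : R K → ℂ), (∀ n, a n ≠ 0 → n ∈ s ∧ Cg n α) →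
      ∑ k ∈ t, ‖∑ n ∈ s, a n * quad k n‖ ^ 2 ≤ D * ∑ n ∈ s, ‖a n‖ ^ 2) →
    ∀ a : R K → ℂ, ∑ k ∈ t, ‖∑ n ∈ s, a n * quad n k‖ ^ 2 ≤ C * D * ∑ n ∈ s, ‖a n‖ ^ 2 := by
  classical
  obtain ⟨T, cl, ζ, h1, h2, h3⟩ := exists_flip (K := K)
  refine ⟨T.card + 1, by positivity, fun s t D hD hs ht H a => ?_⟩
  set b : R K × (R K)ˣ → R K → ℂ := fun c n => if n ∈ s ∧ cl n = c then a n else 0 with hb
  have h4 : ∀ k ∈ t, ‖∑ n ∈ s, a n * quad n k‖ ^ 2 ≤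
      T.card * ∑ c ∈ T, ‖∑ n ∈ s, b c n * quad k n‖ ^ 2 := by
    intro k hk
    have h5 : ∑ n ∈ s, a n * quad n k = ∑ c ∈ T, ζ c k * ∑ n ∈ s, b c n * quad k n := by
      simp only [Finset.mul_sum]
      rw [Finset.sum_comm]
      refine Finset.sum_congr rfl fun n hn => ?_
      rw [Finset.sum_eq_single (cl n) (fun c _ hc => by simp [hb, hc.symm])
        (fun h => absurd (h1 n (hs n hn)).1 h), h3 n k (hs n hn) (ht k hk)]
      simp only [hb, hn, true_and, if_true]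
      ring
    have h6 : ‖∑ n ∈ s, a n * quad n k‖ ≤ ∑ c ∈ T, ‖∑ n ∈ s, b c n * quad k n‖ := by
      rw [h5]
      refine (norm_sum_le _ _).trans (Finset.sum_le_sum fun c _ => ?_)
      rw [norm_mul]
      exact mul_le_of_le_one_left (norm_nonneg _) (h2 c k)
    exact (pow_le_pow_left₀ (norm_nonneg _) h6 2).trans sq_sum_le_card_mul_sum_sq
  have h7 : ∀ c ∈ T, ∑ k ∈ t, ‖∑ n ∈ s, b c n * quad k n‖ ^ 2 ≤ D * ∑ n ∈ s, ‖b c n‖ ^ 2 := by
    intro c _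
    refine H c.1 (b c) fun n hn => ?_
    by_cases h : n ∈ s ∧ cl n = c
    · exact ⟨h.1, h.2 ▸ (h1 n (hs n h.1)).2⟩
    · exact absurd (if_neg h) hn
  have h8 : ∑ c ∈ T, ∑ n ∈ s, ‖b c n‖ ^ 2 = ∑ n ∈ s, ‖a n‖ ^ 2 := by
    rw [Finset.sum_comm]
    refine Finset.sum_congr rfl fun n hn => ?_
    rw [Finset.sum_eq_single (cl n) (fun c _ hc => by simp [hb, hc.symm])
      (fun h => absurd (h1 n (hs n hn)).1 h)]
    simp only [hb, hn, true_and, if_true]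
  have h9 : 0 ≤ D * ∑ n ∈ s, ‖a n‖ ^ 2 := by positivity
  calc ∑ k ∈ t, ‖∑ n ∈ s, a n * quad n k‖ ^ 2
      ≤ ∑ k ∈ t, T.card * ∑ c ∈ T, ‖∑ n ∈ s, b c n * quad k n‖ ^ 2 := Finset.sum_le_sum h4
    _ = T.card * ∑ c ∈ T, ∑ k ∈ t, ‖∑ n ∈ s, b c n * quad k n‖ ^ 2 := by
      rw [← Finset.mul_sum, Finset.sum_comm]
    _ ≤ T.card * ∑ c ∈ T, D * ∑ n ∈ s, ‖b c n‖ ^ 2 := by gcongr with c hc; exact h7 c hc
    _ = T.card * (D * ∑ n ∈ s, ‖a n‖ ^ 2) := by rw [← Finset.mul_sum, h8]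
    _ ≤ (T.card + 1) * D * ∑ n ∈ s, ‖a n‖ ^ 2 := by rw [mul_assoc, add_mul]; linarith

theorem qflip_unit [Rcp K] {m1 m2 : R K} (u : (R K)ˣ) (h : Cg m1 m2) :
    quad u m1 * quad u m2 = 1 := quad_unit_mul_cg u h

theorem exists_qfam [Rcp K] : ∃ F : Fam K, QFam F := by
  obtain ⟨F, h1, h2, h3⟩ := exists_famQ (K := K)
  exact ⟨F, h1, h2, h3, fun _ _ u h => qflip_unit u h⟩

end Vale.Agent.P319
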