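import Vale.Agent.P319.N.Defs
import Vale.Agent.P026.PoissonAux

/-! Part QG: the Fourier transform of a Gaussian with a quadratic phase on `ℂ`. -/

namespace Vale.Agent.P319

open scoped ComplexConjugate Real
open MeasureTheory

namespace QG

theorem ecc_add (z w : ℂ) : ecc (z + w) = ecc z * ecc w := by
  rw [ecc, ecc, ecc, ← Complex.exp_add]
  congr 1
  simp only [Complex.add_re]
  push_cast
  ring

theorem ecc_zero : ecc 0 = 1 := by simp [ecc]

theorem ecc_eq (z : ℂ) : ecc z = Complex.exp (Complex.I * ((4 * π * z.re : ℝ) : ℂ)) := by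
  rw [ecc]
  congr 1
  push_cast
  ring

theorem norm_ecc (z : ℂ) : ‖ecc z‖ = 1 := by
  rw [ecc_eq, mul_comm, Complex.norm_exp_ofReal_mul_I]

theorem continuous_ecc : Continuous ecc := by
  unfold ecc
  fun_prop

theorem norm_ecc_sub (a b : ℂ) : ‖ecc a - ecc b‖ ≤ 4 * π * ‖a - b‖ := by
  have e : ecc a - ecc b = ecc b * (ecc (a - b) - 1) := by
    rw [mul_sub, ← ecc_add, mul_one]; congr 2; ring
  rw [e, norm_mul, norm_ecc, one_mul, ecc_eq]
  refine Real.norm_exp_I_mul_ofReal_sub_one_le.trans ?_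
  have hc := Real.pi_pos
  rw [Real.norm_eq_abs, abs_mul, abs_of_pos (by positivity : 0 < 4 * π)]
  exact mul_le_mul_of_nonneg_left (Complex.abs_re_le_norm _) (by positivity)

/-- the case of a real phase -/
theorem ft_real {t : ℝ} (ht : 0 < t) (k : ℝ) (ξ : ℂ) :
    ∫ z : ℂ, (Real.exp (-(t * ‖z‖ ^ 2)) : ℝ) * ecc (k * z ^ 2) * ecc (-(z * ξ)) =
      (π / √(t ^ 2 + 16 * π ^ 2 * k ^ 2) : ℝ) *
        (Real.exp (-(4 * π ^ 2 * t / (t ^ 2 + 16 * π ^ 2 * k ^ 2) * ‖ξ‖ ^ 2)) : ℝ) *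
        ecc (-((4 * π ^ 2 / (t ^ 2 + 16 * π ^ 2 * k ^ 2) : ℝ) * k * ξ ^ 2)) := by
  have hπ := Real.pi_pos
  set Δ := t ^ 2 + 16 * π ^ 2 * k ^ 2 with hΔ
  have hΔ0 : 0 < Δ := by positivity
  set b₁ : ℂ := -t + 4 * π * k * Complex.I with hb₁
  set b₂ : ℂ := -t - 4 * π * k * Complex.I with hb₂
  have h1 : b₁.re < 0 := by simp [hb₁, ht]
  have h2 : b₂.re < 0 := by simp [hb₂, ht]
  have hb : b₁ * b₂ = Δ := by
    rw [hb₁, hb₂, hΔ]; push_cast
    linear_combination (-16 * π ^ 2 * k ^ 2 : ℂ) * Complex.I_sq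
  have hb1 : b₁ ≠ 0 := fun h => by simp [h] at h1
  have hb2 : b₂ ≠ 0 := fun h => by simp [h] at h2
  have hΔ' : (Δ : ℂ) ≠ 0 := by exact_mod_cast hΔ0.ne'
  rw [← Complex.volume_preserving_equiv_real_prod.symm.integral_comp']
  have e : ∀ p : ℝ × ℝ, (Real.exp (-(t * ‖Complex.measurableEquivRealProd.symm p‖ ^ 2)) : ℝ) *
      ecc (k * Complex.measurableEquivRealProd.symm p ^ 2) *
      ecc (-(Complex.measurableEquivRealProd.symm p * ξ)) =
      Complex.exp (b₁ * p.1 ^ 2 + (-4 * π * ξ.re * Complex.I) * p.1 + 0) *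
        Complex.exp (b₂ * p.2 ^ 2 + (4 * π * ξ.im * Complex.I) * p.2 + 0) := by
    intro p
    rw [Complex.measurableEquivRealProd_symm_apply, ecc_eq, ecc_eq, Complex.ofReal_exp,
      ← Complex.exp_add, ← Complex.exp_add, ← Complex.exp_add, Complex.sq_norm,
      Complex.normSq_apply]
    congr 1
    simp only [pow_two, Complex.mul_re, Complex.mul_im, Complex.ofReal_re, Complex.ofReal_im,
      Complex.neg_re, hb₁, hb₂]
    push_cast
    ring
  simp only [e]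
  rw [Measure.volume_eq_prod, integral_prod_mul
    (fun x : ℝ => Complex.exp (b₁ * x ^ 2 + (-4 * π * ξ.re * Complex.I) * x + 0))
    (fun x : ℝ => Complex.exp (b₂ * x ^ 2 + (4 * π * ξ.im * Complex.I) * x + 0)),
    integral_cexp_quadratic h1, integral_cexp_quadratic h2]
  have hre : ∀ b : ℂ, b.re < 0 → 0 < ((π : ℂ) / -b).re := fun b hb => by
    have hb0 : b ≠ 0 := fun h => by simp [h] at hb
    have := Complex.normSq_pos.2 (neg_ne_zero.2 hb0)
    rw [Complex.div_re]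
    simp only [Complex.ofReal_re, Complex.ofReal_im, zero_mul, zero_div, add_zero, Complex.neg_re]
    exact div_pos (mul_pos hπ (by linarith)) this
  have hp := P026.PoissonAux.sqrt_prod (hre _ h1) (hre _ h2) (r := π / √Δ) (by positivity) (by
    rw [← Complex.ofReal_pow, div_pow, Real.sq_sqrt hΔ0.le]
    push_cast
    rw [← hb]
    field_simp)
  rw [mul_mul_mul_comm, hp, mul_assoc ((π / √Δ : ℝ) : ℂ), ecc_eq, Complex.ofReal_exp, ← Complex.exp_add,
    ← Complex.exp_add, Complex.sq_norm, Complex.normSq_apply]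
  congr 2
  simp only [pow_two, Complex.mul_re, Complex.mul_im, Complex.ofReal_re, Complex.ofReal_im,
    Complex.neg_re]
  push_cast
  rw [← hb]
  field_simp
  rw [hb₁, hb₂]
  ring_nf
  simp only [Complex.I_pow_three, Complex.I_sq]
  ring

theorem ft_one {t : ℝ} (ht : 0 < t) (κ ξ : ℂ) :
    ∫ z : ℂ, (Real.exp (-(t * ‖z‖ ^ 2)) : ℝ) * ecc (κ * z ^ 2) * ecc (-(z * ξ)) =
      (π / √(t ^ 2 + 16 * π ^ 2 * ‖κ‖ ^ 2) : ℝ) *
        (Real.exp (-(4 * π ^ 2 * t / (t ^ 2 + 16 * π ^ 2 * ‖κ‖ ^ 2) * ‖ξ‖ ^ 2)) : ℝ) *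
        ecc (-((4 * π ^ 2 / (t ^ 2 + 16 * π ^ 2 * ‖κ‖ ^ 2) : ℝ) * conj κ * ξ ^ 2)) := by
  set ρ : Circle := Circle.exp (-(κ.arg / 2)) with hρ
  have h1 : κ * (ρ : ℂ) ^ 2 = ‖κ‖ := by
    conv_lhs => rw [← Complex.norm_mul_exp_arg_mul_I κ]
    rw [hρ, Circle.coe_exp, mul_assoc, ← Complex.exp_nat_mul, ← Complex.exp_add]
    push_cast
    rw [show (κ.arg : ℂ) * Complex.I + 2 * (-(κ.arg / 2) * Complex.I) = 0 by ring]
    simp
  have h2 : (‖κ‖ : ℂ) * (ρ : ℂ) ^ 2 = conj κ := by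
    have h3 : conj (ρ : ℂ) * ρ = 1 := by
      rw [Complex.conj_mul', Circle.norm_coe]; simp
    have h4 := congrArg conj h1
    rw [map_mul, map_pow, Complex.conj_ofReal] at h4
    rw [← h4]
    linear_combination (conj κ * (conj (ρ : ℂ) * ρ + 1)) * h3
  rw [← integral_comp (rotation ρ)]
  have h := ft_real ht ‖κ‖ (ρ * ξ)
  rw [norm_mul, Circle.norm_coe, one_mul, mul_pow, mul_assoc _ (‖κ‖ : ℂ), ← mul_assoc (‖κ‖ : ℂ),
    h2, ← mul_assoc] at h
  rw [← h]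
  refine integral_congr_ae (Filter.Eventually.of_forall fun z => ?_)
  simp only [rotation_apply, norm_mul, Circle.norm_coe, one_mul, mul_pow]
  rw [← mul_assoc κ, h1]
  congr 3
  ring

/-- with a shift and no phase -/
theorem ft_shift {t : ℝ} (ht : 0 < t) (a ξ : ℂ) :
    ∫ z : ℂ, (Real.exp (-(t * ‖a + z‖ ^ 2)) : ℝ) * ecc (-(z * ξ)) =
      (π / t : ℝ) * (Real.exp (-(4 * π ^ 2 / t * ‖ξ‖ ^ 2)) : ℝ) * ecc (a * ξ) := by
  have h := ft_real ht 0 ξ
  simp only [Complex.ofReal_zero, zero_mul, mul_zero, neg_zero, ecc_zero, mul_one, ne_eq,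
    OfNat.ofNat_ne_zero, not_false_eq_true, zero_pow, add_zero, Real.sqrt_sq ht.le] at h
  rw [show 4 * π ^ 2 * t / t ^ 2 = 4 * π ^ 2 / t by field_simp] at h
  rw [← h, ← integral_mul_const, ← integral_add_left_eq_self
    (fun z : ℂ => (Real.exp (-(t * ‖z‖ ^ 2)) : ℝ) * ecc (-(z * ξ)) * ecc (a * ξ)) a]
  refine integral_congr_ae (Filter.Eventually.of_forall fun z => ?_)
  simp only
  rw [mul_assoc, ← ecc_add]
  congr 2
  ring

end QG

end Vale.Agent.P319
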