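import Vale.Agent.P319.N.QGFT

/-! Part QG: embeddings, Gaussians on fractional ideals and Poisson summation for them. -/

namespace Vale.Agent.P319

open scoped ComplexConjugate Real NumberField nonZeroDivisors Topology
open MeasureTheory Filter NumberField.ComplexEmbedding

variable {K : Type} [Field K] [NumberField K] [Stp K]

namespace QG

theorem z3_facts : z3 ^ 3 = 1 ∧ z3 ^ 2 + z3 + 1 = 0 ∧ conj z3 = z3 ^ 2 ∧ z3 ^ 2 ≠ z3 := by
  have h := Complex.isPrimitiveRoot_exp 3 (by norm_num)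
  push_cast at h
  change IsPrimitiveRoot z3 3 at h
  have h3 := h.pow_eq_one
  have h1 : z3 ≠ 1 := h.ne_one (by norm_num)
  have h0 : z3 ≠ 0 := h.ne_zero (by norm_num)
  have h2 : z3 ^ 2 + z3 + 1 = 0 := by
    apply mul_left_cancel₀ (sub_ne_zero.2 h1)
    linear_combination h3
  have h4 : conj z3 * z3 = 1 := by
    rw [Complex.conj_mul', h.norm'_eq_one (by norm_num)]; simp
  refine ⟨h3, h2, ?_, fun h5 => h1 ?_⟩
  · linear_combination z3 ^ 2 * h4 - conj z3 * h3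
  · apply mul_left_cancel₀ h0
    linear_combination h5

theorem emb_cases (σ : K →+* ℂ) :
    σ (Stp.om : 𝓞 K) = z3 ∨ conjugate σ (Stp.om : 𝓞 K) = z3 := by
  obtain ⟨h3, h2, h4, -⟩ := z3_facts
  have h := congrArg (fun x : 𝓞 K => σ (x : K)) (Stp.om_eq (K := K))
  simp only [map_add, map_pow, map_one, map_zero] at h
  have h5 : (σ (Stp.om : 𝓞 K) - z3) * (σ (Stp.om : 𝓞 K) - z3 ^ 2) = 0 := by
    linear_combination h - σ (Stp.om : 𝓞 K) * h2 + h3
  rcases mul_eq_zero.1 h5 with h6 | h6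
  · exact Or.inl (sub_eq_zero.1 h6)
  · right
    rw [conjugate_coe_eq, sub_eq_zero.1 h6, ← h4, Complex.conj_conj]

theorem pl_nonempty : Nonempty (Pl K) := by
  obtain ⟨σ⟩ : Nonempty (K →+* ℂ) := inferInstance
  rcases emb_cases σ with h | h
  · exact ⟨⟨σ, h⟩⟩
  · exact ⟨⟨_, h⟩⟩

theorem sum_emb (f : (K →+* ℂ) → ℂ) :
    ∑ σ, f σ = ∑ v : Pl K, (f v.1 + f (conjugate v.1)) := by
  have hb : Function.Bijective
      (Sum.elim (fun v : Pl K => v.1) (fun v : Pl K => conjugate v.1)) := by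
    have hne : ∀ v w : Pl K, v.1 ≠ conjugate w.1 := fun v w h => by
      have h1 : v.1 (Stp.om : 𝓞 K) = z3 := v.2
      have h2 : w.1 (Stp.om : 𝓞 K) = z3 := w.2
      rw [h, conjugate_coe_eq, h2, z3_facts.2.2.1] at h1
      exact z3_facts.2.2.2 h1
    constructor
    · rintro (v | v) (w | w) h
      · exact congrArg _ (Subtype.ext h)
      · exact absurd h (hne v w)
      · exact absurd h.symm (hne w v)
      · exact congrArg _ (Subtype.ext ((involutive_conjugate K).injective h))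
    · intro σ
      rcases emb_cases σ with h | h
      · exact ⟨Sum.inl ⟨σ, h⟩, rfl⟩
      · exact ⟨Sum.inr ⟨_, h⟩, involutive_conjugate K σ⟩
  rw [← hb.sum_comp, Fintype.sum_sum_type, Finset.sum_add_distrib]
  rfl

theorem eTr_eq_prod (x : K) : eTr x = ∏ v : Pl K, ecc (ev v x) := by
  have h := trace_eq_sum_embeddings ℂ (K := ℚ) (x := x)
  rw [← (RingHom.equivRatAlgHom K ℂ).sum_comp] at h
  have h2 : ((Algebra.trace ℚ K x : ℚ) : ℂ) = ∑ v : Pl K, ((2 * (ev v x).re : ℝ) : ℂ) := by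
    refine Eq.trans h ((sum_emb fun σ => σ x).trans (Finset.sum_congr rfl fun v _ => ?_))
    rw [conjugate_coe_eq, Complex.add_conj]
    rfl
  rw [eTr, h2, Finset.mul_sum, Complex.exp_sum]
  rfl

theorem norm_le_emb (σ : K →+* ℂ) (x : K) : ‖σ x‖ ≤ ‖emb x‖ := by
  rcases emb_cases σ with h | h
  · exact norm_le_pi_norm (emb x) ⟨σ, h⟩
  · have := norm_le_pi_norm (emb x) ⟨_, h⟩
    rwa [← Complex.norm_conj]

theorem ev_add (v : Pl K) (x y : K) : ev v (x + y) = ev v x + ev v y := map_add v.1 x y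
theorem ev_mul (v : Pl K) (x y : K) : ev v (x * y) = ev v x * ev v y := map_mul v.1 x y
theorem ev_pow (v : Pl K) (x : K) (k : ℕ) : ev v (x ^ k) = ev v x ^ k := map_pow v.1 x k
theorem ev_ne (v : Pl K) {x : K} (h : x ≠ 0) : ev v x ≠ 0 := (map_ne_zero v.1).2 h

theorem norm_eTr (x : K) : ‖eTr x‖ = 1 := by
  rw [eTr_eq_prod, norm_prod]
  simp [norm_ecc]

theorem eTr_add (x y : K) : eTr (x + y) = eTr x * eTr y := by
  simp only [eTr_eq_prod, ev_add, ecc_add, Finset.prod_mul_distrib]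

omit [Stp K] in
theorem eTr_int (x : 𝓞 K) : eTr (x : K) = 1 := by
  have h : IsIntegral ℤ (Algebra.trace ℚ K (x : K)) := Algebra.isIntegral_trace x.isIntegral_coe
  obtain ⟨n, hn⟩ := (IsIntegrallyClosed.isIntegral_iff (R := ℤ) (K := ℚ)).1 h
  rw [eTr, ← hn, Complex.exp_eq_one_iff]
  exact ⟨n, by simp [mul_comm]⟩

/-- the Gaussian with the parameters `t v` -/
noncomputable def Ga (t : Pl K → ℝ) (y : K) : ℝ := Real.exp (-∑ v, t v * ‖ev v y‖ ^ 2)

theorem Ga_pos (t : Pl K → ℝ) (y : K) : 0 < Ga t y := Real.exp_pos _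

theorem Ga_prod (t : Pl K → ℝ) (y : K) : Ga t y = ∏ v, Real.exp (-(t v * ‖ev v y‖ ^ 2)) := by
  rw [Ga, ← Finset.sum_neg_distrib, Real.exp_sum]

theorem Ga_mono {s t : Pl K → ℝ} (h : ∀ v, s v ≤ t v) (y : K) : Ga t y ≤ Ga s y :=
  Real.exp_le_exp.2 (neg_le_neg (Finset.sum_le_sum fun v _ =>
    mul_le_mul_of_nonneg_right (h v) (by positivity)))

theorem decay {t : Pl K → ℝ} (ht : ∀ v, 0 < t v) (a : Pl K → ℂ) (k : ℕ) :
    ∃ C : ℝ, ∀ z : Pl K → ℂ, Real.exp (-∑ v, t v * ‖a v + z v‖ ^ 2) ≤ C / (1 + ‖z‖) ^ k := by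
  obtain ⟨m, hm, hmt⟩ : ∃ m : ℝ, 0 < m ∧ ∀ v, m ≤ t v := by
    have h0 : 0 ≤ ∑ v, (t v)⁻¹ := Finset.sum_nonneg fun v _ => (inv_pos.2 (ht v)).le
    refine ⟨(1 + ∑ v, (t v)⁻¹)⁻¹, by positivity, fun v => ?_⟩
    rw [inv_le_comm₀ (by positivity) (ht v)]
    have := Finset.single_le_sum (f := fun v => (t v)⁻¹) (fun v _ => (inv_pos.2 (ht v)).le)
      (Finset.mem_univ v)
    linarith
  refine ⟨(1 + ‖a‖) ^ k * Real.exp (k ^ 2 / (4 * m)), fun z => ?_⟩
  set s := ‖a + z‖ with hs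
  have hs0 : 0 ≤ s := norm_nonneg _
  have h1 : s ^ 2 ≤ ∑ v, ‖a v + z v‖ ^ 2 := by
    have h0 : 0 ≤ ∑ v, ‖a v + z v‖ ^ 2 := Finset.sum_nonneg fun v _ => by positivity
    rw [← Real.le_sqrt hs0 h0, hs, pi_norm_le_iff_of_nonneg (Real.sqrt_nonneg _)]
    intro v
    rw [Real.le_sqrt (norm_nonneg _) h0]
    exact Finset.single_le_sum (f := fun v => ‖a v + z v‖ ^ 2) (fun v _ => by positivity)
      (Finset.mem_univ v)
  have h2 : m * s ^ 2 ≤ ∑ v, t v * ‖a v + z v‖ ^ 2 := by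
    refine (mul_le_mul_of_nonneg_left h1 hm.le).trans ?_
    rw [Finset.mul_sum]
    exact Finset.sum_le_sum fun v _ => mul_le_mul_of_nonneg_right (hmt v) (by positivity)
  have h3 : 1 + ‖z‖ ≤ (1 + ‖a‖) * Real.exp s := by
    have h4 : ‖z‖ ≤ s + ‖a‖ := by
      have := norm_sub_le (a + z) a
      rwa [add_sub_cancel_left] at this
    have h5 := Real.add_one_le_exp s
    have h6 := norm_nonneg a
    nlinarith
  have h4 : (k : ℝ) * s + -(m * s ^ 2) ≤ k ^ 2 / (4 * m) := by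
    rw [le_div_iff₀ (by positivity)]
    nlinarith [sq_nonneg (2 * m * s - k)]
  rw [le_div_iff₀ (by positivity)]
  calc Real.exp (-∑ v, t v * ‖a v + z v‖ ^ 2) * (1 + ‖z‖) ^ k
      ≤ Real.exp (-(m * s ^ 2)) * ((1 + ‖a‖) * Real.exp s) ^ k := by gcongr
    _ = (1 + ‖a‖) ^ k * Real.exp (k * s + -(m * s ^ 2)) := by
        rw [mul_pow, ← Real.exp_nat_mul, Real.exp_add]; ring
    _ ≤ _ := by gcongr

theorem finite_ball (I : FractionalIdeal (𝓞 K)⁰ K) : {y : K | y ∈ I ∧ ‖emb y‖ < 1}.Finite := by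
  obtain ⟨a, ha, h⟩ := I.isFractional
  have ha' : (a : K) ≠ 0 := by exact_mod_cast nonZeroDivisors.ne_zero ha
  refine Set.Finite.of_finite_image (f := fun y => (a : K) * y)
    ((NumberField.Embeddings.finite_of_norm_le K ℂ ‖emb (a : K)‖).subset ?_)
    (mul_right_injective₀ ha').injOn
  rintro _ ⟨y, ⟨hy, hy1⟩, rfl⟩
  obtain ⟨b, hb⟩ := h y hy
  refine ⟨?_, fun σ => ?_⟩
  · have : (a : K) * y = b := by rw [NumberField.RingOfIntegers.coe_eq_algebraMap b, hb]; rfl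
    simp only [this]
    exact b.isIntegral_coe
  · rw [map_mul, norm_mul]
    exact (mul_le_mul (norm_le_emb σ _) ((norm_le_emb σ _).trans hy1.le) (norm_nonneg _)
      (norm_nonneg _)).trans_eq (mul_one _)

theorem summable_Ga (I : FractionalIdeal (𝓞 K)⁰ K) {t : Pl K → ℝ} (ht : ∀ v, 0 < t v) :
    Summable fun y : I => Ga t (y : K) := by
  obtain ⟨v0⟩ := pl_nonempty (K := K)
  let φ : K →+ (Pl K → ℂ) := AddMonoidHom.mk' emb fun x y => funext fun v => ev_add v x y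
  have hφ : Function.Injective φ := fun x y h => v0.1.injective (congrFun h v0)
  let L : Submodule ℤ (Pl K → ℂ) :=
    AddSubgroup.toIntSubmodule ((I : Submodule (𝓞 K) K).toAddSubgroup.map φ)
  have hfin : {z : L | ‖z‖ < 1}.Finite := by
    refine Set.Finite.of_finite_image (f := fun z : L => (z : Pl K → ℂ))
      (((finite_ball I).image φ).subset ?_) Subtype.val_injective.injOn
    rintro _ ⟨⟨_, y, hy, rfl⟩, hz, rfl⟩
    exact ⟨y, ⟨hy, hz⟩, rfl⟩
  have : DiscreteTopology L := by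
    refine discreteTopology_of_isOpen_singleton_zero ?_
    have e : ({0} : Set L) = {z : L | ‖z‖ < 1} \ ({z : L | ‖z‖ < 1} \ {0}) := by
      ext z
      by_cases h : z = 0 <;> simp [h]
    rw [e]
    exact (isOpen_lt continuous_norm continuous_const).sdiff hfin.sdiff.isClosed
  let ψ : I → L := fun y => ⟨φ y, y, y.2, rfl⟩
  have hψ : Function.Injective ψ := fun x y h => Subtype.ext (hφ (congrArg Subtype.val h))
  have hs := (ZLattice.summable_norm_pow_inv L _ (Nat.lt_succ_self _)).comp_injective hψ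
  obtain ⟨C, hC⟩ := decay ht 0 (Module.finrank ℤ L).succ
  refine Summable.of_norm_bounded_eventually (hs.mul_left |C|) ?_
  filter_upwards [eventually_cofinite_ne (⟨0, FractionalIdeal.zero_mem I⟩ : I)] with y hy
  have h1 := hC (emb (y : K))
  simp only [Pi.zero_apply, zero_add] at h1
  have h2 : 0 < ‖emb (y : K)‖ := by
    rw [norm_pos_iff]
    intro h
    exact hy (Subtype.ext (hφ (h.trans (map_zero φ).symm)))
  rw [Real.norm_of_nonneg (Ga_pos _ _).le]
  refine h1.trans ?_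
  change _ ≤ |C| * ‖emb (y : K)‖⁻¹ ^ _
  rw [inv_pow, ← div_eq_mul_inv]
  refine (div_le_div_of_nonneg_right (le_abs_self C) (by positivity)).trans ?_
  gcongr
  linarith

theorem summable_mul_Ga (I : FractionalIdeal (𝓞 K)⁰ K) {t : Pl K → ℝ} (ht : ∀ v, 0 < t v)
    {g : I → ℂ} (hg : ∀ y, ‖g y‖ ≤ 1) : Summable fun y : I => g y * (Ga t (y : K) : ℝ) := by
  refine Summable.of_norm_bounded (summable_Ga I ht) fun y => ?_
  rw [norm_mul, Complex.norm_real, Real.norm_of_nonneg (Ga_pos _ _).le]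
  exact mul_le_of_le_one_left (Ga_pos _ _).le (hg y)

/-- covolume of a fractional ideal -/
noncomputable def cv (I : FractionalIdeal (𝓞 K)⁰ K) : ℝ :=
  covol K * (FractionalIdeal.absNorm I : ℚ)

theorem cv_pos {I : FractionalIdeal (𝓞 K)⁰ K} (hI : I ≠ 0) : 0 < cv I := by
  have h1 : (0 : ℚ) < FractionalIdeal.absNorm I :=
    lt_of_le_of_ne (FractionalIdeal.absNorm_nonneg I)
      (Ne.symm (mt FractionalIdeal.absNorm_eq_zero_iff.1 hI))
  have h2 : (0 : ℝ) < |(NumberField.discr K : ℝ)| :=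
    abs_pos.2 (by exact_mod_cast NumberField.discr_ne_zero K)
  have h3 : (0 : ℝ) < (FractionalIdeal.absNorm I : ℚ) := by exact_mod_cast h1
  unfold cv covol
  positivity

theorem pois_shift (hP : PoisStmt K) {J : FractionalIdeal (𝓞 K)⁰ K} (hJ : J ≠ 0) {t : Pl K → ℝ}
    (ht : ∀ v, 0 < t v) (a : K) :
    ∑' y : J, (Ga t (a + y) : ℂ) = ((cv J)⁻¹ * ∏ v, π / t v : ℝ) *
      ∑' ξ : FractionalIdeal.dual ℤ ℚ J, eTr (a * ξ) * Ga (fun v => 4 * π ^ 2 / t v) (ξ : K) := by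
  obtain ⟨C, hC⟩ := decay ht (emb a) (2 * Fintype.card (Pl K) + 1)
  have hπ := Real.pi_pos
  have hFT : ∀ ξ : K, FT (fun z => (Real.exp (-∑ v, t v * ‖emb a v + z v‖ ^ 2) : ℝ)) (emb ξ) =
      (∏ v, π / t v : ℝ) * (eTr (a * ξ) * Ga (fun v => 4 * π ^ 2 / t v) ξ) := fun ξ => by
    simp only [FT, ← Finset.sum_neg_distrib, Real.exp_sum, Complex.ofReal_prod,
      ← Finset.prod_mul_distrib, Ga_prod, eTr_eq_prod]
    rw [integral_fintype_prod_volume_eq_prod (fun v (z : ℂ) =>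
      (Real.exp (-(t v * ‖emb a v + z‖ ^ 2)) : ℝ) * ecc (-(z * emb ξ v)))]
    refine Finset.prod_congr rfl fun v _ => ?_
    rw [ft_shift (ht v), ev_mul, mul_assoc, mul_comm _ (ecc _)]
    rfl
  have h := hP J (fun z => (Real.exp (-∑ v, t v * ‖emb a v + z v‖ ^ 2) : ℝ)) C hJ (by fun_prop)
    (fun z => by rw [Complex.norm_real, Real.norm_of_nonneg (Real.exp_pos _).le]; exact hC z)
    (by
      simp only [hFT]
      exact (summable_mul_Ga _ (fun v => by have := ht v; positivity)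
        fun y => (norm_eTr _).le).mul_left _)
  simp only [hFT] at h
  rw [tsum_mul_left, ← mul_assoc] at h
  simp only [Ga, ev_add] at h ⊢
  rw [Complex.ofReal_mul, Complex.ofReal_inv]
  exact h

/-- `t² + 16 π² |κ_v|²` -/
noncomputable def De (t : ℝ) (κ : K) (v : Pl K) : ℝ := t ^ 2 + 16 * π ^ 2 * ‖ev v κ‖ ^ 2

theorem pois_phase (hP : PoisStmt K) {I : FractionalIdeal (𝓞 K)⁰ K} (hI : I ≠ 0) {t : ℝ}
    (ht : 0 < t) (κ : K) :
    ∑' y : I, eTr (κ * y ^ 2) * Ga (fun _ => t) (y : K) =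
      ((cv I)⁻¹ * ∏ v, π / √(De t κ v) : ℝ) * ∑' ξ : FractionalIdeal.dual ℤ ℚ I,
        (∏ v, ecc (-((4 * π ^ 2 / De t κ v : ℝ) * conj (ev v κ) * ev v ξ ^ 2))) *
          Ga (fun v => 4 * π ^ 2 * t / De t κ v) (ξ : K) := by
  obtain ⟨C, hC⟩ := decay (t := fun _ => t) (fun _ => ht) (0 : Pl K → ℂ)
    (2 * Fintype.card (Pl K) + 1)
  simp only [Pi.zero_apply, zero_add] at hC
  have hπ := Real.pi_pos
  have hc := continuous_ecc
  have hFT : ∀ ξ : K, FT (fun z => (∏ v, ecc (ev v κ * z v ^ 2)) *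
      (Real.exp (-∑ v, t * ‖z v‖ ^ 2) : ℝ)) (emb ξ) = (∏ v, π / √(De t κ v) : ℝ) *
        ((∏ v, ecc (-((4 * π ^ 2 / De t κ v : ℝ) * conj (ev v κ) * ev v ξ ^ 2))) *
          Ga (fun v => 4 * π ^ 2 * t / De t κ v) ξ) := fun ξ => by
    simp only [FT, ← Finset.sum_neg_distrib, Real.exp_sum, Complex.ofReal_prod,
      ← Finset.prod_mul_distrib, Ga_prod]
    rw [integral_fintype_prod_volume_eq_prod (fun v (z : ℂ) =>
      ecc (ev v κ * z ^ 2) * (Real.exp (-(t * ‖z‖ ^ 2)) : ℝ) * ecc (-(z * emb ξ v)))]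
    refine Finset.prod_congr rfl fun v _ => ?_
    simp only [mul_comm (ecc (ev v κ * _))]
    rw [ft_one ht, mul_assoc, mul_comm _ (ecc _)]
    rfl
  have h := hP I (fun z => (∏ v, ecc (ev v κ * z v ^ 2)) * (Real.exp (-∑ v, t * ‖z v‖ ^ 2) : ℝ))
    C hI (by fun_prop)
    (fun z => by
      rw [norm_mul, norm_prod, Complex.norm_real, Real.norm_of_nonneg (Real.exp_pos _).le]
      simp only [norm_ecc, Finset.prod_const_one, one_mul]
      exact hC z)
    (by
      simp only [hFT]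
      refine (summable_mul_Ga _ (fun v => by unfold De; positivity) fun y => ?_).mul_left _
      simp [norm_prod, norm_ecc])
  simp only [hFT] at h
  rw [tsum_mul_left, ← mul_assoc] at h
  simp only [Ga, eTr_eq_prod, ev_mul, ev_pow] at h ⊢
  rw [Complex.ofReal_mul, Complex.ofReal_inv]
  exact h

end QG

end Vale.Agent.P319
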