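import Vale.Agent.P319.N.Sym

/-! Part QG: algebraic properties of the sums `GS a n = ∑ eq (a x²) n`. -/

namespace Vale.Agent.P319

open scoped ComplexConjugate Real NumberField

variable {K : Type} [Field K] [NumberField K] [Stp K]

namespace QG

/-- the quadratic Gauss sum -/
noncomputable def GS (a n : R K) : ℂ := ∑ x ∈ res n, eq (a * x ^ 2) n

theorem per_sq (a n : R K) : Per n fun x => eq (a * x ^ 2) n := fun x y h =>
  eq_congr (h.trans ⟨a * (x + y), by ring⟩)

theorem per_mul_eq {n : R K} {f : R K → ℂ} (hf : Per n f) (ν : R K) :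
    Per n fun x => f x * eq (ν * x) n := by
  intro x y h
  simp only
  rw [hf x y h, eq_congr (x := ν * x) (y := ν * y) (by rw [← mul_sub]; exact h.mul_left _)]

theorem twist {n t : R K} (hn : n ≠ 0) {f : R K → ℂ} (hf : Per n f)
    (hm : ∀ a b, f (a * b) = f a * f b) (ht : IsCoprime t n) (ν : R K) :
    f t * ∑ x ∈ res n, f x * eq (ν * t * x) n = ∑ x ∈ res n, f x * eq (ν * x) n := by
  rw [← sum_res_affine hn (per_mul_eq hf ν) ht 0, Finset.mul_sum]
  refine Finset.sum_congr rfl fun x _ => ?_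
  rw [add_zero, hm, mul_assoc ν, mul_assoc]

theorem crt {m n : R K} (hm : m ≠ 0) (hn : n ≠ 0) (h : IsCoprime m n) {f g : R K → ℂ}
    (hf : Per m f) (hg : Per n g) (hf' : ∀ a b, f (a * b) = f a * f b)
    (hg' : ∀ a b, g (a * b) = g a * g b) (ν : R K) :
    ∑ x ∈ res (m * n), f x * g x * eq (ν * x) (m * n) =
      f n * g m * (∑ x ∈ res m, f x * eq (ν * x) m) * ∑ x ∈ res n, g x * eq (ν * x) n := by
  have hp : Per (m * n) fun x => f x * g x := fun x y hxy => by
    simp only
    rw [hf x y ((dvd_mul_right m n).trans hxy), hg x y ((dvd_mul_left n m).trans hxy)]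
  rw [sum_res_crt hm hn h (per_mul_eq hp ν), mul_assoc, Finset.sum_mul_sum, Finset.mul_sum]
  refine Finset.sum_congr rfl fun x _ => ?_
  rw [Finset.mul_sum]
  refine Finset.sum_congr rfl fun y _ => ?_
  rw [hf (n * x + m * y) (n * x) (by simp), hg (n * x + m * y) (m * y) (by simp), hf', hg',
    show ν * (n * x + m * y) = n * (ν * x) + m * (ν * y) by ring, eq_crt hm hn]
  ring

theorem GS_crt {m n : R K} (hm : m ≠ 0) (hn : n ≠ 0) (h : IsCoprime m n) (a : R K) :
    GS a (m * n) = GS (a * n) m * GS (a * m) n := by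
  rw [GS, sum_res_crt hm hn h (per_sq a _)]
  have e : ∀ x y : R K, eq (a * (n * x + m * y) ^ 2) (m * n) =
      eq (a * n * x ^ 2) m * eq (a * m * y ^ 2) n := fun x y => by
    rw [← eq_crt hm hn]
    exact eq_congr ⟨2 * a * x * y, by ring⟩
  simp only [e, ← Finset.mul_sum, ← Finset.sum_mul, GS]

theorem sum_sq_prime {p : R K} (hp : Prime p) {F : R K → ℂ} (hF : Per p F) :
    ∑ x ∈ res p, F (x ^ 2) = ∑ y ∈ res p, (1 + quad y p) * F y := by
  classical
  have hmax : (Ideal.span {p}).IsMaximal := PrincipalIdealRing.isMaximal_of_irreducible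
    hp.irreducible
  let : Field (R K ⧸ Ideal.span {p}) := Ideal.Quotient.field _
  have : Finite (R K ⧸ Ideal.span {p}) := finite_quot hp.ne_zero
  let : Fintype (R K ⧸ Ideal.span {p}) := Fintype.ofFinite _
  have hmk : ∀ x y : R K, Ideal.Quotient.mk (Ideal.span {p}) x = Ideal.Quotient.mk _ y ↔
      p ∣ x - y := fun x y => by rw [Ideal.Quotient.eq, Ideal.mem_span_singleton]
  have hF' : ∀ x, F (Ideal.Quotient.mk (Ideal.span {p}) x).out = F x := fun x =>
    hF _ _ ((hmk _ _).1 (Ideal.Quotient.mk_out _))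
  have hch : ringChar (R K ⧸ Ideal.span {p}) ≠ 2 := by
    intro h
    have h3 : ((2 : ℕ) : R K ⧸ Ideal.span {p}) = 0 := by rw [← h]; exact ringChar.Nat.cast_ringChar
    have h4 : p ∣ 2 := by
      have := (hmk 2 0).1 (by simpa [map_ofNat] using h3)
      simpa using this
    exact hp.not_isUnit (isUnit_of_dvd_unit h4 isUnit_two)
  have hq : ∀ y : R K, ((quadraticChar _ (Ideal.Quotient.mk (Ideal.span {p}) y) : ℤ) : ℂ) =
      quad y p := fun y => by
    by_cases hy : p ∣ y
    · have : Ideal.Quotient.mk (Ideal.span {p}) y = 0 := by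
        rw [Ideal.Quotient.eq_zero_iff_mem, Ideal.mem_span_singleton]; exact hy
      rw [this, quadraticChar_zero, quad_eq_zero hp.ne_zero fun hc => hp.not_isUnit
        (hc.isUnit_of_dvd' hy dvd_rfl)]
      simp
    · have h0 : Ideal.Quotient.mk (Ideal.span {p}) y ≠ 0 := by
        rwa [Ne, Ideal.Quotient.eq_zero_iff_mem, Ideal.mem_span_singleton]
      have hsq : IsSquare (Ideal.Quotient.mk (Ideal.span {p}) y) ↔ quad y p = 1 := by
        rw [quad_prime_eq_one_iff hp hy]
        constructor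
        · rintro ⟨r, hr⟩
          obtain ⟨r, rfl⟩ := Ideal.Quotient.mk_surjective r
          exact ⟨r, (hmk _ _).1 (by rw [hr, sq, map_mul])⟩
        · rintro ⟨x, hx⟩
          exact ⟨Ideal.Quotient.mk _ x, by rw [(hmk _ _).2 hx, sq, map_mul]⟩
      have hc : IsCoprime y p := ((Prime.coprime_iff_not_dvd hp).2 hy).symm
      by_cases hs : IsSquare (Ideal.Quotient.mk (Ideal.span {p}) y)
      · rw [(quadraticChar_one_iff_isSquare h0).2 hs, hsq.1 hs]
        simp
      · rw [quadraticChar_neg_one_iff_not_isSquare.2 hs,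
          (sq_eq_one_iff.1 (quad_sq hc)).resolve_left (mt hsq.2 hs)]
        simp
  have e1 := sum_res_quot (n := p) fun z => F (z ^ 2).out
  have e2 := sum_res_quot (n := p) fun z => (1 + ((quadraticChar _ z : ℤ) : ℂ)) * F z.out
  simp only [← map_pow, hF', hq] at e1 e2
  rw [e1, e2, ← Finset.sum_fiberwise Finset.univ (fun z => z ^ 2)]
  refine Finset.sum_congr rfl fun y _ => ?_
  rw [Finset.sum_congr rfl (g := fun _ => F y.out) fun z hz => by
    rw [(Finset.mem_filter.1 hz).2], Finset.sum_const, nsmul_eq_mul]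
  congr 1
  have := quadraticChar_card_sqrts hch y
  rw [Set.toFinset_ofPred] at this
  rw [add_comm]
  exact_mod_cast this

theorem per_quad (n : R K) : Per n fun x => quad x n := fun _ _ h => quad_congr h

theorem GS_sqfree {n : R K} (hs : Squarefree n) :
    ∀ a, IsCoprime a n → GS a n = quad a n * ∑ x ∈ res n, quad x n * eq x n := by
  induction n using UniqueFactorizationMonoid.induction_on_prime with
  | h₁ => exact absurd rfl hs.ne_zero
  | h₂ u hu =>
    intro a _
    simp only [GS, quad_unit_right hu, one_mul, eq_of_dvd (hu.dvd)]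
  | h₃ m p hm hp ih =>
    intro a ha
    have hpm : IsCoprime p m := (IsRelPrime.of_squarefree_mul hs).isCoprime
    have hprime : ∀ b, IsCoprime b p → GS b p =
        quad b p * ∑ x ∈ res p, quad x p * eq x p := fun b hb => by
      rw [GS, sum_sq_prime hp (F := fun y => eq (b * y) p)
        (fun x y h' => eq_congr (by rw [← mul_sub]; exact h'.mul_left b))]
      simp only [add_mul, one_mul, Finset.sum_add_distrib]
      rw [sum_eq hp.ne_zero, ind_of_not fun h' => hp.not_isUnit (hb.isUnit_of_dvd' h' dvd_rfl),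
        zero_mul, zero_add]
      have := twist hp.ne_zero (per_quad p) (fun x y => quad_mul_left x y p) hb 1
      simp only [one_mul] at this
      rw [← this, ← mul_assoc, ← sq, quad_sq hb, one_mul]
    rw [GS_crt hp.ne_zero hm hpm, hprime _ (ha.of_mul_right_left.mul_left hpm.symm),
      ih hs.of_mul_right _ (ha.of_mul_right_right.mul_left hpm)]
    have := crt hp.ne_zero hm hpm (per_quad p) (per_quad m) (fun x y => quad_mul_left x y p)
      (fun x y => quad_mul_left x y m) 1
    simp only [one_mul] at this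
    simp only [quad_mul_right hp.ne_zero hm]
    rw [this, quad_mul_left, quad_mul_left]
    ring

theorem sum_ind_dvd {n z : R K} (hn : n ≠ 0) (hz : z ≠ 0) {g : R K → ℂ}
    (hg : Per n fun w => g (z * w)) :
    ∑ x ∈ res (n * z), ind (z ∣ x) * g x = ∑ w ∈ res n, g (z * w) := by
  have hp : Per (n * z) fun x => ind (z ∣ x) * g x := by
    rintro x y ⟨k, hk⟩
    simp only
    by_cases h : z ∣ y
    · obtain ⟨w, rfl⟩ := h
      have e : x = z * (w + n * k) := by linear_combination hk
      rw [e, ind_of (dvd_mul_right _ _), ind_of (dvd_mul_right _ _)]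
      exact congrArg _ (hg _ _ ⟨k, by ring⟩)
    · rw [ind_of_not h, ind_of_not fun ⟨w, hw⟩ => h ⟨w - n * k, by linear_combination hw - hk⟩,
        zero_mul, zero_mul]
  rw [sum_res_mul hn hz hp, Finset.sum_comm]
  have e : ∀ x, ∑ y ∈ res n, ind (z ∣ x + z * y) * g (x + z * y) =
      ind (z ∣ 0 - x) * ∑ w ∈ res n, g (z * w) := fun x => by
    by_cases h : z ∣ x
    · obtain ⟨c, rfl⟩ := h
      rw [ind_of (by simp), one_mul, ← sum_res_affine hn hg isCoprime_one_left c]
      refine Finset.sum_congr rfl fun y _ => ?_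
      rw [ind_of ⟨c + y, by ring⟩, one_mul]
      congr 1
      ring
    · rw [ind_of_not (by simpa using h), zero_mul]
      refine Finset.sum_eq_zero fun y _ => ?_
      rw [ind_of_not fun h' => h ((dvd_add_left (dvd_mul_right z y)).1 h'), zero_mul]
  simp only [e]
  rw [← Finset.sum_mul, sum_res_ind hz, one_mul]

theorem GS_mul_sq {n z a : R K} (hn : n ≠ 0) (hz : z ≠ 0) (ha : IsCoprime a z) :
    GS a (n * z ^ 2) = nm z * GS a n := by
  have hnz := mul_ne_zero hn hz
  rw [show n * z ^ 2 = z * (n * z) by ring, GS, sum_res_mul hz hnz (per_sq a _), Finset.sum_comm]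
  have e : ∀ x, ∑ y ∈ res z, eq (a * (x + n * z * y) ^ 2) (z * (n * z)) =
      nm z * (ind (z ∣ x) * eq (a * x ^ 2) (z * (n * z))) := fun x => by
    have e1 : ∀ y, eq (a * (x + n * z * y) ^ 2) (z * (n * z)) =
        eq (a * x ^ 2) (z * (n * z)) * eq (2 * a * x * y) z := fun y => by
      rw [← eq_mul_cancel hnz (2 * a * x * y) z, mul_comm (n * z) z, ← eq_add]
      exact eq_congr ⟨a * n * y ^ 2, by ring⟩
    have e2 : z ∣ 2 * a * x ↔ z ∣ x :=
      ⟨fun h => ha.symm.dvd_of_dvd_mul_left (isUnit_two.dvd_mul_left.1 (mul_assoc 2 a x ▸ h)),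
        fun h => h.mul_left _⟩
    simp only [e1]
    rw [← Finset.mul_sum, sum_eq hz, ind_congr e2]
    ring
  have e3 : ∀ w, eq (a * (z * w) ^ 2) (z * (n * z)) = eq (a * w ^ 2) n := fun w => by
    rw [← eq_mul_cancel (mul_ne_zero hz hz) (a * w ^ 2) n]
    congr 1 <;> ring
  simp only [e]
  rw [← Finset.mul_sum, sum_ind_dvd hn hz (g := fun x => eq (a * x ^ 2) (z * (n * z)))
    (by simp only [e3]; exact per_sq a n)]
  simp only [e3, GS]

theorem GS_twist {n : R K} (hn : n ≠ 0) {a : R K} (ha : IsCoprime a n) :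
    GS a n = quad a n * GS 1 n := by
  induction hk : nm n using Nat.strong_induction_on generalizing n with
  | _ k ih =>
  by_cases hs : Squarefree n
  · rw [GS_sqfree hs a ha, GS_sqfree hs 1 isCoprime_one_left, quad_one_left, one_mul]
  · simp only [Squarefree, not_forall] at hs
    obtain ⟨z, ⟨m, rfl⟩, hz⟩ := hs
    have hz0 : z ≠ 0 := left_ne_zero_of_mul (left_ne_zero_of_mul hn)
    have hm : m ≠ 0 := right_ne_zero_of_mul hn
    have haz : IsCoprime a z := ha.of_mul_right_left.of_mul_right_left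
    have hlt : nm m < k := by
      have h1 := seven_le_nm hz0 hz
      have h2 := nm_pos hm
      rw [← hk, nm_mul, nm_mul]
      nlinarith [mul_le_mul h1 h1 (by norm_num) (Nat.zero_le _)]
    rw [quad_mul_right (mul_ne_zero hz0 hz0) hm, quad_mul_right hz0 hz0, ← sq (quad a z), quad_sq haz,
      show z * z * m = m * z ^ 2 by ring, GS_mul_sq hm hz0 haz,
      GS_mul_sq hm hz0 isCoprime_one_left, ih _ hlt hm ha.of_mul_right_right rfl]
    ring

theorem norm_GS {n : R K} (hn : n ≠ 0) : ‖GS 1 n‖ = √(nm n) := by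
  have h : GS 1 n * conj (GS 1 n) = nm n := by
    rw [GS, map_sum, Finset.mul_sum]
    have e : ∀ y, (∑ x ∈ res n, eq (1 * x ^ 2) n) * conj (eq (1 * y ^ 2) n) =
        ∑ h ∈ res n, eq (1 * h ^ 2) n * eq (2 * h * y) n := fun y => by
      rw [← sum_res_affine hn (per_sq 1 n) isCoprime_one_left y, Finset.sum_mul]
      refine Finset.sum_congr rfl fun h _ => ?_
      rw [conj_eq, ← eq_add, ← eq_add]
      congr 1
      ring
    simp only [e]
    rw [Finset.sum_comm]
    have e2 : ∀ h, ∑ y ∈ res n, eq (1 * h ^ 2) n * eq (2 * h * y) n = ind (n ∣ 0 - h) * nm n :=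
      fun h => by
      rw [← Finset.mul_sum, sum_eq hn, ind_congr (isUnit_two.dvd_mul_left)]
      by_cases hh : n ∣ h
      · rw [eq_of_dvd (hh.trans ⟨h, by ring⟩), one_mul, ind_of hh, ind_of (by simpa using hh)]
      · rw [ind_of_not hh, ind_of_not (by simpa using hh)]
        ring
    simp only [e2]
    rw [← Finset.sum_mul, sum_res_ind hn, one_mul]
  rw [Complex.mul_conj, Complex.normSq_eq_norm_sq] at h
  have h2 : ‖GS 1 n‖ ^ 2 = nm n := by exact_mod_cast h
  rw [← h2, Real.sqrt_sq (norm_nonneg _)]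

/-- the normalised sum -/
noncomputable def G2 (n : R K) : ℂ := GS 1 n / (√(nm n) : ℝ)

theorem sqrt_ne {n : R K} (hn : n ≠ 0) : ((√(nm n) : ℝ) : ℂ) ≠ 0 := by
  exact_mod_cast (Real.sqrt_pos.2 (nm_pos_real hn)).ne'

theorem norm_G2 {n : R K} (hn : n ≠ 0) : ‖G2 n‖ = 1 := by
  rw [G2, norm_div, norm_GS hn, Complex.norm_real, Real.norm_of_nonneg (Real.sqrt_nonneg _),
    div_self (Real.sqrt_pos.2 (nm_pos_real hn)).ne']

theorem G2_one : G2 (1 : R K) = 1 := by
  simp [G2, GS, eq_of_dvd (one_dvd _), card_res one_ne_zero]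

theorem gt2_eq {n : R K} (hs : Squarefree n) : gt2 n = G2 n := by
  rw [gt2, G2, GS_sqfree hs 1 isCoprime_one_left, quad_one_left, one_mul]

theorem G2_mul_sq {n z : R K} (hn : n ≠ 0) (hz : z ≠ 0) : G2 (n * z ^ 2) = G2 n := by
  have h : ((nm z : ℝ) : ℂ) ≠ 0 := by exact_mod_cast (nm_pos hz).ne'
  rw [G2, G2, GS_mul_sq hn hz isCoprime_one_left, sq, nm_mul, nm_mul, Nat.cast_mul, Nat.cast_mul,
    Real.sqrt_mul (Nat.cast_nonneg _), Real.sqrt_mul_self (Nat.cast_nonneg _), Complex.ofReal_mul,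
    mul_comm _ ((nm z : ℝ) : ℂ), Complex.ofReal_natCast, mul_div_mul_left _ _ (by exact_mod_cast h)]

theorem G2_mul {x y : R K} (hx : x ≠ 0) (hy : y ≠ 0) (h : IsCoprime x y) :
    G2 (x * y) = quad y x * quad x y * G2 x * G2 y := by
  rw [G2, G2, G2, GS_crt hx hy h, one_mul, one_mul, GS_twist hx h.symm, GS_twist hy h, nm_mul,
    Nat.cast_mul, Real.sqrt_mul (Nat.cast_nonneg _), Complex.ofReal_mul]
  have := sqrt_ne hx
  have := sqrt_ne hy
  field_simp

theorem G2_eq_of_pos {x y : R K} (hx : x ≠ 0) (hy : y ≠ 0) {c : ℝ} (hc : 0 < c)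
    (h : GS 1 y = c * GS 1 x) : G2 y = G2 x := by
  have h1 := congrArg norm h
  rw [norm_mul, norm_GS hx, norm_GS hy, Complex.norm_real, Real.norm_of_nonneg hc.le] at h1
  rw [G2, G2, h, h1, Complex.ofReal_mul, mul_div_mul_left _ _ (by exact_mod_cast hc.ne')]

end QG

end Vale.Agent.P319
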