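import Vale.Agent.P319.N.PSAux

/-! # PSQ: squarefree kernels: every `Prim k` is `b * l ^ 2` with unique `IsS b`, `Prim l`.  Port of `P026/QKer.lean`
(simpler: no units, no `lam`; `l ↦ b * l ^ 2` is injective on `Prim l`, so there is no factor `1 / 2`). -/

namespace Vale.Agent.P319

open scoped ComplexConjugate Real
open MeasureTheory

variable {K : Type} [Field K] [NumberField K] [Stp K]

theorem Small.prim {B : ℝ} {k : R K} (h : Small B k) : Prim k := by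
  obtain ⟨b, hb, l, hl, rfl⟩ := h
  exact (mem_sball.1 hb).1.1.mul (hl.pow 2)

theorem exists_ker {k : R K} (hk : Prim k) : ∃ b l, IsS b ∧ Prim l ∧ k = b * l ^ 2 := by
  obtain ⟨a, l, ha, hl, e⟩ := exists_sq_mul_isS hk
  exact ⟨a, l, ha, hl, e.trans (mul_comm _ _)⟩

theorem ker_unique {b b' l l' : R K} (hb : IsS b) (hb' : IsS b') (hl : Prim l) (hl' : Prim l')
    (h : b * l ^ 2 = b' * l' ^ 2) : b = b' ∧ l = l' := by
  exact sq_decomp_unique hb hl hb' hl' (by rw [mul_comm, h, mul_comm])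

theorem IsS.not_small {B : ℝ} {k : R K} (hk : IsS k) (h : B < nm k) : ¬Small B k := by
  rintro ⟨b, hb, l, hl, e⟩
  obtain ⟨h1, h2⟩ := mem_sball.1 hb
  have h3 : b = k := (ker_unique h1 hk hl prim_one (by rw [← e]; ring)).1
  rw [h3] at h2
  linarith

theorem qker_summable {ι : Type*} {G : ι → ℂ} (hG : Summable G) (p : ι → Prop) :
    Summable fun k => ind (p k) * G k := by
  exact Summable.of_norm_bounded hG.norm fun k => by
    rw [norm_mul]
    exact mul_le_of_le_one_left (norm_nonneg _) (norm_ind_le _)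

theorem qker_inj {σ : R K → R K} (hσ : Set.InjOn σ {l | Prim l}) (G : R K → ℂ) :
    ∑' k : R K, ind (∃ l, Prim l ∧ k = σ l) * G k = ∑' l : R K, ind (Prim l) * G (σ l) := by
  have inj : Function.Injective fun l : {l : R K | Prim l} => σ l := fun l l' e =>
    Subtype.ext (hσ l.2 l'.2 e)
  rw [← inj.tsum_eq fun k hk => by
      by_contra h0
      refine hk (mul_eq_zero_of_left (ind_of_not ?_) _)
      rintro ⟨l, hl, e⟩
      exact h0 ⟨⟨l, hl⟩, e.symm⟩,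
    ← Subtype.val_injective.tsum_eq (f := fun l => ind (Prim l) * G (σ l))
      (g := (Subtype.val : {l : R K | Prim l} → R K)) fun l hl => by
        by_contra h0
        exact hl (mul_eq_zero_of_left (ind_of_not fun h => h0 ⟨⟨l, h⟩, rfl⟩) _)]
  exact tsum_congr fun l => by rw [ind_of ⟨l, l.2, rfl⟩, ind_of (p := Prim l.1) l.2]

theorem tsum_small {G : R K → ℂ} (hG : Summable G) (B : ℝ) :
    ∑' k : R K, ind (Small B k) * G k =
      ∑ b ∈ sball K B, ∑' l : R K, ind (Prim l) * G (b * l ^ 2) := by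
  have h1 : ∀ k, ind (Small B k) * G k =
      ∑ b ∈ sball K B, ind (∃ l : R K, Prim l ∧ k = b * l ^ 2) * G k := fun k => by
    rw [← Finset.sum_mul]
    congr 1
    by_cases h : Small B k
    · rw [ind_of h]
      obtain ⟨b, hb, l, hl, e⟩ := h
      rw [Finset.sum_eq_single_of_mem b hb, ind_of ⟨l, hl, e⟩]
      refine fun b' hb' hne => ind_of_not ?_
      rintro ⟨l', hl', e'⟩
      exact hne (ker_unique (mem_sball.1 hb').1 (mem_sball.1 hb).1 hl' hl (e'.symm.trans e)).1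
    · rw [ind_of_not h]
      exact (Finset.sum_eq_zero fun b hb => ind_of_not fun h' => h ⟨b, hb, h'⟩).symm
  simp only [h1]
  rw [Summable.tsum_finsetSum fun b _ => qker_summable hG _]
  exact Finset.sum_congr rfl fun b hb => qker_inj (fun l hl l' hl' e =>
    (ker_unique (mem_sball.1 hb).1 (mem_sball.1 hb).1 hl hl' e).2) G

theorem exists_cover (B : ℝ) {s : Finset (R K)} (hs : ∀ k ∈ s, Prim k ∧ ¬Small B k) :
    ∃ L T : Finset (R K), (∀ l ∈ L, Prim l) ∧ (∀ b ∈ T, IsS b ∧ B < nm b) ∧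
      ∀ f : R K → ℝ, (∀ k, 0 ≤ f k) → ∑ k ∈ s, f k ≤ ∑ l ∈ L, ∑ b ∈ T, f (b * l ^ 2) := by
  classical
  choose! b l h1 h2 h3 using fun k (hk : k ∈ s) => exists_ker (hs k hk).1
  refine ⟨s.image l, s.image b, fun l' hl' => ?_, fun b' hb' => ?_, fun f hf => ?_⟩
  · obtain ⟨k, hk, rfl⟩ := Finset.mem_image.1 hl'
    exact h2 k hk
  · obtain ⟨k, hk, rfl⟩ := Finset.mem_image.1 hb'
    exact ⟨h1 k hk, lt_of_not_ge fun h => (hs k hk).2
      ⟨b k, mem_sball.2 ⟨h1 k hk, h⟩, l k, h2 k hk, h3 k hk⟩⟩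
  · rw [← Finset.sum_product']
    exact sum_le_sum_cover s _ (fun p : R K × R K => p.2 * p.1 ^ 2) f hf fun k hk =>
      ⟨(l k, b k), Finset.mem_product.2 ⟨Finset.mem_image_of_mem _ hk,
        Finset.mem_image_of_mem _ hk⟩, (h3 k hk).symm⟩

theorem IsS.split {Δ : R K} (hΔ : IsS Δ) (b : R K) : ∃ Δ₁ Δ₂, IsS Δ₁ ∧ IsS Δ₂ ∧ IsCoprime Δ₁ Δ₂ ∧
    Δ = Δ₁ * Δ₂ ∧ Δ₁ ∣ b ∧ IsCoprime Δ₂ b := by
  obtain ⟨d, hd, ⟨Δ₂, rfl⟩, h2, h3⟩ := exists_prim_gcd b hΔ.1
  refine ⟨d, Δ₂, hΔ.of_dvd hd (dvd_mul_right _ _), hΔ.of_dvd (hd.of_mul hΔ.1) (dvd_mul_left _ _),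
    hΔ.coprime, rfl, h2, isRelPrime_iff_isCoprime.1 fun e e1 e2 => ?_⟩
  exact hΔ.coprime.isUnit_of_dvd' (h3 e (e1.mul_left _) e2) e1

theorem dvd_ker_iff {e₁ e₂ b : R K} (h1 : e₁ ∣ b) (h2 : IsCoprime e₂ b) (hs : Squarefree e₂)
    (l : R K) : e₁ * e₂ ∣ b * l ^ 2 ↔ e₂ ∣ l := by
  refine ⟨fun h => ?_, fun h => mul_dvd_mul h1 (dvd_pow h two_ne_zero)⟩
  exact hs.isRadical 2 l (h2.dvd_of_dvd_mul_left ((dvd_mul_left _ _).trans h))

/-- substitution `n = e * n'` in a sum over chosen generators -/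
theorem tsum_prim_dvd {e : R K} (he : Prim e) (G : R K → ℂ) :
    ∑' n : R K, ind (Prim n) * (ind (e ∣ n) * G n) = ∑' n : R K, ind (Prim n) * G (e * n) := by
  rw [← qker_inj (σ := fun n => e * n) (fun _ _ _ _ h => mul_left_cancel₀ he.1 h) G]
  refine tsum_congr fun n => ?_
  rw [← mul_assoc, ← ind_and]
  refine congrArg (· * G n) (ind_congr ⟨?_, ?_⟩)
  · rintro ⟨h, l, rfl⟩
    exact ⟨l, he.of_mul h, rfl⟩
  · rintro ⟨l, hl, rfl⟩
    exact ⟨he.mul hl, dvd_mul_right _ _⟩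

end Vale.Agent.P319
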