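import Vale.Agent.P319.N.QKer
import Vale.Agent.P319.N.Sym

/-! # PSQ: dual frequencies with a large kernel. -/

namespace Vale.Agent.P319

open scoped ComplexConjugate Real
open MeasureTheory

variable {K : Type} [Field K] [NumberField K] [Stp K]

theorem large0 (h : Q1 K) {δ : ℝ} (hδ : 0 < δ) (hδ1 : δ ≤ 1) : ∃ C : ℝ, 0 < C ∧
    ∀ (X L B₀ : ℝ) (γ : R K → ℂ) (T : Finset (R K)), 1 ≤ X → 0 < L → 1 ≤ B₀ →
      (∀ b ∈ T, IsS b ∧ B₀ < nm b) →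
      ∑ b ∈ T, (1 + (nm b : ℝ) / L) ^ (-5 : ℝ) * ‖∑ m ∈ sball K X, γ m * quad b m‖ ^ 2 ≤
        C * (X * L ^ (1 / 2 + δ) * B₀ ^ (-1 / 2 : ℝ) + L ^ (2 + δ)) *
          ∑ m ∈ sball K X, ‖γ m‖ ^ 2 := by
  obtain ⟨C₁, hC₁, h₁⟩ := dyadic_weight (K := K) (A := 5) (p := 3) (by norm_num) (by norm_num)
  obtain ⟨C₂, hC₂, h₂⟩ := h δ hδ
  refine ⟨C₁ * C₂, by positivity, fun X L B₀ γ T hX hL hB hT => ?_⟩
  have hS : 0 ≤ ∑ m ∈ sball K X, ‖γ m‖ ^ 2 := by positivity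
  refine (h₁ (fun b => ‖∑ m ∈ sball K X, γ m * quad b m‖ ^ 2) L
    (C₂ * (X * L ^ (1 / 2 + δ) * B₀ ^ (-1 / 2 : ℝ) + L ^ (2 + δ)) * ∑ m ∈ sball K X, ‖γ m‖ ^ 2) T
    (fun _ _ => by positivity) hL fun y hy => ?_).trans (le_of_eq (by ring))
  rcases (T.filter fun k => (nm k : ℝ) ≤ y * L).eq_empty_or_nonempty with h0 | ⟨b, hb⟩
  · rw [h0, Finset.sum_empty]
    positivity
  have hB1 : B₀ ≤ y * L := (hT b (Finset.mem_filter.1 hb).1).2.le.trans (Finset.mem_filter.1 hb).2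
  refine ((Finset.sum_le_sum_of_subset_of_nonneg (fun b hb => mem_sball.2
    ⟨(hT b (Finset.mem_filter.1 hb).1).1, (Finset.mem_filter.1 hb).2⟩) fun _ _ _ => by positivity).trans
    (h₂ (y * L) X γ (hB.trans hB1) hX)).trans ?_
  have hy0 : 0 < y := by linarith
  have hB0 : 0 < B₀ := by linarith
  have hyL : 0 < y * L := by positivity
  have a1 : ∀ p : ℝ, p ≤ 3 → (y * L) ^ p ≤ L ^ p * y ^ (3 : ℝ) := fun p hp => by
    rw [Real.mul_rpow hy0.le hL.le, mul_comm]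
    gcongr
  have a2 : (y * L) ^ δ ≤ (y * L) ^ (1 / 2 + δ) * B₀ ^ (-1 / 2 : ℝ) := by
    have b1 : 1 ≤ (y * L) ^ (1 / 2 : ℝ) * B₀ ^ (-1 / 2 : ℝ) := by
      calc (1 : ℝ) = B₀ ^ (1 / 2 : ℝ) * B₀ ^ (-1 / 2 : ℝ) := by
            rw [← Real.rpow_add hB0]; norm_num
        _ ≤ _ := by gcongr
    rw [Real.rpow_add hyL, mul_right_comm]
    exact le_mul_of_one_le_left (by positivity) b1
  have a3 : (y * L) ^ 2 * (y * L) ^ δ = (y * L) ^ (2 + δ) := by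
    rw [Real.rpow_add hyL, Real.rpow_two]
  have a4 := a1 (1 / 2 + δ) (by linarith)
  have a5 := a1 (2 + δ) (by linarith)
  have a6 : (X + (y * L) ^ 2) * (y * L) ^ δ ≤
      (X * L ^ (1 / 2 + δ) * B₀ ^ (-1 / 2 : ℝ) + L ^ (2 + δ)) * y ^ (3 : ℝ) := by
    rw [add_mul, a3, add_mul]
    refine add_le_add ?_ a5
    calc X * (y * L) ^ δ ≤ X * (L ^ (1 / 2 + δ) * y ^ (3 : ℝ) * B₀ ^ (-1 / 2 : ℝ)) := by
          refine mul_le_mul_of_nonneg_left (a2.trans ?_) (by linarith)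
          gcongr
      _ = _ := by ring
  calc C₂ * (X + (y * L) ^ 2) * (y * L) ^ δ * ∑ m ∈ sball K X, ‖γ m‖ ^ 2
      = C₂ * ((X + (y * L) ^ 2) * (y * L) ^ δ) * ∑ m ∈ sball K X, ‖γ m‖ ^ 2 := by ring
    _ ≤ C₂ * ((X * L ^ (1 / 2 + δ) * B₀ ^ (-1 / 2 : ℝ) + L ^ (2 + δ)) * y ^ (3 : ℝ)) *
        ∑ m ∈ sball K X, ‖γ m‖ ^ 2 := by gcongr
    _ = _ := by ring

private theorem qlarge_div {L n p σ : ℝ} (hL : 0 < L) (hn : 1 ≤ n) (h : σ ≤ 2 * p) :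
    (L / n ^ 2) ^ p ≤ L ^ p * n ^ (-σ) := by
  have hn0 : 0 < n := by linarith
  rw [Real.div_rpow hL.le (by positivity), ← Real.rpow_two, ← Real.rpow_mul hn0.le, div_eq_mul_inv,
    ← Real.rpow_neg hn0.le]
  gcongr

open Classical in
private theorem qlarge_restrict {M : Type*} [AddCommMonoid M] {Z X : ℝ} (c : R K → M)
    (h : ∀ m ∈ sball K Z, c m ≠ 0 → (nm m : ℝ) ≤ X) :
    ∑ m ∈ sball K Z, c m = ∑ m ∈ sball K X, if m ∈ sball K Z then c m else 0 := by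
  rw [Finset.sum_ite_mem]
  refine (Finset.sum_subset Finset.inter_subset_right fun m hm hm' => ?_).symm
  by_contra h0
  exact hm' (Finset.mem_inter.2 ⟨mem_sball.2 ⟨(mem_sball.1 hm).1, h m hm h0⟩, hm⟩)

theorem large1 (h : Q1 K) {δ : ℝ} (hδ : 0 < δ) (hδ1 : δ ≤ 1) : ∃ C : ℝ, 0 < C ∧
    ∀ (Z X L B₀ : ℝ) (γ : R K → ℂ) (s : Finset (R K)), 0 < X → 0 < L → 1 ≤ B₀ →
      (∀ m ∈ sball K Z, γ m ≠ 0 → (nm m : ℝ) ≤ X) → (∀ k ∈ s, Prim k ∧ ¬Small B₀ k) →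
      ∑ k ∈ s, (1 + (nm k : ℝ) / L) ^ (-5 : ℝ) * ‖∑ m ∈ sball K Z, γ m * quad k m‖ ^ 2 ≤
        C * (X * L ^ (1 / 2 + δ) * B₀ ^ (-1 / 2 : ℝ) + L ^ (2 + δ)) *
          ∑ m ∈ sball K Z, ‖γ m‖ ^ 2 := by
  classical
  obtain ⟨C₁, hC₁, h₁⟩ := large0 h hδ hδ1
  obtain ⟨C₂, hC₂, h₂⟩ := sum_rpow_le_const (K := K) (σ := 1 + 2 * δ) (by linarith)
  refine ⟨C₁ * C₂, by positivity, fun Z X L B₀ γ s hX hL hB hγ hs => ?_⟩
  have hB0 : 0 < B₀ := by linarith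
  rcases lt_or_ge X 1 with hX1 | hX1
  · have h0 : ∀ m ∈ sball K Z, γ m = 0 := fun m hm => by
      by_contra h0
      linarith [hγ m hm h0, one_le_nm (mem_sball.1 hm).1.1.1]
    refine le_trans (le_of_eq (Finset.sum_eq_zero fun k _ => ?_)) (by positivity)
    rw [Finset.sum_eq_zero fun m hm => by rw [h0 m hm, zero_mul]]
    simp
  obtain ⟨L', T, hL', hT, hc⟩ := exists_cover B₀ hs
  refine (hc _ fun k => by positivity).trans ?_
  have key : ∀ l ∈ L', ∑ b ∈ T, (1 + (nm (b * l ^ 2) : ℝ) / L) ^ (-5 : ℝ) *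
      ‖∑ m ∈ sball K Z, γ m * quad (b * l ^ 2) m‖ ^ 2 ≤
      C₁ * (X * L ^ (1 / 2 + δ) * B₀ ^ (-1 / 2 : ℝ) + L ^ (2 + δ)) *
        (∑ m ∈ sball K Z, ‖γ m‖ ^ 2) * (nm l : ℝ) ^ (-(1 + 2 * δ)) := by
    intro l hl
    have hl1 : (1 : ℝ) ≤ nm l := one_le_nm (hL' l hl).1
    have a1 := h₁ X (L / nm l ^ 2) B₀
      (fun m => if m ∈ sball K Z then γ m * ind (IsCoprime l m) else 0) T hX1 (by positivity) hB hT
    refine le_trans (le_of_eq (Finset.sum_congr rfl fun b _ => ?_)) (a1.trans ?_)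
    · rw [qlarge_restrict (X := X) _ fun m hm h0 => hγ m hm (left_ne_zero_of_mul h0)]
      congr 2
      · rw [nm_mul, nm_pow]
        push_cast
        field_simp
      · congr 1
        refine Finset.sum_congr rfl fun m hm => ?_
        have h2 := (mem_sball.1 hm).1.1.1
        rw [quad_mul_left, quad_sq_left h2]
        split_ifs
        · ring
        · rw [zero_mul]
    · have b1 : ∑ m ∈ sball K X, ‖if m ∈ sball K Z then γ m * ind (IsCoprime l m) else 0‖ ^ 2 ≤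
          ∑ m ∈ sball K Z, ‖γ m‖ ^ 2 := by
        rw [qlarge_restrict (X := X) (fun m => ‖γ m‖ ^ 2) fun m hm h0 => hγ m hm fun h1 =>
          h0 (by simp [h1])]
        refine Finset.sum_le_sum fun m _ => ?_
        split_ifs
        · rw [norm_mul]
          exact pow_le_pow_left₀ (by positivity)
            (mul_le_of_le_one_right (norm_nonneg _) (norm_ind_le _)) 2
        · simp
      have b2 := qlarge_div (p := 1 / 2 + δ) (σ := 1 + 2 * δ) hL hl1 (by linarith)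
      have b3 := qlarge_div (p := 2 + δ) (σ := 1 + 2 * δ) hL hl1 (by linarith)
      calc _ ≤ C₁ * (X * (L ^ (1 / 2 + δ) * (nm l : ℝ) ^ (-(1 + 2 * δ))) * B₀ ^ (-1 / 2 : ℝ) +
            L ^ (2 + δ) * (nm l : ℝ) ^ (-(1 + 2 * δ))) * ∑ m ∈ sball K Z, ‖γ m‖ ^ 2 := by gcongr
        _ = _ := by ring
  refine (Finset.sum_le_sum key).trans ?_
  rw [← Finset.mul_sum]
  calc _ ≤ C₁ * (X * L ^ (1 / 2 + δ) * B₀ ^ (-1 / 2 : ℝ) + L ^ (2 + δ)) *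
        (∑ m ∈ sball K Z, ‖γ m‖ ^ 2) * C₂ := by gcongr; exact h₂ L' hL'
    _ = _ := by ring

private theorem qlarge_pow {W x p : ℝ} (hW : 1 ≤ W) (hx : 0 < x) (hxW : x ≤ W) (hp : 1 / 2 ≤ p) :
    W ^ (11 / 8 : ℝ) / x * (x ^ 2 / W ^ (11 / 8 : ℝ)) ^ p ≤ W ^ (11 / 8 * (1 - p) + (2 * p - 1)) := by
  have hW0 : 0 < W := by linarith
  have hY : 0 < W ^ (11 / 8 : ℝ) := by positivity
  have e : W ^ (11 / 8 : ℝ) / x * (x ^ 2 / W ^ (11 / 8 : ℝ)) ^ p =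
      (W ^ (11 / 8 : ℝ)) ^ (1 - p) * x ^ (2 * p - 1) := by
    rw [Real.div_rpow (by positivity) hY.le, ← Real.rpow_two, ← Real.rpow_mul hx.le,
      Real.rpow_sub hY, Real.rpow_sub hx, Real.rpow_one, Real.rpow_one]
    field_simp
  rw [e, Real.rpow_add hW0, Real.rpow_mul hW0.le]
  gcongr
  linarith

private theorem qlarge_num {W x X' : ℝ} (hW : 1 ≤ W) (hx : 0 < x) (hxW : x ≤ W) (hX : X' ≤ 2 * W) :
    W ^ (11 / 8 : ℝ) / x * (X' * (x ^ 2 / W ^ (11 / 8 : ℝ)) ^ (1 / 2 + 1 / 10000 : ℝ) *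
      (W ^ (1 / 10 : ℝ)) ^ (-1 / 2 : ℝ) + (x ^ 2 / W ^ (11 / 8 : ℝ)) ^ (2 + 1 / 10000 : ℝ)) ≤
      3 * W ^ (16377 / 10000 : ℝ) := by
  have hW0 : 0 < W := by linarith
  have a1 := qlarge_pow (p := 1 / 2 + 1 / 10000) hW hx hxW (by norm_num)
  have a2 := qlarge_pow (p := 2 + 1 / 10000) hW hx hxW (by norm_num)
  have a3 : W ^ (11 / 8 * (1 - (2 + 1 / 10000)) + (2 * (2 + 1 / 10000) - 1) : ℝ) ≤
      W ^ (16377 / 10000 : ℝ) := Real.rpow_le_rpow_of_exponent_le hW (by norm_num)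
  have a4 : W * W ^ (11 / 8 * (1 - (1 / 2 + 1 / 10000)) + (2 * (1 / 2 + 1 / 10000) - 1) : ℝ) *
      (W ^ (1 / 10 : ℝ)) ^ (-1 / 2 : ℝ) ≤ W ^ (16377 / 10000 : ℝ) := by
    rw [← Real.rpow_mul hW0.le, ← Real.rpow_one_add' hW0.le (by norm_num), ← Real.rpow_add hW0]
    exact Real.rpow_le_rpow_of_exponent_le hW (by norm_num)
  calc _ = X' * (W ^ (11 / 8 : ℝ) / x * (x ^ 2 / W ^ (11 / 8 : ℝ)) ^ (1 / 2 + 1 / 10000 : ℝ)) *
        (W ^ (1 / 10 : ℝ)) ^ (-1 / 2 : ℝ) +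
        W ^ (11 / 8 : ℝ) / x * (x ^ 2 / W ^ (11 / 8 : ℝ)) ^ (2 + 1 / 10000 : ℝ) := by ring
    _ ≤ (2 * W) * W ^ (11 / 8 * (1 - (1 / 2 + 1 / 10000)) + (2 * (1 / 2 + 1 / 10000) - 1) : ℝ) *
        (W ^ (1 / 10 : ℝ)) ^ (-1 / 2 : ℝ) + W ^ (16377 / 10000 : ℝ) := by
        refine add_le_add ?_ (a2.trans a3)
        gcongr
    _ ≤ _ := by linarith

open Classical in
theorem large2 (h : Q1 K) {F : Fam K} (hF : QFam F) : ∃ C : ℝ, 0 < C ∧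
    ∀ (X W : ℝ) (a : R K → ℂ), 0 < X → X ≤ W → 1 ≤ W → (∀ n, a n ≠ 0 → n ∈ sball K (2 * X)) →
      ∀ (t : ℝ) (s : Finset (R K)),
        ∑ Δ ∈ sball K (2 * X), ∑ e ∈ pdiv Δ, 1 * (W ^ (11 / 8 : ℝ) * nm Δ / (nm e * X)) *
          ∑ f ∈ sball K (2 * X),
            ∑ k ∈ s.filter (fun k => Prim k ∧ ¬Small (W ^ (1 / 10 : ℝ)) (e * k)),
              rho (1 / 10000) (W ^ (11 / 8 : ℝ) * (nm Δ : ℝ) ^ 2 * nm k / (nm e * X ^ 2)) *
                ‖Tl (2 * X) (dco F (fun m => a (Δ * m)) e k) f t‖ ^ 2 ≤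
          C * W ^ (1638 / 1000 : ℝ) * ∑ n ∈ sball K (2 * X), ‖a n‖ ^ 2 := by
  obtain ⟨C₁, hC₁, h₁⟩ := large1 h (δ := 1 / 10000) (by norm_num) (by norm_num)
  obtain ⟨C₂, hC₂, h₂⟩ := psd_sum_tau_le (K := K) (1 / 10000) (by norm_num)
  refine ⟨C₁ * 3 * C₂ * 2, by positivity, fun X W a hX hXW hW ha t s => ?_⟩
  have hW0 : 0 < W := by linarith
  rcases lt_or_ge (2 * X) 1 with hX1 | hX1
  · rw [sball_eq_empty hX1]
    simp
  have hY : 0 < W ^ (11 / 8 : ℝ) := by positivity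
  have key : ∀ Δ ∈ sball K (2 * X), ∀ e ∈ pdiv Δ,
      1 * (W ^ (11 / 8 : ℝ) * nm Δ / (nm e * X)) *
        ∑ f ∈ sball K (2 * X), ∑ k ∈ s.filter (fun k => Prim k ∧ ¬Small (W ^ (1 / 10 : ℝ)) (e * k)),
          rho (1 / 10000) (W ^ (11 / 8 : ℝ) * (nm Δ : ℝ) ^ 2 * nm k / (nm e * X ^ 2)) *
            ‖Tl (2 * X) (dco F (fun m => a (Δ * m)) e k) f t‖ ^ 2 ≤
      W ^ (2 / 10000 : ℝ) * C₁ * (3 * W ^ (16377 / 10000 : ℝ)) *
        ∑ f ∈ sball K (2 * X), ∑ m ∈ sball K (2 * X), ‖ind (f ∣ m) * a (Δ * m)‖ ^ 2 := by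
    intro Δ hΔ e he
    have hΔ0 : Δ ≠ 0 := (mem_sball.1 hΔ).1.1.1
    obtain ⟨he1, he2⟩ := (mem_pdiv hΔ0).1 he
    have he0 : e ≠ 0 := he1.1
    have n1 : (1 : ℝ) ≤ nm Δ := one_le_nm hΔ0
    have n2 : (1 : ℝ) ≤ nm e := one_le_nm he0
    have n3 : (nm e : ℝ) ≤ nm Δ := by exact_mod_cast nm_le_of_dvd hΔ0 he2
    have hx : 0 < nm e * X / nm Δ := by positivity
    have hxW : nm e * X / nm Δ ≤ W := by
      rw [div_le_iff₀ (by positivity)]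
      nlinarith
    have hX' : 2 * X / nm Δ ≤ 2 * W := (div_le_self (by positivity) n1).trans (by linarith)
    have hnum := qlarge_num hW hx hxW hX'
    rw [one_mul, Finset.mul_sum, Finset.mul_sum]
    refine Finset.sum_le_sum fun f _ => ?_
    have a1 := h₁ (2 * X) (2 * X / nm Δ) ((nm e * X / nm Δ) ^ 2 / W ^ (11 / 8 : ℝ))
      (W ^ (1 / 10 : ℝ))
      (fun m => ind (f ∣ m) * a (Δ * m) * F.g m * nt m t)
      ((s.filter (fun k => Prim k ∧ ¬Small (W ^ (1 / 10 : ℝ)) (e * k))).image (e * ·))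
      (by positivity) (by positivity) (Real.one_le_rpow hW (by norm_num))
      (fun m _ h0 => by
        have b1 := (mem_sball.1 (ha _ (right_ne_zero_of_mul
          (left_ne_zero_of_mul (left_ne_zero_of_mul h0))))).2
        rw [nm_mul, Nat.cast_mul] at b1
        rw [le_div_iff₀ (by positivity)]
        linarith)
      (fun k hk => by
        obtain ⟨k', hk', rfl⟩ := Finset.mem_image.1 hk
        exact ⟨he1.mul (Finset.mem_filter.1 hk').2.1, (Finset.mem_filter.1 hk').2.2⟩)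
    rw [Finset.sum_image fun _ _ _ _ h => mul_left_cancel₀ he0 h] at a1
    have a2 : ∑ m ∈ sball K (2 * X),
        ‖ind (f ∣ m) * a (Δ * m) * F.g m * nt m t‖ ^ 2 ≤
        ∑ m ∈ sball K (2 * X), ‖ind (f ∣ m) * a (Δ * m)‖ ^ 2 := by
      refine Finset.sum_le_sum fun m hm => pow_le_pow_left₀ (norm_nonneg _) ?_ 2
      rw [norm_mul, norm_mul, norm_nt, F.norm_g m (mem_sball.1 hm).1, mul_one, mul_one]
    have a3 : W ^ (11 / 8 : ℝ) * nm Δ / (nm e * X) = W ^ (11 / 8 : ℝ) / (nm e * X / nm Δ) := by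
      field_simp
    have hY1 : 1 ≤ W ^ (11 / 8 : ℝ) := Real.one_le_rpow hW (by norm_num)
    have a4 : ∀ k ∈ s.filter (fun k => Prim k ∧ ¬Small (W ^ (1 / 10 : ℝ)) (e * k)),
        rho (1 / 10000) (W ^ (11 / 8 : ℝ) * (nm Δ : ℝ) ^ 2 * nm k / (nm e * X ^ 2)) *
          ‖Tl (2 * X) (dco F (fun m => a (Δ * m)) e k) f t‖ ^ 2 ≤ W ^ (2 / 10000 : ℝ) *
        ((1 + (nm (e * k) : ℝ) / ((nm e * X / nm Δ) ^ 2 / W ^ (11 / 8 : ℝ))) ^ (-5 : ℝ) *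
          ‖∑ m ∈ sball K (2 * X), ind (f ∣ m) * a (Δ * m) * F.g m *
            nt m t * quad (e * k) m‖ ^ 2) := by
      intro k hk
      have n4 : (1 : ℝ) ≤ nm (e * k) := one_le_nm (he1.mul (Finset.mem_filter.1 hk).2.1).1
      have b1 : W ^ (11 / 8 : ℝ) * (nm Δ : ℝ) ^ 2 * nm k / (nm e * X ^ 2) =
          (nm (e * k) : ℝ) / ((nm e * X / nm Δ) ^ 2 / W ^ (11 / 8 : ℝ)) := by
        rw [nm_mul]
        push_cast
        field_simp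
      have b2 : Tl (2 * X) (dco F (fun m => a (Δ * m)) e k) f t =
          ∑ m ∈ sball K (2 * X), ind (f ∣ m) * a (Δ * m) * F.g m * nt m t * quad (e * k) m := by
        refine Finset.sum_congr rfl fun m _ => ?_
        rw [dco, hF.X_eq, hF.X_eq, conj_quad, quad_mul_left]
        ring
      rw [b1, b2, rho, mul_assoc]
      refine mul_le_mul_of_nonneg_right ?_ (by positivity)
      rw [Real.rpow_neg (by positivity), ← Real.inv_rpow (by positivity), inv_div,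
        show (2 / 10000 : ℝ) = 2 * (1 / 10000) by norm_num, Real.rpow_mul hW0.le, Real.rpow_two]
      refine Real.rpow_le_rpow (by positivity) ?_ (by norm_num)
      refine (div_le_self (by positivity) n4).trans ((div_le_self (by positivity) hY1).trans ?_)
      gcongr
    rw [a3]
    refine (mul_le_mul_of_nonneg_left ((Finset.sum_le_sum a4).trans ((Finset.mul_sum _ _ _).symm.le.trans
      (mul_le_mul_of_nonneg_left a1 (by positivity)))) (by positivity)).trans ?_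
    calc _ = W ^ (2 / 10000 : ℝ) * C₁ * (W ^ (11 / 8 : ℝ) / (nm e * X / nm Δ) * (2 * X / nm Δ *
          ((nm e * X / nm Δ) ^ 2 / W ^ (11 / 8 : ℝ)) ^ (1 / 2 + 1 / 10000 : ℝ) *
          (W ^ (1 / 10 : ℝ)) ^ (-1 / 2 : ℝ) +
          ((nm e * X / nm Δ) ^ 2 / W ^ (11 / 8 : ℝ)) ^ (2 + 1 / 10000 : ℝ))) *
          ∑ m ∈ sball K (2 * X), ‖ind (f ∣ m) * a (Δ * m) * F.g m * nt m t‖ ^ 2 := by ring
      _ ≤ _ := by gcongr
  refine (Finset.sum_le_sum fun Δ hΔ => Finset.sum_le_sum (key Δ hΔ)).trans ?_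
  have b1 := h₂ (2 * X) a hX1 ha
  have b2 : (2 * X) ^ (1 / 10000 : ℝ) ≤ 2 * W ^ (1 / 10000 : ℝ) := by
    rw [Real.mul_rpow (by norm_num) hX.le]
    gcongr
    exact (Real.rpow_le_rpow_of_exponent_le (by norm_num) (by norm_num)).trans
      (Real.rpow_one 2).le
  have b3 : W ^ (2 / 10000 : ℝ) * W ^ (16377 / 10000 : ℝ) * W ^ (1 / 10000 : ℝ) ≤
      W ^ (1638 / 1000 : ℝ) := by
    rw [← Real.rpow_add hW0, ← Real.rpow_add hW0]
    exact Real.rpow_le_rpow_of_exponent_le hW (by norm_num)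
  have hS : 0 ≤ ∑ n ∈ sball K (2 * X), ‖a n‖ ^ 2 := by positivity
  calc _ = W ^ (2 / 10000 : ℝ) * C₁ * (3 * W ^ (16377 / 10000 : ℝ)) *
        ∑ Δ ∈ sball K (2 * X), (pdiv Δ).card *
        ∑ f ∈ sball K (2 * X), ∑ m ∈ sball K (2 * X), ‖ind (f ∣ m) * a (Δ * m)‖ ^ 2 := by
        rw [Finset.mul_sum]
        refine Finset.sum_congr rfl fun Δ _ => ?_
        rw [Finset.sum_const, nsmul_eq_mul]
        ring
    _ ≤ W ^ (2 / 10000 : ℝ) * C₁ * (3 * W ^ (16377 / 10000 : ℝ)) * (C₂ * (2 * W ^ (1 / 10000 : ℝ)) *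
        ∑ n ∈ sball K (2 * X), ‖a n‖ ^ 2) := by
        refine mul_le_mul_of_nonneg_left (b1.trans ?_) (by positivity)
        gcongr
    _ = C₁ * 3 * C₂ * 2 * (W ^ (2 / 10000 : ℝ) * W ^ (16377 / 10000 : ℝ) * W ^ (1 / 10000 : ℝ)) *
        ∑ n ∈ sball K (2 * X), ‖a n‖ ^ 2 := by ring
    _ ≤ _ := by gcongr

end Vale.Agent.P319
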