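import Vale.Agent.P319.N.QPairB
import Vale.Agent.P319.N.Sym

/-! # PSQ: small kernels: the direct and the dual contributions cancel.  Port of `P026/QPair.lean`
(no factor `1 / 2`, `kball ↦ sball K`, no classes and no `ε`: `F.g = 1`; `Small B (e * k)` implies `Prim k`, so `Q.summable_dker` gives
summability; `k ↦ e * k` is injective). -/

namespace Vale.Agent.P319

open scoped ComplexConjugate Real
open MeasureTheory

variable {K : Type} [Field K] [NumberField K] [Stp K]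

theorem qp_summ (Q : QEng K) {y : ℝ} (hy : 0 < y) (p : R K → Prop) (q : R K) :
    Summable fun k : R K => ind (p k) * quad k q * (Q.wt y k : ℝ) := by
  refine Summable.of_norm_bounded (Q.summ y hy) fun k => ?_
  rw [norm_mul, norm_mul, Complex.norm_real, Real.norm_of_nonneg (Q.wt_nonneg hy k)]
  exact mul_le_of_le_one_left (Q.wt_nonneg hy k)
    (mul_le_one₀ (norm_ind_le _) (norm_nonneg _) (norm_quad_le _ _))

theorem qp_wt (Q : QEng K) (y : ℝ) {n : R K} (hn : Prim n) : Q.wt y n = Q.w (y * nm n) :=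
  cut_of hn _ _

theorem qp_dual (Q : QEng K) {e m1 m2 : R K} (he : e ≠ 0) (h1 : m1 ≠ 0) (h2 : m2 ≠ 0) {Y : ℝ}
    (hY : 0 < Y) (B₀ : ℝ) :
    ((Q.c0 * Y / nm e : ℝ) : ℂ) * (quad e m1 * quad e m2 *
      ∑' k : R K, ind (Small B₀ (e * k)) * (quad k m1 * quad k m2 *
        (dker Q.w (Q.c0 ^ 2 * (Y / nm e) * nm k) m1 m2 : ℝ))) =
    ∑ b ∈ sball K B₀, quad b (m1 * m2) * ((Q.c0 * Y / (nm e * √(nm (m1 * m2))) : ℝ) *
      ∑' l : R K, ind (Prim l) * ind (e ∣ b * l ^ 2) * ind (IsCoprime l (m1 * m2)) *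
        (Q.w (Q.c0 ^ 2 * Y * (nm b * (nm l : ℝ) ^ 2) /
          ((nm e : ℝ) ^ 2 * nm (m1 * m2))) : ℝ)) := by
  have hq := mul_ne_zero h1 h2
  have n1 := one_le_nm h1
  have n2 := one_le_nm h2
  have ne := one_le_nm he
  have nq := one_le_nm hq
  have hc := Q.c0_pos
  set G : R K → ℂ := fun k => ind (e ∣ k) * quad k (m1 * m2) *
    (Q.wt (Q.c0 ^ 2 * Y / ((nm e : ℝ) ^ 2 * nm (m1 * m2))) k : ℝ) with hG
  have hGs : Summable G := qp_summ Q (by positivity) _ _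
  have hinj : Function.Injective fun k : R K => e * k := fun a b h => mul_left_cancel₀ he h
  have e1 := hinj.tsum_eq (f := fun k => ind (Small B₀ k) * G k) (by
    intro k hk
    by_contra hn
    have : ¬e ∣ k := fun ⟨c, hc⟩ => hn ⟨c, hc.symm⟩
    exact hk (by simp only [hG, ind_of_not this, zero_mul, mul_zero]))
  have e2 : quad e m1 * quad e m2 *
      ∑' k : R K, ind (Small B₀ (e * k)) * (quad k m1 * quad k m2 *
        (dker Q.w (Q.c0 ^ 2 * (Y / nm e) * nm k) m1 m2 : ℝ)) =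
      (((√(nm (m1 * m2)))⁻¹ : ℝ) : ℂ) * ∑' k : R K, ind (Small B₀ (e * k)) * G (e * k) := by
    rw [← tsum_mul_left, ← tsum_mul_left]
    refine tsum_congr fun k => ?_
    by_cases hk : Small B₀ (e * k)
    swap
    · simp only [ind_of_not hk, zero_mul, mul_zero]
    have : Q.c0 ^ 2 * Y / ((nm e : ℝ) ^ 2 * nm (m1 * m2)) * nm (e * k) =
        Q.c0 ^ 2 * (Y / nm e) * nm k / (nm m1 * nm m2) := by
      simp only [nm_mul]
      push_cast
      field_simp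
    simp only [hG, qp_wt Q _ hk.prim, this, dker, ind_of (dvd_mul_right e k), quad_mul_left,
      quad_mul_right h1 h2]
    rw [nm_mul m1 m2, Nat.cast_mul, Real.sqrt_mul (Nat.cast_nonneg _)]
    push_cast
    ring
  rw [e2, e1, tsum_small hGs, Finset.mul_sum, Finset.mul_sum]
  refine Finset.sum_congr rfl fun b hb => ?_
  have e3 : ∑' l : R K, ind (Prim l) * G (b * l ^ 2) = quad b (m1 * m2) *
      ∑' l : R K, ind (Prim l) * ind (e ∣ b * l ^ 2) * ind (IsCoprime l (m1 * m2)) *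
        (Q.w (Q.c0 ^ 2 * Y * (nm b * (nm l : ℝ) ^ 2) /
          ((nm e : ℝ) ^ 2 * nm (m1 * m2))) : ℝ) := by
    rw [← tsum_mul_left]
    refine tsum_congr fun l => ?_
    by_cases hl : Prim l
    swap
    · simp only [ind_of_not hl, zero_mul, mul_zero]
    have : Q.c0 ^ 2 * Y / ((nm e : ℝ) ^ 2 * nm (m1 * m2)) * nm (b * l ^ 2) =
        Q.c0 ^ 2 * Y * (nm b * (nm l : ℝ) ^ 2) / ((nm e : ℝ) ^ 2 * nm (m1 * m2)) := by
      rw [nm_mul b, nm_pow]
      push_cast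
      ring
    simp only [hG, qp_wt Q _ ((mem_sball.1 hb).1.1.mul (hl.pow 2)), this, quad_mul_left,
      quad_sq_left hq]
    ring
  rw [e3]
  push_cast
  ring

theorem qp_direct (Q : QEng K) (Δ : R K) {m1 m2 : R K} (h1 : m1 ≠ 0) (h2 : m2 ≠ 0) {Y : ℝ}
    (hY : 0 < Y) (B₀ : ℝ) :
    ∑' h : R K, ind (Small B₀ h) * (Q.wt Y⁻¹ h : ℝ) * ind (IsCoprime h Δ) *
        quad h m1 * quad h m2 =
    ∑ b ∈ sball K B₀, quad b (m1 * m2) * (ind (IsCoprime b Δ) *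
      ∑' l : R K, ind (Prim l) * ind (IsCoprime l (Δ * (m1 * m2))) *
        (Q.w (nm b * (nm l : ℝ) ^ 2 / Y) : ℝ)) := by
  have hq := mul_ne_zero h1 h2
  set G : R K → ℂ := fun k => ind (IsCoprime k Δ) * quad k (m1 * m2) * (Q.wt Y⁻¹ k : ℝ) with hG
  have hGs : Summable G := qp_summ Q (by positivity) _ _
  have e1 : ∑' h : R K, ind (Small B₀ h) * (Q.wt Y⁻¹ h : ℝ) * ind (IsCoprime h Δ) *
      quad h m1 * quad h m2 = ∑' h : R K, ind (Small B₀ h) * G h := by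
    refine tsum_congr fun h => ?_
    simp only [hG, quad_mul_right h1 h2]
    ring
  rw [e1, tsum_small hGs]
  refine Finset.sum_congr rfl fun b hb => ?_
  rw [← tsum_mul_left, ← tsum_mul_left]
  refine tsum_congr fun l => ?_
  by_cases hl : Prim l
  swap
  · simp only [ind_of_not hl, zero_mul, mul_zero]
  have : Y⁻¹ * nm (b * l ^ 2) = nm b * (nm l : ℝ) ^ 2 / Y := by
    rw [nm_mul b, nm_pow]
    push_cast
    ring
  have e2 : IsCoprime (b * l ^ 2) Δ ↔ IsCoprime b Δ ∧ IsCoprime l Δ := by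
    rw [IsCoprime.mul_left_iff, IsCoprime.pow_left_iff two_pos]
  simp only [hG, qp_wt Q _ ((mem_sball.1 hb).1.1.mul (hl.pow 2)), this, quad_mul_left,
    quad_sq_left hq, e2, IsCoprime.mul_right_iff (x := l) (y := Δ), ind_and]
  ring

theorem pair_cancel (Q : QEng K) : ∃ C : ℝ, 0 < C ∧ ∀ (Δ m1 m2 : R K) (Y B₀ : ℝ), IsS Δ → IsS m1 →
    IsS m2 → IsCoprime Δ (m1 * m2) → 0 < Y → 1 ≤ B₀ →
    ‖∑ e ∈ pdiv Δ, mu e * (Q.c0 * Y / nm e : ℝ) * (quad e m1 * quad e m2 *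
        ∑' k : R K, ind (Small B₀ (e * k)) * (quad k m1 * quad k m2 *
          (dker Q.w (Q.c0 ^ 2 * (Y / nm e) * nm k) m1 m2 : ℝ))) -
      ∑' h : R K, ind (Small B₀ h) * (Q.wt Y⁻¹ h : ℝ) * ind (IsCoprime h Δ) *
        quad h m1 * quad h m2‖ ≤
      C * B₀ * (pdiv Δ).card * (pdiv (m1 * m2)).card *
        (1 + Y ^ (1 / 4 : ℝ) + Y / √(nm (m1 * m2)) +
          Y ^ (3 / 4 : ℝ) / (nm (m1 * m2) : ℝ) ^ (1 / 4 : ℝ)) := by
  obtain ⟨C, hC, H⟩ := pair_b Q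
  obtain ⟨C', hC', H'⟩ := card_le_of_nm (K := K)
  refine ⟨C * C', by positivity, fun Δ m1 m2 Y B₀ hΔ h1 h2 hcop hY hB => ?_⟩
  have hq := h1.1.mul h2.1
  have e1 : ∑ e ∈ pdiv Δ, mu e * (Q.c0 * Y / nm e : ℝ) * (quad e m1 * quad e m2 *
      ∑' k : R K, ind (Small B₀ (e * k)) * (quad k m1 * quad k m2 *
        (dker Q.w (Q.c0 ^ 2 * (Y / nm e) * nm k) m1 m2 : ℝ))) =
      ∑ b ∈ sball K B₀, quad b (m1 * m2) * ∑ e ∈ pdiv Δ, mu e *
        (Q.c0 * Y / (nm e * √(nm (m1 * m2))) : ℝ) *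
      ∑' l : R K, ind (Prim l) * ind (e ∣ b * l ^ 2) * ind (IsCoprime l (m1 * m2)) *
        (Q.w (Q.c0 ^ 2 * Y * (nm b * (nm l : ℝ) ^ 2) /
          ((nm e : ℝ) ^ 2 * nm (m1 * m2))) : ℝ) := by
    simp only [Finset.mul_sum]
    rw [Finset.sum_comm]
    refine Finset.sum_congr rfl fun e he => ?_
    rw [mul_assoc, qp_dual Q ((mem_pdiv hΔ.ne_zero).1 he).1.ne_zero h1.ne_zero h2.ne_zero hY,
      Finset.mul_sum]
    refine Finset.sum_congr rfl fun b _ => ?_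
    ring
  rw [e1, qp_direct Q Δ h1.ne_zero h2.ne_zero hY, ← Finset.sum_sub_distrib]
  set E := ((pdiv Δ).card : ℝ) * (pdiv (m1 * m2)).card * (1 + Y ^ (1 / 4 : ℝ) + Y / √(nm (m1 * m2)) +
    Y ^ (3 / 4 : ℝ) / (nm (m1 * m2) : ℝ) ^ (1 / 4 : ℝ)) with hE
  have hE0 : 0 ≤ E := by positivity
  refine (norm_sum_le_of_le (sball K B₀) (n := fun _ => C * E) fun b hb => ?_).trans ?_
  · rw [← mul_sub, norm_mul]
    refine (mul_le_of_le_one_left (norm_nonneg _) (norm_quad_le b (m1 * m2))).trans ?_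
    refine (H Δ (m1 * m2) b Y hΔ hq hcop (mem_sball.1 hb).1.ne_zero hY).trans (le_of_eq ?_)
    rw [hE]
    ring
  rw [Finset.sum_const, nsmul_eq_mul]
  have := H' B₀ (sball K B₀) (by linarith) fun n hn => ⟨(mem_sball.1 hn).1.1, (mem_sball.1 hn).2⟩
  calc ((sball K B₀).card : ℝ) * (C * E) ≤ (C' * B₀) * (C * E) := by gcongr
    _ = _ := by rw [hE]; ring

theorem qp_real {x W N : ℝ} (hx : 0 < x) (hxW : x ≤ W) (hW : 1 ≤ W) (hN : x ^ 2 / 4 ≤ N) :
    1 + (W ^ (11 / 8 : ℝ)) ^ (1 / 4 : ℝ) + W ^ (11 / 8 : ℝ) / √N +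
      (W ^ (11 / 8 : ℝ)) ^ (3 / 4 : ℝ) / N ^ (1 / 4 : ℝ) ≤ 6 * W ^ (49 / 32 : ℝ) / x := by
  have hW0 : 0 < W := by linarith
  have hN0 : 0 < N := lt_of_lt_of_le (by positivity) hN
  have mono : ∀ r : ℝ, r ≤ 49 / 32 → W ^ r ≤ W ^ (49 / 32 : ℝ) := fun r hr =>
    Real.rpow_le_rpow_of_exponent_le hW hr
  have a1 : x ≤ W ^ (49 / 32 : ℝ) := by
    have := mono 1 (by norm_num)
    rw [Real.rpow_one] at this
    linarith
  have a2 : (W ^ (11 / 8 : ℝ)) ^ (1 / 4 : ℝ) * x ≤ W ^ (49 / 32 : ℝ) := by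
    refine le_trans ?_ (mono (11 / 8 * (1 / 4) + 1) (by norm_num))
    rw [Real.rpow_add hW0, Real.rpow_one, Real.rpow_mul hW0.le]
    gcongr
  have a3 : W ^ (11 / 8 : ℝ) / √N * x ≤ 2 * W ^ (49 / 32 : ℝ) := by
    have h : x / 2 ≤ √N := Real.le_sqrt_of_sq_le (by linarith)
    have := mono (11 / 8) (by norm_num)
    calc W ^ (11 / 8 : ℝ) / √N * x ≤ W ^ (11 / 8 : ℝ) / (x / 2) * x := by gcongr
      _ = 2 * W ^ (11 / 8 : ℝ) := by field_simp
      _ ≤ _ := by linarith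
  have a4 : (W ^ (11 / 8 : ℝ)) ^ (3 / 4 : ℝ) / N ^ (1 / 4 : ℝ) * x ≤ 2 * W ^ (49 / 32 : ℝ) := by
    have hs : 0 < √x := Real.sqrt_pos.2 hx
    have hs2 : √x * √x = x := Real.mul_self_sqrt hx.le
    have h : √x / 2 ≤ N ^ (1 / 4 : ℝ) := by
      have e : (N ^ (1 / 4 : ℝ)) ^ 4 = N := by
        rw [← Real.rpow_natCast, ← Real.rpow_mul hN0.le]
        norm_num
      refine le_of_pow_le_pow_left₀ (n := 4) (by norm_num) (by positivity) ?_
      rw [e]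
      have : (√x / 2) ^ 4 = (√x * √x) ^ 2 / 16 := by ring
      rw [this, hs2]
      nlinarith [sq_nonneg x]
    have h' : √x ≤ W ^ (1 / 2 : ℝ) := by
      rw [← Real.sqrt_eq_rpow]
      exact Real.sqrt_le_sqrt hxW
    have e : (W ^ (11 / 8 : ℝ)) ^ (3 / 4 : ℝ) * W ^ (1 / 2 : ℝ) = W ^ (49 / 32 : ℝ) := by
      rw [← Real.rpow_mul hW0.le, ← Real.rpow_add hW0]
      norm_num
    calc (W ^ (11 / 8 : ℝ)) ^ (3 / 4 : ℝ) / N ^ (1 / 4 : ℝ) * x
        ≤ (W ^ (11 / 8 : ℝ)) ^ (3 / 4 : ℝ) / (√x / 2) * (√x * √x) := by rw [hs2]; gcongr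
      _ = 2 * ((W ^ (11 / 8 : ℝ)) ^ (3 / 4 : ℝ) * √x) := by field_simp
      _ ≤ 2 * ((W ^ (11 / 8 : ℝ)) ^ (3 / 4 : ℝ) * W ^ (1 / 2 : ℝ)) := by gcongr
      _ = _ := by rw [e]
  rw [le_div_iff₀ hx]
  nlinarith

theorem qp_expand (Q : QEng K) {F : Fam K} (hF : QFam F) {Y : ℝ} (hY : 0 < Y) (B₀ Z : ℝ)
    (β : R K → ℂ) {Δ : R K} (hΔ : Δ ≠ 0) :
    ∑ e ∈ pdiv Δ, mu e * (Q.c0 * Y / nm e : ℝ) *
      ∑' k : R K, ind (Small B₀ (e * k)) *
        Dl Q.w Z (Q.c0 ^ 2 * (Y / nm e) * nm k) (dco F β e k) (dco F β e k) =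
    ∑ m1 ∈ sball K Z, ∑ m2 ∈ sball K Z, ind (IsCoprime m1 m2) * (β m1 * conj (β m2)) *
      ∑ e ∈ pdiv Δ, mu e * (Q.c0 * Y / nm e : ℝ) * (quad e m1 * quad e m2 *
        ∑' k : R K, ind (Small B₀ (e * k)) * (quad k m1 * quad k m2 *
          (dker Q.w (Q.c0 ^ 2 * (Y / nm e) * nm k) m1 m2 : ℝ))) := by
  simp only [Finset.mul_sum]
  rw [← Finset.sum_product', Finset.sum_comm]
  refine Finset.sum_congr rfl fun e he => ?_
  have he' := ((mem_pdiv hΔ).1 he).1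
  have hy : 0 < Q.c0 ^ 2 * (Y / nm e) :=
    mul_pos (pow_pos Q.c0_pos 2) (div_pos hY (nm_pos_real he'.ne_zero))
  have e1 : ∀ k, ind (Small B₀ (e * k)) *
      Dl Q.w Z (Q.c0 ^ 2 * (Y / nm e) * nm k) (dco F β e k) (dco F β e k) =
      ∑ m ∈ sball K Z ×ˢ sball K Z, (ind (IsCoprime m.1 m.2) * (β m.1 * conj (β m.2)) *
        (quad e m.1 * quad e m.2)) *
        (ind (Small B₀ (e * k)) * (quad k m.1 * quad k m.2 *
          (dker Q.w (Q.c0 ^ 2 * (Y / nm e) * nm k) m.1 m.2 : ℝ))) := by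
    intro k
    rw [Dl, ← Finset.sum_product', Finset.mul_sum]
    refine Finset.sum_congr rfl fun m _ => ?_
    simp only [dco, hF.X_eq, hF.g_eq, map_mul, conj_quad, mul_one]
    ring
  simp only [e1]
  rw [Summable.tsum_finsetSum, Finset.mul_sum]
  · refine Finset.sum_congr rfl fun m _ => ?_
    rw [tsum_mul_left]
    ring
  · intro m hm
    obtain ⟨k1, k2⟩ := Finset.mem_product.1 hm
    have := Q.summable_dker hy (mem_sball.1 k1).1.ne_zero (mem_sball.1 k2).1.ne_zero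
    refine Summable.mul_left _ (Summable.of_norm_bounded this.norm fun k => ?_)
    by_cases hk : Small B₀ (e * k)
    · rw [ind_of hk, ind_of (he'.of_mul hk.prim), one_mul, one_mul, norm_mul, norm_mul]
      exact mul_le_of_le_one_left (norm_nonneg _)
        (mul_le_one₀ (norm_quad_le _ _) (norm_nonneg _) (norm_quad_le _ _))
    · rw [ind_of_not hk, zero_mul, norm_zero]
      exact norm_nonneg _

theorem small_sum (Q : QEng K) {F : Fam K} (hF : QFam F) : ∃ C : ℝ, 0 < C ∧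
    ∀ (X W : ℝ) (a : R K → ℂ), 0 < X → X ≤ W → 1 ≤ W →
      (∀ n, a n ≠ 0 → n ∈ sball K (2 * X) ∧ X / 2 ≤ nm n) →
      ∑ Δ ∈ sball K (2 * X), ‖∑ e ∈ pdiv Δ, mu e * (Q.c0 * W ^ (11 / 8 : ℝ) / nm e : ℝ) *
          ∑' k : R K, ind (Small (W ^ (1 / 10 : ℝ)) (e * k)) *
            Dl Q.w (2 * X) (Q.c0 ^ 2 * (W ^ (11 / 8 : ℝ) / nm e) * nm k)
              (dco F (fun m => a (Δ * m)) e k) (dco F (fun m => a (Δ * m)) e k) -
        BilW F (fun n => n) (fun h => ind (Small (W ^ (1 / 10 : ℝ)) h) *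
          (Q.wt (W ^ (11 / 8 : ℝ))⁻¹ h : ℝ)) (2 * X) (fun m => a (Δ * m)) (fun m => a (Δ * m)) Δ‖ ≤
        C * W ^ (1638 / 1000 : ℝ) * ∑ n ∈ sball K (2 * X), ‖a n‖ ^ 2 := by
  classical
  obtain ⟨C1, hC1, H1⟩ := pair_cancel Q
  obtain ⟨C2, hC2, H2⟩ := card_pdiv_le (K := K) (1 / 1000) (by norm_num)
  obtain ⟨C3, hC3, H3⟩ := card_le_of_nm (K := K)
  obtain ⟨C4, hC4, H4⟩ := psd_sum_tau_le' (K := K) (1 / 1000) (by norm_num)
  refine ⟨96 * C1 * C2 * C3 * C4, by positivity, fun X W a hX hXW hW ha => ?_⟩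
  have hW0 : 0 < W := by linarith
  by_cases hZ : 2 * X < 1
  · rw [sball_eq_empty hZ]
    simp
  rw [not_lt] at hZ
  set Y := W ^ (11 / 8 : ℝ) with hYd
  set B₀ := W ^ (1 / 10 : ℝ) with hBd
  have hY : 0 < Y := by positivity
  have hB : 1 ≤ B₀ := Real.one_le_rpow hW (by norm_num)
  set L := C1 * B₀ * (C2 * (4 * W ^ (2 / 1000 : ℝ))) * (6 * W ^ (49 / 32 : ℝ)) with hK
  have hK0 : 0 ≤ L := by positivity
  have main : ∀ Δ ∈ sball K (2 * X), ‖∑ e ∈ pdiv Δ, mu e * (Q.c0 * Y / nm e : ℝ) *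
      ∑' k : R K, ind (Small B₀ (e * k)) * Dl Q.w (2 * X) (Q.c0 ^ 2 * (Y / nm e) * nm k)
        (dco F (fun m => a (Δ * m)) e k) (dco F (fun m => a (Δ * m)) e k) -
      BilW F (fun n => n) (fun h => ind (Small B₀ h) * (Q.wt Y⁻¹ h : ℝ)) (2 * X)
        (fun m => a (Δ * m)) (fun m => a (Δ * m)) Δ‖ ≤
      L * (2 * C3) * ((pdiv Δ).card * ∑ m ∈ sball K (2 * X), ‖a (Δ * m)‖ ^ 2) := by
    intro Δ hΔ
    have hS := (mem_sball.1 hΔ).1
    have nΔ := one_le_nm hS.ne_zero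
    set x := X / nm Δ with hx
    have hx0 : 0 < x := by positivity
    have hxW : x ≤ W := (div_le_self hX.le nΔ).trans hXW
    have rng : ∀ m, a (Δ * m) ≠ 0 → x / 2 ≤ nm m ∧ (nm m : ℝ) ≤ 2 * x := by
      intro m hm
      obtain ⟨k1, k2⟩ := ha _ hm
      have k3 := (mem_sball.1 k1).2
      rw [nm_mul, Nat.cast_mul] at k2 k3
      constructor
      · rw [hx, div_div, div_le_iff₀ (by positivity)]
        linarith
      · rw [hx, ← mul_div_assoc, le_div_iff₀ (by positivity)]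
        linarith
    rw [qp_expand Q hF hY B₀ (2 * X) _ hS.ne_zero, BilW, ← Finset.sum_sub_distrib]
    simp only [← Finset.sum_sub_distrib, ← mul_sub]
    have term : ∀ m1 ∈ sball K (2 * X), ∀ m2 ∈ sball K (2 * X),
        ‖ind (IsCoprime m1 m2) * (a (Δ * m1) * conj (a (Δ * m2))) *
          (∑ e ∈ pdiv Δ, mu e * (Q.c0 * Y / nm e : ℝ) *
            (quad e m1 * quad e m2 * ∑' k : R K, ind (Small B₀ (e * k)) *
              (quad k m1 * quad k m2 * (dker Q.w (Q.c0 ^ 2 * (Y / nm e) * nm k) m1 m2 : ℝ))) -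
          ∑' h : R K, ind (Small B₀ h) * (Q.wt Y⁻¹ h : ℝ) * ind (IsCoprime h Δ) *
            F.X m1 h * conj (F.X m2 h))‖ ≤
        L * (pdiv Δ).card / x * (‖a (Δ * m1)‖ * ‖a (Δ * m2)‖) := by
      intro m1 k1 m2 k2
      by_cases z0 : IsCoprime m1 m2
      swap
      · rw [ind_of_not z0, zero_mul, zero_mul, norm_zero]
        positivity
      by_cases z1 : a (Δ * m1) = 0
      · simp [z1]
      by_cases z2 : a (Δ * m2) = 0
      · simp [z2]
      have s1 := (mem_sball.1 k1).1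
      have s2 := (mem_sball.1 k2).1
      have c1 := (mem_sball.1 (ha _ z1).1).1.coprime
      have c2 := (mem_sball.1 (ha _ z2).1).1.coprime
      simp only [one_mul, ind_of z0, hF.X_eq, conj_quad, norm_mul, Complex.norm_conj]
      rw [mul_comm]
      refine mul_le_mul_of_nonneg_right ?_ (by positivity)
      refine (H1 Δ m1 m2 Y B₀ hS s1 s2 (c1.mul_right c2) hY hB).trans ?_
      obtain ⟨l1, u1⟩ := rng m1 z1
      obtain ⟨l2, u2⟩ := rng m2 z2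
      have hN : x ^ 2 / 4 ≤ nm (m1 * m2) := by
        rw [nm_mul, Nat.cast_mul]
        calc x ^ 2 / 4 = x / 2 * (x / 2) := by ring
          _ ≤ _ := by gcongr
      have hU : (nm (m1 * m2) : ℝ) ≤ 4 * W ^ 2 := by
        rw [nm_mul, Nat.cast_mul]
        calc (nm m1 : ℝ) * nm m2 ≤ (2 * W) * (2 * W) := by gcongr <;> linarith
          _ = _ := by ring
      have t1 : ((pdiv (m1 * m2)).card : ℝ) ≤ C2 * (4 * W ^ (2 / 1000 : ℝ)) := by
        refine (H2 _ (s1.1.mul s2.1).ne_zero).trans (mul_le_mul_of_nonneg_left ?_ hC2.le)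
        refine (Real.rpow_le_rpow (Nat.cast_nonneg _) hU (by norm_num)).trans ?_
        rw [Real.mul_rpow (by norm_num) (by positivity), ← Real.rpow_natCast, ← Real.rpow_mul hW0.le]
        have : (4 : ℝ) ^ (1 / 1000 : ℝ) ≤ 4 := by
          simpa using Real.rpow_le_rpow_of_exponent_le (x := 4) (y := 1 / 1000) (z := 1) (by norm_num)
            (by norm_num)
        norm_num at this ⊢
        gcongr
      have t2 := qp_real hx0 hxW hW hN
      calc _ ≤ C1 * B₀ * (pdiv Δ).card * (C2 * (4 * W ^ (2 / 1000 : ℝ))) * (6 * W ^ (49 / 32 : ℝ) / x) := by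
            gcongr
        _ = _ := by rw [hK]; ring
    refine (norm_sum_le_of_le _ fun m1 k1 => norm_sum_le_of_le _ fun m2 k2 => term m1 k1 m2 k2).trans ?_
    simp only [← Finset.mul_sum, ← Finset.sum_mul]
    rw [← sq, ← Finset.sum_filter_of_ne (p := fun m => a (Δ * m) ≠ 0) (fun m _ h => norm_ne_zero_iff.1 h)]
    have cs := sq_sum_le_card_mul_sum_sq (s := (sball K (2 * X)).filter fun m => a (Δ * m) ≠ 0)
      (f := fun m => ‖a (Δ * m)‖)
    have cd := H3 (2 * x) ((sball K (2 * X)).filter fun m => a (Δ * m) ≠ 0) (by positivity) fun m hm =>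
      ⟨(mem_sball.1 (Finset.mem_filter.1 hm).1).1.1, (rng m (Finset.mem_filter.1 hm).2).2⟩
    have sub := Finset.sum_le_sum_of_subset_of_nonneg (Finset.filter_subset (fun m => a (Δ * m) ≠ 0)
      (sball K (2 * X))) (f := fun m => ‖a (Δ * m)‖ ^ 2) fun _ _ _ => by positivity
    have p0 : 0 ≤ ∑ m ∈ (sball K (2 * X)).filter fun m => a (Δ * m) ≠ 0, ‖a (Δ * m)‖ ^ 2 := by positivity
    calc _ ≤ L * (pdiv Δ).card / x * (C3 * (2 * x) * ∑ m ∈ sball K (2 * X), ‖a (Δ * m)‖ ^ 2) := by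
          refine mul_le_mul_of_nonneg_left (cs.trans ?_) (by positivity)
          gcongr
      _ = _ := by field_simp
  refine (Finset.sum_le_sum main).trans ?_
  rw [← Finset.mul_sum]
  have t3 := H4 (2 * X) a hZ fun n hn => (ha n hn).1
  have t4 : (2 * X) ^ (1 / 1000 : ℝ) ≤ 2 * W ^ (1 / 1000 : ℝ) := by
    rw [Real.mul_rpow (by norm_num) hX.le]
    have : (2 : ℝ) ^ (1 / 1000 : ℝ) ≤ 2 := by
      simpa using Real.rpow_le_rpow_of_exponent_le (x := 2) (y := 1 / 1000) (z := 1) (by norm_num)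
        (by norm_num)
    gcongr
  have t5 : B₀ * W ^ (2 / 1000 : ℝ) * W ^ (49 / 32 : ℝ) * W ^ (1 / 1000 : ℝ) ≤ W ^ (1638 / 1000 : ℝ) := by
    rw [hBd, ← Real.rpow_add hW0, ← Real.rpow_add hW0, ← Real.rpow_add hW0]
    exact Real.rpow_le_rpow_of_exponent_le hW (by norm_num)
  have p1 : 0 ≤ ∑ n ∈ sball K (2 * X), ‖a n‖ ^ 2 := by positivity
  calc _ ≤ L * (2 * C3) * (C4 * (2 * W ^ (1 / 1000 : ℝ)) * ∑ n ∈ sball K (2 * X), ‖a n‖ ^ 2) := by
        refine mul_le_mul_of_nonneg_left (t3.trans ?_) (by positivity)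
        gcongr
    _ = 96 * C1 * C2 * C3 * C4 * (B₀ * W ^ (2 / 1000 : ℝ) * W ^ (49 / 32 : ℝ) * W ^ (1 / 1000 : ℝ)) *
        ∑ n ∈ sball K (2 * X), ‖a n‖ ^ 2 := by rw [hK]; ring
    _ ≤ _ := by gcongr

end Vale.Agent.P319
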