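import Vale.Agent.P319.N.QZero
import Vale.Agent.P319.N.QLarge
import Vale.Agent.P319.N.QPair
import Vale.Agent.P319.N.PSThree

/-! # PSQ: the quadratic large sieve from a `QEng`.  Port of `P026/QLS.lean`.
`main_step`: `exp 1 ↦ (Q.w 1)⁻¹` (`w_anti`, `w_pos`), `bil_eq` and `dual_zero ↦ qbil`, `ind (Prim k) = ind (Small B₀ (e k)) + ind (Prim k ∧ ¬Small B₀ (e k))`,
`ps3` with `B = 2`, `η = 1 / 10000`, `A' = 0`, `c = 1`, `large2`, `small_sum`.
`qls_of`: `flip_red` (`s = sball K X`, `t = sball K M`), then dyadic pieces as in P026. -/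

namespace Vale.Agent.P319

open scoped ComplexConjugate Real
open MeasureTheory

variable {K : Type} [Field K] [NumberField K] [Stp K]

theorem ql_summ {f : R K → ℂ} (hf : Summable fun k => ind (Prim k) * f k) {p : R K → Prop}
    (hp : ∀ k, p k → Prim k) : Summable fun k => ind (p k) * f k := by
  refine (qker_summable hf p).congr fun k => ?_
  by_cases h : p k
  · rw [ind_of (hp k h), one_mul]
  · rw [ind_of_not h, zero_mul, zero_mul]

theorem ql_split {f : R K → ℂ} (hf : Summable fun k => ind (Prim k) * f k) (B : ℝ) {e : R K}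
    (he : Prim e) : ∑' k, ind (Prim k) * f k = ∑' k, ind (Small B (e * k)) * f k +
      ∑' k, ind (Prim k ∧ ¬Small B (e * k)) * f k := by
  rw [← (ql_summ hf fun k h => he.of_mul h.prim).tsum_add (ql_summ hf fun k h => h.1)]
  refine tsum_congr fun k => ?_
  by_cases h1 : Small B (e * k)
  · rw [ind_of (he.of_mul h1.prim), ind_of h1, ind_of_not fun h => h.2 h1]
    ring
  · rw [ind_of_not h1, ind_congr (and_iff_left h1)]
    ring

theorem ql_large (Q : QEng K) (F : Fam K) {Y : ℝ} (hY : 0 < Y) (B₀ : ℝ) {Z : ℝ} {a : R K → ℂ}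
    (ha : ∀ n, a n ≠ 0 → n ∈ sball K Z) {s : Finset (R K)}
    (hs : ∀ k ∈ s, Prim k ∧ (nm k : ℝ) ≤ Y ∧ ¬Small B₀ k) :
    ∑ k ∈ s, ‖∑ n ∈ sball K Z, a n * F.X n k‖ ^ 2 ≤ (Q.w 1)⁻¹ * ∑ Δ ∈ sball K Z,
      ‖BilW F (fun n => n) (fun h => (Q.wt Y⁻¹ h : ℝ)) Z (fun m => a (Δ * m))
          (fun m => a (Δ * m)) Δ -
        BilW F (fun n => n) (fun h => ind (Small B₀ h) * (Q.wt Y⁻¹ h : ℝ)) Z (fun m => a (Δ * m))
          (fun m => a (Δ * m)) Δ‖ := by
  classical
  have hY' := inv_pos.2 hY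
  have wp := Q.wt_nonneg hY'
  have ws : Summable (Q.wt Y⁻¹) := Q.summ _ hY'
  have s0 := summable_sq F (fun n => n) ws wp Z a
  have w0 : Summable fun h : R K => ((Q.wt Y⁻¹ h : ℝ) : ℂ) := Complex.summable_ofReal.2 ws
  have e1 := sq_expand_w F (fun n => n) w0 ha 1
  have e2 := sq_expand_w F (fun n => n) (qker_summable w0 (Small B₀)) ha 1
  simp only [ind_of (one_dvd _), one_mul] at e1 e2
  set r : R K → ℝ := fun h => if Small B₀ h then 0 else
    Q.wt Y⁻¹ h * ‖∑ n ∈ sball K Z, a n * F.X n h‖ ^ 2 with hr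
  have r0 : ∀ h, 0 ≤ r h := fun h => by
    have := wp h
    simp only [hr]
    split_ifs <;> positivity
  have rs : Summable r := Summable.of_nonneg_of_le r0 (fun h => by
    have := wp h
    simp only [hr]
    split_ifs
    · positivity
    · exact le_rfl) s0
  have s1 : Summable fun h : R K => ((Q.wt Y⁻¹ h : ℝ) : ℂ) *
      ((‖∑ n ∈ sball K Z, a n * F.X n h‖ ^ 2 : ℝ) : ℂ) := by
    simpa only [Complex.ofReal_mul] using Complex.summable_ofReal.2 s0
  have e3 : ((∑' h, r h : ℝ) : ℂ) = ∑ Δ ∈ sball K Z,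
      (BilW F (fun n => n) (fun h => (Q.wt Y⁻¹ h : ℝ)) Z (fun m => a (Δ * m))
          (fun m => a (Δ * m)) Δ -
        BilW F (fun n => n) (fun h => ind (Small B₀ h) * (Q.wt Y⁻¹ h : ℝ)) Z (fun m => a (Δ * m))
          (fun m => a (Δ * m)) Δ) := by
    rw [Finset.sum_sub_distrib, ← e1, ← e2, Complex.ofReal_tsum,
      ← s1.tsum_sub (by simpa only [mul_assoc] using qker_summable s1 (Small B₀))]
    refine tsum_congr fun h => ?_
    simp only [hr]
    split_ifs with k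
    · rw [ind_of k, one_mul, sub_self, Complex.ofReal_zero]
    · rw [ind_of_not k, zero_mul, zero_mul, sub_zero, Complex.ofReal_mul]
  have hw := Q.w_pos
  calc ∑ k ∈ s, ‖∑ n ∈ sball K Z, a n * F.X n k‖ ^ 2 ≤ ∑ k ∈ s, (Q.w 1)⁻¹ * r k := by
        refine Finset.sum_le_sum fun k hk => ?_
        obtain ⟨k1, k2, k3⟩ := hs k hk
        simp only [hr, if_neg k3]
        rw [← mul_assoc, qp_wt Q _ k1]
        refine le_mul_of_one_le_left (by positivity) ?_
        rw [← div_eq_inv_mul, one_le_div hw]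
        exact Q.w_anti (mul_pos hY' (nm_pos_real k1.ne_zero)) (Set.mem_Ioi.2 one_pos)
          (by rw [← div_eq_inv_mul, div_le_one hY]; exact k2)
    _ ≤ (Q.w 1)⁻¹ * ∑' h, r h := by
        rw [← Finset.mul_sum]
        exact mul_le_mul_of_nonneg_left (rs.sum_le_tsum s fun h _ => r0 h) (by positivity)
    _ ≤ _ := by
        refine mul_le_mul_of_nonneg_left ?_ (by positivity)
        refine le_trans ?_ (norm_sum_le _ _)
        rw [← e3, Complex.norm_real]
        exact le_abs_self _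

theorem main_step [Rcp K] (Q : QEng K) : ∃ C : ℝ, 0 < C ∧ ∀ (X W : ℝ) (a : R K → ℂ) (α : R K),
    0 < X → X ≤ W → 1 ≤ W → (∀ n, a n ≠ 0 → n ∈ sball K (2 * X) ∧ X / 2 ≤ nm n ∧ Cg n α) →
    ∑ k ∈ sball K (W ^ (11 / 8 : ℝ)), ‖∑ n ∈ sball K (2 * X), a n * quad k n‖ ^ 2 ≤
      C * W ^ (1639 / 1000 : ℝ) * ∑ n ∈ sball K (2 * X), ‖a n‖ ^ 2 := by
  classical
  obtain ⟨F, hF⟩ := exists_qfam (K := K)
  obtain ⟨C1, hC1, H1⟩ := q1 Q 1 one_pos
  obtain ⟨C2, hC2, H2⟩ := small_sum Q hF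
  obtain ⟨C3, hC3, H3⟩ := ps3 (K := K) Q.sep Q.c0_pos (B := 2) (η := 1 / 10000) (by norm_num)
    (by norm_num) 0
  obtain ⟨C4, hC4, H4⟩ := large2 (q1 Q) hF
  have hc := Q.c0_pos
  have hV := Q.V_nonneg
  have hw := Q.w_pos
  refine ⟨3 * C1 + (Q.w 1)⁻¹ * (Q.V * (Q.c0 + 1) + C2 + C3 * C4), by positivity,
    fun X W a α hX hXW hW ha => ?_⟩
  have hW0 : 0 < W := by linarith
  by_cases hZ : 2 * X < 1
  · rw [sball_eq_empty hZ]
    simp
  rw [not_lt] at hZ
  have h2 := H2 X W a hX hXW hW fun n hn => ⟨(ha n hn).1, (ha n hn).2.1⟩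
  have h4 := H4 X W a hX hXW hW fun n hn => (ha n hn).1
  set Y := W ^ (11 / 8 : ℝ) with hYd
  set B₀ := W ^ (1 / 10 : ℝ) with hBd
  set S := ∑ n ∈ sball K (2 * X), ‖a n‖ ^ 2 with hS
  set T := W ^ (1639 / 1000 : ℝ) with hT
  have hS0 : 0 ≤ S := by positivity
  have hY : 0 < Y := by positivity
  have hB : 1 ≤ B₀ := Real.one_le_rpow hW (by norm_num)
  have mono : ∀ r : ℝ, r ≤ 1639 / 1000 → W ^ r ≤ T := fun r hr =>
    Real.rpow_le_rpow_of_exponent_le hW hr
  rw [← Finset.sum_filter_add_sum_filter_not _ (fun k => (nm k : ℝ) ≤ B₀)]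
  have p1 : ∑ k ∈ (sball K Y).filter (fun k => (nm k : ℝ) ≤ B₀),
      ‖∑ n ∈ sball K (2 * X), a n * quad k n‖ ^ 2 ≤ 3 * C1 * T * S := by
    refine (Finset.sum_le_sum_of_subset_of_nonneg (t := sball K B₀) (fun k hk => ?_)
      fun _ _ _ => by positivity).trans ((H1 B₀ (2 * X) a hB hZ).trans ?_)
    · obtain ⟨k1, k2⟩ := Finset.mem_filter.1 hk
      exact mem_sball.2 ⟨(mem_sball.1 k1).1, k2⟩
    · have b1 : W * B₀ ≤ T := by
        refine le_trans (le_of_eq ?_) (mono (1 + 1 / 10) (by norm_num))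
        rw [Real.rpow_add hW0, Real.rpow_one]
      have b2 : B₀ ^ 2 * B₀ ≤ T := by
        refine le_trans (le_of_eq ?_) (mono (1 / 10 * (3 : ℕ)) (by norm_num))
        rw [Real.rpow_mul hW0.le, Real.rpow_natCast]
        ring
      have b3 : X * B₀ ≤ W * B₀ := by gcongr
      rw [Real.rpow_one]
      refine mul_le_mul_of_nonneg_right ?_ hS0
      nlinarith
  have p2 := ql_large Q F hY B₀ (fun n hn => (ha n hn).1)
    (s := (sball K Y).filter fun k => ¬(nm k : ℝ) ≤ B₀) fun k hk => by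
      obtain ⟨k1, k2⟩ := Finset.mem_filter.1 hk
      exact ⟨(mem_sball.1 k1).1.1, (mem_sball.1 k1).2,
        (mem_sball.1 k1).1.not_small (not_le.1 k2)⟩
  simp only [hF.X_eq] at p2
  have hdl : ∀ Δ ∈ sball K (2 * X), ∀ e ∈ pdiv Δ, Prim e ∧ Summable fun k : R K => ind (Prim k) *
      Dl Q.w (2 * X) (Q.c0 ^ 2 * (Y / nm e) * nm k) (dco F (fun m => a (Δ * m)) e k)
        (dco F (fun m => a (Δ * m)) e k) := fun Δ hΔ e he => by
    have h1 := ((mem_pdiv (mem_sball.1 hΔ).1.ne_zero).1 he).1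
    have := nm_pos_real h1.ne_zero
    exact ⟨h1, Q.summable_dl F (by positivity) _ _ _⟩
  have h5 : ∀ (t : ℝ) (s : Finset (R K)), _ ≤ C4 * W ^ (1638 / 1000 : ℝ) * S * (1 + |t|) ^ (0 : ℝ) :=
    fun t s => (h4 t s).trans_eq (by rw [Real.rpow_zero, mul_one])
  have h3 := H3 (R K) X Y (C4 * W ^ (1638 / 1000 : ℝ) * S) (fun _ => 1)
    (fun _ e k => Prim k ∧ ¬Small B₀ (e * k)) (fun _ _ k => nm k)
    (fun Δ e k => dco F (fun m => a (Δ * m)) e k) (fun Δ e k => dco F (fun m => a (Δ * m)) e k)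
    hX hY (fun _ => zero_le_one) (fun _ _ _ h => nm_pos_real h.1.ne_zero)
    (fun Δ e k m h => by
      have h6 : a (Δ * m) ≠ 0 := left_ne_zero_of_mul (left_ne_zero_of_mul
        (left_ne_zero_of_mul (or_self_iff.1 h)))
      exact ⟨(ha _ h6).2.1, (mem_sball.1 (ha _ h6).1).2⟩)
    (fun Δ hΔ e he => ql_summ (hdl Δ hΔ e he).2 fun k h => h.1)
    (fun t s => by convert h5 t s) (fun t s => by convert h5 t s)
  simp only [one_mul] at h3
  have p3 : ∑ Δ ∈ sball K (2 * X), ‖BilW F (fun n => n) (fun h => (Q.wt Y⁻¹ h : ℝ)) (2 * X)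
        (fun m => a (Δ * m)) (fun m => a (Δ * m)) Δ -
      BilW F (fun n => n) (fun h => ind (Small B₀ h) * (Q.wt Y⁻¹ h : ℝ)) (2 * X)
        (fun m => a (Δ * m)) (fun m => a (Δ * m)) Δ‖ ≤ Q.V * (Q.c0 * Y + 1) * S +
      C2 * W ^ (1638 / 1000 : ℝ) * S + C3 * (C4 * W ^ (1638 / 1000 : ℝ) * S) := by
    refine le_trans ?_ (add_le_add (add_le_add le_rfl h2) h3)
    rw [hS, Finset.mul_sum, ← Finset.sum_add_distrib, ← Finset.sum_add_distrib]
    refine Finset.sum_le_sum fun Δ hΔ => ?_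
    have hP := (mem_sball.1 hΔ).1
    refine le_trans ?_ (add_le_add (add_le_add
      (qbil Q hF hP hY (2 * X) fun n hn => (ha n hn).2.2) le_rfl) le_rfl)
    refine le_trans (le_of_eq ?_) norm_add₃_le
    congr 1
    rw [Finset.sum_congr rfl fun e he => by
      rw [ql_split (hdl Δ hΔ e he).2 B₀ (hdl Δ hΔ e he).1, mul_add], Finset.sum_add_distrib]
    ring
  have m0 : 1 ≤ T := Real.one_le_rpow hW (by norm_num)
  have m1 := mono (11 / 8) (by norm_num)
  have m2 := mono (1638 / 1000) (by norm_num)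
  have p4 : Q.V * (Q.c0 * Y + 1) * S + C2 * W ^ (1638 / 1000 : ℝ) * S +
      C3 * (C4 * W ^ (1638 / 1000 : ℝ) * S) ≤
      Q.V * (Q.c0 * T + T) * S + C2 * T * S + C3 * (C4 * T * S) := by gcongr
  have p5 := p2.trans (mul_le_mul_of_nonneg_left (p3.trans p4) (by positivity))
  exact (add_le_add p1 p5).trans_eq (by ring)

theorem qls_of [Rcp K] (Q : QEng K) : QLSStmt K := by
  classical
  obtain ⟨C, hC, H⟩ := main_step Q
  obtain ⟨C', hC', H'⟩ := flip_red (K := K)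
  refine ⟨C' * 2001 * C, by positivity, fun M X a hM hX => ?_⟩
  set W := max X (M ^ (8 / 11 : ℝ)) with hWd
  have hXW : X ≤ W := le_max_left _ _
  have hW : 1 ≤ W := hX.trans hXW
  have hW0 : 0 < W := by linarith
  have hM0 : 0 ≤ M := by linarith
  have hMW : M ≤ W ^ (11 / 8 : ℝ) := by
    refine le_trans (le_of_eq ?_) (Real.rpow_le_rpow (by positivity)
      (le_max_right X (M ^ (8 / 11 : ℝ))) (by norm_num))
    rw [← Real.rpow_mul hM0]
    norm_num
  set J := Nat.log 2 ⌊X⌋₊ with hJ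
  have hJ2 : (2 : ℝ) ^ J ≤ W := (pow_log_floor_le hX).trans hXW
  have hJW : ((J + 1 : ℕ) : ℝ) ≤ 2001 * W ^ (1 / 1000 : ℝ) := by
    have a1 := Real.log_le_log (by positivity) hJ2
    have a2 := Real.log_le_rpow_div hW0.le (ε := 1 / 1000) (by norm_num)
    have a3 := Real.log_two_gt_d9
    have a4 : 1 ≤ W ^ (1 / 1000 : ℝ) := Real.one_le_rpow hW (by norm_num)
    rw [Real.log_pow] at a1
    have a5 : (0 : ℝ) ≤ J := Nat.cast_nonneg _
    push_cast
    nlinarith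
  have hfin : W ^ (1 / 1000 : ℝ) * W ^ (1639 / 1000 : ℝ) ≤ M ^ (6 / 5 : ℝ) + X ^ (41 / 25 : ℝ) := by
    rw [← Real.rpow_add hW0, show (1 / 1000 + 1639 / 1000 : ℝ) = 41 / 25 by norm_num]
    rcases max_choice X (M ^ (8 / 11 : ℝ)) with h | h
    · rw [hWd, h]
      exact le_add_of_nonneg_left (by positivity)
    · rw [hWd, h, ← Real.rpow_mul hM0]
      exact le_add_of_le_of_nonneg (Real.rpow_le_rpow_of_exponent_le hM (by norm_num))
        (by positivity)
  have maps : ∀ n ∈ sball K X, Nat.log 2 (nm n) ∈ Finset.range (J + 1) := fun n hn =>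
    log_mem_range (sball_subset_pball X hn)
  have piece : ∀ (α : R K) (b : R K → ℂ), (∀ n, b n ≠ 0 → n ∈ sball K X ∧ Cg n α) →
      ∀ j ∈ Finset.range (J + 1), ∑ k ∈ sball K M,
      ‖∑ n ∈ sball K X with Nat.log 2 (nm n) = j, b n * quad k n‖ ^ 2 ≤
      C * W ^ (1639 / 1000 : ℝ) * ∑ n ∈ sball K X with Nat.log 2 (nm n) = j, ‖b n‖ ^ 2 := by
    intro α b hb j hj
    set s := (sball K X).filter fun n => Nat.log 2 (nm n) = j with hs
    have rng : ∀ n ∈ s, n ∈ sball K (2 * 2 ^ j) ∧ (2 : ℝ) ^ j / 2 ≤ nm n := by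
      intro n hn
      obtain ⟨k1, k2⟩ := Finset.mem_filter.1 hn
      have k3 := (mem_sball.1 k1).1
      have u : nm n < 2 ^ (j + 1) := k2 ▸ Nat.lt_pow_succ_log_self (by norm_num) _
      have l : 2 ^ j ≤ nm n := k2 ▸ Nat.pow_log_le_self 2 (nm_pos k3.ne_zero).ne'
      have u' : (nm n : ℝ) < 2 ^ (j + 1) := by exact_mod_cast u
      have l' : (2 : ℝ) ^ j ≤ nm n := by exact_mod_cast l
      refine ⟨mem_sball.2 ⟨k3, ?_⟩, ?_⟩
      · rw [pow_succ] at u'
        linarith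
      · linarith [half_le_self (by positivity : (0 : ℝ) ≤ 2 ^ j)]
    have sub : sball K (2 * 2 ^ j) ∩ s = s := Finset.inter_eq_right.2 fun n hn => (rng n hn).1
    have jW : (2 : ℝ) ^ j ≤ W :=
      (pow_le_pow_right₀ (by norm_num) (Nat.lt_succ_iff.1 (Finset.mem_range.1 hj))).trans hJ2
    have h := H (2 ^ j) W (fun n => if n ∈ s then b n else 0) α (by positivity) jW hW
      fun n hn => by
        by_cases k : n ∈ s
        · exact ⟨(rng n k).1, (rng n k).2, (hb n fun e => hn ((if_pos k).trans e)).2⟩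
        · exact absurd (if_neg k) hn
    simp only [ite_mul, zero_mul, apply_ite (fun z : ℂ => ‖z‖ ^ 2), norm_zero, ne_eq,
      OfNat.ofNat_ne_zero, not_false_eq_true, zero_pow, Finset.sum_ite_mem, sub] at h
    exact le_trans (Finset.sum_le_sum_of_subset_of_nonneg (sball_mono hMW)
      fun _ _ _ => by positivity) h
  have tot := H' (sball K X) (sball K M) (((J + 1 : ℕ) : ℝ) * (C * W ^ (1639 / 1000 : ℝ)))
    (by positivity) (fun n hn => (mem_sball.1 hn).1.ne_zero)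
    (fun n hn => (mem_sball.1 hn).1.ne_zero) (fun α b hb => ?_) a
  · have p1 : 0 ≤ ∑ n ∈ sball K X, ‖a n‖ ^ 2 := by positivity
    calc _ ≤ _ := tot
      _ ≤ C' * (2001 * W ^ (1 / 1000 : ℝ) * (C * W ^ (1639 / 1000 : ℝ))) *
          ∑ n ∈ sball K X, ‖a n‖ ^ 2 := by gcongr
      _ = C' * 2001 * C * (W ^ (1 / 1000 : ℝ) * W ^ (1639 / 1000 : ℝ)) *
          ∑ n ∈ sball K X, ‖a n‖ ^ 2 := by ring
      _ ≤ _ := by gcongr
  · have pt : ∀ k ∈ sball K M, ‖∑ n ∈ sball K X, b n * quad k n‖ ^ 2 ≤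
        ((J + 1 : ℕ) : ℝ) * ∑ j ∈ Finset.range (J + 1),
          ‖∑ n ∈ sball K X with Nat.log 2 (nm n) = j, b n * quad k n‖ ^ 2 := by
      intro k _
      rw [← Finset.sum_fiberwise_of_maps_to maps]
      refine (pow_le_pow_left₀ (norm_nonneg _) (norm_sum_le _ _) 2).trans ?_
      simpa only [Finset.card_range] using sq_sum_le_card_mul_sum_sq (s := Finset.range (J + 1))
        (f := fun j => ‖∑ n ∈ sball K X with Nat.log 2 (nm n) = j, b n * quad k n‖)
    refine (Finset.sum_le_sum pt).trans ?_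
    rw [← Finset.mul_sum, Finset.sum_comm, mul_assoc,
      ← Finset.sum_fiberwise_of_maps_to maps (f := fun n => ‖b n‖ ^ 2)]
    refine mul_le_mul_of_nonneg_left ?_ (by positivity)
    rw [Finset.mul_sum]
    exact Finset.sum_le_sum (piece α b hb)

end Vale.Agent.P319
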