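import Vale.Agent.P319.N.QKer
import Vale.Agent.P319.N.PSOne

/-! # PSQ: the ideal level engine.
`QEng.toEng`: `gp` from `tsum_prim_dvd` and `Q.pois` with `Y / nm e`, `f (e * ·)`.
`summable_sq_w`: `w ((N / Z) ^ 2) ≤ w (Z⁻¹ ^ 2 * N)` for `N ≥ 1` (`w_anti`), `Q.summ`.
`ls`: port of `ls` in `P026/QLat.lean` (`ind_coprime`, `tsum_prim_dvd`, `Q.ls0` with `Z / nm e`). -/

namespace Vale.Agent.P319

open scoped ComplexConjugate Real
open MeasureTheory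

variable {K : Type} [Field K] [NumberField K] [Stp K]

theorem QEng.gp (Q : QEng K) (e q : R K) (f : R K → ℂ) (Y : ℝ) (he : Prim e) (hq : q ≠ 0)
    (hf : Per q f) (hu : ∀ (u : (R K)ˣ) z, f (u * z) = f z) (hY : 0 < Y) :
    ∑' n : R K, (cut (Prim n) Q.w (Y⁻¹ * nm n) : ℝ) * (ind (e ∣ n) * f n) + Q.V * f 0 =
      (Q.c0 * Y / (nm e * nm q) : ℝ) *
        (∑' k : R K, (cut (Prim k) Q.w (Q.c0 ^ 2 * Y / (nm e * nm q) * nm k) : ℝ) *
          hat q (fun z => f (e * z)) k + Q.V * hat q (fun z => f (e * z)) 0) := by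
  have he1 := nm_pos_real he.1
  have h := Q.pois q (fun z => f (e * z)) (Y / nm e) hq
    (fun x y hxy => hf _ _ (by rw [← mul_sub]; exact hxy.mul_left e))
    (fun u z => by rw [mul_left_comm, hu]) (div_pos hY he1)
  simp only [mul_zero] at h
  rw [show Q.c0 * Y / (nm e * nm q) = Q.c0 * (Y / nm e) / nm q by rw [← div_div, mul_div_assoc],
    show Q.c0 ^ 2 * Y / (nm e * nm q) = Q.c0 ^ 2 * (Y / nm e) / nm q by
      rw [← div_div, mul_div_assoc], ← h]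
  refine congrArg (· + _) ?_
  simp only [cut_eq, mul_assoc]
  refine Eq.trans (tsum_congr fun n => ?_) ((tsum_prim_dvd he
    fun n => (Q.w (Y⁻¹ * nm n) : ℝ) * f n).trans (tsum_congr fun n => ?_))
  · rw [mul_left_comm (ind (e ∣ n))]
  · rw [nm_mul, Nat.cast_mul, inv_div, div_eq_inv_mul, mul_assoc]

/-- the engine with `ι = R K`, `mem = Prim`, `N = nm` -/
noncomputable def QEng.toEng (Q : QEng K) : Eng K where
  KK := Q.w
  V := Q.V
  c0 := Q.c0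
  L := Unit
  ι := R K
  x := fun n => n
  mem := fun _ n => Prim n
  N := fun _ n => nm n
  U := fun _ => True
  l0 := ()
  lat := fun _ _ => ()
  c0_pos := Q.c0_pos
  V_nonneg := Q.V_nonneg
  KK_nonneg := Q.w_nonneg
  KK_anti := Q.w_anti
  sep := Q.sep
  hN := fun _ _ h => ⟨h.1, le_rfl⟩
  summ := fun _ => Q.summ
  gp := fun e _ q f Y he hq hf hu hY => Q.gp e q f Y he hq.1 hf (fun u => hu u trivial) hY

theorem QEng.wt_nonneg (Q : QEng K) {y : ℝ} (hy : 0 < y) (n : R K) : 0 ≤ Q.wt y n :=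
  Q.toEng.wt_nonneg () hy n

theorem QEng.summable_dl (Q : QEng K) (F : Fam K) {c : ℝ} (hc : 0 < c) (Z : ℝ) (β : R K → ℂ)
    (e : R K) :
    Summable fun k : R K => ind (Prim k) * Dl Q.w Z (c * nm k) (dco F β e k) (dco F β e k) :=
  Vale.Agent.P319.summable_dl Q.toEng F () hc Z β β e

theorem QEng.summable_dker (Q : QEng K) {c : ℝ} (hc : 0 < c) {m1 m2 : R K} (h1 : m1 ≠ 0)
    (h2 : m2 ≠ 0) : Summable fun k : R K => ind (Prim k) * (dker Q.w (c * nm k) m1 m2 : ℝ) :=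
  Vale.Agent.P319.summable_dker Q.toEng () hc h1 h2

theorem QEng.bil2 (Q : QEng K) (F : Fam K) {Δ α : R K} (hΔ : IsS Δ) {Y : ℝ} (hY : 0 < Y) (Z : ℝ)
    (β : R K → ℂ)
    (h : ∀ m1 ∈ sball K Z, ∀ m2 ∈ sball K Z, IsCoprime m1 m2 → β m1 ≠ 0 → β m2 ≠ 0 →
      Cg (m1 * m2) α ∧ F.ε m1 m2 = 1 ∧ ∀ u : (R K)ˣ, F.X m1 u * conj (F.X m2 u) = 1) :
    ‖BilW F (fun n => n) (fun n => (Q.wt Y⁻¹ n : ℝ)) Z β β Δ -
      ∑ e ∈ pdiv Δ, mu e * (Q.c0 * Y / nm e : ℝ) * ∑' k : R K, ind (Prim k) *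
        Dl Q.w Z (Q.c0 ^ 2 * (Y / nm e) * nm k) (dco F β e k) (dco F β e k)‖ ≤
      Q.V * (Q.c0 * Y + 1) * ‖β 1‖ ^ 2 := by
  have := Vale.Agent.P319.bil2 Q.toEng F hΔ hY Z β β 1 fun m1 h1 m2 h2 c z1 z2 =>
    ⟨(h m1 h1 m2 h2 c z1 z2).1, (h m1 h1 m2 h2 c z1 z2).2.1, fun u _ => (h m1 h1 m2 h2 c z1 z2).2.2 u⟩
  rw [one_mul, ← sq] at this
  exact this

theorem summable_sq_w (Q : QEng K) {Z : ℝ} (hZ : 0 < Z) :
    Summable fun l : R K => ind (Prim l) * (Q.w (((nm l : ℝ) / Z) ^ 2) : ℝ) := by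
  refine Summable.of_norm_bounded (Q.summ ((Z⁻¹) ^ 2) (by positivity)) fun l => ?_
  by_cases h : Prim l
  · have h1 := one_le_nm h.1
    have h2 : 0 < Z⁻¹ ^ 2 * nm l := by positivity
    have h3 : 0 < ((nm l : ℝ) / Z) ^ 2 := by positivity
    rw [ind_of h, one_mul, cut_of h, Complex.norm_real, Real.norm_of_nonneg (Q.w_nonneg _ h3)]
    refine Q.w_anti h2 h3 ?_
    rw [div_eq_inv_mul, mul_pow]
    exact mul_le_mul_of_nonneg_left (by nlinarith) (by positivity)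
  · rw [ind_of_not h, zero_mul, norm_zero, cut_of_not h]

theorem ls (Q : QEng K) : ∃ I C : ℝ, 0 < C ∧ ∀ (D : R K) (Z : ℝ), Prim D → 0 < Z →
    ‖∑' l : R K, ind (Prim l) * ind (IsCoprime l D) * (Q.w (((nm l : ℝ) / Z) ^ 2) : ℝ) -
      (I * Z : ℝ) * phiS D‖ ≤ C * (pdiv D).card * (1 + √Z) := by
  obtain ⟨I, C, hC, h⟩ := Q.ls0
  refine ⟨I, C, hC, fun D Z hD hZ => ?_⟩
  have h1 : ∀ l : R K, ind (Prim l) * ind (IsCoprime l D) * (Q.w (((nm l : ℝ) / Z) ^ 2) : ℝ) =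
      ∑ e ∈ pdiv D, mu e * (ind (e ∣ l) * (ind (Prim l) * (Q.w (((nm l : ℝ) / Z) ^ 2) : ℝ))) :=
    fun l => by
      rw [ind_coprime hD, Finset.mul_sum, Finset.sum_mul]
      exact Finset.sum_congr rfl fun e _ => by ring
  simp only [h1]
  rw [Summable.tsum_finsetSum fun e _ => (qker_summable (summable_sq_w Q hZ) _).mul_left _, phiS,
    Finset.mul_sum, ← Finset.sum_sub_distrib]
  refine (norm_sum_le _ _).trans ((Finset.sum_le_card_nsmul _ _ (C * (1 + √Z)) fun e he => ?_).trans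
    (le_of_eq (by rw [nsmul_eq_mul]; ring)))
  have he0 := ((mem_pdiv hD.ne_zero).1 he).1
  have he1 := one_le_nm he0.1
  have h2 : ∑' l : R K, ind (e ∣ l) * (ind (Prim l) * (Q.w (((nm l : ℝ) / Z) ^ 2) : ℝ)) =
      ∑' l : R K, ind (Prim l) * (Q.w (((nm l : ℝ) / (Z / nm e)) ^ 2) : ℝ) := by
    refine Eq.trans (tsum_congr fun l => mul_left_comm _ _ _) ((tsum_prim_dvd he0
      fun l => (Q.w (((nm l : ℝ) / Z) ^ 2) : ℝ)).trans (tsum_congr fun l => ?_))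
    rw [nm_mul, Nat.cast_mul, div_div_eq_mul_div, mul_comm (nm e : ℝ)]
  rw [tsum_mul_left, h2, show ((I * Z : ℝ) : ℂ) * (mu e / nm e) = mu e * (I * (Z / nm e) : ℝ) by
    push_cast; ring, ← mul_sub, norm_mul]
  refine (mul_le_of_le_one_left (norm_nonneg _) (norm_mu_le e)).trans ((h _ (by positivity)).trans
    (mul_le_mul_of_nonneg_left ?_ hC.le))
  exact add_le_add le_rfl (Real.sqrt_le_sqrt (div_le_self hZ.le he1))

end Vale.Agent.P319
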