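import Vale.Agent.P319.N.PSAux
import Vale.Agent.P319.N.LatKK
import Vale.Agent.P319.N.LatLS

/-! # PSQ: the kernel `wS y = ∑ s, KK (N s * y)`, sum over the ideals supported above `M`.
`Sep.tsum`: `φ_y = ∑' s, φ_(n s * y)`, `rho η (n s * y) ≤ n s ^ (-η) * rho η y`; `continuous_tsum`,
`hasSum_integral_of_summable_integral_norm` (take the functions for `A + 2` or treat `A ≥ 2` first); summability of `κ (n s * y)` from `Sep.le`.
`summable_wS`: `KK_le_rpow` with `σ = 1`, `summable_SId`.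
`tsum_ideal_wS`: `idealEquiv`, `Summable.tsum_prod'`/`tsum_comm`, `summable_KK_ideal` (`j = 1`), `absNorm_idl`, `SId.gen_mul_idl`,
`tsum_subtype` / `Subtype.val_injective.tsum_eq` for `Prim`. -/

namespace Vale.Agent.P319

open scoped ComplexConjugate Real NumberField nonZeroDivisors
open MeasureTheory

variable {K : Type} [Field K] [NumberField K] [Stp K]

/-- the kernel at the level of ideals of `R` -/
noncomputable def wS (K : Type) [Field K] [NumberField K] [Stp K] (y : ℝ) : ℝ :=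
  ∑' s : {s : Ideal (𝓞 K) // SId s}, KK K (Ideal.absNorm s.1 * y)

private theorem qsep_rho {a y : ℝ} (ha : 1 ≤ a) (hy : 0 < y) (η : ℝ) :
    rho η (a * y) ≤ a ^ (-η) * rho η y := by
  have h0 : 0 ≤ a := zero_le_one.trans ha
  unfold rho
  rw [Real.mul_rpow h0 hy.le, mul_assoc]
  refine mul_le_mul_of_nonneg_left (mul_le_mul_of_nonneg_left ?_ (by positivity)) (by positivity)
  exact Real.rpow_le_rpow_of_nonpos (by positivity) (by nlinarith) (by norm_num)

theorem Sep.tsum {κ : ℝ → ℝ} (h : Sep κ) {σ : Type} [Countable σ] (n : σ → ℝ) (h1 : ∀ s, 1 ≤ n s)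
    (hs : ∀ η : ℝ, 0 < η → Summable fun s => n s ^ (-η)) :
    Sep fun y => ∑' s, κ (n s * y) := by
  intro c L η A hc hL hη
  obtain ⟨C, hC, hφ⟩ := h c L η (A + 2) hc hL hη
  have hS : 0 ≤ ∑' s, n s ^ (-η) :=
    tsum_nonneg fun s => Real.rpow_nonneg (zero_le_one.trans (h1 s)) _
  refine ⟨C * (∑' s, n s ^ (-η) + 1), by positivity, fun y hy => ?_⟩
  choose φ hφ1 hφ2 hφ3 using fun s => hφ (n s * y) (mul_pos (one_pos.trans_le (h1 s)) hy)
  have hr := rho_nonneg η hy.le
  have hb : ∀ s t, ‖φ s t‖ ≤ n s ^ (-η) * (C * rho η y * (1 + |t|) ^ (-((A + 2 : ℕ) : ℝ))) := by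
    intro s t
    refine (hφ2 s t).trans ?_
    have := qsep_rho (h1 s) hy η
    calc _ ≤ C * (n s ^ (-η) * rho η y) * (1 + |t|) ^ (-((A + 2 : ℕ) : ℝ)) := by gcongr
      _ = _ := by ring
  have hw : ∀ (t : ℝ) (B : ℝ), B ≤ ((A + 2 : ℕ) : ℝ) →
      (1 + |t|) ^ (-((A + 2 : ℕ) : ℝ)) ≤ (1 + |t|) ^ (-B) := fun t B hB =>
    Real.rpow_le_rpow_of_exponent_le (by linarith [abs_nonneg t]) (by linarith)
  refine ⟨fun t => ∑' s, φ s t, ?_, fun t => ?_, fun u hu => ?_⟩
  · refine continuous_tsum hφ1 ((hs η hη).mul_right (C * rho η y)) fun s t => (hb s t).trans ?_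
    have h2 := hw t 0 (by positivity)
    rw [neg_zero, Real.rpow_zero] at h2
    have h3 : 0 ≤ n s ^ (-η) := Real.rpow_nonneg (zero_le_one.trans (h1 s)) _
    exact mul_le_mul_of_nonneg_left (mul_le_of_le_one_right (by positivity) h2) h3
  · refine (tsum_of_norm_bounded ((hs η hη).mul_right _).hasSum fun s => hb s t).trans ?_
    rw [tsum_mul_right]
    have h2 := hw t A (by push_cast; linarith)
    calc _ ≤ (∑' s, n s ^ (-η) + 1) * (C * rho η y * (1 + |t|) ^ (-(A : ℝ))) := by
          gcongr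
          linarith
      _ = _ := by ring
  · have hI : Integrable fun t : ℝ => (1 + |t|) ^ (-((A + 2 : ℕ) : ℝ)) := by
      have h2 : ((Module.finrank ℝ ℝ : ℕ) : ℝ) < ((A + 2 : ℕ) : ℝ) := by
        rw [Module.finrank_self]
        exact_mod_cast (by omega : 1 < A + 2)
      simpa only [Real.norm_eq_abs] using integrable_one_add_norm (μ := volume) h2
    have hb' : ∀ s (t : ℝ), ‖φ s t * Complex.exp (Complex.I * t * u)‖ ≤
        n s ^ (-η) * (C * rho η y * (1 + |t|) ^ (-((A + 2 : ℕ) : ℝ))) := by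
      intro s t
      rw [norm_mul, Complex.norm_exp]
      simpa using hb s t
    have hint : ∀ s, Integrable fun t : ℝ => φ s t * Complex.exp (Complex.I * t * u) := fun s =>
      ((hI.const_mul _).const_mul _).mono' (Continuous.aestronglyMeasurable (by
        have := hφ1 s
        fun_prop)) (Filter.Eventually.of_forall (hb' s))
    have hsum : Summable fun s => ∫ t : ℝ, ‖φ s t * Complex.exp (Complex.I * t * u)‖ := by
      refine Summable.of_nonneg_of_le (fun s => integral_nonneg fun _ => norm_nonneg _)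
        (fun s => ?_) ((hs η hη).mul_right
          (∫ t : ℝ, C * rho η y * (1 + |t|) ^ (-((A + 2 : ℕ) : ℝ))))
      rw [← integral_const_mul]
      exact integral_mono (hint s).norm ((hI.const_mul _).const_mul _) (hb' s)
    simp only [← tsum_mul_right]
    rw [← integral_tsum_of_summable_integral_norm hint hsum, ← tsum_mul_left, Complex.ofReal_tsum]
    refine tsum_congr fun s => ?_
    rw [← hφ3 s u hu]
    congr 3
    ring

private theorem qsep_one_le (s : {s : Ideal (𝓞 K) // SId s}) : (1 : ℝ) ≤ Ideal.absNorm s.1 := by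
  exact_mod_cast Nat.pos_of_ne_zero (mt Ideal.absNorm_eq_zero_iff.1 s.2.ne_bot)

theorem summable_wS {y : ℝ} (hy : 0 < y) :
    Summable fun s : {s : Ideal (𝓞 K) // SId s} => KK K (Ideal.absNorm s.1 * y) := by
  obtain ⟨C, hC, h⟩ := KK_le_rpow (K := K) one_pos
  refine Summable.of_nonneg_of_le (fun _ => KK_nonneg _) (fun s => ?_)
    ((summable_SId (K := K) one_pos).mul_left (C * y ^ (-1 : ℝ)))
  refine (h _ (mul_pos (one_pos.trans_le (qsep_one_le s)) hy)).trans (le_of_eq ?_)
  rw [Real.mul_rpow (Nat.cast_nonneg _) hy.le]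
  ring

theorem wS_nonneg (y : ℝ) : 0 ≤ wS K y := tsum_nonneg fun _ => KK_nonneg _

theorem wS_anti : AntitoneOn (wS K) (Set.Ioi 0) := by
  intro x hx y hy hxy
  refine (summable_wS hy).tsum_le_tsum (fun s => ?_) (summable_wS hx)
  have h := one_pos.trans_le (qsep_one_le s)
  exact KK_antitone (mul_pos h hx) (mul_pos h hy) (mul_le_mul_of_nonneg_left hxy h.le)

theorem wS_pos {y : ℝ} (hy : 0 < y) : 0 < wS K y := by
  exact (summable_wS hy).tsum_pos (fun _ => KK_nonneg _) ⟨⊤, sId_top⟩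
    (KK_pos (mul_pos (one_pos.trans_le (qsep_one_le ⟨⊤, sId_top⟩)) hy))

theorem sep_wS (h : Sep (KK K)) : Sep (wS K) := by
  have : Countable {s : Ideal (𝓞 K) // SId s} := by
    have h1 := (summable_SId (K := K) one_pos).countable_support
    rw [← Set.countable_univ_iff]
    refine h1.mono fun s _ => ?_
    exact (Real.rpow_pos_of_pos (one_pos.trans_le (qsep_one_le s)) _).ne'
  exact h.tsum (fun s : {s : Ideal (𝓞 K) // SId s} => (Ideal.absNorm s.1 : ℝ)) qsep_one_le
    fun η hη => summable_SId hη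

private noncomputable def qsepE (K : Type) [Field K] [NumberField K] [Stp K] :
    {n : R K // Prim n} × {s : Ideal (𝓞 K) // SId s} ≃ (Ideal (𝓞 K))⁰ :=
  (Equiv.prodComm _ _).trans ((idealEquiv K).trans
    (Equiv.subtypeEquivRight fun _ => mem_nonZeroDivisors_iff_ne_zero.symm))

private theorem qsepE_val (p : {n : R K // Prim n} × {s : Ideal (𝓞 K) // SId s}) :
    (qsepE K p).1 = p.2.1 * idl p.1.1 := rfl

private theorem qsepE_KK (y : ℝ) (p : {n : R K // Prim n} × {s : Ideal (𝓞 K) // SId s}) :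
    KK K (y * Ideal.absNorm (qsepE K p).1) = KK K (Ideal.absNorm p.2.1 * (y * nm p.1.1)) := by
  rw [qsepE_val, map_mul, absNorm_idl, Nat.cast_mul, mul_left_comm]

private theorem qsep_summ {y : ℝ} (hy : 0 < y) :
    Summable fun p : {n : R K // Prim n} × {s : Ideal (𝓞 K) // SId s} =>
      KK K (Ideal.absNorm p.2.1 * (y * nm p.1.1)) := by
  refine ((qsepE K).summable_iff.2 (summable_KK_ideal hy one_pos)).congr fun p => ?_
  rw [← qsepE_KK, Function.comp_apply, pow_one]

theorem summable_cut_wS {y : ℝ} (hy : 0 < y) :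
    Summable fun n : R K => cut (Prim n) (wS K) (y * nm n) := by
  refine ((Subtype.val_injective (p := fun n : R K => Prim n)).summable_iff fun n hn => ?_).1 ?_
  · exact cut_of_not (fun h => hn ⟨⟨n, h⟩, rfl⟩) _ _
  · exact (qsep_summ hy).prod.congr fun n => (cut_of n.2 (wS K) (y * nm n.1)).symm

theorem tsum_ideal_wS {y : ℝ} (hy : 0 < y) {f : R K → ℂ} {B : ℝ} (hf : ∀ z, ‖f z‖ ≤ B) :
    ∑' l : (Ideal (𝓞 K))⁰, (KK K (y * Ideal.absNorm l.1) : ℝ) * f (gen l.1) =
      ∑' n : R K, (cut (Prim n) (wS K) (y * nm n) : ℝ) * f n := by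
  have hs : Summable fun p : {n : R K // Prim n} × {s : Ideal (𝓞 K) // SId s} =>
      ((KK K (Ideal.absNorm p.2.1 * (y * nm p.1.1)) : ℝ) : ℂ) * f p.1.1 := by
    refine Summable.of_norm_bounded ((qsep_summ hy).mul_right B) fun p => ?_
    rw [norm_mul, Complex.norm_real, Real.norm_of_nonneg (KK_nonneg _)]
    exact mul_le_mul_of_nonneg_left (hf _) (KK_nonneg _)
  rw [← (qsepE K).tsum_eq, ← (Subtype.val_injective (p := fun n : R K => Prim n)).tsum_eq]
  · rw [tsum_congr (g := fun p : {n : R K // Prim n} × {s : Ideal (𝓞 K) // SId s} =>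
      ((KK K (Ideal.absNorm p.2.1 * (y * nm p.1.1)) : ℝ) : ℂ) * f p.1.1), hs.tsum_prod]
    · refine tsum_congr fun n => ?_
      rw [cut_of n.2, wS, Complex.ofReal_tsum, ← tsum_mul_right]
    · intro p
      rw [qsepE_KK, qsepE_val, p.2.2.gen_mul_idl, p.1.2.2]
  · intro n hn
    by_contra h
    exact hn (by beta_reduce; rw [cut_of_not (fun h' => h ⟨⟨n, h'⟩, rfl⟩)]; simp)

end Vale.Agent.P319
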