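import Vale.Agent.P319.N.QLat
import Vale.Agent.P319.N.QFlip
import Vale.Agent.P319.N.PSSq

/-! # PSQ: the trivial large sieve and its dual.  Port of `P026/QZero.lean`.
`qbil`: `Q.bil2` with `α' = m₀ * m₀` for some `m₀` with `a (Δ * m₀) ≠ 0` (if there is none, any `α'`); `Cg.cancel`, `Ray.mul`.
`q0`: `Y = M + X ^ 2`, `w 1 ≤ w (Y⁻¹ * nm h)` on `pball K M` (`w_anti`), `sq_expand_le` with `g = 1`, `qbil`; in the dual sum the argument of `w` is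
`≥ c0 ^ 2 * nm k`, so `w_anti` and `Q.summ (c0 ^ 2)`; Cauchy-Schwarz with `sum_inv_le_rpow`, `psd_sum_tau_le'`.
`q1`: `dual_norm`, `flip_red` (`s = sball K B`, `t = sball K X`), `q0`. -/

namespace Vale.Agent.P319

open scoped ComplexConjugate Real
open MeasureTheory

variable {K : Type} [Field K] [NumberField K] [Stp K]

theorem qbil (Q : QEng K) {F : Fam K} (hF : QFam F) {Δ α : R K} (hΔ : IsS Δ) {Y : ℝ} (hY : 0 < Y)
    (Z : ℝ) {a : R K → ℂ} (ha : ∀ n, a n ≠ 0 → Cg n α) :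
    ‖BilW F (fun n => n) (fun n => (Q.wt Y⁻¹ n : ℝ)) Z (fun m => a (Δ * m)) (fun m => a (Δ * m)) Δ -
      ∑ e ∈ pdiv Δ, mu e * (Q.c0 * Y / nm e : ℝ) * ∑' k : R K, ind (Prim k) *
        Dl Q.w Z (Q.c0 ^ 2 * (Y / nm e) * nm k) (dco F (fun m => a (Δ * m)) e k)
          (dco F (fun m => a (Δ * m)) e k)‖ ≤ Q.V * (Q.c0 * Y + 1) * ‖a Δ‖ ^ 2 := by
  have sy : ∀ {x y : R K}, Cg x y → Cg y x := fun h => Ray.symm (by norm_num) h
  have two : ∀ m1 m2, a (Δ * m1) ≠ 0 → a (Δ * m2) ≠ 0 → Cg m1 m2 := fun m1 m2 h1 h2 => by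
    have := Ray.trans (ha _ h1) (sy (ha _ h2))
    rw [mul_comm Δ, mul_comm Δ] at this
    exact Cg.cancel this
  obtain ⟨α', hα⟩ : ∃ α', ∀ m1 m2, a (Δ * m1) ≠ 0 → a (Δ * m2) ≠ 0 → Cg (m1 * m2) α' := by
    by_cases h : ∃ m, a (Δ * m) ≠ 0
    · obtain ⟨m, hm⟩ := h
      exact ⟨m * m, fun m1 m2 h1 h2 => Ray.mul (two _ _ h1 hm) (two _ _ h2 hm)⟩
    · exact ⟨1, fun m1 _ h1 _ => absurd ⟨m1, h1⟩ h⟩
  have := Q.bil2 F (α := α') hΔ hY Z (fun m => a (Δ * m)) fun m1 k1 m2 k2 hc h1 h2 =>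
    ⟨hα _ _ h1 h2, hF.ε_eq _ _ (mem_sball.1 k1).1 (mem_sball.1 k2).1 hc (two _ _ h1 h2), fun u => by
      rw [hF.X_eq, hF.X_eq, conj_quad]
      exact hF.unit _ _ u (two _ _ h1 h2)⟩
  simpa only [mul_one] using this

theorem qz_dual (Q : QEng K) (F : Fam K) {X Y : ℝ} (hY : X ^ 2 ≤ Y) {a : R K → ℂ}
    (ha : ∀ n, a n ≠ 0 → n ∈ sball K X) {Δ e : R K} (hΔ : Δ ≠ 0) (he : e ∣ Δ) (k : R K) :
    ‖ind (Prim k) * Dl Q.w X (Q.c0 ^ 2 * (Y / nm e) * nm k) (dco F (fun m => a (Δ * m)) e k)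
      (dco F (fun m => a (Δ * m)) e k)‖ ≤
      (∑ m ∈ sball K X, (√(nm m))⁻¹ * ‖a (Δ * m)‖) ^ 2 * cut (Prim k) Q.w (Q.c0 ^ 2 * nm k) := by
  by_cases hk : Prim k
  swap
  · rw [ind_of_not hk, cut_of_not hk]
    simp
  rw [ind_of hk, one_mul, cut_of hk, sq (∑ m ∈ sball K X, _), Finset.sum_mul_sum, Finset.sum_mul]
  refine norm_sum_le_of_le _ fun m1 k1 => ?_
  rw [Finset.sum_mul]
  refine norm_sum_le_of_le _ fun m2 k2 => ?_
  by_cases z1 : a (Δ * m1) = 0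
  · simp [dco, z1]
  by_cases z2 : a (Δ * m2) = 0
  · simp [dco, z2]
  have s1 := (mem_sball.1 k1).1
  have s2 := (mem_sball.1 k2).1
  have n1 := one_le_nm s1.ne_zero
  have n2 := one_le_nm s2.ne_zero
  have nΔ := one_le_nm hΔ
  have nk := one_le_nm hk.1
  have hc := Q.c0_pos
  have ne := one_le_nm (ne_zero_of_dvd_ne_zero hΔ he)
  have le : (nm e : ℝ) ≤ nm Δ := by exact_mod_cast nm_le_of_dvd hΔ he
  have u1 := (mem_sball.1 (ha _ z1)).2
  have u2 := (mem_sball.1 (ha _ z2)).2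
  rw [nm_mul, Nat.cast_mul] at u1 u2
  have key : (nm m1 : ℝ) * nm m2 ≤ Y / nm e := by
    rw [le_div_iff₀ (by positivity)]
    calc (nm m1 : ℝ) * nm m2 * nm e ≤ nm m1 * nm m2 * (nm Δ * nm Δ) := by gcongr; nlinarith
      _ = (nm Δ * nm m1) * (nm Δ * nm m2) := by ring
      _ ≤ X * X := by gcongr; linarith [show (0 : ℝ) ≤ nm Δ * nm m1 by positivity]
      _ ≤ Y := by linarith
  have p0 : (0 : ℝ) < Q.c0 ^ 2 * nm k := by positivity
  have p1 : Q.c0 ^ 2 * nm k ≤ Q.c0 ^ 2 * (Y / nm e) * nm k / (nm m1 * nm m2) := by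
    rw [le_div_iff₀ (by positivity)]
    calc Q.c0 ^ 2 * nm k * (nm m1 * nm m2) ≤ Q.c0 ^ 2 * nm k * (Y / nm e) := by gcongr
      _ = _ := by ring
  have d7 : 0 ≤ dker Q.w (Q.c0 ^ 2 * (Y / nm e) * nm k) m1 m2 :=
    mul_nonneg (by positivity) (Q.w_nonneg _ (p0.trans_le p1))
  have hk' : dker Q.w (Q.c0 ^ 2 * (Y / nm e) * nm k) m1 m2 ≤
      (√(nm m1))⁻¹ * (√(nm m2))⁻¹ * Q.w (Q.c0 ^ 2 * nm k) := by
    rw [dker, mul_inv]
    exact mul_le_mul_of_nonneg_left (Q.w_anti p0 (p0.trans_le p1) p1) (by positivity)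
  simp only [norm_mul, Complex.norm_conj, Complex.norm_real, Real.norm_eq_abs, abs_of_nonneg d7]
  have d1 := norm_dco_le F (fun m => a (Δ * m)) e k s1
  have d2 := norm_dco_le F (fun m => a (Δ * m)) e k s2
  have d6 := norm_ind_le (IsCoprime m1 m2)
  calc _ ≤ 1 * (‖a (Δ * m1)‖ * ‖a (Δ * m2)‖) *
        ((√(nm m1))⁻¹ * (√(nm m2))⁻¹ * Q.w (Q.c0 ^ 2 * nm k)) := by gcongr
    _ = _ := by ring

theorem q0 (Q : QEng K) {F : Fam K} (hF : QFam F) {ε : ℝ} (hε : 0 < ε) : ∃ C : ℝ, 0 < C ∧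
    ∀ (M X : ℝ) (a : R K → ℂ) (α : R K), 1 ≤ M → 1 ≤ X → (∀ n, a n ≠ 0 → n ∈ sball K X ∧ Cg n α) →
      ∑ h ∈ pball K M, ‖∑ n ∈ sball K X, a n * quad h n‖ ^ 2 ≤
        C * (M + X ^ 2) * X ^ ε * ∑ n ∈ sball K X, ‖a n‖ ^ 2 := by
  classical
  obtain ⟨C1, hC1, H1⟩ := sum_inv_le_rpow (K := K) (half_pos hε)
  obtain ⟨C2, hC2, H2⟩ := psd_sum_tau_le' (K := K) (ε / 2) (half_pos hε)
  have hc := Q.c0_pos
  have hV := Q.V_nonneg
  have hw := Q.w_pos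
  have sE := Q.summ (Q.c0 ^ 2) (by positivity)
  set E := ∑' k : R K, cut (Prim k) Q.w (Q.c0 ^ 2 * nm k) with hE
  have hE0 : 0 ≤ E := tsum_nonneg fun k => Q.wt_nonneg (by positivity) k
  refine ⟨(Q.w 1)⁻¹ * (Q.c0 * (E + 1) * C1 * C2 + Q.V * (Q.c0 + 1)), by positivity,
    fun M X a α hM hX ha' => ?_⟩
  have ha : ∀ n, a n ≠ 0 → n ∈ sball K X := fun n hn => (ha' n hn).1
  set Y := M + X ^ 2 with hYd
  have hY : 0 < Y := by positivity
  have hX0 : 0 < X := by linarith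
  have sw : Summable (Q.wt Y⁻¹) := Q.summ _ (inv_pos.2 hY)
  have e1 := sq_expand_le F (fun n => n) sw ha 1
  simp only [ind_of (one_dvd _), one_mul, norm_one] at e1
  have bil : ∀ Δ ∈ sball K X, ‖BilW F (fun n => n) (fun n => (Q.wt Y⁻¹ n : ℝ)) X
      (fun m => a (Δ * m)) (fun m => a (Δ * m)) Δ‖ ≤ Q.c0 * Y * (E + 1) * (C1 * X ^ (ε / 2)) *
        ((pdiv Δ).card * ∑ m ∈ sball K X, ‖a (Δ * m)‖ ^ 2) + Q.V * (Q.c0 * Y + 1) * ‖a Δ‖ ^ 2 := by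
    intro Δ hΔ
    have hP := (mem_sball.1 hΔ).1
    have cs : (∑ m ∈ sball K X, (√(nm m))⁻¹ * ‖a (Δ * m)‖) ^ 2 ≤
        C1 * X ^ (ε / 2) * ∑ m ∈ sball K X, ‖a (Δ * m)‖ ^ 2 := by
      refine (Finset.sum_mul_sq_le_sq_mul_sq _ _ _).trans
        (mul_le_mul_of_nonneg_right ?_ (by positivity))
      simp only [inv_pow, Real.sq_sqrt (Nat.cast_nonneg _)]
      exact H1 X _ hX fun n hn => ⟨(mem_sball.1 hn).1.1, (mem_sball.1 hn).2⟩
    refine (norm_le_insert' _ _).trans (add_le_add ?_ (qbil Q hF hP hY X fun n hn => (ha' n hn).2))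
    refine (norm_sum_le_of_le (pdiv Δ) (n := fun _ => Q.c0 * Y * (E + 1) * (C1 * X ^ (ε / 2) *
      ∑ m ∈ sball K X, ‖a (Δ * m)‖ ^ 2)) fun e he => ?_).trans (le_of_eq ?_)
    · obtain ⟨k1, k2⟩ := (mem_pdiv hP.ne_zero).1 he
      have ne := one_le_nm k1.1
      have t := tsum_of_norm_bounded (sE.hasSum.mul_left _)
        (qz_dual Q F (Y := Y) (by linarith) ha hP.ne_zero k2)
      have m := norm_mu_le e
      have d : Q.c0 * Y / nm e ≤ Q.c0 * Y := div_le_self (by positivity) ne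
      rw [norm_mul, norm_mul, Complex.norm_real, Real.norm_eq_abs, abs_of_nonneg (by positivity)]
      calc _ ≤ 1 * (Q.c0 * Y) *
            ((C1 * X ^ (ε / 2) * ∑ m ∈ sball K X, ‖a (Δ * m)‖ ^ 2) * (E + 1)) := by
            gcongr
            exact t.trans (mul_le_mul cs (by linarith) hE0 (by positivity))
        _ = _ := by ring
    · rw [Finset.sum_const, nsmul_eq_mul]
      ring
  have s0 := summable_sq F (fun n => n) sw (Q.wt_nonneg (inv_pos.2 hY)) X a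
  have e2 : X ^ (ε / 2) * X ^ (ε / 2) = X ^ ε := by rw [← Real.rpow_add hX0, add_halves]
  have x1 : 1 ≤ X ^ ε := Real.one_le_rpow hX hε.le
  have y1 : 1 ≤ Y := by nlinarith
  set A := ∑ n ∈ sball K X, ‖a n‖ ^ 2 with hA
  have A0 : 0 ≤ A := by positivity
  have main : Q.w 1 * ∑ h ∈ pball K M, ‖∑ n ∈ sball K X, a n * quad h n‖ ^ 2 ≤
      (Q.c0 * (E + 1) * C1 * C2 + Q.V * (Q.c0 + 1)) * Y * X ^ ε * A :=
    calc _ ≤ ∑ h ∈ pball K M, Q.wt Y⁻¹ h * ‖∑ n ∈ sball K X, a n * F.X n h‖ ^ 2 := by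
          rw [Finset.mul_sum]
          refine Finset.sum_le_sum fun h hh => ?_
          obtain ⟨p1, p2⟩ := mem_pball.1 hh
          have n1 := one_le_nm p1.1
          simp only [hF.X_eq]
          refine mul_le_mul_of_nonneg_right ?_ (by positivity)
          rw [QEng.wt, cut_of p1]
          refine Q.w_anti (show (0 : ℝ) < Y⁻¹ * nm h by positivity) (show (0 : ℝ) < 1 by norm_num) ?_
          rw [inv_mul_le_iff₀ hY]
          nlinarith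
      _ ≤ _ := (s0.sum_le_tsum _ fun h _ =>
          mul_nonneg (Q.wt_nonneg (inv_pos.2 hY) h) (by positivity)).trans e1
      _ ≤ Q.c0 * Y * (E + 1) * (C1 * X ^ (ε / 2)) * (C2 * X ^ (ε / 2) * A) +
            Q.V * (Q.c0 * Y + 1) * A := by
          refine (Finset.sum_le_sum bil).trans ?_
          rw [Finset.sum_add_distrib, ← Finset.mul_sum, ← Finset.mul_sum]
          exact add_le_add (mul_le_mul_of_nonneg_left (H2 X a hX ha) (by positivity)) le_rfl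
      _ ≤ Q.c0 * Y * (E + 1) * (C1 * X ^ (ε / 2)) * (C2 * X ^ (ε / 2) * A) +
            Q.V * ((Q.c0 + 1) * Y * X ^ ε) * A := by
          gcongr
          nlinarith [mul_le_mul_of_nonneg_left x1 (show 0 ≤ (Q.c0 + 1) * Y by positivity)]
      _ = _ := by rw [← e2]; ring
  rw [mul_assoc, mul_assoc, mul_assoc, le_inv_mul_iff₀ hw]
  linarith

theorem dual_norm {ι κ : Type*} (s : Finset ι) (t : Finset κ) (M : ι → κ → ℂ) {D : ℝ} (hD : 0 ≤ D)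
    (h : ∀ c : κ → ℂ, ∑ i ∈ s, ‖∑ j ∈ t, c j * M i j‖ ^ 2 ≤ D * ∑ j ∈ t, ‖c j‖ ^ 2) (a : ι → ℂ) :
    ∑ j ∈ t, ‖∑ i ∈ s, a i * M i j‖ ^ 2 ≤ D * ∑ i ∈ s, ‖a i‖ ^ 2 := by
  set N := ∑ j ∈ t, ‖∑ i ∈ s, a i * M i j‖ ^ 2 with hN
  set c : κ → ℂ := fun j => conj (∑ i ∈ s, a i * M i j) with hc
  have h1 := h c
  simp only [hc, Complex.norm_conj, ← hN] at h1
  have e : (N : ℂ) = ∑ i ∈ s, a i * ∑ j ∈ t, c j * M i j := by
    simp only [Finset.mul_sum]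
    rw [Finset.sum_comm, hN, Complex.ofReal_sum]
    refine Finset.sum_congr rfl fun j _ => ?_
    rw [← Complex.normSq_eq_norm_sq, Complex.normSq_eq_conj_mul_self, Finset.mul_sum]
    refine Finset.sum_congr rfl fun i _ => ?_
    simp only [hc]
    ring
  have hN0 : 0 ≤ N := by positivity
  have h2 : N ≤ ∑ i ∈ s, ‖a i‖ * ‖∑ j ∈ t, c j * M i j‖ := by
    refine le_trans (le_of_eq ?_) ((norm_sum_le _ _).trans (le_of_eq (Finset.sum_congr rfl fun i _ => norm_mul _ _)))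
    rw [← e, Complex.norm_real, Real.norm_eq_abs, abs_of_nonneg hN0]
  have h3 := (pow_le_pow_left₀ hN0 h2 2).trans (Finset.sum_mul_sq_le_sq_mul_sq _ _ _)
  have hA : 0 ≤ ∑ i ∈ s, ‖a i‖ ^ 2 := by positivity
  have h4 := h3.trans (mul_le_mul_of_nonneg_left h1 hA)
  rcases hN0.eq_or_lt with z | z
  · rw [← z]
    positivity
  · refine le_of_mul_le_mul_right ?_ z
    nlinarith

theorem q1 [Rcp K] (Q : QEng K) : Q1 K := by
  intro ε hε
  obtain ⟨F, hF⟩ := exists_qfam (K := K)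
  obtain ⟨C, hC, H⟩ := q0 Q hF hε
  obtain ⟨C', hC', H'⟩ := flip_red (K := K)
  refine ⟨C' * C, by positivity, fun B X a hB hX => ?_⟩
  refine dual_norm (sball K X) (sball K B) (fun n k => quad k n) (by positivity) (fun c => ?_) a
  refine (H' (sball K B) (sball K X) (C * (X + B ^ 2) * B ^ ε) (by positivity)
    (fun n hn => (mem_sball.1 hn).1.ne_zero) (fun n hn => (mem_sball.1 hn).1.ne_zero)
    (fun α b hb => ?_) c).trans (le_of_eq (by ring))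
  exact (Finset.sum_le_sum_of_subset_of_nonneg (sball_subset_pball X)
    fun _ _ _ => by positivity).trans (H X B b α hX hB hb)

end Vale.Agent.P319
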