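import Vale.Agent.P319.N.RecStep
import Vale.Agent.P319.N.Final3

/-! REC: exports `rec_main` and `zf`. -/
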