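import Vale.Agent.P319.N.RecDefs

/-! REC: elementary helper lemmas (weights, divisor sums, covering).  Port of P026 `RecAux`. -/

namespace Vale.Agent.P319.Rec

open scoped ComplexConjugate Real

variable {𝕂 : Type} [Field 𝕂] [NumberField 𝕂] [Stp 𝕂]

theorem tau_nonneg (n : R 𝕂) : 0 ≤ tau n := Nat.cast_nonneg _
theorem one_le_tau {n : R 𝕂} (hn : n ≠ 0) : 1 ≤ tau n := by
  unfold tau
  exact_mod_cast Finset.card_pos.2 ⟨1, (mem_pdiv hn).2 ⟨prim_one, one_dvd _⟩⟩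
theorem tau_mono {m n : R 𝕂} (hn : n ≠ 0) (h : m ∣ n) : tau m ≤ tau n := by
  unfold tau
  exact_mod_cast Finset.card_le_card fun e he => (mem_pdiv hn).2
    ⟨((mem_pdiv (ne_zero_of_dvd_ne_zero hn h)).1 he).1,
      ((mem_pdiv (ne_zero_of_dvd_ne_zero hn h)).1 he).2.trans h⟩
theorem tau_one : tau (1 : R 𝕂) = 1 := by
  have : pdiv (1 : R 𝕂) = {1} := by
    ext e
    rw [mem_pdiv one_ne_zero, Finset.mem_singleton]
    exact ⟨fun h => h.1.eq_one_of_isUnit (isUnit_of_dvd_one h.2),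
      fun h => by rw [h]; exact ⟨prim_one, dvd_rfl⟩⟩
  simp [tau, this]
theorem tau_pow_le (j : ℕ) {ε : ℝ} (hε : 0 < ε) : ∃ C : ℝ, 0 < C ∧ ∀ n : R 𝕂, n ≠ 0 →
    tau n ^ j ≤ C * (nm n : ℝ) ^ ε := by
  obtain ⟨C, hC, h⟩ := card_pdiv_le (K := 𝕂) (ε / (j + 1)) (by positivity)
  refine ⟨C ^ j, by positivity, fun n hn => ?_⟩
  refine (pow_le_pow_left₀ (tau_nonneg n) (h n hn) j).trans ?_
  rw [mul_pow, ← Real.rpow_mul_natCast (Nat.cast_nonneg _)]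
  gcongr
  · exact one_le_nm hn
  · rw [div_mul_eq_mul_div, div_le_iff₀ (by positivity)]
    nlinarith
/-- a set of chosen generators of norm at most `Z` -/
theorem card_le_of_nm : ∃ C : ℝ, 0 < C ∧ ∀ (Z : ℝ) (s : Finset (R 𝕂)), 0 ≤ Z →
    (∀ n ∈ s, Prim n ∧ (nm n : ℝ) ≤ Z) → (s.card : ℝ) ≤ C * Z := by
  obtain ⟨C, hC, h⟩ := card_pball_le (K := 𝕂)
  refine ⟨C, hC, fun Z s hZ hs => le_trans ?_ (h Z hZ)⟩
  exact_mod_cast Finset.card_le_card fun n hn => mem_pball.2 (hs n hn)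
theorem sum_rpow_le_const {σ : ℝ} (hσ : 1 < σ) : ∃ C : ℝ, 0 < C ∧ ∀ s : Finset (R 𝕂),
    (∀ n ∈ s, Prim n) → ∑ n ∈ s, (nm n : ℝ) ^ (-σ) ≤ C := by
  obtain ⟨C, hC, h⟩ := sum_rpow_tail (K := 𝕂) hσ
  exact ⟨C * (1 / 2 : ℝ) ^ (1 - σ), by positivity, fun s hs => h (1 / 2) s (by norm_num)
    fun n hn => ⟨hs n hn, by linarith [one_le_nm (hs n hn).1]⟩⟩
theorem dq_spec {a b : R 𝕂} (h : b ∣ a) : b * dq a b = a := by
  rw [dq, dif_pos h]
  exact h.choose_spec.symm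
theorem dq_mul {b : R 𝕂} (hb : b ≠ 0) (c : R 𝕂) : dq (b * c) b = c :=
  mul_left_cancel₀ hb (dq_spec (dvd_mul_right b c))
theorem prim_dq {a b : R 𝕂} (ha : Prim a) (hb : Prim b) (h : b ∣ a) : Prim (dq a b) :=
  hb.of_mul ((dq_spec h).symm ▸ ha)

theorem adm_bound {B : ℝ} {V : ℝ → ℝ} (h : Adm B V) : ∃ C : ℝ, 0 < C ∧ ∀ x, |V x| ≤ C := by
  obtain ⟨C, hC⟩ := (isCompact_Icc (a := 1 / B) (b := B)).exists_bound_of_continuousOn
    h.2.1.continuous.continuousOn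
  refine ⟨|C| + 1, by positivity, fun x => ?_⟩
  by_cases hx : V x = 0
  · rw [hx, abs_zero]
    positivity
  · linarith [hC x (h.2.2 x hx), le_abs_self C, Real.norm_eq_abs (V x)]
theorem adm_eq_zero_of_le {B x : ℝ} {V : ℝ → ℝ} (h : Adm B V) (hx : B ≤ x) : V x = 0 := by
  have : Set.Ici B ⊆ {y | V y = 0} := by
    rw [← closure_Ioi]
    refine closure_minimal (fun y hy => ?_) (isClosed_eq h.2.1.continuous continuous_const)
    by_contra hy'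
    exact absurd (h.2.2 y hy').2 (not_le.2 hy)
  exact this hx
theorem adm_mul_deriv {B : ℝ} {V : ℝ → ℝ} (h : Adm B V) : Adm B fun u => u * deriv V u := by
  refine ⟨h.1, contDiff_id.mul (contDiff_infty_iff_deriv.1 h.2.1).2, fun x hx => ?_⟩
  exact closure_minimal (fun y hy => h.2.2 y hy) isClosed_Icc
    (support_deriv_subset (right_ne_zero_of_mul hx))
/-- the range of summation may be enlarged -/
theorem adm_sum_sball {B N Z : ℝ} {V : ℝ → ℝ} (h : Adm B V) (hN : 0 < N) (hZ : B * N ≤ Z)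
    (a c : R 𝕂 → ℂ) : ∑ n ∈ sball 𝕂 (B * N), a n * V (nm n / N) * c n =
      ∑ n ∈ sball 𝕂 Z, a n * V (nm n / N) * c n := by
  refine Finset.sum_subset (fun n hn => mem_sball.2
    ⟨(mem_sball.1 hn).1, (mem_sball.1 hn).2.trans hZ⟩) fun n hn hn' => ?_
  rw [adm_eq_zero_of_le h ((le_div_iff₀ hN).2 (not_le.1 fun h' =>
    hn' (mem_sball.2 ⟨(mem_sball.1 hn).1, h'⟩)).le)]
  simp
theorem adm_sum_pball {B N Z : ℝ} {V : ℝ → ℝ} (h : Adm B V) (hN : 0 < N) (hZ : B * N ≤ Z)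
    (a c : R 𝕂 → ℂ) : ∑ n ∈ pball 𝕂 (B * N), a n * V (nm n / N) * c n =
      ∑ n ∈ pball 𝕂 Z, a n * V (nm n / N) * c n := by
  refine Finset.sum_subset (fun n hn => mem_pball.2
    ⟨(mem_pball.1 hn).1, (mem_pball.1 hn).2.trans hZ⟩) fun n hn hn' => ?_
  rw [adm_eq_zero_of_le h ((le_div_iff₀ hN).2 (not_le.1 fun h' =>
    hn' (mem_pball.2 ⟨(mem_pball.1 hn).1, h'⟩)).le)]
  simp
theorem sball_eq_empty {Z : ℝ} (h : Z < 1) : sball 𝕂 Z = ∅ :=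
  Finset.eq_empty_of_forall_notMem fun _ hn =>
    absurd ((one_le_nm (mem_sball.1 hn).1.1.1).trans (mem_sball.1 hn).2) (not_le.2 h)
theorem pball_eq_empty {Z : ℝ} (h : Z < 1) : pball 𝕂 Z = ∅ :=
  Finset.eq_empty_of_forall_notMem fun _ hn =>
    absurd ((one_le_nm (mem_pball.1 hn).1.1).trans (mem_pball.1 hn).2) (not_le.2 h)
/-- multiples of `f` in `sball` -/
theorem sum_sball_dvd {f : R 𝕂} (hf : IsS f) (Z : ℝ) (a : R 𝕂 → ℂ) :
    ∑ m ∈ sball 𝕂 Z, ind (f ∣ m) * a m =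
      ∑ m ∈ sball 𝕂 (Z / nm f), ind (IsCoprime m f) * a (f * m) := by
  classical
  have hf0 := hf.1.1
  have nf : (0 : ℝ) < nm f := by exact_mod_cast nm_pos hf0
  have e1 : ∀ (p : R 𝕂 → Prop) (s : Finset (R 𝕂)) (b : R 𝕂 → ℂ),
      ∑ m ∈ s, ind (p m) * b m = ∑ m ∈ s.filter p, b m := fun p s b => by
    rw [Finset.sum_filter]
    refine Finset.sum_congr rfl fun m _ => ?_
    by_cases h : p m
    · rw [ind_of h, if_pos h, one_mul]
    · rw [ind_of_not h, if_neg h, zero_mul]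
  rw [e1 (f ∣ ·), e1 (IsCoprime · f)]
  symm
  refine Finset.sum_bij (fun m _ => f * m) (fun m hm => ?_) (fun m _ m' _ h => ?_)
    (fun m hm => ?_) fun _ _ => rfl
  · obtain ⟨h1, h2⟩ := Finset.mem_filter.1 hm
    obtain ⟨h3, h4⟩ := mem_sball.1 h1
    refine Finset.mem_filter.2 ⟨mem_sball.2 ⟨hf.mul h3 h2.symm, ?_⟩, dvd_mul_right _ _⟩
    rw [nm_mul, Nat.cast_mul, mul_comm]
    exact (le_div_iff₀ nf).1 h4
  · exact mul_left_cancel₀ hf0 h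
  · obtain ⟨h1, m', rfl⟩ := Finset.mem_filter.1 hm
    obtain ⟨h3, h4⟩ := mem_sball.1 h1
    refine ⟨m', Finset.mem_filter.2 ⟨mem_sball.2 ⟨h3.of_dvd (hf.1.of_mul h3.1)
      (dvd_mul_left _ _), ?_⟩, h3.coprime.symm⟩, rfl⟩
    rw [le_div_iff₀ nf, mul_comm]
    exact_mod_cast nm_mul f m' ▸ h4

theorem one_add_abs_add_le {A : ℝ} (hA : 0 ≤ A) (t t' : ℝ) :
    (1 + |t + t'|) ^ A ≤ (1 + |t|) ^ A * (1 + |t'|) ^ A := by
  rw [← Real.mul_rpow (by positivity) (by positivity)]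
  refine Real.rpow_le_rpow (by positivity) ?_ hA
  nlinarith [abs_add_le t t', mul_nonneg (abs_nonneg t) (abs_nonneg t')]
theorem dyadic_weight {A p : ℝ} (hp : 0 ≤ p) (hA : p < A) : ∃ C : ℝ, 0 < C ∧
    ∀ (F : R 𝕂 → ℝ) (K D : ℝ) (s : Finset (R 𝕂)), (∀ k ∈ s, 0 ≤ F k) → 0 < K →
      (∀ y : ℝ, 1 ≤ y → ∑ k ∈ s with (nm k : ℝ) ≤ y * K, F k ≤ D * y ^ p) →
      ∑ k ∈ s, (1 + (nm k : ℝ) / K) ^ (-A) * F k ≤ C * D := by
  have hr : (2 : ℝ) ^ (p - A) < 1 := Real.rpow_lt_one_of_one_lt_of_neg one_lt_two (by linarith)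
  have hr0 : (0 : ℝ) < 2 ^ (p - A) := by positivity
  refine ⟨2 ^ A * (1 - 2 ^ (p - A))⁻¹, mul_pos (by positivity) (inv_pos.2 (by linarith)),
    fun F K D s hF hK h => ?_⟩
  have hD : 0 ≤ D := by
    have h1 := h 1 le_rfl
    rw [Real.one_rpow, mul_one] at h1
    exact (Finset.sum_nonneg fun k hk => hF k (Finset.mem_filter.1 hk).1).trans h1
  have hj : ∀ k : R 𝕂, ∃ j : ℕ, (nm k : ℝ) ≤ 2 ^ j * K ∧
      (1 + (nm k : ℝ) / K) ^ (-A) ≤ 2 ^ A * ((2 : ℝ) ^ (-A)) ^ j := fun k => by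
    have hx : (0 : ℝ) ≤ nm k / K := by positivity
    obtain ⟨n, h1, h2⟩ := exists_nat_pow_near (show 1 ≤ 1 + (nm k : ℝ) / K by linarith) one_lt_two
    refine ⟨n + 1, (div_le_iff₀ hK).1 (by linarith), ?_⟩
    refine (Real.rpow_le_rpow_of_nonpos (by positivity) h1 (by linarith)).trans_eq ?_
    rw [pow_succ', ← mul_assoc, ← Real.rpow_add two_pos, add_neg_cancel, Real.rpow_zero, one_mul,
      ← Real.rpow_natCast_mul zero_le_two, ← Real.rpow_mul_natCast zero_le_two, mul_comm]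
  choose j hj1 hj2 using hj
  calc _ ≤ ∑ k ∈ s, ∑ i ∈ Finset.range (s.sup j + 1),
        if (nm k : ℝ) ≤ 2 ^ i * K then 2 ^ A * ((2 : ℝ) ^ (-A)) ^ i * F k else 0 := by
        refine Finset.sum_le_sum fun k hk => le_trans ?_ (Finset.single_le_sum
          (f := fun i => if (nm k : ℝ) ≤ 2 ^ i * K then 2 ^ A * ((2 : ℝ) ^ (-A)) ^ i * F k else 0)
          (fun i _ => ?_) (Finset.mem_range.2 (Nat.lt_succ_of_le (Finset.le_sup hk))))
        · rw [if_pos (hj1 k)]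
          exact mul_le_mul_of_nonneg_right (hj2 k) (hF k hk)
        · split_ifs
          exacts [mul_nonneg (by positivity) (hF k hk), le_rfl]
    _ ≤ ∑ i ∈ Finset.range (s.sup j + 1), 2 ^ A * D * ((2 : ℝ) ^ (p - A)) ^ i := by
        rw [Finset.sum_comm]
        refine Finset.sum_le_sum fun i _ => ?_
        rw [← Finset.sum_filter, ← Finset.mul_sum]
        refine (mul_le_mul_of_nonneg_left (h _ (one_le_pow₀ one_le_two)) (by positivity)).trans_eq ?_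
        rw [← Real.rpow_natCast_mul zero_le_two, mul_comm (i : ℝ), Real.rpow_mul_natCast zero_le_two,
          sub_eq_add_neg, Real.rpow_add two_pos, mul_pow]
        ring
    _ ≤ _ := by
        rw [← Finset.mul_sum, mul_right_comm]
        gcongr
        rw [← tsum_geometric_of_lt_one hr0.le hr]
        exact (summable_geometric_of_lt_one hr0.le hr).sum_le_tsum _ fun _ _ => by positivity
/-- weighted Cauchy-Schwarz -/
theorem sq_sum_le_weight {ι : Type*} (s : Finset ι) (w x : ι → ℝ) (hw : ∀ i ∈ s, 0 < w i) :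
    (∑ i ∈ s, x i) ^ 2 ≤ (∑ i ∈ s, w i) * ∑ i ∈ s, x i ^ 2 / w i := by
  rcases s.eq_empty_or_nonempty with rfl | hs
  · simp
  have h1 := Finset.sq_sum_div_le_sum_sq_div s x hw
  rwa [div_le_iff₀' (Finset.sum_pos hw hs)] at h1
theorem sum_le_sum_cover {ι κ : Type*} (s : Finset κ) (I : Finset ι) (σ : ι → κ) (F : κ → ℝ)
    (hF : ∀ k, 0 ≤ F k) (h : ∀ k ∈ s, ∃ i ∈ I, σ i = k) :
    ∑ k ∈ s, F k ≤ ∑ i ∈ I, F (σ i) := by
  classical
  refine (Finset.sum_le_sum_of_subset_of_nonneg (fun k hk => ?_) fun k _ _ => hF k).trans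
    (Finset.sum_image_le_of_nonneg (s := I) (g := σ) fun k _ => hF k)
  exact Finset.mem_image.2 (h k hk)

theorem exists_sq_mul_sqf {k : R 𝕂} (hk : k ≠ 0) :
    ∃ a l : R 𝕂, l ^ 2 * a = k ∧ Squarefree a := by
  induction hn : nm k using Nat.strong_induction_on generalizing k with
  | _ n ih =>
    by_cases h : Squarefree k
    · exact ⟨k, 1, by ring, h⟩
    simp only [Squarefree, not_forall] at h
    obtain ⟨x, ⟨y, rfl⟩, hx⟩ := h
    have hx0 : x ≠ 0 := fun h => hk (by simp [h])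
    have hy0 : y ≠ 0 := fun h => hk (by simp [h])
    have h1 : 1 < nm x := lt_of_le_of_ne (nm_pos hx0) fun h => hx (isUnit_iff_nm.2 h.symm)
    obtain ⟨a, l, h2, h3⟩ := ih (nm y) (by
      rw [← hn, nm_mul, nm_mul]
      exact lt_mul_of_one_lt_left (nm_pos hy0) (one_lt_mul'' h1 h1)) hy0 rfl
    exact ⟨a, x * l, by rw [← h2]; ring, h3⟩

theorem k_decomp {k : R 𝕂} (hk : Prim k) (L : R 𝕂) : ∃ l b k₁ : R 𝕂, Prim l ∧ Prim b ∧
    b ∣ L * l ∧ IsS k₁ ∧ IsCoprime k₁ (L * l) ∧ k = b * l ^ 2 * k₁ := by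
  obtain ⟨a₀, l₀, hk', ha₀⟩ := exists_sq_mul_sqf hk.1
  have hl0 : l₀ ≠ 0 := fun h => hk.1 (by simp [← hk', h])
  obtain ⟨u, hu⟩ := (associated_pp l₀).symm
  have hl := prim_pp hl0
  generalize pp l₀ = l at hu hl
  have e1 : l ^ 2 * (u ^ 2 * a₀) = k := by rw [← hk', ← hu]; ring
  have ha : IsS ((u : R 𝕂) ^ 2 * a₀) := ⟨(hl.pow 2).of_mul (e1 ▸ hk),
    (Associated.squarefree_iff (associated_unit_mul_left a₀ _ (u.isUnit.pow 2))).2 ha₀⟩
  generalize (u : R 𝕂) ^ 2 * a₀ = a at e1 ha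
  obtain ⟨b, hb, ⟨a', ha'⟩, h2, h3⟩ := exists_prim_gcd (L * l) ha.1
  refine ⟨l, b, a', hl, hb, h2, ha.of_dvd (hb.of_mul (ha' ▸ ha.1)) (ha' ▸ dvd_mul_left _ _),
    isRelPrime_iff_isCoprime.1 fun p h4 h5 => ha.2 p ?_, by rw [← e1, ha']; ring⟩
  rw [ha']
  exact mul_dvd_mul (h3 p (ha' ▸ h4.mul_left _) h5) h4

theorem fiber_sum (W : R 𝕂 → ℝ) (hW : ∀ h, 0 ≤ W h) {e : R 𝕂} (he : Prim e)
    (Ds s : Finset (R 𝕂)) (hD : ∀ Δ ∈ Ds, Prim Δ) (hs : ∀ h ∈ s, Prim h) :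
    ∃ s' : Finset (R 𝕂), (∀ h ∈ s', Prim h) ∧
      ∑ Δ ∈ Ds, ∑ e' ∈ pdiv Δ, ∑ h ∈ s, tau Δ * W (h * e * Δ * dq Δ e') ≤
        ∑ h ∈ s', tau h ^ 3 * W h := by
  classical
  let σ : (Σ _ : R 𝕂, Σ _ : R 𝕂, R 𝕂) → R 𝕂 := fun x => x.2.2 * e * x.1 * dq x.1 x.2.1
  let I : Finset (Σ _ : R 𝕂, Σ _ : R 𝕂, R 𝕂) := Ds.sigma fun Δ => (pdiv Δ).sigma fun _ => s
  have hI : ∀ x ∈ I, Prim x.1 ∧ Prim x.2.1 ∧ x.2.1 ∣ x.1 ∧ e * x.1 * dq x.1 x.2.1 ≠ 0 ∧
      Prim (σ x) := fun x hx => by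
    obtain ⟨h1, h2⟩ := Finset.mem_sigma.1 hx
    obtain ⟨h2, h3⟩ := Finset.mem_sigma.1 h2
    have h4 := hD _ h1
    obtain ⟨h5, h6⟩ := (mem_pdiv h4.1).1 h2
    have h7 := prim_dq h4 h5 h6
    exact ⟨h4, h5, h6, ((he.mul h4).mul h7).1, (((hs _ h3).mul he).mul h4).mul h7⟩
  refine ⟨I.image σ, fun h hh => ?_, ?_⟩
  · obtain ⟨x, hx, rfl⟩ := Finset.mem_image.1 hh
    exact (hI x hx).2.2.2.2
  have e1 : ∑ Δ ∈ Ds, ∑ e' ∈ pdiv Δ, ∑ h ∈ s, tau Δ * W (h * e * Δ * dq Δ e') =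
      ∑ x ∈ I, tau x.1 * W (σ x) := by
    simp only [I, σ, Finset.sum_sigma]
  rw [e1, ← Finset.sum_fiberwise_of_maps_to (fun x hx => Finset.mem_image_of_mem σ hx)]
  refine Finset.sum_le_sum fun h hh => ?_
  have h0 : h ≠ 0 := by
    obtain ⟨x, hx, rfl⟩ := Finset.mem_image.1 hh
    exact (hI x hx).2.2.2.2.1
  have hd : ∀ x ∈ I.filter (σ · = h), x.1 ∣ h := fun x hx =>
    (Finset.mem_filter.1 hx).2 ▸ (dvd_mul_left _ _).mul_right _
  refine (Finset.sum_le_card_nsmul _ _ (tau h * W h) fun x hx => ?_).trans ?_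
  · rw [(Finset.mem_filter.1 hx).2]
    exact mul_le_mul_of_nonneg_right (tau_mono h0 (hd x hx)) (hW h)
  have hc : (I.filter (σ · = h)).card ≤ (pdiv h ×ˢ pdiv h).card := by
    refine Finset.card_le_card_of_injOn (fun x => (x.1, x.2.1)) (fun x hx => ?_) ?_
    · obtain ⟨h1, h2, h3, -⟩ := hI x (Finset.mem_filter.1 hx).1
      exact Finset.mem_coe.2 (Finset.mem_product.2 ⟨(mem_pdiv h0).2 ⟨h1, hd x hx⟩,
        (mem_pdiv h0).2 ⟨h2, h3.trans (hd x hx)⟩⟩)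
    · rintro ⟨a, b, c⟩ hx ⟨a', b', c'⟩ hy hxy
      obtain ⟨rfl, rfl⟩ := Prod.ext_iff.1 hxy
      obtain ⟨hx1, hx2⟩ := Finset.mem_filter.1 hx
      have h1 : c * (e * a * dq a b) = c' * (e * a * dq a b) := by
        have := hx2.trans (Finset.mem_filter.1 hy).2.symm
        simp only [σ] at this
        linear_combination this
      rw [mul_right_cancel₀ (hI _ hx1).2.2.2.1 h1]
  rw [Finset.card_product] at hc
  rw [nsmul_eq_mul]
  refine (mul_le_mul_of_nonneg_right (show _ ≤ tau h * tau h by unfold tau; exact_mod_cast hc)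
    (mul_nonneg (tau_nonneg h) (hW h))).trans_eq (by ring)

theorem of_ind_ne {p : Prop} (h : ind p ≠ 0) : p := by
  by_contra hp
  exact h (ind_of_not hp)

theorem ind_congr {p q : Prop} (h : p ↔ q) : ind p = ind q := by rw [propext h]

theorem norm_mul_le_one {a b : ℂ} (ha : ‖a‖ ≤ 1) (hb : ‖b‖ ≤ 1) : ‖a * b‖ ≤ 1 := by
  rw [norm_mul]
  exact mul_le_one₀ ha (norm_nonneg _) hb

theorem norm_le_of_eq_mul {x z y : ℂ} (h : x = z * y) (hz : ‖z‖ ≤ 1) : ‖x‖ ≤ ‖y‖ := by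
  rw [h, norm_mul]
  exact mul_le_of_le_one_left (norm_nonneg _) hz

theorem mul_conj_eq_one {z : ℂ} (h : ‖z‖ = 1) : z * conj z = 1 := by
  rw [Complex.mul_conj, Complex.normSq_eq_norm_sq, h]
  simp

theorem clF_comp {φ : R 𝕂 → ℂ} (h : ClF φ) (c : R 𝕂) : ClF fun n => φ (c * n) := by
  intro x y hxy
  rcases eq_or_ne c 0 with rfl | hc
  · simp
  · exact h _ _ (cg_mul_left hc hxy)

theorem PerP.comp {φ : R 𝕂 → ℂ} (h : PerP φ) (c : R 𝕂) : PerP fun n => φ (c * n) :=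
  ⟨fun _ => h.1 _, clF_comp h.2 c⟩

theorem PerP.mul {φ ψ : R 𝕂 → ℂ} (h : PerP φ) (h' : PerP ψ) : PerP fun n => φ n * ψ n :=
  ⟨fun n => norm_mul_le_one (h.1 n) (h'.1 n), fun x y hxy => by
    beta_reduce
    rw [h.2 x y hxy, h'.2 x y hxy]⟩

theorem PerP.conj {φ : R 𝕂 → ℂ} (h : PerP φ) : PerP fun n => conj (φ n) :=
  ⟨fun n => by rw [Complex.norm_conj]; exact h.1 n, fun x y hxy => by
    beta_reduce
    rw [h.2 x y hxy]⟩

theorem perP_ind (α : R 𝕂) : PerP fun n => ind (Cg n α) :=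
  ⟨fun _ => norm_ind_le _, fun _ _ h =>
    ind_congr ⟨fun h' => cg_trans (cg_symm h) h', fun h' => cg_trans h h'⟩⟩

/-- a class function is a combination of the indicators of the classes -/
theorem clF_eq_sum {φ : R 𝕂 → ℂ} (h : ClF φ) {n : R 𝕂} (hn : n ≠ 0) :
    φ n = ∑ α ∈ creps 𝕂 10, φ α * ind (Cg n α) := by
  rw [← mul_one (φ n), ← sum_cg_ind hn, Finset.mul_sum]
  refine Finset.sum_congr rfl fun α _ => ?_
  by_cases h3 : Cg n α
  · rw [h n α h3]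
  · rw [ind_of_not h3, mul_zero, mul_zero]

theorem one_le_card_creps : (1 : ℝ) ≤ (creps 𝕂 10).card := by
  have h := sum_cg_ind (one_ne_zero (α := R 𝕂))
  rcases (creps 𝕂 10).eq_empty_or_nonempty with h0 | h0
  · rw [h0] at h; simp at h
  · exact_mod_cast h0.card_pos

end Vale.Agent.P319.Rec
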