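import Vale.Agent.P319.N.RecVB

/-! REC: removing the squarefree condition (cube inversion).  Port of P026 `RecCube`. -/

namespace Vale.Agent.P319.Rec

open scoped ComplexConjugate Real

variable {𝕂 : Type} [Field 𝕂] [NumberField 𝕂] [Stp 𝕂]

open Classical in
/-- truncated Möbius sum -/
noncomputable def bet (D : ℝ) (δ : R 𝕂) : ℂ := ∑ e ∈ pdiv δ with (nm e : ℝ) ≤ D, mu e

theorem norm_bet_le (D : ℝ) (δ : R 𝕂) : ‖bet D δ‖ ≤ tau δ := by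
  classical
  refine (norm_sum_le _ _).trans ((Finset.sum_le_card_nsmul _ _ 1 fun e _ => norm_mu_le e).trans ?_)
  rw [nsmul_eq_mul, mul_one, tau]
  exact_mod_cast Finset.card_filter_le _ _

theorem th0_ng_ne_zero {n : R 𝕂} (hn : Prim n) (h : th0 (ng n) ≠ 0) :
    ∃ c d, IsS c ∧ Prim d ∧ n = c * d ^ 3 := by
  by_cases h1 : ∃ p : R 𝕂 × R 𝕂, Squarefree p.1 ∧ Prim p.2 ∧ ng n = p.1 * p.2 ^ 3
  · obtain ⟨⟨c, d⟩, h2, h3, h4⟩ := h1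
    refine ⟨pp c, d, ⟨prim_pp h2.ne_zero, (associated_pp c).squarefree_iff.1 h2⟩, h3, ?_⟩
    have h5 := congrArg pp h4
    rwa [pp_ng, hn.2, pp_mul, pp_pow, h3.2] at h5
  · exact absurd (by rw [th0, dif_neg h1]) h

theorem cube_sum {Z : ℝ} {Ψ : R 𝕂 → ℂ} (hZ : ∀ n, Prim n → Ψ n ≠ 0 → (nm n : ℝ) ≤ Z)
    (hS : ∀ n, Prim n → Ψ n ≠ 0 → ∃ c d, IsS c ∧ Prim d ∧ n = c * d ^ 3) :
    ∑ n ∈ pball 𝕂 Z, Ψ n = ∑ δ ∈ pball 𝕂 Z, ∑ c ∈ sball 𝕂 Z, Ψ (c * δ ^ 3) := by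
  rw [← Finset.sum_product']
  symm
  refine Finset.sum_bij_ne_zero (fun q _ _ => q.2 * q.1 ^ 3) (fun q hq h => ?_)
    (fun q h₁ _ q' h₁' _ e => ?_) (fun n hn h => ?_) (fun q _ _ => rfl)
  · obtain ⟨a1, a2⟩ := Finset.mem_product.1 hq
    have a3 := (mem_sball.1 a2).1.1.mul ((mem_pball.1 a1).1.pow 3)
    exact mem_pball.2 ⟨a3, hZ _ a3 h⟩
  · obtain ⟨a1, a2⟩ := Finset.mem_product.1 h₁
    obtain ⟨a3, a4⟩ := Finset.mem_product.1 h₁'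
    obtain ⟨b1, b2⟩ := cube_decomp_unique' (mem_sball.1 a2).1.2 (mem_pball.1 a1).1
      (mem_sball.1 a4).1.2 (mem_pball.1 a3).1 e
    exact Prod.ext b2 b1
  · obtain ⟨c, d, hc, hd, rfl⟩ := hS n (mem_pball.1 hn).1 h
    have h0 : c * d ^ 3 ≠ 0 := (hc.1.mul (hd.pow 3)).1
    have a1 : (nm c : ℝ) ≤ nm (c * d ^ 3) := by exact_mod_cast nm_le_of_dvd h0 (dvd_mul_right _ _)
    have a2 : (nm d : ℝ) ≤ nm (c * d ^ 3) := by
      exact_mod_cast nm_le_of_dvd h0 ((dvd_pow_self d three_ne_zero).mul_left c)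
    exact ⟨(d, c), Finset.mem_product.2 ⟨mem_pball.2 ⟨hd, a2.trans (mem_pball.1 hn).2⟩,
      mem_sball.2 ⟨hc, a1.trans (mem_pball.1 hn).2⟩⟩, h, rfl⟩

open Classical in
theorem cube_inv {Z D : ℝ} (hD : 1 ≤ D) {Ψ : R 𝕂 → ℂ}
    (hZ : ∀ n, Prim n → Ψ n ≠ 0 → (nm n : ℝ) ≤ Z)
    (hΨ : ∀ δ n, Prim δ → Prim n → Ψ (δ ^ 3 * n) ≠ 0 → ∃ c d, IsS c ∧ Prim d ∧ n = c * d ^ 3) :
    ∑ c ∈ sball 𝕂 Z, Ψ c = ∑ δ ∈ pball 𝕂 D, mu δ * ∑ n ∈ pball 𝕂 Z, Ψ (δ ^ 3 * n) -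
      ∑ δ ∈ pball 𝕂 Z with D < nm δ, bet D δ * ∑ c ∈ sball 𝕂 Z, Ψ (c * δ ^ 3) := by
  obtain ⟨S, hS⟩ : ∃ S : R 𝕂 → ℂ, S = fun δ => ∑ c ∈ sball 𝕂 Z, Ψ (c * δ ^ 3) := ⟨_, rfl⟩
  have hS0 : ∀ δ, Prim δ → S δ ≠ 0 → (nm δ : ℝ) ≤ Z := fun δ hδ h => by
    rw [hS] at h
    obtain ⟨c, hc', hc⟩ := Finset.exists_ne_zero_of_sum_ne_zero h
    have h0 := (mem_sball.1 hc').1.1.mul (hδ.pow 3)
    refine le_trans ?_ (hZ _ h0 hc)
    exact_mod_cast nm_le_of_dvd h0.1 ((dvd_pow_self δ three_ne_zero).mul_left c)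
  have h1 : ∑ δ ∈ pball 𝕂 D, mu δ * ∑ n ∈ pball 𝕂 Z, Ψ (δ ^ 3 * n) =
      ∑ δ ∈ pball 𝕂 D, ∑ δ' ∈ pball 𝕂 Z, mu δ * S (δ * δ') := by
    refine Finset.sum_congr rfl fun δ hδ => ?_
    have h0 := (mem_pball.1 hδ).1
    rw [cube_sum (Ψ := fun n => Ψ (δ ^ 3 * n)) (fun n hn hn' => le_trans (by
      rw [nm_mul]; push_cast
      exact le_mul_of_one_le_left (Nat.cast_nonneg _) (one_le_nm (pow_ne_zero 3 h0.1)))
        (hZ _ ((h0.pow 3).mul hn) hn')) fun n hn hn' => hΨ δ n h0 hn hn', Finset.mul_sum]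
    refine Finset.sum_congr rfl fun δ' _ => ?_
    have e : ∀ c : R 𝕂, δ ^ 3 * (c * δ' ^ 3) = c * (δ * δ') ^ 3 := fun c => by ring
    simp only [e]
    rw [hS]
  have h2 : ∑ δ ∈ pball 𝕂 D, ∑ δ' ∈ pball 𝕂 Z, mu δ * S (δ * δ') =
      ∑ δ ∈ pball 𝕂 Z, bet D δ * S δ := by
    simp only [bet, Finset.sum_mul]
    rw [← Finset.sum_product', Finset.sum_sigma']
    refine Finset.sum_bij_ne_zero (fun q _ _ => ⟨q.1 * q.2, q.1⟩) (fun q hq h => ?_)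
      (fun q h₁ _ q' _ _ e => ?_) (fun n hn h => ?_) (fun q _ _ => rfl)
    · obtain ⟨a1, a2⟩ := Finset.mem_product.1 hq
      have a3 := (mem_pball.1 a1).1.mul (mem_pball.1 a2).1
      exact Finset.mem_sigma.2 ⟨mem_pball.2 ⟨a3, hS0 _ a3 (right_ne_zero_of_mul h)⟩,
        Finset.mem_filter.2 ⟨(mem_pdiv a3.1).2 ⟨(mem_pball.1 a1).1, dvd_mul_right _ _⟩,
          (mem_pball.1 a1).2⟩⟩
    · obtain ⟨e1, e2⟩ := Sigma.mk.inj e
      have e3 := eq_of_heq e2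
      rw [← e3] at e1
      exact Prod.ext e3 (mul_left_cancel₀ (mem_pball.1 (Finset.mem_product.1 h₁).1).1.1 e1)
    · obtain ⟨δ, e⟩ := n
      obtain ⟨a1, a2⟩ := Finset.mem_sigma.1 hn
      obtain ⟨a3, a4⟩ := mem_pball.1 a1
      obtain ⟨a5, a6⟩ := Finset.mem_filter.1 a2
      obtain ⟨a7, δ', a8⟩ := (mem_pdiv a3.1).1 a5
      dsimp only at *
      subst a8
      refine ⟨(e, δ'), Finset.mem_product.2 ⟨mem_pball.2 ⟨a7, a6⟩, mem_pball.2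
        ⟨a7.of_mul a3, le_trans ?_ a4⟩⟩, h, rfl⟩
      exact_mod_cast nm_le_of_dvd a3.1 (dvd_mul_left _ _)
  have h3 : ∑ δ ∈ pball 𝕂 Z with ¬D < nm δ, bet D δ * S δ = S 1 := by
    have h4 : ∀ δ ∈ (pball 𝕂 Z).filter fun δ => ¬D < nm δ, bet D δ = ind (δ = 1) := by
      intro δ hδ
      obtain ⟨a1, a2⟩ := Finset.mem_filter.1 hδ
      have a3 := (mem_pball.1 a1).1
      rw [bet, Finset.filter_true_of_mem fun e he => le_trans (by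
        exact_mod_cast nm_le_of_dvd a3.1 ((mem_pdiv a3.1).1 he).2) (not_lt.1 a2),
        sum_mu_pdiv a3]
    rw [Finset.sum_congr rfl fun δ hδ => by rw [h4 δ hδ], Finset.sum_eq_single 1
      (fun δ _ h => by rw [ind_of_not h, zero_mul]) fun h => ?_, ind_of rfl, one_mul]
    by_contra h6
    exact h (Finset.mem_filter.2 ⟨mem_pball.2 ⟨prim_one, hS0 1 prim_one
      (right_ne_zero_of_mul h6)⟩, by simpa using hD⟩)
  rw [h1, h2, ← Finset.sum_filter_add_sum_filter_not (pball 𝕂 Z) fun δ => D < nm δ, h3, hS]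
  simp only [one_pow, mul_one]
  ring

theorem cube_gcd {f : R 𝕂} (hf : IsS f) (δ : R 𝕂) :
    ∃ g, IsS g ∧ ∀ c, f ∣ c * δ ^ 3 ↔ g ∣ c := by
  obtain ⟨d, h1, ⟨g, rfl⟩, h3, h4⟩ := exists_prim_gcd δ hf.1
  have h5 : IsS g := hf.of_dvd (h1.of_mul hf.1) (dvd_mul_left _ _)
  have h6 : IsCoprime g δ := isCoprime_of_prime_dvd (fun h => h5.1.1 h.1)
    fun p hp a b => hp.not_isUnit (hf.coprime.isUnit_of_dvd' (h4 p (a.mul_left d) b) a)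
  refine ⟨g, h5, fun c => ⟨fun h => h6.pow_right.dvd_of_dvd_mul_right
    ((dvd_mul_left g d).trans h), fun h => ?_⟩⟩
  rw [mul_comm c]
  exact mul_dvd_mul (h3.trans (dvd_pow_self δ three_ne_zero)) h

theorem vbw_ind (a d f : R 𝕂) :
    VBw (d * f) fun n => ind (IsCoprime (a * n) d) * ind (f ∣ a * n) := by
  have e1 : ∀ x : R 𝕂, (IsCoprime (a * pp x) d ↔ IsCoprime (a * x) d) ∧
      (f ∣ a * pp x ↔ f ∣ a * x) := fun x =>
    ⟨⟨fun h => h.of_isCoprime_of_dvd_left ((associated_pp x).mul_left a).dvd,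
      fun h => h.of_isCoprime_of_dvd_left ((associated_pp x).mul_left a).symm.dvd⟩,
      ((associated_pp x).mul_left a).symm.dvd_iff_dvd_right⟩
  refine ⟨fun n => norm_mul_le_one (norm_ind_le _) (norm_ind_le _), fun x y _ _ h => ?_,
    fun u _ hc => ⟨1, norm_one, fun n _ => ?_⟩⟩
  · beta_reduce
    have h1 : d * f ∣ a * x - a * y := by rw [← mul_sub]; exact h.mul_left a
    have h3 : IsCoprime (a * x) d ↔ IsCoprime (a * y) d := by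
      obtain ⟨z, hz⟩ := (dvd_mul_right d f).trans h1
      rw [sub_eq_iff_eq_add'.1 hz, IsCoprime.add_mul_left_left_iff]
    rw [(e1 x).1, (e1 x).2, (e1 y).1, (e1 y).2, h3,
      dvd_iff_dvd_of_dvd_sub ((dvd_mul_left f _).trans h1)]
  · beta_reduce
    have h1 : IsCoprime (pp u) (d * f) := hc.of_isCoprime_of_dvd_left (associated_pp u).symm.dvd
    rw [one_mul, show a * (pp u * n) = pp u * (a * n) by ring, IsCoprime.mul_left_iff,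
      and_iff_right h1.of_mul_right_left,
      show f ∣ pp u * (a * n) ↔ f ∣ a * n from
        ⟨h1.of_mul_right_right.symm.dvd_of_dvd_mul_left, fun h => h.mul_left _⟩]

open Classical in
theorem ts_split [Rcp 𝕂] {B : ℝ} {V : ℝ → ℝ} (hV : Adm B V) {N D : ℝ}
    (hN : 0 < N) (hD : 1 ≤ D) {φ : R 𝕂 → ℂ} (hφ : PerP φ) {d e f : R 𝕂} (hd : Prim d) (he : e ∣ d)
    (hf : IsS f) : ∃ (φ₁ φ₂ : R 𝕂 → R 𝕂 → ℂ) (g : R 𝕂 → R 𝕂),
      (∀ δ, Prim δ → VBw (d * f) (φ₁ δ) ∧ PerP (φ₂ δ) ∧ IsS (g δ)) ∧ ∀ (t : ℝ) (k : R 𝕂),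
      ‖Ts φ d e f B V N t k‖ ≤
        ∑ δ ∈ pball 𝕂 D, √(nm δ) * ‖Ws (φ₁ δ) B V (N / (nm δ : ℝ) ^ 3) t k‖ +
        ∑ δ ∈ pball 𝕂 (B * N) with D < nm δ,
          tau δ * √(nm δ) * ‖Ts (φ₂ δ) d e (g δ) B V (N / (nm δ : ℝ) ^ 3) t k‖ := by
  obtain ⟨ξ, hξ1, hξ2, hξ3⟩ := exists_xi0 (K := 𝕂)
  have hξ : PerP ξ := ⟨fun n => (hξ2 n).le, hξ1⟩
  choose! g hg1 hg2 using fun δ : R 𝕂 => cube_gcd hf δ
  choose! l hl1 hl2 hl3 using fun (δ : R 𝕂) (hδ : Prim δ) => th0_ng_cube hδ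
  have hB0 : 0 < B := by linarith [hV.1]
  have hψ : ∀ δ, Prim δ → PerP fun n => l δ n * (φ (δ ^ 3 * n) * ξ (δ ^ 3 * n)) := fun δ hδ =>
    PerP.mul ⟨hl2 δ hδ, hl1 δ hδ⟩ ((hφ.mul hξ).comp _)
  refine ⟨fun δ n => ind (IsCoprime (δ ^ 3 * n) d) * ind (f ∣ δ ^ 3 * n) * sex e n *
      (l δ n * (φ (δ ^ 3 * n) * ξ (δ ^ 3 * n))),
    fun δ c => l δ c * (φ (δ ^ 3 * c) * ξ (δ ^ 3 * c)) * conj (ξ c), g,
    fun δ hδ => ⟨vbw_mul (vbw_mul' (vbw_ind _ d f) (vbw_sex (ne_zero_of_dvd_ne_zero hd.1 he)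
      fun p _ hp => (hp.trans he).mul_right f)) (hψ δ hδ), (hψ δ hδ).mul hξ.conj, hg1 δ⟩,
    fun t k => ?_⟩
  obtain ⟨Φ, hΦ⟩ : ∃ Φ : R 𝕂 → ℂ, Φ = fun n => φ n * ξ n * ind (IsCoprime n d) *
    ind (f ∣ n) * sex e n * conj (sex k n) * V (nm n / N) * nt n t := ⟨_, rfl⟩
  have hΦ0 : ∀ n, Φ n ≠ 0 → (nm n : ℝ) ≤ B * N := fun n h => by
    rw [hΦ] at h
    have h1 : V (nm n / N) ≠ 0 := by
      exact_mod_cast right_ne_zero_of_mul (left_ne_zero_of_mul h)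
    exact (div_le_iff₀ hN).1 (hV.2.2 _ h1).2
  have hth : ∀ c : R 𝕂, IsS c → th0 (ng c) = conj (gt3 (ng c)) := fun c hc =>
    th0_sqf ((associated_ng c).squarefree_iff.2 hc.2)
  have h1 : Ts φ d e f B V N t k = ∑ c ∈ sball 𝕂 (B * N), th0 (ng c) * ang (ng c) * Φ c := by
    refine Finset.sum_congr rfl fun c hc => ?_
    rw [hΦ, hξ3 c (mem_sball.1 hc).1, hth c (mem_sball.1 hc).1]
    ring
  have hr : ∀ δ : R 𝕂, Prim δ → 0 < N / (nm δ : ℝ) ^ 3 ∧ B * (N / (nm δ : ℝ) ^ 3) ≤ B * N ∧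
      ∀ n : R 𝕂, ((nm (δ ^ 3 * n) : ℕ) : ℝ) / N = nm n / (N / (nm δ : ℝ) ^ 3) := fun δ hδ => by
    have a1 := one_le_nm hδ.1
    refine ⟨by positivity, mul_le_mul_of_nonneg_left
      (div_le_self hN.le (one_le_pow₀ a1)) hB0.le, fun n => ?_⟩
    rw [nm_mul, nm_pow]; push_cast; field_simp
  have hκ : ∀ δ : R 𝕂, ‖sex e (δ ^ 3) * conj (sex k (δ ^ 3)) * nt (δ ^ 3) t‖ ≤ 1 := fun δ => by
    simp only [norm_mul, Complex.norm_conj, norm_nt, mul_one]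
    exact mul_le_one₀ (norm_sex_le _ _) (norm_nonneg _) (norm_sex_le _ _)
  rw [h1, cube_inv (Ψ := fun n => th0 (ng n) * ang (ng n) * Φ n) hD
    (fun n _ h => hΦ0 n (right_ne_zero_of_mul h)) fun δ n hδ hn h => th0_ng_ne_zero hn (by
      rw [hl3 δ hδ n hn] at h
      exact left_ne_zero_of_mul (right_ne_zero_of_mul (left_ne_zero_of_mul h)))]
  refine (norm_sub_le _ _).trans (add_le_add
    ((norm_sum_le _ _).trans (Finset.sum_le_sum fun δ hδ => ?_))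
    ((norm_sum_le _ _).trans (Finset.sum_le_sum fun δ hδ => ?_)))
  · have a0 := (mem_pball.1 hδ).1
    obtain ⟨a1, a2, a3⟩ := hr δ a0
    have a4 : ∑ n ∈ pball 𝕂 (B * N),
        th0 (ng (δ ^ 3 * n)) * ang (ng (δ ^ 3 * n)) * Φ (δ ^ 3 * n) =
        (√(nm δ) : ℝ) * (sex e (δ ^ 3) * conj (sex k (δ ^ 3)) * nt (δ ^ 3) t *
        Ws (fun n => ind (IsCoprime (δ ^ 3 * n) d) * ind (f ∣ δ ^ 3 * n) * sex e n *
          (l δ n * (φ (δ ^ 3 * n) * ξ (δ ^ 3 * n)))) B V (N / (nm δ : ℝ) ^ 3) t k) := by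
      rw [Ws, adm_sum_pball hV a1 a2, Finset.mul_sum, Finset.mul_sum]
      refine Finset.sum_congr rfl fun n hn => ?_
      have b1 := (a0.pow 3).1
      have b2 := (mem_pball.1 hn).1
      rw [hΦ, hl3 δ a0 n b2]
      beta_reduce
      rw [a3, sex_mul_right b1 b2.1, sex_mul_right b1 b2.1, nt_mul b1 b2.1, map_mul]
      ring
    rw [a4, norm_mul, norm_mul, norm_mul, Complex.norm_real,
      Real.norm_of_nonneg (Real.sqrt_nonneg _)]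
    exact (mul_le_of_le_one_left (by positivity) (norm_mu_le _)).trans (mul_le_mul_of_nonneg_left
      (mul_le_of_le_one_left (norm_nonneg _) (hκ δ)) (Real.sqrt_nonneg _))
  · have a0 := (mem_pball.1 (Finset.mem_filter.1 hδ).1).1
    obtain ⟨a1, a2, a3⟩ := hr δ a0
    have a4 : ∑ c ∈ sball 𝕂 (B * N),
        th0 (ng (c * δ ^ 3)) * ang (ng (c * δ ^ 3)) * Φ (c * δ ^ 3) =
        (√(nm δ) : ℝ) * (ind (IsCoprime (δ ^ 3) d) *
          (sex e (δ ^ 3) * conj (sex k (δ ^ 3)) * nt (δ ^ 3) t) *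
        Ts (fun c => l δ c * (φ (δ ^ 3 * c) * ξ (δ ^ 3 * c)) * conj (ξ c)) d e (g δ) B V
          (N / (nm δ : ℝ) ^ 3) t k) := by
      rw [Ts, adm_sum_sball hV a1 a2, Finset.mul_sum, Finset.mul_sum]
      refine Finset.sum_congr rfl fun c hc => ?_
      have h := (mem_sball.1 hc).1
      have b1 := h.1.1
      have b2 := (a0.pow 3).1
      have b4 := mul_conj_eq_one (hξ2 c)
      rw [← hg2 δ c, mul_comm c, hΦ, hl3 δ a0 c h.1, hξ3 c h, hth c h]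
      beta_reduce
      rw [IsCoprime.mul_left_iff, ind_and, a3, sex_mul_right b2 b1,
        sex_mul_right b2 b1, nt_mul b2 b1, map_mul]
      linear_combination (-((√(nm δ) : ℝ) * l δ c * conj (gt3 (ng c)) * ang (ng c) *
        (φ (δ ^ 3 * c) * ξ (δ ^ 3 * c) *
        (ind (IsCoprime (δ ^ 3) d) * ind (IsCoprime c d)) * ind (f ∣ δ ^ 3 * c) *
        (sex e (δ ^ 3) * sex e c) * (conj (sex k (δ ^ 3)) * conj (sex k c)) *
        V (nm c / (N / (nm δ : ℝ) ^ 3)) * (nt (δ ^ 3) t * nt c t)))) * b4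
    rw [a4, norm_mul, norm_mul, norm_mul, Complex.norm_real,
      Real.norm_of_nonneg (Real.sqrt_nonneg _), mul_assoc (tau δ)]
    refine mul_le_mul (norm_bet_le D δ) (mul_le_mul_of_nonneg_left
      (mul_le_of_le_one_left (norm_nonneg _) ?_) (Real.sqrt_nonneg _)) (by positivity)
      (tau_nonneg δ)
    exact norm_mul_le_one (norm_ind_le _) (hκ δ)

end Vale.Agent.P319.Rec
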