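import Vale.Agent.P319.N.RecLib

/-! REC part (`PSStmt → VBStmt → PStmt θ` for all `θ > 0`): shared definitions.  Port of P026. -/

namespace Vale.Agent.P319.Rec

open scoped ComplexConjugate Real

variable {𝕂 : Type} [Field 𝕂] [NumberField 𝕂] [Stp 𝕂]

/-- `φ` is bounded by `1` and depends only on the ray class -/
def PerP (φ : R 𝕂 → ℂ) : Prop := (∀ n, ‖φ n‖ ≤ 1) ∧ ClF φ

/-- exact quotient -/
noncomputable def dq (a b : R 𝕂) : R 𝕂 := open Classical in if h : b ∣ a then h.choose else 0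

/-- twisted Möbius sum with periodic weight `φ` and coprimality to `q` -/
noncomputable def Bs (φ : R 𝕂 → ℂ) (q : R 𝕂) (B : ℝ) (V : ℝ → ℝ) (M t : ℝ) (h : R 𝕂) : ℂ :=
  ∑ n ∈ sball 𝕂 (B * M), φ n * ind (IsCoprime n q) * mu n * sex h n * V (nm n / M) * nt n t

/-- maximal form of `PStmt` -/
def PM (𝕂 : Type) [Field 𝕂] [NumberField 𝕂] [Stp 𝕂] (θ : ℝ) : Prop :=
  ∀ (B : ℝ) (V : ℝ → ℝ) (ε : ℝ), Adm B V → 0 < ε →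
    ∃ C A : ℝ, 0 < C ∧ 0 ≤ A ∧ ∀ H M₀ t : ℝ, 1 ≤ H → 0 < M₀ → M₀ ^ (599 / 500 : ℝ) ≤ H →
      ∃ G : R 𝕂 → ℝ, (∀ h, 0 ≤ G h) ∧
        (∀ (φ : R 𝕂 → ℂ) (q : R 𝕂) (M : ℝ) (h : R 𝕂), PerP φ → Prim q → 0 < M → M ≤ M₀ →
          ‖Bs φ q B V M t h‖ ^ 2 ≤ tau q ^ 2 * M * G h) ∧
        ∀ (τ : (R 𝕂)ˣ) (s : Finset (R 𝕂)), (∀ h ∈ s, Prim h) →
          ∑ h ∈ s, (1 + (nm h : ℝ) / H) ^ (-3 : ℝ) * G (τ * h) ≤
            C * (1 + |t|) ^ A * H ^ (1 + ε) * M₀ ^ θ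

/-- the dual sum -/
noncomputable def Ts (φ : R 𝕂 → ℂ) (d e g : R 𝕂) (B : ℝ) (V : ℝ → ℝ) (N t : ℝ) (k : R 𝕂) : ℂ :=
  ∑ m ∈ sball 𝕂 (B * N), φ m * ind (IsCoprime m d) * ind (g ∣ m) * (mu m * gt6 (ng m)) * sex e m *
    conj (sex k m) * V (nm m / N) * nt m t

/-- the theta sum -/
noncomputable def Ws (φ : R 𝕂 → ℂ) (B : ℝ) (V : ℝ → ℝ) (N t : ℝ) (k : R 𝕂) : ℂ :=
  ∑ n ∈ pball 𝕂 (B * N), th0 (ng n) * ang (ng n) * φ n * conj (sex k n) * V (nm n / N) * nt n t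

end Vale.Agent.P319.Rec
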