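import Vale.Agent.P319.N.Count
import Vale.Agent.P319.N.Fam

/-! REC: all facts of the library parts BASE and GAUSS that are used by REC, in the form used there. -/

namespace Vale.Agent.P319.Rec

open scoped ComplexConjugate Real

variable {𝕂 : Type} [Field 𝕂] [NumberField 𝕂] [Stp 𝕂]

theorem four_le_nm {p : R 𝕂} (hp : Prime p) : 4 ≤ nm p :=
  le_trans (by norm_num) (seven_le_nm hp.ne_zero hp.not_isUnit)

theorem card_pball_ge {ε : ℝ} (hε : 0 < ε) : ∃ c : ℝ, 0 < c ∧ ∀ X : ℝ, 1 ≤ X →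
    c * X ^ (1 - ε) ≤ (pball 𝕂 X).card := by
  obtain ⟨C, hC, h⟩ := Vale.Agent.P319.card_pball_ge (K := 𝕂) hε
  refine ⟨C⁻¹, by positivity, fun X hX => ?_⟩
  rw [inv_mul_le_iff₀ hC]
  exact h X hX

theorem cg_symm {x y : R 𝕂} (h : Cg x y) : Cg y x := Cg.symm h
theorem cg_trans {x y z : R 𝕂} (h : Cg x y) (h' : Cg y z) : Cg x z := Ray.trans h h'
theorem cg_mul_left {c x y : R 𝕂} (hc : c ≠ 0) (h : Cg x y) : Cg (c * x) (c * y) :=
  Ray.mul_left h hc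
theorem cg_pp {x y : R 𝕂} (h : InU ((y : 𝕂) / x)) : Cg (pp x) (pp y) :=
  ray_pp_left.2 (ray_pp_right.2 (Cg.symm (cg_of_inU h)))
theorem cg_pp_mul {u n : R 𝕂} (hu : InU (u : 𝕂)) (hn : n ≠ 0) : Cg (pp u * n) n := by
  have h : Cg (pp u) 1 := ray_pp_left.2 (cg_of_inU (by simpa using hu))
  simpa using Ray.mul_right h hn
theorem ne_zero_of_inU {x y : R 𝕂} (h : InU ((y : 𝕂) / x)) : y ≠ 0 := (cg_of_inU h).1

theorem sex_mul_left (n a b : R 𝕂) : sex (a * b) n = sex a n * sex b n :=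
  Vale.Agent.P319.sex_mul_left a b n
theorem sex_one_left (n : R 𝕂) : sex 1 n = 1 := by
  simpa using sex_pow_left (1 : R 𝕂) n 0

theorem norm_gt6_ng {x : R 𝕂} (h : IsS x) : ‖gt6 (ng x)‖ = 1 :=
  norm_gt6 ((associated_ng x).squarefree_iff.2 h.2)

variable [Rcp 𝕂]

theorem sex_den_congr {a x y : R 𝕂} (ha : a ≠ 0) (_hx : x ≠ 0) (hU : InU ((y : 𝕂) / x))
    (h : ∀ p, Prime p → p ∣ a → p ∣ x - y) : sex a x = sex a y :=
  Vale.Agent.P319.sex_den_congr ha hU h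

theorem clF_sex_unit {u : R 𝕂} (hu : IsUnit u) : ClF fun n => sex u n := by
  obtain ⟨u, rfl⟩ := hu
  exact Vale.Agent.P319.clF_sex_unit u

end Vale.Agent.P319.Rec
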