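import Vale.Agent.P319.N.RecAux

/-! REC: weighted and maximal forms of `PStmt`.
Plans.
* `p_weight`: WLOG `ε ≤ 1` (`H ≥ 1`); `dyadic_weight` with `A = 3`, `p = 2`, `PStmt` at `y H`.
* `asum_max`: with `V₂ u = u V'(u)`, write both sums over `sball 𝕂 (B M₀)` (`adm_sum_sball Adm`).  `d/dM V(x/M) = -V₂(x/M)/M`, and the sum vanishes at `M = 1/B`
  (`adm_eq_zero_of_le Adm`, `nm n ≥ 1`), so `A_V(M) = -∫_{1/B}^M A_{V₂}(u) du/u`.  Cauchy-Schwarz: `|A_V(M)|² ≤ log(B M) ∫_{1/B}^M |A_{V₂}(u)|² du/u`, and `1/u ≤ M/u²`.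
  For `M < 1/B` the sum is empty. -/

namespace Vale.Agent.P319.Rec

open scoped ComplexConjugate Real

variable {𝕂 : Type} [Field 𝕂] [NumberField 𝕂] [Stp 𝕂]

theorem p_weight {θ : ℝ} (hP : PStmt 𝕂 θ) {B : ℝ} {V : ℝ → ℝ} (hV : Adm B V) {ε : ℝ}
    (hε : 0 < ε) : ∃ C A : ℝ, 0 < C ∧ 0 ≤ A ∧ ∀ (N H t : ℝ) (α : R 𝕂) (τ : (R 𝕂)ˣ)
      (s : Finset (R 𝕂)), (∀ h ∈ s, Prim h) → 0 < N → 1 ≤ H → N ^ (599 / 500 : ℝ) ≤ H →
      ∑ h ∈ s, (1 + (nm h : ℝ) / H) ^ (-3 : ℝ) * ‖Asum α B V N t (τ * h)‖ ^ 2 ≤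
        C * (1 + |t|) ^ A * H ^ (1 + ε) * N ^ (1 + θ) := by
  obtain ⟨C, A, hC, hA, h1⟩ := hP B V (min ε 1) hV (lt_min hε one_pos)
  obtain ⟨C', hC', h2⟩ := dyadic_weight (𝕂 := 𝕂) (A := 3) (p := 2) (by norm_num) (by norm_num)
  refine ⟨C' * C, A, mul_pos hC' hC, hA, fun N H t α τ s hs hN hH hNH => ?_⟩
  refine (h2 (fun h => ‖Asum α B V N t (τ * h)‖ ^ 2) H
    (C * (1 + |t|) ^ A * H ^ (1 + ε) * N ^ (1 + θ)) s (fun _ _ => sq_nonneg _) (by linarith)
    fun y hy => ?_).trans (le_of_eq (by ring))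
  have hyH : H ≤ y * H := le_mul_of_one_le_left (by linarith) hy
  refine (Finset.sum_le_sum_of_subset_of_nonneg
    (fun k hk => mem_pball.2 ⟨hs k (Finset.mem_filter.1 hk).1, (Finset.mem_filter.1 hk).2⟩)
      fun _ _ _ => sq_nonneg _).trans
    ((h1 N (y * H) t α τ hN (hH.trans hyH) (hNH.trans hyH)).trans ?_)
  have h3 : (y * H) ^ (1 + min ε 1) ≤ H ^ (1 + ε) * y ^ (2 : ℝ) := by
    rw [Real.mul_rpow (by linarith) (by linarith), mul_comm]
    exact mul_le_mul (Real.rpow_le_rpow_of_exponent_le hH (by linarith [min_le_left ε 1]))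
      (Real.rpow_le_rpow_of_exponent_le hy (by linarith [min_le_right ε 1])) (by positivity)
      (by positivity)
  have h4 : 0 ≤ C * (1 + |t|) ^ A * N ^ (1 + θ) := by positivity
  nlinarith [mul_le_mul_of_nonneg_left h3 h4]

theorem continuousOn_asum {B : ℝ} {V : ℝ → ℝ} (hV : Adm B V) (α : R 𝕂) (t : ℝ) (h : R 𝕂) :
    ContinuousOn (fun M => Asum α B V M t h) (Set.Ioi 0) := by
  intro M hM
  have hM' : (0 : ℝ) < M := hM
  have h1 : ContinuousAt (fun u : ℝ => ∑ n ∈ sball 𝕂 (B * (M + 1)),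
      ind (Cg n α) * mu n * sex h n * V (nm n / u) * nt n t) M := by
    refine tendsto_finsetSum _ fun n _ => ContinuousAt.tendsto ?_
    refine (continuousAt_const.mul (Complex.continuous_ofReal.continuousAt.comp
      (hV.2.1.continuous.continuousAt.comp ?_))).mul continuousAt_const
    exact continuousAt_const.div continuousAt_id hM'.ne'
  refine (h1.congr ?_).continuousWithinAt
  filter_upwards [Ioo_mem_nhds hM' (lt_add_one M)] with u hu
  exact (adm_sum_sball hV hu.1 (mul_le_mul_of_nonneg_left hu.2.le (by linarith [hV.1])) _ _).symm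

theorem asum_max {B : ℝ} {V : ℝ → ℝ} (hV : Adm B V) (α : R 𝕂) (t : ℝ) (h : R 𝕂) {M M₀ : ℝ}
    (hM : 0 < M) (hM₀ : M ≤ M₀) (hB : 1 / B ≤ M₀) :
    ‖Asum α B V M t h‖ ^ 2 ≤ M * (Real.log (B * M₀) *
      ∫ u in (1 / B)..M₀, ‖Asum α B (fun x => x * deriv V x) u t h‖ ^ 2 / u ^ 2) := by
  have hB0 : 0 < B := by linarith [hV.1]
  have hB1 : 0 < 1 / B := by positivity
  have hL0 : 0 ≤ Real.log (B * M₀) :=
    Real.log_nonneg (by rw [div_le_iff₀ hB0] at hB; linarith)
  set g : ℝ → ℝ := fun u => ‖Asum α B (fun x => x * deriv V x) u t h‖ with hg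
  have hgc : ContinuousOn g (Set.Ioi 0) := (continuousOn_asum (adm_mul_deriv hV) α t h).norm
  have hI0 : 0 ≤ ∫ u in (1 / B)..M₀, g u ^ 2 / u ^ 2 :=
    intervalIntegral.integral_nonneg hB fun u _ => by positivity
  rcases lt_or_ge M (1 / B) with hlt | hle
  · rw [Asum, sball_eq_empty (by rw [lt_div_iff₀ hB0] at hlt; linarith), Finset.sum_empty,
      norm_zero, zero_pow two_ne_zero]
    positivity
  have hsub : ∀ {b : ℝ}, 1 / B ≤ b → Set.uIcc (1 / B) b ⊆ Set.Ioi 0 := fun hb u hu => by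
    rw [Set.uIcc_of_le hb] at hu
    exact hB1.trans_le hu.1
  have hne : ∀ u ∈ Set.Ioi (0 : ℝ), u ≠ 0 := fun u hu => ne_of_gt hu
  have hder : ∀ u ∈ Set.uIcc (1 / B) M, HasDerivAt (fun u : ℝ => ∑ n ∈ sball 𝕂 (B * M₀),
      ind (Cg n α) * mu n * sex h n * V (nm n / u) * nt n t)
      (-Asum α B (fun x => x * deriv V x) u t h / u) u := by
    intro u hu
    have hu0 : 0 < u := hsub hle hu
    rw [Set.uIcc_of_le hle] at hu
    rw [Asum, adm_sum_sball (adm_mul_deriv hV) hu0 (mul_le_mul_of_nonneg_left (hu.2.trans hM₀) hB0.le),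
      ← Finset.sum_neg_distrib, Finset.sum_div]
    refine HasDerivAt.fun_sum fun n _ => ?_
    have h1 : HasDerivAt (fun u : ℝ => (nm n : ℝ) / u) (-(nm n : ℝ) / u ^ 2) u := by
      simpa [div_eq_mul_inv] using (hasDerivAt_inv hu0.ne').const_mul (nm n : ℝ)
    have h2 := (((hV.2.1.differentiable (by simp)) (nm n / u)).hasDerivAt.comp u h1).ofReal_comp
    refine ((h2.const_mul (ind (Cg n α) * mu n * sex h n)).mul_const (nt n t)).congr_deriv ?_
    have hu1 : (u : ℂ) ≠ 0 := by exact_mod_cast hu0.ne'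
    push_cast
    field_simp
  have hint : IntervalIntegrable (fun u : ℝ => -Asum α B (fun x => x * deriv V x) u t h / u)
      MeasureTheory.volume (1 / B) M := by
    refine ContinuousOn.intervalIntegrable (ContinuousOn.mono ?_ (hsub hle))
    exact (continuousOn_asum (adm_mul_deriv hV) α t h).neg.div
      Complex.continuous_ofReal.continuousOn fun u hu => by exact_mod_cast hne u hu
  have h3 := intervalIntegral.integral_eq_sub_of_hasDerivAt hder hint
  rw [Finset.sum_eq_zero (s := sball 𝕂 (B * M₀)) (f := fun n =>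
      ind (Cg n α) * mu n * sex h n * V (nm n / (1 / B)) * nt n t) fun n hn => by
    have h4 := one_le_nm (mem_sball.1 hn).1.1.1
    rw [adm_eq_zero_of_le hV (by rw [div_div_eq_mul_div, div_one]; nlinarith)]
    simp, sub_zero, ← adm_sum_sball hV hM (mul_le_mul_of_nonneg_left hM₀ hB0.le)] at h3
  have h5 : ‖Asum α B V M t h‖ ≤ ∫ u in (1 / B)..M, g u / u := by
    rw [Asum, ← h3]
    refine (intervalIntegral.norm_integral_le_integral_norm hle).trans (le_of_eq ?_)
    refine intervalIntegral.integral_congr fun u hu => ?_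
    have hu0 : 0 < u := hsub hle hu
    simp only [norm_div, norm_neg, Complex.norm_real, Real.norm_of_nonneg hu0.le, hg]
  have i1 : IntervalIntegrable (fun u : ℝ => u⁻¹) MeasureTheory.volume (1 / B) M :=
    ((continuousOn_id.inv₀ hne).mono (hsub hle)).intervalIntegrable
  have i2 : IntervalIntegrable (fun u : ℝ => g u / u) MeasureTheory.volume (1 / B) M :=
    ((hgc.div continuousOn_id hne).mono (hsub hle)).intervalIntegrable
  have i3 : IntervalIntegrable (fun u : ℝ => g u ^ 2 / u) MeasureTheory.volume (1 / B) M :=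
    (((hgc.pow 2).div continuousOn_id hne).mono (hsub hle)).intervalIntegrable
  have c4 : ContinuousOn (fun u : ℝ => g u ^ 2 / u ^ 2) (Set.Ioi 0) :=
    (hgc.pow 2).div (continuousOn_id.pow 2) fun u hu => pow_ne_zero 2 (hne u hu)
  have h6 : (∫ u in (1 / B)..M, g u / u) ^ 2 ≤
      (∫ u in (1 / B)..M, u⁻¹) * ∫ u in (1 / B)..M, g u ^ 2 / u := by
    have h7 := discrim_le_zero (a := ∫ u in (1 / B)..M, u⁻¹)
      (b := -2 * ∫ u in (1 / B)..M, g u / u) (c := ∫ u in (1 / B)..M, g u ^ 2 / u) fun c => by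
      rw [← intervalIntegral.integral_mul_const, ← intervalIntegral.integral_const_mul,
        ← intervalIntegral.integral_mul_const, ← intervalIntegral.integral_add (i1.mul_const _)
          ((i2.const_mul _).mul_const _), ← intervalIntegral.integral_add
          ((i1.mul_const _).add ((i2.const_mul _).mul_const _)) i3]
      refine intervalIntegral.integral_nonneg hle fun u hu => ?_
      have hu0 : 0 < u := hB1.trans_le hu.1
      have : u⁻¹ * (c * c) + -2 * (g u / u) * c + g u ^ 2 / u = (g u - c) ^ 2 / u := by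
        field_simp; ring
      rw [this]; positivity
    rw [discrim] at h7
    linarith
  have h8 : ∫ u in (1 / B)..M, u⁻¹ ≤ Real.log (B * M₀) := by
    rw [integral_inv_of_pos hB1 hM, div_div_eq_mul_div, div_one, mul_comm]
    exact Real.log_le_log (by positivity) (mul_le_mul_of_nonneg_left hM₀ hB0.le)
  have h9 : ∫ u in (1 / B)..M, g u ^ 2 / u ≤ M * ∫ u in (1 / B)..M₀, g u ^ 2 / u ^ 2 := by
    have i4 : IntervalIntegrable (fun u : ℝ => g u ^ 2 / u ^ 2) MeasureTheory.volume (1 / B) M :=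
      (c4.mono (hsub hle)).intervalIntegrable
    have i5 : IntervalIntegrable (fun u : ℝ => g u ^ 2 / u ^ 2) MeasureTheory.volume M M₀ := by
      refine (c4.mono fun u hu => ?_).intervalIntegrable
      rw [Set.uIcc_of_le hM₀] at hu
      exact hM.trans_le hu.1
    have h10 : 0 ≤ ∫ u in M..M₀, g u ^ 2 / u ^ 2 :=
      intervalIntegral.integral_nonneg hM₀ fun u _ => by positivity
    rw [← intervalIntegral.integral_add_adjacent_intervals i4 i5, mul_add]
    refine le_trans ?_ (le_add_of_nonneg_right (mul_nonneg hM.le h10))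
    rw [← intervalIntegral.integral_const_mul]
    refine intervalIntegral.integral_mono_on hle i3 (i4.const_mul M) fun u hu => ?_
    have hu0 : 0 < u := hB1.trans_le hu.1
    rw [← mul_div_assoc, div_le_div_iff₀ hu0 (by positivity)]
    nlinarith [mul_le_mul_of_nonneg_left hu.2 (by positivity : 0 ≤ g u ^ 2 * u)]
  have h11 : 0 ≤ ∫ u in (1 / B)..M, g u ^ 2 / u :=
    intervalIntegral.integral_nonneg hle fun u hu => div_nonneg (sq_nonneg _) (hB1.le.trans hu.1)
  calc _ ≤ (∫ u in (1 / B)..M, g u / u) ^ 2 := pow_le_pow_left₀ (norm_nonneg _) h5 2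
    _ ≤ Real.log (B * M₀) * (M * ∫ u in (1 / B)..M₀, g u ^ 2 / u ^ 2) :=
      h6.trans (mul_le_mul h8 h9 h11 hL0)
    _ = _ := by ring

end Vale.Agent.P319.Rec
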