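import Vale.Agent.P319.N.RecAux

/-! REC: algebraic identification of the inner sums after a Poisson step.  Port of P026 `RecTS1`. -/

namespace Vale.Agent.P319.Rec

open scoped ComplexConjugate Real

variable {𝕂 : Type} [Field 𝕂] [NumberField 𝕂] [Stp 𝕂]

/-- coefficients of `Ts` -/
noncomputable def tsc (φ : R 𝕂 → ℂ) (d e : R 𝕂) (V : ℝ → ℝ) (N t : ℝ) (m : R 𝕂) : ℂ :=
  ind (IsS m) * φ m * ind (IsCoprime m d) * (mu m * gt6 (ng m)) * sex e m * V (nm m / N) * nt m t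

/-- coefficients of `Asum` -/
noncomputable def asc (α : R 𝕂) (V : ℝ → ℝ) (N t : ℝ) (n : R 𝕂) : ℂ :=
  ind (IsS n) * ind (Cg n α) * mu n * V (nm n / N) * nt n t

theorem Ts_eq (φ : R 𝕂 → ℂ) (d e g : R 𝕂) (B : ℝ) (V : ℝ → ℝ) (N t : ℝ) (k : R 𝕂) :
    Ts φ d e g B V N t k =
      ∑ m ∈ sball 𝕂 (B * N), ind (g ∣ m) * tsc φ d e V N t m * conj (sex k m) := by
  refine Finset.sum_congr rfl fun m hm => ?_
  rw [tsc, ind_of (mem_sball.1 hm).1]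
  ring

theorem Asum_eq (α : R 𝕂) (B : ℝ) (V : ℝ → ℝ) (N t : ℝ) (h : R 𝕂) :
    Asum α B V N t h = ∑ n ∈ sball 𝕂 (B * N), ind ((1 : R 𝕂) ∣ n) * asc α V N t n * sex h n := by
  refine Finset.sum_congr rfl fun m hm => ?_
  rw [asc, ind_of (mem_sball.1 hm).1, ind_of (one_dvd m)]
  ring

theorem adm_supp {B : ℝ} {V : ℝ → ℝ} (hV : Adm B V) {N x : ℝ} (hN : 0 < N)
    (h : ((V (x / N) : ℝ) : ℂ) ≠ 0) : N / B ≤ x ∧ x ≤ B * N := by
  obtain ⟨h1, h2⟩ := hV.2.2 _ (by exact_mod_cast h)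
  rw [le_div_iff₀ hN] at h1
  rw [div_le_iff₀ hN] at h2
  exact ⟨by rwa [div_mul_eq_mul_div, one_mul] at h1, h2⟩

theorem tsc_supp {B : ℝ} {V : ℝ → ℝ} (hV : Adm B V) {N : ℝ} (hN : 0 < N) (φ : R 𝕂 → ℂ) (d e : R 𝕂)
    (t : ℝ) {n : R 𝕂} (h : tsc φ d e V N t n ≠ 0) :
    IsS n ∧ N / B ≤ nm n ∧ (nm n : ℝ) ≤ B * N := by
  simp only [tsc, ne_eq, mul_eq_zero, not_or] at h
  exact ⟨of_ind_ne h.1.1.1.1.1.1, adm_supp hV hN h.1.2⟩

theorem asc_supp {B : ℝ} {V : ℝ → ℝ} (hV : Adm B V) {N : ℝ} (hN : 0 < N) (α : R 𝕂)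
    (t : ℝ) {n : R 𝕂} (h : asc α V N t n ≠ 0) :
    IsS n ∧ N / B ≤ nm n ∧ (nm n : ℝ) ≤ B * N := by
  simp only [asc, ne_eq, mul_eq_zero, not_or] at h
  exact ⟨of_ind_ne h.1.1.1.1, adm_supp hV hN h.1.2⟩

theorem norm_tsc_le {φ : R 𝕂 → ℂ} (hφ : ∀ n, ‖φ n‖ ≤ 1) (d e : R 𝕂) (V : ℝ → ℝ) (N t : ℝ) (n : R 𝕂) :
    ‖tsc φ d e V N t n‖ ≤ |V (nm n / N)| := by
  by_cases h : IsS n
  · rw [← Real.norm_eq_abs, ← Complex.norm_real]
    refine norm_le_of_eq_mul (z := ind (IsS n) * φ n * ind (IsCoprime n d) * (mu n * gt6 (ng n)) *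
      sex e n * nt n t) (by rw [tsc]; ring) ?_
    exact norm_mul_le_one (norm_mul_le_one (norm_mul_le_one (norm_mul_le_one (norm_mul_le_one
      (norm_ind_le _) (hφ _)) (norm_ind_le _)) (norm_mul_le_one (norm_mu_le _) (norm_gt6_ng h).le))
      (norm_sex_le _ _)) (norm_nt _ _).le
  · simp [tsc, ind_of_not h]

theorem norm_asc_le (α : R 𝕂) (V : ℝ → ℝ) (N t : ℝ) (n : R 𝕂) :
    ‖asc α V N t n‖ ≤ |V (nm n / N)| := by
  rw [← Real.norm_eq_abs, ← Complex.norm_real]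
  refine norm_le_of_eq_mul (z := ind (IsS n) * ind (Cg n α) * mu n * nt n t)
    (by rw [asc]; ring) ?_
  exact norm_mul_le_one (norm_mul_le_one (norm_mul_le_one (norm_ind_le _) (norm_ind_le _))
    (norm_mu_le _)) (norm_nt _ _).le

theorem bs_factor {B : ℝ} {V : ℝ → ℝ} (hV : Adm B V) {M Z : ℝ} (hM : 0 < M) (hZ : B * M ≤ Z)
    {f : R 𝕂} (hf : IsS f) (ψ : R 𝕂 → ℂ) (d h : R 𝕂) (t : ℝ) :
    ‖∑ m ∈ sball 𝕂 Z, ind (f ∣ m) *
        (ψ m * ind (IsCoprime m d) * mu m * sex h m * V (nm m / M) * nt m t)‖ ≤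
      ‖Bs (fun n => ψ (f * n)) (d * f) B V (M / nm f) t h‖ := by
  have hf0 := hf.1.1
  have nf : (0 : ℝ) < nm f := by exact_mod_cast nm_pos hf0
  refine norm_le_of_eq_mul (z := ind (IsCoprime f d) * mu f * sex h f * nt f t) ?_
    (norm_mul_le_one (norm_mul_le_one (norm_mul_le_one (norm_ind_le _) (norm_mu_le _))
      (norm_sex_le _ _)) (norm_nt _ _).le)
  rw [sum_sball_dvd hf, Bs, adm_sum_sball hV (Z := Z / nm f) (by positivity)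
    (by rw [← mul_div_assoc]; gcongr), Finset.mul_sum]
  refine Finset.sum_congr rfl fun m hm => ?_
  have hm0 := (mem_sball.1 hm).1.1.1
  rw [ind_congr (IsCoprime.mul_right_iff (x := m) (y := d) (z := f)), ind_and,
    ind_congr (IsCoprime.mul_left_iff (x := f) (y := m) (z := d)), ind_and,
    sex_mul_right hf0 hm0, nt_mul hf0 hm0,
    show (nm (f * m) : ℝ) / M = nm m / (M / nm f) by rw [nm_mul]; push_cast; field_simp]
  by_cases hc : IsCoprime m f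
  · rw [mu_mul hc.symm]
    ring
  · rw [ind_of_not hc]
    ring

theorem asc_mul {Δ m : R 𝕂} (hΔ : IsS Δ) (hm : IsS m) (α : R 𝕂) (V : ℝ → ℝ) (N t : ℝ) :
    asc α V N t (Δ * m) = mu Δ * nt Δ t *
      (ind (Cg (Δ * m) α) * ind (IsCoprime m Δ) * mu m * V (nm m / (N / nm Δ)) * nt m t) := by
  have hΔ0 := hΔ.1.1
  rw [asc, nt_mul hΔ0 hm.1.1, show (nm (Δ * m) : ℝ) / N = nm m / (N / nm Δ) by
    rw [nm_mul, div_div_eq_mul_div]; push_cast; ring]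
  by_cases hc : IsCoprime m Δ
  · rw [ind_of (hΔ.mul hm hc.symm), ind_of hc, mu_mul hc.symm]
    ring
  · rw [ind_of_not hc, ind_of_not fun h : IsS (Δ * m) => hc h.coprime.symm]
    ring

theorem tsc_mul {Δ m e' : R 𝕂} (hΔ : IsS Δ) (hm : IsS m) (he' : e' ∣ Δ) {ψ : R 𝕂 → ℂ}
    (hψ : IsCoprime Δ m → gt6 (ng (Δ * m)) = ψ m * sex Δ m ^ 2 * gt6 (ng m)) (φ : R 𝕂 → ℂ)
    (d e h : R 𝕂) (V : ℝ → ℝ) (N t t' : ℝ) :
    tsc φ d e V N t (Δ * m) * conj (sex e' m) * (sex (-1) m * conj (gt6 (ng m))) *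
        conj (conj (sex h m)) * nt m t' =
      ind (IsCoprime Δ d) * mu Δ * sex e Δ * nt Δ t *
        (φ (Δ * m) * ψ m * sex (-1) m * ind (IsCoprime m d) * mu m *
          sex (h * e * Δ * dq Δ e') m * V (nm m / (N / nm Δ)) * nt m (t + t')) := by
  have hΔ0 := hΔ.1.1
  have hm0 := hm.1.1
  rw [sex_mul_left m, sex_mul_left m, sex_mul_left m]
  by_cases hc : IsCoprime Δ m
  · have h1 := mul_conj_eq_one (norm_gt6_ng hm)
    have h2 := mul_conj_eq_one (norm_sex (hc.of_isCoprime_of_dvd_left he'))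
    have h3 : sex Δ m = sex e' m * sex (dq Δ e') m := by
      rw [← sex_mul_left m, dq_spec he']
    rw [tsc, ind_of (hΔ.mul hm hc), ind_congr (IsCoprime.mul_left_iff (x := Δ) (y := m) (z := d)),
      ind_and, mu_mul hc, hψ hc, sex_mul_right hΔ0 hm0,
      nt_mul hΔ0 hm0, nt_add, Complex.conj_conj,
      show (nm (Δ * m) : ℝ) / N = nm m / (N / nm Δ) by
        rw [nm_mul, div_div_eq_mul_div]; push_cast; ring]
    have h4 : sex Δ m * sex Δ m * conj (sex e' m) * (gt6 (ng m) * conj (gt6 (ng m))) =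
        sex Δ m * sex (dq Δ e') m := by
      rw [h1]
      linear_combination (sex Δ m * conj (sex e' m)) * h3 + sex Δ m * sex (dq Δ e') m * h2
    linear_combination (φ (Δ * m) * ind (IsCoprime Δ d) * ind (IsCoprime m d) * mu Δ * mu m *
      ψ m * sex e Δ * sex e m * (V (nm m / (N / nm Δ)) : ℂ) * nt Δ t * nt m t *
      sex (-1) m * sex h m * nt m t') * h4
  · rw [tsc, ind_of_not fun h : IsS (Δ * m) => hc h.coprime, sex_eq_zero hm0 hc]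
    ring

theorem ts_inner [Rcp 𝕂] {B : ℝ} {V : ℝ → ℝ} (hV : Adm B V) {N : ℝ}
    (hN : 0 < N) {φ : R 𝕂 → ℂ} (hφ : PerP φ) (d e : R 𝕂) {Δ e' f : R 𝕂} (hΔ : IsS Δ)
    (he' : e' ∈ pdiv Δ) (hf : IsS f) (al : R 𝕂) (t t' : ℝ) :
    ∃ φ' : R 𝕂 → ℂ, PerP φ' ∧ ∀ h : R 𝕂,
      ‖∑ m ∈ sball 𝕂 (B * N), ind (Cg m al) * ind (f ∣ m) * tsc φ d e V N t (Δ * m) *
          conj (sex e' m) * (sex (-1) m * conj (gt6 (ng m))) * conj (conj (sex h m)) * nt m t'‖ ≤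
        ‖Bs φ' (d * f) B V (N / (nm Δ * nm f)) (t + t') (h * e * Δ * dq Δ e')‖ := by
  have hΔ0 := hΔ.1.1
  have nΔ : (1 : ℝ) ≤ nm Δ := one_le_nm hΔ0
  have hB : 0 < B := lt_of_lt_of_le one_pos hV.1
  obtain ⟨ψ, hψ1, hψ2, hψ3⟩ := gt6_ng_mul hΔ
  have h0 : PerP fun n => ind (Cg n al) * φ (Δ * n) * ψ n * sex (-1) n :=
    (((perP_ind al).mul (hφ.comp Δ)).mul ⟨hψ2, hψ1⟩).mul
      ⟨fun _ => norm_sex_le _ _, clF_sex_unit isUnit_one.neg⟩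
  refine ⟨_, h0.comp f, fun h => ?_⟩
  rw [← div_div]
  refine le_trans ?_ (bs_factor hV (M := N / nm Δ) (Z := B * N) (by positivity)
    (by gcongr; exact div_le_self hN.le nΔ) hf
    (fun n => ind (Cg n al) * φ (Δ * n) * ψ n * sex (-1) n) d _ (t + t'))
  refine norm_le_of_eq_mul (z := ind (IsCoprime Δ d) * mu Δ * sex e Δ * nt Δ t) ?_
    (norm_mul_le_one (norm_mul_le_one (norm_mul_le_one (norm_ind_le _)
      (norm_mu_le _)) (norm_sex_le _ _)) (norm_nt _ _).le)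
  rw [Finset.mul_sum]
  refine Finset.sum_congr rfl fun m hm => ?_
  linear_combination (ind (Cg m al) * ind (f ∣ m)) *
    tsc_mul hΔ (mem_sball.1 hm).1 ((mem_pdiv hΔ0).1 he').2 (hψ3 m (mem_sball.1 hm).1)
      φ d e h V N t t'

theorem main_inner {B : ℝ} {V : ℝ → ℝ} (hV : Adm B V) {N : ℝ}
    (hN : 0 < N) (α : R 𝕂) {Δ : R 𝕂} (hΔ : IsS Δ) (al : R 𝕂) : ∃ φ' : R 𝕂 → ℂ, PerP φ' ∧
      ∀ (e f k : R 𝕂) (t t' : ℝ),
      ‖∑ m ∈ sball 𝕂 (B * N), ind (Cg m al) * ind (f ∣ m) * asc α V N t (Δ * m) *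
          sex e m * gt6 (ng m) * conj (sex k m) * nt m t'‖ ≤
        ‖Ts φ' Δ e f B V (N / nm Δ) (t + t') k‖ := by
  have nΔ : (1 : ℝ) ≤ nm Δ := one_le_nm hΔ.1.1
  have hB : 0 < B := lt_of_lt_of_le one_pos hV.1
  refine ⟨_, (perP_ind al).mul ((perP_ind α).comp Δ), fun e f k t t' => ?_⟩
  refine norm_le_of_eq_mul (z := mu Δ * nt Δ t) ?_
    (norm_mul_le_one (norm_mu_le _) (norm_nt _ _).le)
  rw [Ts, adm_sum_sball hV (Z := B * N) (by positivity) (by gcongr; exact div_le_self hN.le nΔ),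
    Finset.mul_sum]
  refine Finset.sum_congr rfl fun m hm => ?_
  rw [asc_mul hΔ (mem_sball.1 hm).1, nt_add]
  ring

theorem large_inner {B : ℝ} {V : ℝ → ℝ} (hV : Adm B V) {N : ℝ}
    (hN : 0 < N) (α : R 𝕂) {Δ f : R 𝕂} (hΔ : IsS Δ) (hf : IsS f) : ∃ φ' : R 𝕂 → ℂ, PerP φ' ∧
      ∀ (h : R 𝕂) (t : ℝ),
      ‖∑ m ∈ sball 𝕂 (B * N), ind (f ∣ m) * asc α V N t (Δ * m) * sex h m‖ ≤
        ‖Bs φ' (Δ * f) B V (N / (nm Δ * nm f)) t h‖ := by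
  have nΔ : (1 : ℝ) ≤ nm Δ := one_le_nm hΔ.1.1
  have hB : 0 < B := lt_of_lt_of_le one_pos hV.1
  refine ⟨_, ((perP_ind α).comp Δ).comp f, fun h t => ?_⟩
  rw [← div_div]
  refine le_trans ?_ (bs_factor hV (M := N / nm Δ) (Z := B * N) (by positivity)
    (by gcongr; exact div_le_self hN.le nΔ) hf (fun n => ind (Cg (Δ * n) α)) Δ h t)
  refine norm_le_of_eq_mul (z := mu Δ * nt Δ t) ?_
    (norm_mul_le_one (norm_mu_le _) (norm_nt _ _).le)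
  rw [Finset.mul_sum]
  refine Finset.sum_congr rfl fun m hm => ?_
  rw [asc_mul hΔ (mem_sball.1 hm).1]
  ring

end Vale.Agent.P319.Rec
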