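import Vale.Agent.P319.N.RecTS1

/-! REC: the TS lemma (second Poisson step, back to `PM`).  Port of P026 `RecTS2`. -/

namespace Vale.Agent.P319.Rec

open scoped ComplexConjugate Real

variable {𝕂 : Type} [Field 𝕂] [NumberField 𝕂] [Stp 𝕂]

theorem ts_weight {Δ e e' h : R 𝕂} (hΔ : Δ ≠ 0) (he' : e' ∣ Δ) {K N H : ℝ}
    (hN : 0 < N) (hK : 0 < K) (hH : 0 < H) (hKH : nm e * N ^ 2 / K ≤ H) :
    (nm (h * e * Δ * dq Δ e') : ℝ) / H ≤ K * (nm Δ : ℝ) ^ 2 * nm h / (nm e' * N ^ 2) := by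
  have he'0 : e' ≠ 0 := ne_zero_of_dvd_ne_zero hΔ he'
  have h1 : e' * dq Δ e' = Δ := dq_spec he'
  have h2 : (nm e' : ℝ) * nm (dq Δ e') = nm Δ := by
    have := congrArg nm h1
    rw [nm_mul] at this
    exact_mod_cast this
  have h3 : (0 : ℝ) < nm e' := by exact_mod_cast nm_pos he'0
  have h4 : (nm e : ℝ) * N ^ 2 ≤ H * K := by rwa [div_le_iff₀ hK] at hKH
  rw [div_le_div_iff₀ hH (by positivity)]
  simp only [nm_mul, Nat.cast_mul]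
  have h5 : (0 : ℝ) ≤ nm h * (nm Δ : ℝ) ^ 2 := by positivity
  calc (nm h : ℝ) * nm e * nm Δ * nm (dq Δ e') * (nm e' * N ^ 2)
      = (nm h * (nm Δ : ℝ) ^ 2) * (nm e * N ^ 2) := by rw [← h2]; ring
    _ ≤ (nm h * (nm Δ : ℝ) ^ 2) * (H * K) := mul_le_mul_of_nonneg_left h4 h5
    _ = _ := by ring

theorem ts_tau_weight {ε : ℝ} (hε : 0 < ε) (hε1 : ε ≤ 1) : ∃ C : ℝ, 0 < C ∧ ∀ (H : ℝ) (h : R 𝕂),
    1 ≤ H → h ≠ 0 → tau h ^ 3 * (1 + (nm h : ℝ) / H) ^ (-5 : ℝ) ≤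
      C * H ^ ε * (1 + (nm h : ℝ) / H) ^ (-3 : ℝ) := by
  obtain ⟨C, hC, h3⟩ := tau_pow_le (𝕂 := 𝕂) 3 hε
  refine ⟨C, hC, fun H h hH hh => ?_⟩
  have hH0 : 0 < H := by linarith
  set x : ℝ := 1 + (nm h : ℝ) / H with hx
  have hx1 : 1 ≤ x := by
    have : (0 : ℝ) ≤ nm h / H := by positivity
    linarith
  have hx0 : 0 < x := by linarith
  have h1 : (nm h : ℝ) ≤ H * x := by
    rw [hx, mul_add, mul_one, mul_div_cancel₀ _ hH0.ne']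
    linarith
  have h2 : (nm h : ℝ) ^ ε ≤ H ^ ε * x ^ (2 : ℝ) := by
    calc (nm h : ℝ) ^ ε ≤ (H * x) ^ ε := Real.rpow_le_rpow (by positivity) h1 hε.le
      _ = H ^ ε * x ^ ε := Real.mul_rpow hH0.le hx0.le
      _ ≤ _ := by
        gcongr
        linarith
  calc tau h ^ 3 * x ^ (-5 : ℝ) ≤ C * (H ^ ε * x ^ (2 : ℝ)) * x ^ (-5 : ℝ) := by
        gcongr
        exact (h3 h hh).trans (by gcongr)
    _ = C * H ^ ε * (x ^ (2 : ℝ) * x ^ (-5 : ℝ)) := by ring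
    _ = _ := by rw [← Real.rpow_add hx0]; norm_num

theorem ts_pow {B L H η ε : ℝ} (hB : 1 ≤ B) (hH : 1 ≤ H) (hHL : H ≤ L) (hη0 : 0 < η) (hη1 : η ≤ 1)
    (hη5 : 5 * η ≤ ε) :
    (B * L ^ 2) ^ η * (B * L) ^ η * H ^ η * H ^ (1 + η) ≤ B ^ 2 * L ^ ε * H := by
  have hH0 : 0 < H := by linarith
  have hL : 1 ≤ L := hH.trans hHL
  have hB0 : 0 < B := by linarith
  have hL0 : 0 < L := by linarith
  have b1 : B ^ η ≤ B := by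
    simpa using Real.rpow_le_rpow_of_exponent_le hB hη1
  have b2 : H ^ η ≤ L ^ η := Real.rpow_le_rpow hH0.le hHL hη0.le
  have b3 : (L ^ η) ^ 5 ≤ L ^ ε := by
    rw [← Real.rpow_mul_natCast hL0.le]
    exact Real.rpow_le_rpow_of_exponent_le hL (by push_cast; linarith)
  rw [Real.mul_rpow hB0.le (by positivity), Real.mul_rpow hB0.le hL0.le, Real.rpow_add hH0,
    Real.rpow_one, pow_two L, Real.mul_rpow hL0.le hL0.le]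
  calc _ ≤ B * (L ^ η * L ^ η) * (B * L ^ η) * L ^ η * (H * L ^ η) := by gcongr
    _ = B ^ 2 * (L ^ η) ^ 5 * H := by ring
    _ ≤ _ := by gcongr


open Classical in
theorem ts_term [Rcp 𝕂] {B : ℝ} {V : ℝ → ℝ} (hV : Adm B V) {φ : R 𝕂 → ℂ}
    (hφ : PerP φ) {d e : R 𝕂} (hd : Prim d) {N K H Gm t t' E : ℝ} (hN : 0 < N)
    (hK : 0 < K) (hH0 : 0 < H) (hGm0 : 0 < Gm) (hKH : nm e * N ^ 2 / K ≤ H) {G : R 𝕂 → ℝ} (τ : R 𝕂)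
    (hG0 : ∀ h, 0 ≤ G h) (hG1 : ∀ (φ : R 𝕂 → ℂ) (q : R 𝕂) (M : ℝ) (h : R 𝕂), PerP φ → Prim q → 0 < M →
      M ≤ N / Gm → ‖Bs φ q B V M (t + t') h‖ ^ 2 ≤ tau q ^ 2 * M * G h) {Δ e' f : R 𝕂}
    (hΔS : IsS Δ) (he' : e' ∈ pdiv Δ) (hfS : IsS f) (hτ2 : tau (d * f) ^ 2 ≤ E) (al h : R 𝕂) :
    (if Gm ≤ nm Δ then tau Δ else 0) * (K * nm Δ / (nm e' * N)) *
        ((1 + K * (nm Δ : ℝ) ^ 2 * nm h / (nm e' * N ^ 2)) ^ (-5 : ℝ) *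
          ‖∑ m ∈ sball 𝕂 (B * N), ind (Cg m al) * ind (f ∣ m) * tsc φ d e V N t (Δ * m) *
            conj (sex e' m) * (sex (-1) m * conj (gt6 (ng m))) *
              conj (conj (sex ((τ : R 𝕂) * h) m)) * nt m t'‖ ^ 2) ≤
      K * E * (nm f : ℝ)⁻¹ * (tau Δ * ((1 + (nm (h * e * Δ * dq Δ e') : ℝ) / H) ^ (-5 : ℝ) *
        G (τ * (h * e * Δ * dq Δ e')))) := by
  have hE0 : 0 ≤ E := (sq_nonneg _).trans hτ2
  have hΔ0 : Δ ≠ 0 := hΔS.1.1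
  have hf0 : f ≠ 0 := hfS.1.1
  obtain ⟨he'P, he'd⟩ := (mem_pdiv hΔ0).1 he'
  have hτ := tau_nonneg Δ
  split_ifs with hGΔ
  swap
  · simp only [zero_mul]
    exact mul_nonneg (by positivity) (mul_nonneg hτ (mul_nonneg (by positivity) (hG0 _)))
  obtain ⟨φ', hφ', hin⟩ := ts_inner hV hN hφ d e hΔS he' hfS al t t'
  have nΔ : (1 : ℝ) ≤ nm Δ := one_le_nm hΔ0
  have nf : (1 : ℝ) ≤ nm f := one_le_nm hf0
  have ne' : (1 : ℝ) ≤ nm e' := one_le_nm he'P.ne_zero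
  have hMle : N / (nm Δ * nm f) ≤ N / Gm := by
    apply div_le_div_of_nonneg_left hN.le hGm0
    nlinarith
  have hb := hG1 φ' (d * f) (N / (nm Δ * nm f)) (τ * (h * e * Δ * dq Δ e')) hφ' (hd.mul hfS.1)
    (by positivity) hMle
  have hw : (1 + K * (nm Δ : ℝ) ^ 2 * nm h / (nm e' * N ^ 2)) ^ (-5 : ℝ) ≤
      (1 + (nm (h * e * Δ * dq Δ e') : ℝ) / H) ^ (-5 : ℝ) := by
    apply Real.rpow_le_rpow_of_nonpos (by positivity) _ (by norm_num)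
    linarith [ts_weight (h := h) hΔ0 he'd hN hK hH0 hKH]
  have hin' := hin (τ * h)
  rw [show τ * h * e * Δ * dq Δ e' = τ * (h * e * Δ * dq Δ e') by ring] at hin'
  have hU := (pow_le_pow_left₀ (norm_nonneg _) hin' 2).trans hb
  have hG := hG0 (τ * (h * e * Δ * dq Δ e'))
  have hU' := hU.trans (show _ ≤ E * (N / (nm Δ * nm f)) * G (τ * (h * e * Δ * dq Δ e')) by gcongr)
  have hc : K * nm Δ / (nm e' * N) ≤ K * nm Δ / N := by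
    apply div_le_div_of_nonneg_left (by positivity) hN
    nlinarith
  calc _ ≤ tau Δ * (K * nm Δ / N) * ((1 + (nm (h * e * Δ * dq Δ e') : ℝ) / H) ^ (-5 : ℝ) *
        (E * (N / (nm Δ * nm f)) * G (τ * (h * e * Δ * dq Δ e')))) := by gcongr
    _ = _ := by field_simp

theorem sum4_le (S s : Finset (R 𝕂)) (P : R 𝕂 → Finset (R 𝕂)) (c : R 𝕂 → R 𝕂 → ℝ) (x : R 𝕂 → R 𝕂 → R 𝕂 → R 𝕂 → ℝ)
    (a : ℝ) (u : R 𝕂 → ℝ) (y : R 𝕂 → R 𝕂 → R 𝕂 → ℝ)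
    (h : ∀ Δ ∈ S, ∀ e ∈ P Δ, ∀ f ∈ S, ∀ k ∈ s, c Δ e * x Δ e f k ≤ a * u f * y Δ e k) :
    ∑ Δ ∈ S, ∑ e ∈ P Δ, c Δ e * ∑ f ∈ S, ∑ k ∈ s, x Δ e f k ≤
      a * (∑ f ∈ S, u f) * ∑ Δ ∈ S, ∑ e ∈ P Δ, ∑ k ∈ s, y Δ e k := by
  rw [Finset.mul_sum]
  refine Finset.sum_le_sum fun Δ hΔ => ?_
  rw [Finset.mul_sum]
  refine Finset.sum_le_sum fun e he => ?_
  rw [Finset.mul_sum, Finset.mul_sum S, Finset.sum_mul]
  refine Finset.sum_le_sum fun f hf => ?_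
  rw [Finset.mul_sum, Finset.mul_sum]
  exact Finset.sum_le_sum fun k hk => h Δ hΔ e he f hf k hk

open Classical in
theorem ts_hyp [Rcp 𝕂] {θ : ℝ} (hP : PM 𝕂 θ) {B : ℝ} {V : ℝ → ℝ}
    (hV : Adm B V) {ε : ℝ} (hε : 0 < ε) : ∃ C A : ℝ, 0 < C ∧ 0 ≤ A ∧
    ∀ (N K Gm H L t t' : ℝ) (φ : R 𝕂 → ℂ) (d e al : R 𝕂) (τ : (R 𝕂)ˣ) (s : Finset (R 𝕂)), PerP φ →
      Prim d → Prim e → (∀ h ∈ s, Prim h) → 1 ≤ Gm → 0 < N → 0 < K → 1 ≤ H → nm e * N ^ 2 / K ≤ H →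
      (N / Gm) ^ (599 / 500 : ℝ) ≤ H → N ≤ L → H ≤ L → (nm d : ℝ) ≤ L →
      ∑ Δ ∈ sball 𝕂 (B * N), ∑ e' ∈ pdiv Δ,
        (if Gm ≤ nm Δ then tau Δ else 0) * (K * nm Δ / (nm e' * N)) *
          ∑ f ∈ sball 𝕂 (B * N), ∑ h ∈ s,
            (1 + K * (nm Δ : ℝ) ^ 2 * nm h / (nm e' * N ^ 2)) ^ (-5 : ℝ) *
            ‖∑ m ∈ sball 𝕂 (B * N), ind (Cg m al) * ind (f ∣ m) * tsc φ d e V N t (Δ * m) *
              conj (sex e' m) * (sex (-1) m * conj (gt6 (ng m))) *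
              conj (conj (sex ((τ : R 𝕂) * h) m)) * nt m t'‖ ^ 2 ≤
        C * (1 + |t|) ^ A * L ^ ε * K * (H * (N / Gm) ^ θ) * (1 + |t'|) ^ A := by
  obtain ⟨η, hη0, hη1, hη5⟩ : ∃ η : ℝ, 0 < η ∧ η ≤ 1 ∧ 5 * η ≤ ε :=
    ⟨min (ε / 5) 1, lt_min (by linarith) one_pos, min_le_right _ _,
      by have := min_le_left (ε / 5) 1; linarith⟩
  have hB : 1 ≤ B := hV.1
  obtain ⟨C₀, A, hC₀, hA, hPM⟩ := hP B V η hV hη0
  obtain ⟨C₁, hC₁, h1⟩ := tau_pow_le (𝕂 := 𝕂) 2 hη0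
  obtain ⟨C₂, hC₂, h2⟩ := sum_inv_le_rpow (K := 𝕂) hη0
  obtain ⟨C₃, hC₃, h3⟩ := ts_tau_weight (𝕂 := 𝕂) hη0 hη1
  refine ⟨C₀ * C₁ * C₂ * C₃ * B ^ 2, A, by positivity, hA, ?_⟩
  intro N K Gm H L t t' φ d e al τ s hφ hd he hs hGm hN hK hH hKH hM hNL hHL hdL
  have hH0 : 0 < H := by linarith
  have hL : 1 ≤ L := hH.trans hHL
  have hGm0 : 0 < Gm := by linarith
  obtain ⟨G, hG0, hG1, hG2⟩ := hPM H (N / Gm) (t + t') hH (by positivity) hM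
  obtain ⟨W, hW⟩ : ∃ W : R 𝕂 → ℝ, ∀ h, W h = (1 + (nm h : ℝ) / H) ^ (-5 : ℝ) * G ((τ : R 𝕂) * h) :=
    ⟨_, fun _ => rfl⟩
  have hW0 : ∀ h, 0 ≤ W h := fun h => hW h ▸ mul_nonneg (by positivity) (hG0 _)
  obtain ⟨E, hE⟩ : ∃ E : ℝ, E = C₁ * (B * L ^ 2) ^ η := ⟨_, rfl⟩
  have hE0 : 0 ≤ E := by rw [hE]; positivity
  have hBN : B * N ≤ B * L := by gcongr
  have hτE : ∀ f ∈ sball 𝕂 (B * N), tau (d * f) ^ 2 ≤ E := by
    intro f hf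
    obtain ⟨hfS, hfN⟩ := mem_sball.1 hf
    have hf0 : f ≠ 0 := hfS.1.1
    refine (h1 _ (mul_ne_zero hd.ne_zero hf0)).trans ?_
    rw [hE]
    gcongr
    rw [nm_mul, Nat.cast_mul]
    calc (nm d : ℝ) * nm f ≤ L * (B * L) := by gcongr; exact hfN.trans hBN
      _ = _ := by ring
  have key : ∀ Δ ∈ sball 𝕂 (B * N), ∀ e' ∈ pdiv Δ, ∀ f ∈ sball 𝕂 (B * N), ∀ h ∈ s,
      (if Gm ≤ nm Δ then tau Δ else 0) * (K * nm Δ / (nm e' * N)) *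
        ((1 + K * (nm Δ : ℝ) ^ 2 * nm h / (nm e' * N ^ 2)) ^ (-5 : ℝ) *
          ‖∑ m ∈ sball 𝕂 (B * N), ind (Cg m al) * ind (f ∣ m) * tsc φ d e V N t (Δ * m) *
            conj (sex e' m) * (sex (-1) m * conj (gt6 (ng m))) *
              conj (conj (sex ((τ : R 𝕂) * h) m)) * nt m t'‖ ^ 2) ≤
      K * E * (nm f : ℝ)⁻¹ * (tau Δ * W (h * e * Δ * dq Δ e')) := by
    intro Δ hΔ e' he' f hf h hh
    rw [hW]
    exact ts_term hV hφ hd hN hK hH0 hGm0 hKH τ hG0 hG1 (mem_sball.1 hΔ).1 he'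
      (mem_sball.1 hf).1 (hτE f hf) al h
  obtain ⟨s', hs', hfib⟩ := fiber_sum W hW0 he (sball 𝕂 (B * N)) s
    (fun Δ hΔ => (mem_sball.1 hΔ).1.1) hs
  have hsum' : ∑ h ∈ s', tau h ^ 3 * W h ≤
      C₃ * H ^ η * (C₀ * (1 + |t + t'|) ^ A * H ^ (1 + η) * (N / Gm) ^ θ) := by
    refine le_trans ?_ (mul_le_mul_of_nonneg_left (hG2 τ s' hs') (by positivity))
    rw [Finset.mul_sum]
    refine Finset.sum_le_sum fun h hh => ?_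
    have := h3 H h hH (hs' h hh).1
    rw [hW, ← mul_assoc, ← mul_assoc]
    exact mul_le_mul_of_nonneg_right this (hG0 _)
  have hinv : ∑ f ∈ sball 𝕂 (B * N), (nm f : ℝ)⁻¹ ≤ C₂ * (B * L) ^ η :=
    h2 (B * L) _ (by nlinarith) fun f hf =>
      ⟨(mem_sball.1 hf).1.1, (mem_sball.1 hf).2.trans hBN⟩
  have hT : 0 ≤ ∑ Δ ∈ sball 𝕂 (B * N), ∑ e' ∈ pdiv Δ, ∑ h ∈ s,
      tau Δ * W (h * e * Δ * dq Δ e') :=
    Finset.sum_nonneg fun Δ _ => Finset.sum_nonneg fun e' _ => Finset.sum_nonneg fun h _ =>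
      mul_nonneg (tau_nonneg _) (hW0 _)
  have hθp : 0 ≤ (N / Gm) ^ θ := by positivity
  have hpow := ts_pow hB hH hHL hη0 hη1 hη5
  have h4 := one_add_abs_add_le hA t t'
  have h5 := hfib.trans (hsum'.trans (show _ ≤ C₃ * H ^ η *
    (C₀ * ((1 + |t|) ^ A * (1 + |t'|) ^ A) * H ^ (1 + η) * (N / Gm) ^ θ) by gcongr))
  refine (sum4_le _ _ _ _ _ _ _ _ key).trans ?_
  refine (mul_le_mul (mul_le_mul_of_nonneg_left hinv (by positivity)) h5 hT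
    (by positivity)).trans ?_
  calc _ = C₀ * C₁ * C₂ * C₃ * (1 + |t|) ^ A * K * (N / Gm) ^ θ * (1 + |t'|) ^ A *
          ((B * L ^ 2) ^ η * (B * L) ^ η * H ^ η * H ^ (1 + η)) := by rw [hE]; ring
    _ ≤ C₀ * C₁ * C₂ * C₃ * (1 + |t|) ^ A * K * (N / Gm) ^ θ * (1 + |t'|) ^ A *
          (B ^ 2 * L ^ ε * H) := mul_le_mul_of_nonneg_left hpow (by positivity)
    _ = _ := by ring

open Classical in
theorem sum_ind_le {Gs : Finset (R 𝕂)} {Gm : ℝ} (hG : ∀ g ∈ Gs, IsS g ∧ Gm ≤ nm g) {Δ : R 𝕂}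
    (hΔ : Δ ≠ 0) : ∑ g ∈ Gs, ‖ind (g ∣ Δ)‖ ≤ if Gm ≤ nm Δ then tau Δ else 0 := by
  have h1 : ∑ g ∈ Gs, ‖ind (g ∣ Δ)‖ = ((Gs.filter (· ∣ Δ)).card : ℝ) := by
    rw [Finset.card_filter]
    push_cast
    refine Finset.sum_congr rfl fun g _ => ?_
    by_cases h : g ∣ Δ
    · rw [ind_of h, if_pos h, norm_one]
    · rw [ind_of_not h, if_neg h, norm_zero]
  rw [h1]
  split_ifs with h
  · unfold tau
    exact_mod_cast Finset.card_le_card fun g hg => (mem_pdiv hΔ).2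
      ⟨(hG g (Finset.mem_filter.1 hg).1).1.1, (Finset.mem_filter.1 hg).2⟩
  · rw [Finset.filter_eq_empty_iff.2]
    · simp
    · intro g hg hd
      exact h ((hG g hg).2.trans (by exact_mod_cast nm_le_of_dvd hΔ hd))

open Classical in
theorem ts_diag {B : ℝ} {V : ℝ → ℝ} (hV : Adm B V) {ε : ℝ} (hε : 0 < ε) : ∃ C : ℝ, 0 < C ∧
    ∀ (N Gm L t : ℝ) (φ : R 𝕂 → ℂ) (d e : R 𝕂), (∀ n, ‖φ n‖ ≤ 1) → 0 < N → N ≤ L →
      ∑ Δ ∈ sball 𝕂 (B * N), (if Gm ≤ nm Δ then tau Δ else 0) * ‖tsc φ d e V N t Δ‖ ^ 2 ≤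
        C * L ^ ε * N := by
  obtain ⟨C₁, hC₁, h1⟩ := tau_pow_le (𝕂 := 𝕂) 1 hε
  obtain ⟨C₂, hC₂, h2⟩ := card_le_of_nm (𝕂 := 𝕂)
  obtain ⟨C₃, hC₃, h3⟩ := adm_bound hV
  have hB : 0 < B := lt_of_lt_of_le one_pos hV.1
  refine ⟨C₂ * B * (C₁ * B ^ ε * C₃ ^ 2), by positivity, fun N Gm L t φ d e hφ hN hL => ?_⟩
  have hL0 : 0 < L := hN.trans_le hL
  have key : ∀ Δ ∈ sball 𝕂 (B * N), (if Gm ≤ nm Δ then tau Δ else 0) *
      ‖tsc φ d e V N t Δ‖ ^ 2 ≤ C₁ * (B * L) ^ ε * C₃ ^ 2 := by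
    intro Δ hΔ
    obtain ⟨hS, hn⟩ := mem_sball.1 hΔ
    have hτ := tau_nonneg Δ
    have a1 : (if Gm ≤ nm Δ then tau Δ else 0) ≤ C₁ * (B * L) ^ ε := by
      refine le_trans ?_ ((h1 Δ hS.1.1).trans ?_)
      · split_ifs
        · rw [pow_one]
        · rwa [pow_one]
      · gcongr
        exact hn.trans (by gcongr)
    exact mul_le_mul a1 (pow_le_pow_left₀ (norm_nonneg _)
      ((norm_tsc_le hφ d e V N t Δ).trans (h3 _)) 2) (sq_nonneg _) (by positivity)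
  refine (Finset.sum_le_card_nsmul _ _ _ key).trans ?_
  rw [nsmul_eq_mul, Real.mul_rpow hB.le hL0.le]
  refine (mul_le_mul_of_nonneg_right (h2 (B * N) _ (by positivity) fun n hn =>
    ⟨(mem_sball.1 hn).1.1, (mem_sball.1 hn).2⟩) (by positivity)).trans_eq ?_
  ring

theorem ts_ball [Rcp 𝕂] (hps : PSStmt 𝕂) {θ : ℝ} (hP : PM 𝕂 θ) {B : ℝ} {V : ℝ → ℝ}
    (hV : Adm B V) {ε : ℝ} (hε : 0 < ε) : ∃ C A : ℝ, 0 < C ∧ 0 ≤ A ∧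
    ∀ (N K Gm H L t : ℝ) (φ : R 𝕂 → ℂ) (d e : R 𝕂) (τ : (R 𝕂)ˣ) (Gs : Finset (R 𝕂)), PerP φ →
      Prim d → Prim e → (∀ g ∈ Gs, IsS g ∧ Gm ≤ nm g) → 1 ≤ Gm → 0 < N → 1 ≤ K → 1 ≤ H →
      nm e * N ^ 2 / K ≤ H → (N / Gm) ^ (599 / 500 : ℝ) ≤ H → N ≤ L → H ≤ L → (nm d : ℝ) ≤ L →
      ∑ g ∈ Gs, ∑ k ∈ pball 𝕂 K, ‖Ts φ d e g B V N t (τ * k)‖ ^ 2 ≤
        C * (1 + |t|) ^ A * L ^ ε * K * (N + H * (N / Gm) ^ θ) := by
  classical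
  obtain ⟨F, hX, hg⟩ := exists_famS' (K := 𝕂)
  obtain ⟨Bil, ⟨C₃, hC₃, p1⟩, -, p3⟩ := hps F
  obtain ⟨C₀, A, hC₀, hA, h0⟩ := ts_hyp hP hV (half_pos hε)
  obtain ⟨C₁, hC₁, h1⟩ := p3 B A (ε / 2) hV.1 hA (half_pos hε)
  obtain ⟨C₂, hC₂, h2⟩ := ts_diag (𝕂 := 𝕂) hV hε
  refine ⟨C₃ * C₁ * (2 ^ (ε / 2) * C₀ + C₂), A, by positivity, hA, ?_⟩
  intro N K Gm H L t φ d e τ Gs hφ hd he hG hGm hN hK1 hH hKH hM hNL hHL hdL
  have hK : 0 < K := by linarith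
  have hb := fun n => tsc_supp hV hN φ d e t (n := n)
  have h3 := h1 N K (C₀ * (1 + |t|) ^ A * L ^ (ε / 2) * K * (H * (N / Gm) ^ θ)) (tsc φ d e V N t)
    (fun Δ => if Gm ≤ nm Δ then tau Δ else 0) hN hK1
    (fun Δ => by split_ifs; exacts [tau_nonneg _, le_rfl]) hb (fun t' al τ' s hs => by
      simp only [hX, hg]
      exact h0 N K Gm H L t t' φ d e al τ' s hφ hd he hs hGm hN hK hH hKH hM hNL hHL hdL)
  have h4 := h2 N Gm L t φ d e hφ.1 hN hNL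
  have h5 : ∀ g ∈ Gs, ∑ k ∈ pball 𝕂 K, ‖Ts φ d e g B V N t (τ * k)‖ ^ 2 ≤
      C₃ * ∑ Δ ∈ sball 𝕂 (B * N), ‖ind (g ∣ Δ)‖ * ‖Bil K (B * N) (tsc φ d e V N t) Δ‖ := by
    intro g _
    have := p1 K (B * N) (tsc φ d e V N t) g τ hK1
      fun n hn => mem_sball.2 ⟨(hb n hn).1, (hb n hn).2.2⟩
    simpa only [hX, ← Ts_eq] using this
  have hL0 : 0 < L := hN.trans_le hNL
  have ht : 1 ≤ (1 + |t|) ^ A := Real.one_le_rpow (by linarith [abs_nonneg t]) hA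
  have hX0 : 0 ≤ H * (N / Gm) ^ θ := by positivity
  have h6 : (1 + N ^ 2 / K) ^ (ε / 2) ≤ 2 ^ (ε / 2) * L ^ (ε / 2) := by
    rw [← Real.mul_rpow (by norm_num) hL0.le]
    refine Real.rpow_le_rpow (by positivity) ?_ (by positivity)
    have a1 : N ^ 2 / K ≤ nm e * N ^ 2 / K := by
      gcongr
      exact le_mul_of_one_le_left (by positivity) (one_le_nm he.1)
    linarith
  have h7 : L ^ ε = L ^ (ε / 2) * L ^ (ε / 2) := by rw [← Real.rpow_add hL0, add_halves]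
  calc _ ≤ C₃ * ∑ Δ ∈ sball 𝕂 (B * N), (if Gm ≤ nm Δ then tau Δ else 0) *
        ‖Bil K (B * N) (tsc φ d e V N t) Δ‖ := by
        refine (Finset.sum_le_sum h5).trans ?_
        rw [← Finset.mul_sum, Finset.sum_comm]
        refine mul_le_mul_of_nonneg_left (Finset.sum_le_sum fun Δ hΔ => ?_) hC₃.le
        rw [← Finset.sum_mul]
        exact mul_le_mul_of_nonneg_right (sum_ind_le hG (mem_sball.1 hΔ).1.1.1)
          (norm_nonneg _)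
    _ ≤ C₃ * (C₁ * (2 ^ (ε / 2) * L ^ (ε / 2) *
          (C₀ * (1 + |t|) ^ A * L ^ (ε / 2) * K * (H * (N / Gm) ^ θ)) + K * (C₂ * L ^ ε * N))) :=
        mul_le_mul_of_nonneg_left (h3.trans (by gcongr)) hC₃.le
    _ = C₃ * (C₁ * (2 ^ (ε / 2) * C₀ * (1 + |t|) ^ A * L ^ ε * K * (H * (N / Gm) ^ θ) +
          K * (C₂ * L ^ ε * N))) := by rw [h7]; ring
    _ ≤ _ := by
        have hc : 0 < 2 ^ (ε / 2) * C₀ := by positivity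
        generalize 2 ^ (ε / 2) * C₀ = C₄ at *
        generalize (1 + |t|) ^ A = T at *
        generalize H * (N / Gm) ^ θ = X at *
        have hLe : 0 < L ^ ε := by positivity
        generalize L ^ ε = Y at *
        have : C₄ * T * X + C₂ * N ≤ (C₄ + C₂) * T * (N + X) := by
          have a1 : 0 ≤ C₄ * T * N := by positivity
          have a2 : 0 ≤ C₂ * T * X := by positivity
          have a3 : C₂ * N ≤ C₂ * T * N := by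
            have := mul_le_mul_of_nonneg_left ht (show 0 ≤ C₂ * N by positivity)
            linarith
          nlinarith
        calc _ = C₃ * C₁ * Y * K * (C₄ * T * X + C₂ * N) := by ring
          _ ≤ C₃ * C₁ * Y * K * ((C₄ + C₂) * T * (N + X)) := by gcongr
          _ = _ := by ring

theorem ts [Rcp 𝕂] (hps : PSStmt 𝕂) {θ : ℝ} (hP : PM 𝕂 θ) {B : ℝ} {V : ℝ → ℝ}
    (hV : Adm B V) {ε : ℝ} (hε : 0 < ε) : ∃ C A : ℝ, 0 < C ∧ 0 ≤ A ∧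
    ∀ (N K Gm H L t : ℝ) (φ : R 𝕂 → ℂ) (d e : R 𝕂) (τ : (R 𝕂)ˣ) (Gs s : Finset (R 𝕂)), PerP φ →
      Prim d → Prim e → (∀ g ∈ Gs, IsS g ∧ Gm ≤ nm g) → (∀ k ∈ s, Prim k) → 1 ≤ Gm → 0 < N →
      0 < K → 1 ≤ H → nm e * N ^ 2 / K ≤ H →
      (N / Gm) ^ (599 / 500 : ℝ) ≤ H → N ≤ L → H ≤ L → (nm d : ℝ) ≤ L →
      ∑ g ∈ Gs, ∑ k ∈ s, (1 + (nm k : ℝ) / K) ^ (-5 : ℝ) * ‖Ts φ d e g B V N t (τ * k)‖ ^ 2 ≤
        C * (1 + |t|) ^ A * L ^ ε * K * (N + H * (N / Gm) ^ θ) := by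
  classical
  obtain ⟨C₀, A, hC₀, hA, h0⟩ := ts_ball hps hP hV hε
  obtain ⟨C₁, hC₁, h1⟩ := dyadic_weight (𝕂 := 𝕂) (A := 5) (p := 1) zero_le_one (by norm_num)
  refine ⟨C₁ * C₀, A, by positivity, hA, ?_⟩
  intro N K Gm H L t φ d e τ Gs s hφ hd he hG hs hGm hN hK hH hKH hM hNL hHL hdL
  have hL0 : 0 < L := hN.trans_le hNL
  have h2 := h1 (fun k => ∑ g ∈ Gs, ‖Ts φ d e g B V N t (τ * k)‖ ^ 2) K
    (C₀ * (1 + |t|) ^ A * L ^ ε * K * (N + H * (N / Gm) ^ θ)) s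
    (fun k _ => Finset.sum_nonneg fun g _ => sq_nonneg _) hK fun y hy => by
      have hsub : (s.filter fun k => (nm k : ℝ) ≤ y * K) ⊆ pball 𝕂 (y * K) := fun k hk =>
        mem_pball.2 ⟨hs k (Finset.mem_filter.1 hk).1, (Finset.mem_filter.1 hk).2⟩
      rcases lt_or_ge (y * K) 1 with hyK | hyK
      · rw [pball_eq_empty hyK, Finset.subset_empty] at hsub
        rw [hsub, Finset.sum_empty]
        positivity
      have h3 := h0 N (y * K) Gm H L t φ d e τ Gs hφ hd he hG hGm hN hyK hH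
        (le_trans (div_le_div_of_nonneg_left (by positivity) hK (by nlinarith)) hKH) hM hNL hHL hdL
      rw [Finset.sum_comm]
      refine le_trans (Finset.sum_le_sum fun g _ =>
        Finset.sum_le_sum_of_subset_of_nonneg hsub fun _ _ _ => sq_nonneg _) (h3.trans_eq ?_)
      rw [Real.rpow_one]
      ring
  rw [Finset.sum_comm]
  simp only [← Finset.mul_sum]
  exact h2.trans_eq (by ring)

end Vale.Agent.P319.Rec
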