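import Vale.Agent.P319.N.RecAux

/-! REC: the Voronoi bound for all `k`.  Port of P026 `RecVB`. -/

namespace Vale.Agent.P319.Rec

open scoped ComplexConjugate Real

variable {𝕂 : Type} [Field 𝕂] [NumberField 𝕂] [Stp 𝕂]

theorem vbw_mul {L : R 𝕂} {φ ψ : R 𝕂 → ℂ} (hφ : VBw L φ) (hψ : PerP ψ) :
    VBw L fun n => φ n * ψ n := by
  obtain ⟨h1, h2, h3⟩ := hφ
  refine ⟨fun n => norm_mul_le_one (h1 n) (hψ.1 n), fun x y hx hU hd => ?_, fun u hu hc => ?_⟩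
  · beta_reduce
    rw [h2 x y hx hU hd, hψ.2 _ _ (cg_pp hU)]
  · obtain ⟨η, h4, h5⟩ := h3 u hu hc
    refine ⟨η, h4, fun n hn => ?_⟩
    beta_reduce
    rw [h5 n hn, hψ.2 _ _ (cg_pp_mul hu hn.1), mul_assoc]

theorem vbw_mono {L L' : R 𝕂} (h : L ∣ L') {φ : R 𝕂 → ℂ} (hφ : VBw L φ) : VBw L' φ :=
  ⟨hφ.1, fun x y hx hU hd => hφ.2.1 x y hx hU (h.trans hd),
    fun u hu hc => hφ.2.2 u hu (hc.of_isCoprime_of_dvd_right h)⟩

theorem vbw_conj {L : R 𝕂} {φ : R 𝕂 → ℂ} (hφ : VBw L φ) : VBw L fun n => conj (φ n) := by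
  obtain ⟨h1, h2, h3⟩ := hφ
  refine ⟨fun n => by rw [Complex.norm_conj]; exact h1 n, fun x y hx hU hd => ?_,
    fun u hu hc => ?_⟩
  · beta_reduce
    rw [h2 x y hx hU hd]
  · obtain ⟨η, h4, h5⟩ := h3 u hu hc
    refine ⟨conj η, by rw [Complex.norm_conj, h4], fun n hn => ?_⟩
    beta_reduce
    rw [h5 n hn, map_mul]

theorem vbw_mul' {L : R 𝕂} {φ ψ : R 𝕂 → ℂ} (hφ : VBw L φ) (hψ : VBw L ψ) :
    VBw L fun n => φ n * ψ n := by
  obtain ⟨h1, h2, h3⟩ := hφ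
  obtain ⟨k1, k2, k3⟩ := hψ
  refine ⟨fun n => norm_mul_le_one (h1 n) (k1 n), fun x y hx hU hd => ?_, fun u hu hc => ?_⟩
  · beta_reduce
    rw [h2 x y hx hU hd, k2 x y hx hU hd]
  · obtain ⟨η, h4, h5⟩ := h3 u hu hc
    obtain ⟨η', k4, k5⟩ := k3 u hu hc
    refine ⟨η * η', by rw [norm_mul, h4, k4, mul_one], fun n hn => ?_⟩
    beta_reduce
    rw [h5 n hn, k5 n hn]
    ring

theorem vbw_sex [Rcp 𝕂] {L r : R 𝕂} (hr : r ≠ 0) (hL : ∀ p, Prime p → p ∣ r → p ∣ L) :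
    VBw L fun n => sex r n := by
  refine ⟨fun n => norm_sex_le _ _, fun x y hx hU hd => ?_, fun u hu hc => ?_⟩
  · beta_reduce
    rw [← sex_associated (associated_pp x), ← sex_associated (associated_pp y)]
    exact sex_den_congr hr hx hU fun p hp h => (hL p hp h).trans hd
  · have hu0 : u ≠ 0 := ne_zero_of_inU (x := 1) (by simpa using hu)
    have h3 : IsCoprime r u := isCoprime_of_prime_dvd (fun h => hr h.1) fun p hp h4 h5 =>
      hp.not_isUnit (hc.isUnit_of_dvd' h5 (hL p hp h4))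
    refine ⟨sex r u, norm_sex h3, fun n hn => ?_⟩
    beta_reduce
    rw [sex_mul_right (pp_ne_zero hu0) hn.1, ← sex_associated (associated_pp u)]

theorem ws_split [Rcp 𝕂] (φ : R 𝕂 → ℂ) (r : R 𝕂) {k : R 𝕂} (hk : k ≠ 0) (B : ℝ) (V : ℝ → ℝ)
    (N t : ℝ) : ‖Ws φ B V N t (r * k)‖ ^ 2 ≤ (creps 𝕂 10).card * ∑ α ∈ creps 𝕂 10,
      ‖∑ n ∈ pball 𝕂 (B * N), th0 (ng n) * ang (ng n) * (φ n * conj (sex r n) * ind (Cg n α)) *
        (quad (ng n) k * cub (ng n) k) * V (nm n / N) * nt n t‖ ^ 2 := by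
  obtain ⟨ψ, h1, h2, h3⟩ := sex_flip hk
  have h4 : Ws φ B V N t (r * k) = ∑ α ∈ creps 𝕂 10, conj (ψ α) *
      ∑ n ∈ pball 𝕂 (B * N), th0 (ng n) * ang (ng n) * (φ n * conj (sex r n) * ind (Cg n α)) *
        (quad (ng n) k * cub (ng n) k) * V (nm n / N) * nt n t := by
    simp only [Ws, Finset.mul_sum]
    rw [Finset.sum_comm]
    refine Finset.sum_congr rfl fun n hn => ?_
    have hn0 := (mem_pball.1 hn).1.1
    rw [sex_mul_left, h3 n hn0, map_mul, map_mul, conj_sex (ng n) k,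
      clF_eq_sum (PerP.conj ⟨h2, h1⟩).2 hn0]
    simp only [Finset.sum_mul, Finset.mul_sum]
    exact Finset.sum_congr rfl fun α _ => by ring
  refine le_trans (pow_le_pow_left₀ (norm_nonneg _) ?_ 2) sq_sum_le_card_mul_sum_sq
  rw [h4]
  refine (norm_sum_le _ _).trans (Finset.sum_le_sum fun α _ => ?_)
  rw [norm_mul, Complex.norm_conj]
  exact mul_le_of_le_one_left (norm_nonneg _) (h2 α)

theorem vb2 [Rcp 𝕂] (hvb : VBStmt 𝕂) {B : ℝ} {V : ℝ → ℝ}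
    (hV : Adm B V) {ε : ℝ} (hε : 0 < ε) : ∃ C A : ℝ, 0 < C ∧ 0 ≤ A ∧
    ∀ (N K t : ℝ) (L : R 𝕂) (φ : R 𝕂 → ℂ) (τ : (R 𝕂)ˣ) (s : Finset (R 𝕂)), 1 / B ≤ N → 1 ≤ K →
      L ≠ 0 → VBw L φ → (∀ k ∈ s, Prim k ∧ (nm k : ℝ) ≤ K) →
      ∑ k ∈ s, ‖Ws φ B V N t (τ * k)‖ ^ 2 ≤ C * (1 + |t|) ^ A * (K * nm L) ^ ε * nm L * N *
        (K ^ (6 / 5 : ℝ) + (K ^ 2 * (nm L : ℝ) ^ 2 / N) ^ (41 / 25 : ℝ)) := by
  classical
  obtain ⟨C, A, hC, hA, h1⟩ := hvb B V (ε / 2) hV (half_pos hε)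
  obtain ⟨C₂, hC₂, h2⟩ := card_pdiv_le (K := 𝕂) (min (ε / 2) (1 / 5)) (lt_min (half_pos hε) (by norm_num))
  obtain ⟨C₃, hC₃, h3⟩ := sum_rpow_le_const (𝕂 := 𝕂) (σ := 6 / 5) (by norm_num)
  obtain ⟨c, hc⟩ : ∃ c : ℝ, c = (creps 𝕂 10).card := ⟨_, rfl⟩
  have hc0 : 0 < c := by rw [hc]; linarith [one_le_card_creps (𝕂 := 𝕂)]
  refine ⟨c ^ 2 * C * C₂ * C₃, A, by positivity, hA, fun N K t L φ τ s hN hK hL hφ hs => ?_⟩
  have hB0 : 0 < B := by linarith [hV.1]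
  have hN0 : 0 < N := lt_of_lt_of_le (by positivity) hN
  have hL1 := one_le_nm hL
  set T := (pball 𝕂 K).filter fun l => (nm l : ℝ) ^ 2 ≤ K with hT
  set Dv : R 𝕂 → Finset (R 𝕂) := fun l => pdiv (L * l) with hDv
  set S : R 𝕂 → Finset (R 𝕂) :=
    fun l => (sball 𝕂 (K / (nm l : ℝ) ^ 2)).filter fun k => IsCoprime k (L * l) with hS
  have h4 := sum_le_sum_cover s (T.sigma fun l => Dv l ×ˢ S l)
    (fun i => i.2.1 * i.1 ^ 2 * i.2.2) (fun k => ‖Ws φ B V N t ((τ : R 𝕂) * k)‖ ^ 2) (fun _ => sq_nonneg _)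
    fun k hk => by
      obtain ⟨l, b, k₁, hl, hb', hb, hk₁, hc, rfl⟩ := k_decomp (hs k hk).1 L
      have hLl := mul_ne_zero hL hl.1
      have e1 := one_le_nm (ne_zero_of_dvd_ne_zero hLl hb)
      have e2 := one_le_nm hl.1
      have e3 := one_le_nm hk₁.1.1
      have e4 := (hs _ hk).2
      rw [nm_mul, nm_mul, nm_pow] at e4
      push_cast at e4
      have e5 : (nm l : ℝ) ^ 2 * nm k₁ ≤ K := by
        rw [mul_assoc] at e4
        exact (le_mul_of_one_le_left (by positivity) e1).trans e4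
      have e6 : (nm l : ℝ) ^ 2 ≤ K := (le_mul_of_one_le_right (by positivity) e3).trans e5
      refine ⟨⟨l, b, k₁⟩, Finset.mem_sigma.2 ⟨Finset.mem_filter.2 ⟨mem_pball.2
        ⟨hl, by nlinarith⟩, e6⟩, Finset.mem_product.2 ⟨(mem_pdiv hLl).2 ⟨hb', hb⟩,
          Finset.mem_filter.2 ⟨mem_sball.2 ⟨hk₁, ?_⟩, hc⟩⟩⟩, rfl⟩
      rw [le_div_iff₀ (by positivity), mul_comm]
      exact e5
  obtain ⟨X, hX⟩ : ∃ X, X = K ^ (6 / 5 : ℝ) + (K ^ 2 * (nm L : ℝ) ^ 2 / N) ^ (41 / 25 : ℝ) :=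
    ⟨_, rfl⟩
  have hX0 : 0 ≤ X := by rw [hX]; positivity
  obtain ⟨Y, hY⟩ : ∃ Y, Y = C * (1 + |t|) ^ A * (K * nm L) ^ (ε / 2) * nm L * N * X := ⟨_, rfl⟩
  have hY0 : 0 ≤ Y := by rw [hY]; positivity
  have h5 : ∀ l ∈ T, ∀ b ∈ Dv l, ∑ k ∈ S l, ‖Ws φ B V N t ((τ : R 𝕂) * (b * l ^ 2 * k))‖ ^ 2 ≤
      c ^ 2 * (Y * (nm l : ℝ) ^ (-(7 / 5) : ℝ)) := by
    intro l hl b hb
    obtain ⟨hl', hlK⟩ := Finset.mem_filter.1 hl
    have hl0 := (mem_pball.1 hl').1.1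
    have hLl := mul_ne_zero hL hl0
    have hbd := ((mem_pdiv hLl).1 hb).2
    have e2 := one_le_nm hl0
    have hl1 : (0 : ℝ) < nm l := by linarith
    have hr : VBw (L * l) fun n => sex ((τ : R 𝕂) * (b * l ^ 2)) n := vbw_sex (mul_ne_zero τ.ne_zero
      (mul_ne_zero (ne_zero_of_dvd_ne_zero hLl hbd) (pow_ne_zero 2 hl0)))
      fun p hp h => (hp.dvd_or_dvd (τ.isUnit.dvd_mul_left.1 h)).elim (fun h => h.trans hbd)
        fun h => (hp.dvd_of_dvd_pow h).mul_left L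
    have h6 : ∀ κ ∈ creps 𝕂 10, ∑ k ∈ S l, ‖∑ n ∈ pball 𝕂 (B * N), th0 (ng n) * ang (ng n) *
        (φ n * conj (sex ((τ : R 𝕂) * (b * l ^ 2)) n) * ind (Cg n κ)) * (quad (ng n) k * cub (ng n) k) *
          V (nm n / N) * nt n t‖ ^ 2 ≤ Y * (nm l : ℝ) ^ (-(7 / 5) : ℝ) := by
      intro κ _
      refine le_trans (le_of_eq (by rw [hS])) ((h1 N (K / (nm l : ℝ) ^ 2) t (L * l) _
        hN ((one_le_div (by positivity)).2 hlK) hLl (vbw_mul (vbw_mul'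
          (vbw_mono (dvd_mul_right L l) hφ) (vbw_conj hr)) (perP_ind κ))).trans ?_)
      rw [nm_mul]
      push_cast
      have q1 : (K / (nm l : ℝ) ^ 2 * (nm L * nm l)) ^ (ε / 2) ≤ (K * nm L) ^ (ε / 2) := by
        refine Real.rpow_le_rpow (by positivity) ?_ (by positivity)
        rw [div_mul_eq_mul_div, div_le_iff₀ (by positivity)]
        have : 0 ≤ K * nm L * nm l := by positivity
        nlinarith
      have q2 : (nm l : ℝ) * (K / (nm l : ℝ) ^ 2) ^ (6 / 5 : ℝ) =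
          K ^ (6 / 5 : ℝ) * (nm l : ℝ) ^ (-(7 / 5) : ℝ) := by
        rw [Real.div_rpow (by positivity) (by positivity), ← Real.rpow_natCast,
          ← Real.rpow_mul hl1.le, show (-(7 / 5) : ℝ) = 1 - (2 : ℕ) * (6 / 5) by norm_num,
          Real.rpow_sub hl1, Real.rpow_one]
        ring
      have q3 : (nm l : ℝ) * ((K / (nm l : ℝ) ^ 2) ^ 2 * (nm L * nm l) ^ 2 / N) ^ (41 / 25 : ℝ) ≤
          (K ^ 2 * (nm L : ℝ) ^ 2 / N) ^ (41 / 25 : ℝ) * (nm l : ℝ) ^ (-(7 / 5) : ℝ) := by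
        have q4 : (K / (nm l : ℝ) ^ 2) ^ 2 * (nm L * nm l) ^ 2 / N =
            K ^ 2 * (nm L : ℝ) ^ 2 / N / (nm l : ℝ) ^ 2 := by field_simp
        have q5 : (nm l : ℝ) / ((nm l : ℝ) ^ 2) ^ (41 / 25 : ℝ) ≤ (nm l : ℝ) ^ (-(7 / 5) : ℝ) := by
          rw [← Real.rpow_natCast, ← Real.rpow_mul hl1.le, ← Real.rpow_one_sub' hl1.le
            (by norm_num)]
          exact Real.rpow_le_rpow_of_exponent_le e2 (by norm_num)
        rw [q4, Real.div_rpow (by positivity) (by positivity), mul_div_left_comm]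
        exact mul_le_mul_of_nonneg_left q5 (by positivity)
      have q6 : (nm l : ℝ) * ((K / (nm l : ℝ) ^ 2) ^ (6 / 5 : ℝ) +
          ((K / (nm l : ℝ) ^ 2) ^ 2 * (nm L * nm l) ^ 2 / N) ^ (41 / 25 : ℝ)) ≤
          X * (nm l : ℝ) ^ (-(7 / 5) : ℝ) := by
        rw [mul_add, q2, hX, add_mul]
        exact add_le_add le_rfl q3
      have q7 := mul_le_mul_of_nonneg_left (mul_le_mul q1 q6 (by positivity) (by positivity))
        (by positivity : 0 ≤ C * (1 + |t|) ^ A * nm L * N)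
      refine le_trans (le_of_eq (by ring)) (q7.trans (le_of_eq ?_))
      rw [hY]; ring
    have h7 := Finset.sum_le_card_nsmul _ _ _ h6
    rw [nsmul_eq_mul, Finset.sum_comm, ← hc] at h7
    refine (Finset.sum_le_sum fun k hk => ?_).trans ((Finset.mul_sum _ _ c).symm.trans_le
      ((mul_le_mul_of_nonneg_left h7 hc0.le).trans_eq (by ring)))
    rw [show (τ : R 𝕂) * (b * l ^ 2 * k) = τ * (b * l ^ 2) * k by ring, hc]
    exact ws_split φ _ (mem_sball.1 (Finset.mem_filter.1 hk).1).1.1.1 B V N t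
  have h8 : ∀ l ∈ T, ∑ b ∈ Dv l, ∑ k ∈ S l, ‖Ws φ B V N t ((τ : R 𝕂) * (b * l ^ 2 * k))‖ ^ 2 ≤
      c ^ 2 * C₂ * (K * nm L) ^ (ε / 2) * Y * (nm l : ℝ) ^ (-(6 / 5) : ℝ) := by
    intro l hl
    have hl0 := (mem_pball.1 (Finset.mem_filter.1 hl).1).1.1
    have e2 := one_le_nm hl0
    have hl1 : (0 : ℝ) < nm l := by linarith
    have h9 := Finset.sum_le_card_nsmul _ _ _ (h5 l hl)
    rw [nsmul_eq_mul] at h9
    have h10 : ((Dv l).card : ℝ) ≤ C₂ * ((K * nm L) ^ (ε / 2) * (nm l : ℝ) ^ (1 / 5 : ℝ)) := by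
      refine le_trans (le_of_eq (by rw [hDv])) ((h2 (L * l) (mul_ne_zero hL hl0)).trans
        (mul_le_mul_of_nonneg_left ?_ hC₂.le))
      rw [nm_mul]
      push_cast
      rw [Real.mul_rpow (by positivity) hl1.le]
      refine mul_le_mul ?_ (Real.rpow_le_rpow_of_exponent_le e2 (min_le_right _ _))
        (by positivity) (by positivity)
      exact (Real.rpow_le_rpow_of_exponent_le hL1 (min_le_left _ _)).trans
        (Real.rpow_le_rpow (by positivity) (le_mul_of_one_le_left (by positivity) hK)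
          (by positivity))
    refine h9.trans ((mul_le_mul_of_nonneg_right h10 (by positivity)).trans (le_of_eq ?_))
    rw [show (-(6 / 5) : ℝ) = 1 / 5 + -(7 / 5) by norm_num, Real.rpow_add hl1]
    ring
  rw [Finset.sum_sigma] at h4
  simp only [Finset.sum_product] at h4
  refine h4.trans ((Finset.sum_le_sum h8).trans ?_)
  rw [← Finset.mul_sum]
  refine (mul_le_mul_of_nonneg_left (h3 T fun l hl => (mem_pball.1 (Finset.mem_filter.1 hl).1).1) (by positivity)).trans (le_of_eq ?_)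
  have h11 : (K * nm L) ^ ε = (K * nm L) ^ (ε / 2) * (K * nm L) ^ (ε / 2) := by
    rw [← Real.rpow_add (by positivity), add_halves]
  rw [h11, hY, hX]; ring

end Vale.Agent.P319.Rec
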