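import Vale.Agent.P319.N.Gauss
import Vale.Agent.P319.N.Ray

/-! GAUSS: consequences of the reciprocity laws.  `bs s a b` is the reciprocity factor of the symbol `s`:
`s a b = bs s a b * s b a`; it is unimodular, bimultiplicative and depends only on `a`, `b` modulo `U`. -/

namespace Vale.Agent.P319

open scoped ComplexConjugate Real

variable {K : Type} [Field K] [NumberField K] [Stp K]

/-- the formal properties of a power residue symbol with reciprocity on `U` -/
structure Symb (s : R K → R K → ℂ) : Prop where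
  mul_left : ∀ a b n, s (a * b) n = s a n * s b n
  mul_right : ∀ {m n}, m ≠ 0 → n ≠ 0 → ∀ a, s a (m * n) = s a m * s a n
  unit_right : ∀ {u}, IsUnit u → ∀ a, s a u = 1
  norm : ∀ {a n}, IsCoprime a n → ‖s a n‖ = 1
  zero : ∀ {a n}, n ≠ 0 → ¬IsCoprime a n → s a n = 0
  congr : ∀ {a b n}, (∀ p, Prime p → p ∣ n → p ∣ a - b) → s a n = s b n
  recip : ∀ {x y : R K}, InU (x : K) → y ≠ 0 → IsCoprime x y → s y x = s x y

/-- the reciprocity factor -/
noncomputable def bs (s : R K → R K → ℂ) (a b : R K) : ℂ :=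
  open Classical in
  if h : ∃ z : R K, InU ((a : K) * z) ∧ IsCoprime z b then s b h.choose * conj (s h.choose b) else 1

theorem one_le_ten : 1 ≤ 10 := by norm_num

theorem InUq.left_ne {x y : R K} (h : InU ((x : K) / y)) : x ≠ 0 := fun e =>
  h.ne_zero one_le_ten (by simp [e])

theorem InUq.right_ne {x y : R K} (h : InU ((x : K) / y)) : y ≠ 0 := fun e =>
  h.ne_zero one_le_ten (by simp [e])

theorem inU_div_self {x : R K} (h : x ≠ 0) : InU ((x : K) / x) := by
  rw [div_self (coe_ne_zero h)]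
  exact inUq_one _

theorem exists_inU_mul {a b : R K} (ha : a ≠ 0) (hb : b ≠ 0) :
    ∃ z : R K, InU ((a : K) * z) ∧ IsCoprime z b := by
  obtain ⟨z, h1, h2⟩ := exists_R_inUq_coprime 10 (inv_ne_zero (coe_ne_zero ha)) hb
  exact ⟨z, by rwa [div_inv_eq_mul, mul_comm] at h1, h2⟩

theorem eq_of_mul_conj {a b c d : ℂ} (hb : ‖b‖ = 1) (hd : ‖d‖ = 1) (h : a * d = c * b) :
    a * conj b = c * conj d := by
  have h1 := conj_mul_of_norm hb
  have h2 := conj_mul_of_norm hd
  linear_combination conj b * conj d * h - a * conj b * h2 + c * conj d * h1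

namespace Symb

variable {s : R K → R K → ℂ} (hs : Symb s)
include hs

theorem norm_le (a : R K) {n : R K} (hn : n ≠ 0) : ‖s a n‖ ≤ 1 := by
  by_cases h : IsCoprime a n
  · exact (hs.norm h).le
  · rw [hs.zero hn h, norm_zero]; exact zero_le_one

theorem associated {m n : R K} (h : Associated m n) (a : R K) : s a m = s a n := by
  by_cases hm : m = 0
  · subst hm
    rw [(associated_zero_iff_eq_zero n).1 h.symm]
  · obtain ⟨u, rfl⟩ := h
    rw [hs.mul_right hm u.ne_zero, hs.unit_right u.isUnit, mul_one]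

theorem one_left (n : R K) : s 1 n = 1 := by
  have h1 := hs.mul_left 1 1 n
  have h2 := hs.norm (isCoprime_one_left (x := n))
  rw [one_mul] at h1
  exact (mul_eq_left₀ fun h => by simp [h] at h2).1 h1.symm

theorem pow_left (a n : R K) (k : ℕ) : s (a ^ k) n = s a n ^ k := by
  induction k with
  | zero => simpa using hs.one_left n
  | succ k ih => rw [pow_succ, hs.mul_left, ih, pow_succ]

theorem unit_inv (u : (R K)ˣ) (n : R K) : s ((u⁻¹ : (R K)ˣ) : R K) n = conj (s u n) := by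
  have h1 := hs.mul_left ((u⁻¹ : (R K)ˣ) : R K) u n
  have h2 := conj_mul_of_norm (hs.norm (unit_coprime u n))
  rw [Units.inv_mul, hs.one_left] at h1
  linear_combination -(s ((u⁻¹ : (R K)ˣ) : R K) n) * h2 - conj (s u n) * h1

theorem key {a b z : R K} (hb : b ≠ 0) (hab : IsCoprime a b) (h : InU ((a : K) * z))
    (hz : IsCoprime z b) : s a b * conj (s b a) = s b z * conj (s z b) := by
  have h0 := h.ne_zero one_le_ten
  have ha : a ≠ 0 := fun e => h0 (by simp [e])
  have hz0 : z ≠ 0 := fun e => h0 (by simp [e])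
  have h1 := hs.recip (x := a * z) (by rwa [map_mul]) hb (hab.mul_left hz)
  rw [hs.mul_left, hs.mul_right ha hz0] at h1
  exact eq_of_mul_conj (hs.norm hab.symm) (hs.norm hz) (by rw [← h1, mul_comm])

theorem bs_eq {a b z : R K} (hb : b ≠ 0) (h : InU ((a : K) * z)) (hz : IsCoprime z b) :
    bs s a b = s b z * conj (s z b) := by
  have hex : ∃ z : R K, InU ((a : K) * z) ∧ IsCoprime z b := ⟨z, h, hz⟩
  obtain ⟨h1, h2⟩ := hex.choose_spec
  have ha : (a : K) ≠ 0 := left_ne_zero_of_mul (h.ne_zero one_le_ten)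
  obtain ⟨a', h3, h4⟩ := exists_R_inUq_coprime 10 ha hb
  have e : ∀ w : R K, InU ((a : K) * w) → InU ((a' : K) * w) := fun w hw => by
    have := h3.mul hw
    rwa [← mul_assoc, div_mul_cancel₀ _ ha] at this
  rw [bs, dif_pos hex, ← hs.key hb h4 (e _ h1) h2, hs.key hb h4 (e _ h) hz]

theorem norm_bs (a b : R K) : ‖bs s a b‖ = 1 := by
  rw [bs]
  split_ifs with h
  · rw [norm_mul, Complex.norm_conj, hs.norm h.choose_spec.2, hs.norm h.choose_spec.2.symm, one_mul]
  · exact norm_one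

theorem bs_of_coprime {a b : R K} (ha : a ≠ 0) (hb : b ≠ 0) (h : IsCoprime a b) :
    bs s a b = s a b * conj (s b a) := by
  obtain ⟨z, h1, h2⟩ := exists_inU_mul ha hb
  rw [hs.bs_eq hb h1 h2, hs.key hb h h1 h2]

/-- the general reciprocity law -/
theorem recip_bs {a b : R K} (ha : a ≠ 0) (hb : b ≠ 0) : s a b = bs s a b * s b a := by
  by_cases h : IsCoprime a b
  · rw [hs.bs_of_coprime ha hb h, mul_assoc, conj_mul_of_norm (hs.norm h.symm), mul_one]
  · rw [hs.zero hb h, hs.zero ha fun k => h k.symm, mul_zero]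

theorem bs_congr_left {a a' b : R K} (h : InU ((a' : K) / a)) (hb : b ≠ 0) :
    bs s a' b = bs s a b := by
  obtain ⟨z, h1, h2⟩ := exists_inU_mul h.right_ne hb
  have := h.mul h1
  rw [← mul_assoc, div_mul_cancel₀ _ (coe_ne_zero h.right_ne)] at this
  rw [hs.bs_eq hb this h2, hs.bs_eq hb h1 h2]

theorem bs_mul_left {a a' b : R K} (ha : a ≠ 0) (ha' : a' ≠ 0) (hb : b ≠ 0) :
    bs s (a * a') b = bs s a b * bs s a' b := by
  obtain ⟨z, h1, h2⟩ := exists_inU_mul ha hb
  obtain ⟨z', h3, h4⟩ := exists_inU_mul ha' hb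
  have hz : z ≠ 0 := fun e => h1.ne_zero one_le_ten (by simp [e])
  have hz' : z' ≠ 0 := fun e => h3.ne_zero one_le_ten (by simp [e])
  rw [hs.bs_eq (z := z * z') hb (by
    have := h1.mul h3
    rwa [mul_mul_mul_comm, ← map_mul, ← map_mul] at this) (h2.mul_left h4), hs.bs_eq hb h1 h2,
    hs.bs_eq hb h3 h4, hs.mul_left, hs.mul_right hz hz', map_mul]
  ring

theorem bs_mul_right {a b b' : R K} (ha : a ≠ 0) (hb : b ≠ 0) (hb' : b' ≠ 0) :
    bs s a (b * b') = bs s a b * bs s a b' := by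
  obtain ⟨z, h1, h2⟩ := exists_inU_mul ha (mul_ne_zero hb hb')
  rw [hs.bs_eq (mul_ne_zero hb hb') h1 h2, hs.bs_eq hb h1 h2.of_mul_right_left,
    hs.bs_eq hb' h1 h2.of_mul_right_right, hs.mul_left, hs.mul_right hb hb', map_mul]
  ring

theorem bs_symm {a b : R K} (ha : a ≠ 0) (hb : b ≠ 0) : bs s b a = conj (bs s a b) := by
  obtain ⟨z, h3, h4⟩ := exists_inU_mul ha hb
  have hz : z ≠ 0 := fun e => h3.ne_zero one_le_ten (by simp [e])
  obtain ⟨w, h5, h6⟩ := exists_inU_mul hb (mul_ne_zero ha hz)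
  have hw : w ≠ 0 := fun e => h5.ne_zero one_le_ten (by simp [e])
  have e1 := hs.key hz h4.symm h5 h6.of_mul_right_right
  have e2 := hs.key hw h6.of_mul_right_left.symm h3 h6.of_mul_right_right.symm
  rw [hs.bs_eq ha h5 h6.of_mul_right_left, hs.bs_eq hb h3 h4, e1, e2, map_mul,
    Complex.conj_conj, mul_comm]

theorem bs_congr_right {a b b' : R K} (ha : a ≠ 0) (h : InU ((b' : K) / b)) :
    bs s a b' = bs s a b := by
  rw [hs.bs_symm h.left_ne ha, hs.bs_symm h.right_ne ha, hs.bs_congr_left h ha]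

theorem bs_congr {a a' b b' : R K} (ha : InU ((a' : K) / a)) (hb : InU ((b' : K) / b)) :
    bs s a' b' = bs s a b := by
  rw [hs.bs_congr_left ha hb.left_ne, hs.bs_congr_right ha.right_ne hb]

theorem bs_inU_left {a b : R K} (h : InU (a : K)) (hb : b ≠ 0) : bs s a b = 1 := by
  rw [hs.bs_eq (z := 1) hb (by simpa using h) isCoprime_one_left, hs.unit_right isUnit_one,
    hs.one_left, map_one, mul_one]

theorem bs_inU_right {a b : R K} (ha : a ≠ 0) (h : InU (b : K)) : bs s a b = 1 := by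
  have hb : b ≠ 0 := fun e => h.ne_zero one_le_ten (by simp [e])
  rw [hs.bs_symm hb ha, hs.bs_inU_left h ha, map_one]

theorem bs_ng_congr {a a' b b' : R K} (ha : Cg a a') (hb : Cg b b') :
    bs s (ng a) (ng b) = bs s (ng a') (ng b') := hs.bs_congr ha.inU_ng hb.inU_ng

theorem unit_eq_bs (τ : (R K)ˣ) {n : R K} (hn : n ≠ 0) : s τ n = bs s τ n := by
  rw [hs.recip_bs τ.ne_zero hn, hs.unit_right τ.isUnit, mul_one]

/-- reciprocity on `U` without coprimality -/
theorem recip_inU {x y : R K} (hx : InU (x : K)) (hy : y ≠ 0) : s y x = s x y := by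
  have h0 : x ≠ 0 := fun e => hx.ne_zero one_le_ten (by simp [e])
  rw [hs.recip_bs hy h0, hs.bs_inU_right hy hx, one_mul]

/-- the symbol as a function of the denominator -/
theorem den_congr {a x y : R K} (ha : a ≠ 0) (h : InU ((y : K) / x))
    (hp : ∀ p, Prime p → p ∣ a → p ∣ x - y) : s a x = s a y := by
  rw [hs.recip_bs ha h.left_ne, hs.recip_bs ha h.right_ne, hs.bs_congr_right ha h, hs.congr hp]

theorem den_congr_ray {a m x y : R K} (ha : a ≠ 0) (h : Ray 10 m x y)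
    (hp : ∀ p, Prime p → p ∣ a → p ∣ m) : s a x = s a y := by
  obtain ⟨x', h1, h2, h3⟩ := h.exists_associated
  rw [← hs.associated h1]
  exact (hs.den_congr ha h2 fun p k1 k2 => dvd_sub_comm.1 ((hp p k1 k2).trans h3)).symm

theorem unit_inU (τ : (R K)ˣ) {x : R K} (h : InU (x : K)) : s τ x = 1 := by
  rw [hs.recip_inU h τ.ne_zero, hs.unit_right τ.isUnit]

theorem unit_congr (τ : (R K)ˣ) {x y : R K} (h : InU ((y : K) / x)) : s τ x = s τ y :=
  hs.den_congr τ.ne_zero h fun _ hp k => absurd k (Prime.not_dvd_unit hp τ.isUnit)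

theorem unit_cg (τ : (R K)ˣ) {x y : R K} (h : Cg x y) : s τ x = s τ y :=
  hs.den_congr_ray τ.ne_zero h fun _ hp k => absurd k (Prime.not_dvd_unit hp τ.isUnit)

theorem clF_unit (τ : (R K)ˣ) : ClF fun n => s τ n := fun _ _ h => hs.unit_cg τ h

theorem clF_isUnit {τ : R K} (h : IsUnit τ) : ClF fun n => s τ n := hs.clF_unit h.unit

theorem EU_left {u : (R K)ˣ} (hu : u ∈ EU K) {n : R K} (hn : n ≠ 0) : s u n = 1 := by
  rw [← hs.recip_inU (mem_EU.1 hu) hn, hs.unit_right u.isUnit]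

theorem EU_mul_left {u : (R K)ˣ} (hu : u ∈ EU K) (a : R K) {n : R K} (hn : n ≠ 0) :
    s ((u : R K) * a) n = s a n := by
  rw [hs.mul_left, hs.EU_left hu hn, one_mul]

theorem ng_right (a n : R K) : s a (ng n) = s a n := hs.associated (associated_ng n) a

end Symb

theorem norm_sq_int_z3 (a b : ℤ) : ‖(a : ℂ) + b * z3‖ ^ 2 = (a ^ 2 - a * b + b ^ 2 : ℤ) := by
  have h : √3 ^ 2 = 3 := Real.sq_sqrt (by norm_num)
  rw [Complex.sq_norm, Complex.normSq_apply]
  simp only [Complex.add_re, Complex.add_im, Complex.mul_re, Complex.mul_im, Complex.intCast_re,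
    Complex.intCast_im, z3_re, z3_im]
  push_cast
  linear_combination (b ^ 2 / 4 : ℝ) * h

theorem prod_ev_EU {u : (R K)ˣ} (hu : u ∈ EU K) : ∏ v : Pl K, ev v ((u : R K) : K) = 1 := by
  obtain ⟨t, e, s, hs⟩ := (mem_EU.1 hu).exists_int
  obtain ⟨a, b, h⟩ := prod_ev_congr s (MM K ^ 10)
  have e1 : ((u : R K) : K) = 1 + (MM K ^ 10 : ℕ) * (s : K) := by
    rw [e, coe_int, show t = 1 + MM K ^ 10 * s by linear_combination hs]
    simp
  have h1 := prod_norm_ev ((u : R K) : K)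
  rw [nK_EU hu, Finset.prod_pow, ← norm_prod, e1, h] at h1
  rw [e1, h]
  have h2 := norm_sq_int_z3 (1 + (MM K ^ 10 : ℕ) * a) ((MM K ^ 10 : ℕ) * b)
  have h3 : 6 ≤ MM K ^ 10 := (six_le_M (K := K)).trans (Nat.le_self_pow (by norm_num) _)
  generalize MM K ^ 10 = m at *
  rw [show ((1 + m * a : ℤ) : ℂ) + ((m * b : ℤ) : ℂ) * z3 = 1 + m * (a + b * z3) by push_cast; ring,
    h1] at h2
  have h4 : (1 + m * a : ℤ) ^ 2 - (1 + m * a) * (m * b) + (m * b) ^ 2 = 1 := by exact_mod_cast h2.symm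
  have h5 : (6 : ℤ) ≤ m := by exact_mod_cast h3
  have h6 : m * (a ^ 2 - a * b + b ^ 2) = b - 2 * a :=
    mul_left_cancel₀ (show (m : ℤ) ≠ 0 by omega) (by linear_combination h4)
  have h7 : a ^ 2 - a * b + b ^ 2 = 0 := by
    by_contra h8
    have h9 : 0 ≤ a ^ 2 - a * b + b ^ 2 := by nlinarith [sq_nonneg (2 * a - b), sq_nonneg b]
    have h10 : 1 ≤ a ^ 2 - a * b + b ^ 2 := by omega
    have h11 : 6 * (a ^ 2 - a * b + b ^ 2) ≤ b - 2 * a := by nlinarith
    nlinarith [sq_nonneg b, sq_nonneg (b - 2 * a - 1)]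
  have h8 := norm_sq_int_z3 a b
  rw [h7, Int.cast_zero, sq_eq_zero_iff, norm_eq_zero] at h8
  rw [h8, mul_zero, add_zero]

theorem ang_EU {u : (R K)ˣ} (hu : u ∈ EU K) : ang (u : R K) = 1 := by
  rw [ang_eq, prod_ev_EU hu, nK_EU hu]
  simp

theorem ang_EU_mul {u : (R K)ˣ} (hu : u ∈ EU K) (x : R K) : ang ((u : R K) * x) = ang x := by
  rw [ang_mul, ang_EU hu, one_mul]

theorem cub_congr_rad {a b n : R K} (h : ∀ p, Prime p → p ∣ n → p ∣ a - b) : cub a n = cub b n :=
  SymAux.sy_congr fun p hp hpn => by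
    rw [← cub_prime hp, ← cub_prime hp, cub_congr (h p hp hpn)]

theorem quad_congr_rad {a b n : R K} (h : ∀ p, Prime p → p ∣ n → p ∣ a - b) :
    quad a n = quad b n :=
  SymAux.sy_congr fun p hp hpn => by
    rw [← quad_prime hp, ← quad_prime hp, quad_congr (h p hp hpn)]

theorem sex_congr_rad {a b n : R K} (h : ∀ p, Prime p → p ∣ n → p ∣ a - b) : sex a n = sex b n := by
  rw [sex, sex, cub_congr_rad h, quad_congr_rad h]

theorem symb_cub_of (h : CubStmt K) : Symb (cub : R K → R K → ℂ) :=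
  ⟨cub_mul_left, cub_mul_right, cub_unit_right, norm_cub, cub_eq_zero, cub_congr_rad,
    fun h1 h2 h3 => h _ _ h1 h2 h3⟩

theorem symb_quad_of (h : QGStmt K) : Symb (quad : R K → R K → ℂ) :=
  ⟨quad_mul_left, quad_mul_right, quad_unit_right, norm_quad, quad_eq_zero, quad_congr_rad,
    fun h1 h2 h3 => h.1 _ _ h1 h2 h3⟩

/-- cubic reciprocity factor: `cub a b = bc a b * cub b a` -/
noncomputable def bc (a b : R K) : ℂ := bs cub a b
/-- quadratic reciprocity factor: `quad a b = bq a b * quad b a` -/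
noncomputable def bq (a b : R K) : ℂ := bs quad a b
/-- sextic reciprocity factor: `sex a b = b6 a b * sex b a` -/
noncomputable def b6 (a b : R K) : ℂ := bs sex a b

variable [Rcp K] {a a' b b' m n x y : R K}

theorem symb_cub : Symb (cub : R K → R K → ℂ) := symb_cub_of Rcp.cubic
theorem symb_quad : Symb (quad : R K → R K → ℂ) := symb_quad_of Rcp.quadr
theorem symb_sex : Symb (sex : R K → R K → ℂ) :=
  ⟨sex_mul_left, sex_mul_right, sex_unit_right, norm_sex, sex_eq_zero, sex_congr_rad,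
    fun h1 h2 h3 => by rw [sex, sex, symb_cub.recip h1 h2 h3, symb_quad.recip h1 h2 h3]⟩

theorem cub_recip (ha : a ≠ 0) (hb : b ≠ 0) : cub a b = bc a b * cub b a := symb_cub.recip_bs ha hb
theorem cub_recip_inU (hx : InU (x : K)) (hy : y ≠ 0) : cub y x = cub x y := symb_cub.recip_inU hx hy
theorem norm_bc (a b : R K) : ‖bc a b‖ = 1 := symb_cub.norm_bs a b
theorem norm_bc_le (a b : R K) : ‖bc a b‖ ≤ 1 := (norm_bc a b).le
theorem bc_of_coprime (ha : a ≠ 0) (hb : b ≠ 0) (h : IsCoprime a b) :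
    bc a b = cub a b * conj (cub b a) := symb_cub.bs_of_coprime ha hb h
theorem bc_symm (ha : a ≠ 0) (hb : b ≠ 0) : bc b a = conj (bc a b) := symb_cub.bs_symm ha hb
theorem bc_mul_left (ha : a ≠ 0) (ha' : a' ≠ 0) (hb : b ≠ 0) :
    bc (a * a') b = bc a b * bc a' b := symb_cub.bs_mul_left ha ha' hb
theorem bc_mul_right (ha : a ≠ 0) (hb : b ≠ 0) (hb' : b' ≠ 0) :
    bc a (b * b') = bc a b * bc a b' := symb_cub.bs_mul_right ha hb hb'
theorem bc_congr (ha : InU ((a' : K) / a)) (hb : InU ((b' : K) / b)) : bc a' b' = bc a b :=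
  symb_cub.bs_congr ha hb
theorem bc_congr_left (h : InU ((a' : K) / a)) (hb : b ≠ 0) : bc a' b = bc a b :=
  symb_cub.bs_congr_left h hb
theorem bc_congr_right (ha : a ≠ 0) (h : InU ((b' : K) / b)) : bc a b' = bc a b :=
  symb_cub.bs_congr_right ha h
theorem bc_inU_left (h : InU (a : K)) (hb : b ≠ 0) : bc a b = 1 := symb_cub.bs_inU_left h hb
theorem bc_inU_right (ha : a ≠ 0) (h : InU (b : K)) : bc a b = 1 := symb_cub.bs_inU_right ha h
theorem bc_ng_congr (ha : Cg a a') (hb : Cg b b') : bc (ng a) (ng b) = bc (ng a') (ng b') :=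
  symb_cub.bs_ng_congr ha hb
theorem cub_den_congr (ha : a ≠ 0) (h : InU ((y : K) / x))
    (hp : ∀ p, Prime p → p ∣ a → p ∣ x - y) : cub a x = cub a y := symb_cub.den_congr ha h hp
theorem cub_den_congr_ray (ha : a ≠ 0) (h : Ray 10 m x y) (hp : ∀ p, Prime p → p ∣ a → p ∣ m) :
    cub a x = cub a y := symb_cub.den_congr_ray ha h hp
theorem cub_unit_inU (τ : (R K)ˣ) (h : InU (x : K)) : cub τ x = 1 := symb_cub.unit_inU τ h
theorem cub_unit_congr (τ : (R K)ˣ) (h : InU ((y : K) / x)) : cub τ x = cub τ y :=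
  symb_cub.unit_congr τ h
theorem cub_unit_cg (τ : (R K)ˣ) (h : Cg x y) : cub τ x = cub τ y := symb_cub.unit_cg τ h
theorem clF_cub_unit (τ : (R K)ˣ) : ClF fun n => cub (τ : R K) n := symb_cub.clF_unit τ
theorem cub_EU {u : (R K)ˣ} (hu : u ∈ EU K) (n : R K) : cub u n = 1 := by
  by_cases hn : n = 0
  · simp [hn]
  · exact symb_cub.EU_left hu hn
theorem cub_EU_mul {u : (R K)ˣ} (hu : u ∈ EU K) (x n : R K) : cub ((u : R K) * x) n = cub x n := by
  rw [cub_mul_left, cub_EU hu, one_mul]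
theorem clF_cub_isUnit (h : IsUnit a) : ClF fun n => cub a n := symb_cub.clF_isUnit h

theorem quad_recip (ha : a ≠ 0) (hb : b ≠ 0) : quad a b = bq a b * quad b a := symb_quad.recip_bs ha hb
theorem quad_recip_inU (hx : InU (x : K)) (hy : y ≠ 0) : quad y x = quad x y := symb_quad.recip_inU hx hy
theorem norm_bq (a b : R K) : ‖bq a b‖ = 1 := symb_quad.norm_bs a b
theorem norm_bq_le (a b : R K) : ‖bq a b‖ ≤ 1 := (norm_bq a b).le
theorem bq_of_coprime (ha : a ≠ 0) (hb : b ≠ 0) (h : IsCoprime a b) :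
    bq a b = quad a b * conj (quad b a) := symb_quad.bs_of_coprime ha hb h
theorem bq_symm (ha : a ≠ 0) (hb : b ≠ 0) : bq b a = conj (bq a b) := symb_quad.bs_symm ha hb
theorem bq_mul_left (ha : a ≠ 0) (ha' : a' ≠ 0) (hb : b ≠ 0) :
    bq (a * a') b = bq a b * bq a' b := symb_quad.bs_mul_left ha ha' hb
theorem bq_mul_right (ha : a ≠ 0) (hb : b ≠ 0) (hb' : b' ≠ 0) :
    bq a (b * b') = bq a b * bq a b' := symb_quad.bs_mul_right ha hb hb'
theorem bq_congr (ha : InU ((a' : K) / a)) (hb : InU ((b' : K) / b)) : bq a' b' = bq a b :=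
  symb_quad.bs_congr ha hb
theorem bq_congr_left (h : InU ((a' : K) / a)) (hb : b ≠ 0) : bq a' b = bq a b :=
  symb_quad.bs_congr_left h hb
theorem bq_congr_right (ha : a ≠ 0) (h : InU ((b' : K) / b)) : bq a b' = bq a b :=
  symb_quad.bs_congr_right ha h
theorem bq_inU_left (h : InU (a : K)) (hb : b ≠ 0) : bq a b = 1 := symb_quad.bs_inU_left h hb
theorem bq_inU_right (ha : a ≠ 0) (h : InU (b : K)) : bq a b = 1 := symb_quad.bs_inU_right ha h
theorem bq_ng_congr (ha : Cg a a') (hb : Cg b b') : bq (ng a) (ng b) = bq (ng a') (ng b') :=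
  symb_quad.bs_ng_congr ha hb
theorem quad_den_congr (ha : a ≠ 0) (h : InU ((y : K) / x))
    (hp : ∀ p, Prime p → p ∣ a → p ∣ x - y) : quad a x = quad a y := symb_quad.den_congr ha h hp
theorem quad_den_congr_ray (ha : a ≠ 0) (h : Ray 10 m x y) (hp : ∀ p, Prime p → p ∣ a → p ∣ m) :
    quad a x = quad a y := symb_quad.den_congr_ray ha h hp
theorem quad_unit_inU (τ : (R K)ˣ) (h : InU (x : K)) : quad τ x = 1 := symb_quad.unit_inU τ h
theorem quad_unit_congr (τ : (R K)ˣ) (h : InU ((y : K) / x)) : quad τ x = quad τ y :=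
  symb_quad.unit_congr τ h
theorem quad_unit_cg (τ : (R K)ˣ) (h : Cg x y) : quad τ x = quad τ y := symb_quad.unit_cg τ h
theorem clF_quad_unit (τ : (R K)ˣ) : ClF fun n => quad (τ : R K) n := symb_quad.clF_unit τ
theorem quad_EU {u : (R K)ˣ} (hu : u ∈ EU K) (n : R K) : quad u n = 1 := by
  by_cases hn : n = 0
  · simp [hn]
  · exact symb_quad.EU_left hu hn
theorem quad_EU_mul {u : (R K)ˣ} (hu : u ∈ EU K) (x n : R K) : quad ((u : R K) * x) n = quad x n := by
  rw [quad_mul_left, quad_EU hu, one_mul]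
theorem clF_quad_isUnit (h : IsUnit a) : ClF fun n => quad a n := symb_quad.clF_isUnit h

theorem sex_recip (ha : a ≠ 0) (hb : b ≠ 0) : sex a b = b6 a b * sex b a := symb_sex.recip_bs ha hb
theorem sex_recip_inU (hx : InU (x : K)) (hy : y ≠ 0) : sex y x = sex x y := symb_sex.recip_inU hx hy
theorem norm_b6 (a b : R K) : ‖b6 a b‖ = 1 := symb_sex.norm_bs a b
theorem norm_b6_le (a b : R K) : ‖b6 a b‖ ≤ 1 := (norm_b6 a b).le
theorem b6_of_coprime (ha : a ≠ 0) (hb : b ≠ 0) (h : IsCoprime a b) :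
    b6 a b = sex a b * conj (sex b a) := symb_sex.bs_of_coprime ha hb h
theorem b6_symm (ha : a ≠ 0) (hb : b ≠ 0) : b6 b a = conj (b6 a b) := symb_sex.bs_symm ha hb
theorem b6_mul_left (ha : a ≠ 0) (ha' : a' ≠ 0) (hb : b ≠ 0) :
    b6 (a * a') b = b6 a b * b6 a' b := symb_sex.bs_mul_left ha ha' hb
theorem b6_mul_right (ha : a ≠ 0) (hb : b ≠ 0) (hb' : b' ≠ 0) :
    b6 a (b * b') = b6 a b * b6 a b' := symb_sex.bs_mul_right ha hb hb'
theorem b6_congr (ha : InU ((a' : K) / a)) (hb : InU ((b' : K) / b)) : b6 a' b' = b6 a b :=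
  symb_sex.bs_congr ha hb
theorem b6_congr_left (h : InU ((a' : K) / a)) (hb : b ≠ 0) : b6 a' b = b6 a b :=
  symb_sex.bs_congr_left h hb
theorem b6_congr_right (ha : a ≠ 0) (h : InU ((b' : K) / b)) : b6 a b' = b6 a b :=
  symb_sex.bs_congr_right ha h
theorem b6_inU_left (h : InU (a : K)) (hb : b ≠ 0) : b6 a b = 1 := symb_sex.bs_inU_left h hb
theorem b6_inU_right (ha : a ≠ 0) (h : InU (b : K)) : b6 a b = 1 := symb_sex.bs_inU_right ha h
theorem b6_ng_congr (ha : Cg a a') (hb : Cg b b') : b6 (ng a) (ng b) = b6 (ng a') (ng b') :=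
  symb_sex.bs_ng_congr ha hb
theorem sex_den_congr (ha : a ≠ 0) (h : InU ((y : K) / x))
    (hp : ∀ p, Prime p → p ∣ a → p ∣ x - y) : sex a x = sex a y := symb_sex.den_congr ha h hp
theorem sex_den_congr_ray (ha : a ≠ 0) (h : Ray 10 m x y) (hp : ∀ p, Prime p → p ∣ a → p ∣ m) :
    sex a x = sex a y := symb_sex.den_congr_ray ha h hp
theorem sex_unit_inU (τ : (R K)ˣ) (h : InU (x : K)) : sex τ x = 1 := symb_sex.unit_inU τ h
theorem sex_unit_congr (τ : (R K)ˣ) (h : InU ((y : K) / x)) : sex τ x = sex τ y :=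
  symb_sex.unit_congr τ h
theorem sex_unit_cg (τ : (R K)ˣ) (h : Cg x y) : sex τ x = sex τ y := symb_sex.unit_cg τ h
theorem clF_sex_unit (τ : (R K)ˣ) : ClF fun n => sex (τ : R K) n := symb_sex.clF_unit τ
theorem sex_EU {u : (R K)ˣ} (hu : u ∈ EU K) (n : R K) : sex u n = 1 := by
  by_cases hn : n = 0
  · simp [hn]
  · exact symb_sex.EU_left hu hn
theorem sex_EU_mul {u : (R K)ˣ} (hu : u ∈ EU K) (x n : R K) : sex ((u : R K) * x) n = sex x n := by
  rw [sex_mul_left, sex_EU hu, one_mul]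
theorem clF_sex_isUnit (h : IsUnit a) : ClF fun n => sex a n := symb_sex.clF_isUnit h

omit [Rcp K] in
theorem cub_ng (a n : R K) : cub a (ng n) = cub a n := cub_associated (associated_ng n) a
omit [Rcp K] in
theorem quad_ng (a n : R K) : quad a (ng n) = quad a n := quad_associated (associated_ng n) a
omit [Rcp K] in
theorem sex_ng (a n : R K) : sex a (ng n) = sex a n := sex_associated (associated_ng n) a

theorem sex_neg_one_congr (h : Cg x y) : sex (-1) x = sex (-1) y :=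
  symb_sex.clF_isUnit isUnit_one.neg x y h

omit [Rcp K] in
theorem isUnit_four : IsUnit (4 : R K) := by
  rw [show (4 : R K) = 2 * 2 by norm_num]
  exact isUnit_two.mul isUnit_two

theorem cub_four_congr (h : Cg x y) : cub 4 x = cub 4 y :=
  symb_cub.clF_isUnit isUnit_four x y h

theorem b6_eq (ha : a ≠ 0) (hb : b ≠ 0) : b6 a b = bq a b * conj (bc a b) := by
  obtain ⟨a', h1, h2⟩ := exists_R_inUq_coprime 10 (coe_ne_zero ha) hb
  rw [← b6_congr_left h1 hb, ← bq_congr_left h1 hb, ← bc_congr_left h1 hb,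
    b6_of_coprime h1.left_ne hb h2, bq_of_coprime h1.left_ne hb h2, bc_of_coprime h1.left_ne hb h2]
  simp only [sex, map_mul, Complex.conj_conj]
  ring

theorem bc_cube (ha : a ≠ 0) (hb : b ≠ 0) : bc a b ^ 3 = 1 := by
  obtain ⟨a', h1, h2⟩ := exists_R_inUq_coprime 10 (coe_ne_zero ha) hb
  rw [← bc_congr_left h1 hb, bc_of_coprime h1.left_ne hb h2, mul_pow, ← map_pow, cub_cube h2,
    cub_cube h2.symm, map_one, mul_one]

theorem bq_sq (ha : a ≠ 0) (hb : b ≠ 0) : bq a b ^ 2 = 1 := by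
  obtain ⟨a', h1, h2⟩ := exists_R_inUq_coprime 10 (coe_ne_zero ha) hb
  rw [← bq_congr_left h1 hb, bq_of_coprime h1.left_ne hb h2, mul_pow, ← map_pow, quad_sq h2,
    quad_sq h2.symm, map_one, mul_one]

theorem bc_self (ha : a ≠ 0) : bc a a = 1 := by
  have h1 := bc_symm ha ha
  have h2 := conj_mul_of_norm (norm_bc a a)
  rw [← h1] at h2
  linear_combination bc_cube ha ha - bc a a * h2

theorem bc_cube_left (ha : a ≠ 0) (hb : b ≠ 0) : bc (a ^ 3) b = 1 := by
  rw [pow_three, bc_mul_left ha (mul_ne_zero ha ha) hb, bc_mul_left ha ha hb, ← pow_three,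
    bc_cube ha hb]

theorem bc_cube_right (ha : a ≠ 0) (hb : b ≠ 0) : bc a (b ^ 3) = 1 := by
  rw [bc_symm (pow_ne_zero 3 hb) ha, bc_cube_left hb ha, map_one]

/-- twisted multiplicativity of the cubic Gauss sum -/
theorem g3_mul (ha : a ≠ 0) (hb : b ≠ 0) (h : IsCoprime a b) (ν : R K) :
    g3 ν (a * b) = bc b a * g3 ν a * g3 (ν * a) b := by
  have h1 := cub_cube h
  rw [g3_crt ha hb h, g3_twist hb h, cub_recip hb ha, conj_cub]
  ring

/-- the cubic Gauss sum is invariant under `EU` -/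
theorem g3_EU {u : (R K)ˣ} (hu : u ∈ EU K) (ν : R K) {c : R K} (hc : c ≠ 0) :
    g3 ν ((u : R K) * c) = g3 ν c := by rw [g3_unit_mul hc, cub_EU hu, one_mul]
theorem gt3_EU {u : (R K)ˣ} (hu : u ∈ EU K) {c : R K} (hc : c ≠ 0) :
    gt3 ((u : R K) * c) = gt3 c := by rw [gt3_unit_mul hc, cub_EU hu, one_mul]
theorem gt6_EU {u : (R K)ˣ} (hu : u ∈ EU K) {c : R K} (hc : c ≠ 0) :
    gt6 ((u : R K) * c) = gt6 c := by rw [gt6_unit_mul hc, sex_EU hu, one_mul]
theorem gt2_EU {u : (R K)ˣ} (hu : u ∈ EU K) {c : R K} (hc : c ≠ 0) :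
    gt2 ((u : R K) * c) = gt2 c := by rw [gt2_unit_mul hc, quad_EU hu, one_mul]
theorem th0_EU {u : (R K)ˣ} (hu : u ∈ EU K) (c : R K) : th0 ((u : R K) * c) = th0 c := by
  rw [th0_unit_mul, cub_EU hu, map_one, one_mul]

end Vale.Agent.P319
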