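import Vale.Agent.P319.N.RowsB

/-! # ROWS: the classes `Cls a 𝔪`.  Import this file to get all of ROWS. -/

namespace Vale.Agent.P319

open scoped ComplexConjugate Real NumberField

variable {K : Type} [Field K] [NumberField K] [Stp K]
variable {a : ℕ} {𝔪 : Ideal (𝓞 K)} {Ψ : R K × R K → ℂ}

theorem Cls.eq_zero (h : Cls a 𝔪 Ψ) {r : R K × R K} (hr : ¬Box a r) : Ψ r = 0 := h.1 r hr

theorem Cls.box (h : Cls a 𝔪 Ψ) {r : R K × R K} (hr : Ψ r ≠ 0) : Box a r :=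
  by_contra fun k => hr (h.1 r k)

theorem Cls.norm_le (h : Cls a 𝔪 Ψ) (r : R K × R K) : ‖Ψ r‖ ≤ 1 := h.2.1 r

theorem Cls.unit (h : Cls a 𝔪 Ψ) {u : (R K)ˣ} (hu : u ∈ EU K) (r : R K × R K) :
    Ψ ((u : R K) * r.1, (u : R K) * r.2) = Ψ r := h.2.2.1 u hu r

theorem Cls.gam (h : Cls a 𝔪 Ψ) {δ : SL2 K} (hδ : Gam 𝔪 δ) (r : R K × R K) :
    Ψ (rmul r δ) = kap δ * Ψ r := h.2.2.2 δ hδ r

theorem Cls.mono (h : Cls a 𝔪 Ψ) {a' : ℕ} {𝔪' : Ideal (𝓞 K)} (ha : a ≤ a') (hm : 𝔪' ≤ 𝔪) :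
    Cls a' 𝔪' Ψ :=
  ⟨fun r hr => h.1 r fun k => hr (k.mono ha), h.2.1, h.2.2.1, fun δ hδ => h.2.2.2 δ (hδ.mono hm)⟩

theorem Cls.mono_lev (h : Cls a (lev K a) Ψ) {a' : ℕ} (ha : a ≤ a') : Cls a' (lev K a') Ψ :=
  h.mono ha (lev_anti ha)

theorem Cls.smul (h : Cls a 𝔪 Ψ) {ζ : ℂ} (hζ : ‖ζ‖ ≤ 1) : Cls a 𝔪 fun r => ζ * Ψ r := by
  refine ⟨fun r hr => ?_, fun r => ?_, fun u hu r => ?_, fun δ hδ r => ?_⟩ <;> beta_reduce
  · rw [h.1 r hr, mul_zero]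
  · rw [norm_mul]
    exact mul_le_one₀ hζ (norm_nonneg _) (h.2.1 r)
  · rw [h.unit hu]
  · rw [h.gam hδ]; ring

theorem cls_zero (a : ℕ) (𝔪 : Ideal (𝓞 K)) : Cls a 𝔪 fun _ => 0 :=
  ⟨fun _ _ => rfl, fun _ => by simp, fun _ _ _ => rfl, fun _ _ _ => by simp⟩

theorem Cls.add_period (h : Cls a 𝔪 Ψ) {x : R K} (hx : x ∈ inR 𝔪) (c d : R K) :
    Ψ (c, c * x + d) = Ψ (c, d) := by
  rw [← rmul_mN, h.gam (gam_mN.2 hx), kap_mN, one_mul]

/-- if `Ψ (row g) ≠ 0` then `kap = 1` on the stabiliser of the class of `row g` -/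
theorem Cls.kap_stab (h : Cls a 𝔪 Ψ) {r : R K × R K} (hr : Ψ r ≠ 0) {δ : SL2 K} (hδ : Gam 𝔪 δ)
    {u : (R K)ˣ} (hu : u ∈ EU K) (e : rmul r δ = ((u : R K) * r.1, (u : R K) * r.2)) :
    kap δ = 1 := by
  have k := h.gam hδ r
  rw [e, h.unit hu] at k
  exact mul_right_cancel₀ hr (by rw [← k, one_mul])

variable [Rcp K]

/-- right translation; the loss `b` depends only on the denominators of `g` -/
theorem cls_rmul_unif (e : ℕ) : ∃ b : ℕ, ∀ g : SL2 K, MDen e g →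
    ∀ (a : ℕ) (𝔪 : Ideal (𝓞 K)) (Ψ : R K × R K → ℂ), Cls a 𝔪 Ψ →
      Cls (a + b) (lev K b * 𝔪) fun r => Ψ (rmul r g) := by
  obtain ⟨b, hb⟩ := kap_conj (K := K) e
  refine ⟨b + 2 * e, fun g hg a 𝔪 Ψ h => ⟨fun r hr => h.eq_zero fun k => hr ?_, fun r => h.norm_le _,
    fun u hu r => ?_, fun δ hδ r => ?_⟩⟩
  · have := k.rmul hg.inv
    rw [rmul_inv_cancel] at this
    exact this.mono (by omega)
  · beta_reduce
    rw [rmul_smul, h.unit hu]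
  · beta_reduce
    rw [← (hb g⁻¹ hg.inv δ (hδ.mono (Ideal.mul_le_left.trans (lev_anti (by omega))))).2,
      ← h.gam (Gam.conj hg.inv (hδ.mono (lev_mul_anti (by omega) 𝔪))), ← rmul_mul, ← rmul_mul]
    congr 2
    group

theorem cls_rmul (g : SL2 K) : ∃ b : ℕ,
    ∀ (a : ℕ) (𝔪 : Ideal (𝓞 K)) (Ψ : R K × R K → ℂ), Cls a 𝔪 Ψ →
      Cls (a + b) (lev K b * 𝔪) fun r => Ψ (rmul r g) := by
  obtain ⟨e, he⟩ := exists_mden g
  obtain ⟨b, hb⟩ := cls_rmul_unif (K := K) e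
  exact ⟨b, hb g he⟩

theorem cls_rmul_lev (g : SL2 K) : ∃ b : ℕ, ∀ (a : ℕ) (Ψ : R K × R K → ℂ), Cls a (lev K a) Ψ →
    Cls (a + b) (lev K (a + b)) fun r => Ψ (rmul r g) := by
  obtain ⟨b, hb⟩ := cls_rmul g
  refine ⟨b, fun a Ψ h => ?_⟩
  have := hb a _ Ψ h
  rwa [lev_mul, add_comm b] at this

theorem Cls.exists_rmul (hm : Lev 𝔪) (h : Cls a 𝔪 Ψ) (g : SL2 K) :
    ∃ (a' : ℕ) (𝔪' : Ideal (𝓞 K)), a ≤ a' ∧ 𝔪' ≤ 𝔪 ∧ Lev 𝔪' ∧
      Cls a' 𝔪' fun r => Ψ (rmul r g) := by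
  obtain ⟨b, hb⟩ := cls_rmul g
  have h1 : lev K b * 𝔪 ≤ 𝔪 := Ideal.mul_le_right
  exact ⟨a + b, lev K b * 𝔪, Nat.le_add_right _ _, h1, hm.lev_mul b, hb a 𝔪 Ψ h⟩

theorem Cls.exists_rmul_lev (h : Cls a (lev K a) Ψ) (g : SL2 K) :
    ∃ a', a ≤ a' ∧ Cls a' (lev K a') fun r => Ψ (rmul r g) := by
  obtain ⟨b, hb⟩ := cls_rmul_lev g
  exact ⟨a + b, Nat.le_add_right _ _, hb a Ψ h⟩

theorem Cls.rmul_inv (hm : Lev 𝔪) (h : Cls a 𝔪 Ψ) {δ : SL2 K} (hδ : Gam 𝔪 δ) (g₀ : SL2 K)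
    (r : R K × R K) : Ψ (rmul r (δ * g₀)⁻¹) = conj (kap δ) * Ψ (rmul r g₀⁻¹) := by
  rw [mul_inv_rev, rmul_mul, h.gam hδ.inv, hm.kap_inv hδ]

/-- the structure lemma -/
theorem Cls.struct (hm : Lev 𝔪) (h : Cls a 𝔪 Ψ) {c d c' d' : R K}
    (hU : InU ((c' : K) / c)) (h1 : c - c' ∈ inR (lev K (5 * a) * 𝔪))
    (h2 : d - d' ∈ inR (lev K (5 * a) * 𝔪)) :
    Ψ (c', d') * cub d c = Ψ (c, d) * cub d' c' := by
  obtain ⟨c0', c0⟩ := rw_ne hU
  have hl : lev K (5 * a) * 𝔪 ≤ lev K (a + 1) :=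
    (Ideal.mul_mono_right hm.le).trans (by rw [lev_mul]; exact lev_anti (by omega))
  by_cases k : IsCoprime c d
  swap
  · rw [h.eq_zero (r := (c, d)) fun e => k e.1, cub_eq_zero c0 fun e => k e.symm, mul_zero, zero_mul]
  by_cases k' : IsCoprime c' d'
  swap
  · rw [h.eq_zero (r := (c', d')) fun e => k' e.1, cub_eq_zero c0' fun e => k' e.symm, mul_zero,
      zero_mul]
  by_cases hb : Box a (c, d)
  · obtain ⟨δ, hδ, e⟩ := exists_gam_of_congr (r' := (c', d')) hb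
      (hb.congr k' (inR_mono hl h1) (inR_mono hl h2)) h1 h2
    have j := kapJ_right (r := (c, d)) (hδ.mono hm.le) k (by rw [← e]; exact hU)
    have j' := h.gam hδ (c, d)
    rw [← e] at j j'
    rw [j', j]
    ring
  · have hb' : ¬Box a (c', d') := fun e => hb (e.congr (r' := (c, d)) k
      (by rw [← neg_sub]; exact neg_mem (inR_mono hl h1))
      (by rw [← neg_sub]; exact neg_mem (inR_mono hl h2)))
    rw [h.eq_zero hb, h.eq_zero hb', zero_mul, zero_mul]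

theorem Cls.struct_lev (ha : 10 ≤ a) (h : Cls a (lev K a) Ψ) {c d c' d' : R K}
    (hU : InU ((c' : K) / c)) (h1 : c - c' ∈ inR (lev K (6 * a)))
    (h2 : d - d' ∈ inR (lev K (6 * a))) :
    Ψ (c', d') * cub d c = Ψ (c, d) * cub d' c' := by
  refine h.struct (Lev.lev ha) hU ?_ ?_ <;> rwa [lev_mul, show 5 * a + a = 6 * a by ring]

omit [Rcp K] in
theorem rw_basic_inU {β : K} {q : ℕ} (hq : 10 ≤ q) {c : R K}
    (h : ∃ u ∈ EU K, InUq q ((((u : R K) * c : R K) : K) / β)) : InU ((c : K) / β) := by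
  obtain ⟨u, hu, h⟩ := h
  have := (h.mono hq).div (by norm_num) (mem_EU.1 hu)
  rwa [map_mul, mul_div_assoc, mul_div_cancel_left₀ _ (coe_unit_ne_zero u)] at this

omit [Rcp K] in
theorem rw_basic_gam {β : K} (hβ : β ≠ 0) {q b e : ℕ} (hq : 10 ≤ q)
    (h1 : SIn 0 ((MM K : K) ^ e * β)) (h2 : SIn 0 ((MM K : K) ^ e / β)) {δ : SL2 K}
    (hδ : Gam (lev K (e + q + b)) δ) {r : R K × R K}
    (h : (∃ u ∈ EU K, InUq q ((((u : R K) * r.1 : R K) : K) / β)) ∧ SIn b (r.2 : K)) :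
    InU ((((rmul r δ).1 : R K) : K) / r.1) ∧
      (∃ u ∈ EU K, InUq q ((((u : R K) * (rmul r δ).1 : R K) : K) / β)) ∧
        SIn b ((rmul r δ).2 : K) := by
  have k := rw_basic_inU hq h.1
  obtain ⟨⟨u, hu, h3⟩, h4⟩ := h
  have hM : (MM K : K) ^ e ≠ 0 := pow_ne_zero _ M_ne_zero
  have c0 : (r.1 : K) ≠ 0 := (div_ne_zero_iff.1 (k.ne_zero (by norm_num))).1
  obtain ⟨g1, g2, g3, g4⟩ := gam_iff.1 hδ
  rw [mem_inR_lev] at g1 g2 g3 g4
  have j1 : InUq q ((((rmul r δ).1 : R K) : K) / r.1) := by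
    rw [InUq, ← sIn_pow_mul_iff (a := e)]
    refine (congrArg (SIn (e + q)) ?_).mp (((sIn_pow_M e).mul (g1.mono (by omega))).add
      ((((g3.mono (by omega)).mul_left h4.zero).mul_left h2).mul_left
        (k.div_symm (by norm_num)).sIn))
    simp only [rmul, map_add, map_mul, map_sub, map_one]
    field_simp
    ring
  refine ⟨j1.mono hq, ⟨u, hu, ?_⟩, ?_⟩
  · refine (congrArg (InUq q) ?_).mp (h3.mul j1)
    simp only [map_mul]
    field_simp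
  · rw [← sIn_pow_mul_iff (a := e)]
    refine (congrArg (SIn (e + b)) ?_).mp
      ((((g2.mono (by omega)).mul_left h1).mul_left k.sIn).add ((sIn_pow_M e).mul
        (h4.add (h4.mul_right g4.zero))))
    simp only [rmul, map_add, map_mul, map_sub, map_one]
    field_simp
    ring

/-- the basic row functions `1[c ∈ β U_q EU] (d/c) 1[d ∈ M ^ b O_S]`, with explicit level -/
theorem cls_basic' {β : K} (hβ : β ≠ 0) {q e : ℕ} (hq : 10 ≤ q) (b : ℕ)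
    (h1 : SIn 0 ((MM K : K) ^ e * β)) (h2 : SIn 0 ((MM K : K) ^ e / β)) :
    Cls (e + q + b) (lev K (e + q + b)) fun r : R K × R K =>
      ind (∃ u ∈ EU K, InUq q ((((u : R K) * r.1 : R K) : K) / β)) * cub r.2 r.1 *
        ind (SIn b (r.2 : K)) := by
  have c0 : ∀ c : R K, (∃ u ∈ EU K, InUq q ((((u : R K) * c : R K) : K) / β)) → c ≠ 0 :=
    fun c h e => (div_ne_zero_iff.1 ((rw_basic_inU hq h).ne_zero (by norm_num))).1 (coe_eq_zero.2 e)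
  have z : ∀ r : R K × R K,
      ¬((∃ u ∈ EU K, InUq q ((((u : R K) * r.1 : R K) : K) / β)) ∧ SIn b (r.2 : K)) →
      ind (∃ u ∈ EU K, InUq q ((((u : R K) * r.1 : R K) : K) / β)) * cub r.2 r.1 *
        ind (SIn b (r.2 : K)) = 0 := fun r h => by
    rw [mul_right_comm, ← ind_and, ind_of_not h, zero_mul]
  refine ⟨fun r hr => ?_, fun r => ?_, fun v hv r => ?_, fun δ hδ r => ?_⟩ <;> beta_reduce
  · refine by_contra fun h => hr ?_
    obtain ⟨h3, h4⟩ := not_not.1 (mt (z r) h)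
    have k := rw_basic_inU hq h3
    have c1 := coe_ne_zero (c0 _ h3)
    have hM := (sIn_pow_M (K := K) (q + b)).zero
    refine ⟨by_contra fun j => h ?_, ?_, h4.zero.mul_left (sIn_pow_M _).zero, _, 0,
      (h2.mul_left hM).mul_left (k.div_symm (by norm_num)).sIn, sIn_zero 0, ?_⟩
    · rw [cub_eq_zero (c0 _ h3) fun e => j e.symm, mul_zero, zero_mul]
    · refine (congrArg (SIn 0) ?_).mp ((h1.mul_left hM).mul_left k.sIn)
      field_simp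
      ring
    · field_simp
      ring
  · rw [norm_mul, norm_mul]
    exact mul_le_one₀ (mul_le_one₀ (norm_ind_le _) (norm_nonneg _) (norm_cub_le _ _))
      (norm_nonneg _) (norm_ind_le _)
  · have e1 : (∃ u ∈ EU K, InUq q ((((u : R K) * (v * r.1) : R K) : K) / β)) ↔
        ∃ u ∈ EU K, InUq q ((((u : R K) * r.1 : R K) : K) / β) := by
      refine ⟨fun ⟨u, hu, h⟩ => ⟨u * v, mul_mem hu hv, by rwa [Units.val_mul, mul_assoc]⟩,
        fun ⟨u, hu, h⟩ => ⟨u * v⁻¹, mul_mem hu (inv_mem hv), ?_⟩⟩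
      rwa [Units.val_mul, mul_assoc, Units.inv_mul_cancel_left]
    have e2 : SIn b (((v : R K) * r.2 : R K) : K) ↔ SIn b (r.2 : K) := by
      refine ⟨fun h => ?_, fun h => by rw [map_mul]; exact h.mul_left (mem_EU.1 hv).sIn⟩
      have := h.mul_left (mem_EU.1 (inv_mem hv)).sIn
      rwa [← map_mul, Units.inv_mul_cancel_left] at this
    rw [ind_congr e1, ind_congr e2, cub_unit_mul_right, cub_mul_left, rw_cub_unitU hv, one_mul]
  · by_cases h : (∃ u ∈ EU K, InUq q ((((u : R K) * r.1 : R K) : K) / β)) ∧ SIn b (r.2 : K)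
    · obtain ⟨j1, j2, j3⟩ := rw_basic_gam hβ hq h1 h2 hδ h
      rw [ind_of j2, ind_of j3, ind_of h.1, ind_of h.2, one_mul, mul_one, one_mul, mul_one]
      by_cases k : IsCoprime r.1 r.2
      · exact kapJ_right (hδ.mono (lev_anti (by omega))) k j1
      · rw [cub_eq_zero (c0 _ j2) fun e => k ((coprime_rmul δ).1 e.symm),
          cub_eq_zero (c0 _ h.1) fun e => k e.symm, mul_zero]
    · rw [z r h, mul_zero]
      refine z _ fun k => h ?_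
      have := (rw_basic_gam hβ hq h1 h2 hδ.inv k).2
      rwa [rmul_inv_cancel] at this

/-- the basic row functions `1[c ∈ β U_q EU] (d/c) 1[d ∈ M ^ b O_S]` -/
theorem cls_basic {β : K} (hβ : β ≠ 0) {q : ℕ} (hq : 10 ≤ q) (b : ℕ) : ∃ a : ℕ, 10 ≤ a ∧
    Cls a (lev K a) fun r : R K × R K =>
      ind (∃ u ∈ EU K, InUq q ((((u : R K) * r.1 : R K) : K) / β)) * cub r.2 r.1 *
        ind (SIn b (r.2 : K)) := by
  obtain ⟨e, h1, h2⟩ := exists_sIn_both hβ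
  exact ⟨e + q + b, by omega, cls_basic' hβ hq b h1 h2⟩

end Vale.Agent.P319
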