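import Vale.Agent.P319.N.Ray

/-! # ROWS, part A: matrices, `S`-adic calculus, the groups `Gam`, the sets `Box` (no reciprocity).

`inR 𝔪` is the ideal `𝔪` of `𝓞 K` seen inside `R K`; `Den a x` says `M ^ a * x ∈ 𝓞 K`. -/

namespace Vale.Agent.P319

open scoped ComplexConjugate Real NumberField

variable {K : Type} [Field K] [NumberField K] [Stp K]

/-! ## matrices -/

/-- `[[0,-1],[1,0]]` -/
noncomputable def mS : SL2 K := ⟨!![0, -1; 1, 0], by simp [Matrix.det_fin_two]⟩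
/-- `[[1,x],[0,1]]` -/
noncomputable def mN (x : R K) : SL2 K := ⟨!![1, x; 0, 1], by simp [Matrix.det_fin_two]⟩
/-- `[[u,0],[0,1/u]]` -/
noncomputable def mD (u : (R K)ˣ) : SL2 K :=
  ⟨!![(u : R K), 0; 0, ((u⁻¹ : (R K)ˣ) : R K)], by simp [Matrix.det_fin_two]⟩
/-- bottom row -/
noncomputable def row (g : SL2 K) : R K × R K := (g.1 1 0, g.1 1 1)

theorem sl2_det (g : SL2 K) : g.1 0 0 * g.1 1 1 - g.1 0 1 * g.1 1 0 = 1 := by
  rw [← Matrix.det_fin_two]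
  exact g.2

theorem sl2_mul (g h : SL2 K) (i j : Fin 2) :
    (g * h).1 i j = g.1 i 0 * h.1 0 j + g.1 i 1 * h.1 1 j := by
  rw [Matrix.SpecialLinearGroup.coe_mul, Matrix.mul_apply, Fin.sum_univ_two]

theorem sl2_ext {g h : SL2 K} (h1 : g.1 0 0 = h.1 0 0) (h2 : g.1 0 1 = h.1 0 1)
    (h3 : g.1 1 0 = h.1 1 0) (h4 : g.1 1 1 = h.1 1 1) : g = h := by
  rw [Matrix.SpecialLinearGroup.ext_iff]
  simp only [Fin.forall_fin_two]
  exact ⟨⟨h1, h2⟩, h3, h4⟩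

theorem exists_sl2 {a b c d : R K} (h : a * d - b * c = 1) :
    ∃ g : SL2 K, g.1 0 0 = a ∧ g.1 0 1 = b ∧ g.1 1 0 = c ∧ g.1 1 1 = d :=
  ⟨⟨!![a, b; c, d], by rw [Matrix.det_fin_two_of]; exact h⟩, rfl, rfl, rfl, rfl⟩

theorem mS_00 : (mS : SL2 K).1 0 0 = 0 := rfl
theorem mS_01 : (mS : SL2 K).1 0 1 = -1 := rfl
theorem mS_10 : (mS : SL2 K).1 1 0 = 1 := rfl
theorem mS_11 : (mS : SL2 K).1 1 1 = 0 := rfl
theorem mN_00 (x : R K) : (mN x).1 0 0 = 1 := rfl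
theorem mN_01 (x : R K) : (mN x).1 0 1 = x := rfl
theorem mN_10 (x : R K) : (mN x).1 1 0 = 0 := rfl
theorem mN_11 (x : R K) : (mN x).1 1 1 = 1 := rfl
theorem mD_00 (u : (R K)ˣ) : (mD u).1 0 0 = u := rfl
theorem mD_01 (u : (R K)ˣ) : (mD u).1 0 1 = 0 := rfl
theorem mD_10 (u : (R K)ˣ) : (mD u).1 1 0 = 0 := rfl
theorem mD_11 (u : (R K)ˣ) : (mD u).1 1 1 = (u⁻¹ : (R K)ˣ) := rfl
theorem one_00 : (1 : SL2 K).1 0 0 = 1 := rfl
theorem one_01 : (1 : SL2 K).1 0 1 = 0 := rfl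
theorem one_10 : (1 : SL2 K).1 1 0 = 0 := rfl
theorem one_11 : (1 : SL2 K).1 1 1 = 1 := rfl

theorem sl2_inv (g : SL2 K) : (g⁻¹).1 0 0 = g.1 1 1 ∧ (g⁻¹).1 0 1 = -g.1 0 1 ∧
    (g⁻¹).1 1 0 = -g.1 1 0 ∧ (g⁻¹).1 1 1 = g.1 0 0 := by
  have d := sl2_det g
  obtain ⟨h, e1, e2, e3, e4⟩ := exists_sl2 (a := g.1 1 1) (b := -g.1 0 1) (c := -g.1 1 0)
    (d := g.1 0 0) (by linear_combination d)
  have : g⁻¹ = h := by
    refine inv_eq_of_mul_eq_one_right (sl2_ext ?_ ?_ ?_ ?_) <;>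
      simp only [sl2_mul, e1, e2, e3, e4, one_00, one_01, one_10, one_11]
    · linear_combination d
    · ring
    · ring
    · linear_combination d
  rw [this]
  exact ⟨e1, e2, e3, e4⟩

theorem inv_00 (g : SL2 K) : (g⁻¹).1 0 0 = g.1 1 1 := (sl2_inv g).1
theorem inv_01 (g : SL2 K) : (g⁻¹).1 0 1 = -g.1 0 1 := (sl2_inv g).2.1
theorem inv_10 (g : SL2 K) : (g⁻¹).1 1 0 = -g.1 1 0 := (sl2_inv g).2.2.1
theorem inv_11 (g : SL2 K) : (g⁻¹).1 1 1 = g.1 0 0 := (sl2_inv g).2.2.2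

theorem mN_add (x y : R K) : mN x * mN y = mN (x + y) := by
  apply sl2_ext <;> simp only [sl2_mul, mN_00, mN_01, mN_10, mN_11] <;> ring

theorem mN_zero : mN (0 : R K) = 1 := sl2_ext rfl rfl rfl rfl

theorem mN_inv (x : R K) : (mN x)⁻¹ = mN (-x) :=
  inv_eq_of_mul_eq_one_right (by rw [mN_add, add_neg_cancel, mN_zero])

theorem mD_mul (u v : (R K)ˣ) : mD u * mD v = mD (u * v) := by
  apply sl2_ext <;> simp only [sl2_mul, mD_00, mD_01, mD_10, mD_11] <;> simp [mul_comm]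

theorem mD_one : mD (1 : (R K)ˣ) = 1 := sl2_ext rfl rfl rfl rfl

theorem mD_inv (u : (R K)ˣ) : (mD u)⁻¹ = mD u⁻¹ :=
  inv_eq_of_mul_eq_one_right (by rw [mD_mul, mul_inv_cancel, mD_one])

theorem mS_inv : (mS : SL2 K)⁻¹ = mS * mS * mS := by
  refine inv_eq_of_mul_eq_one_right ?_
  apply sl2_ext <;>
    simp only [sl2_mul, mS_00, mS_01, mS_10, mS_11, one_00, one_01, one_10, one_11] <;> ring

theorem rmul_one (r : R K × R K) : rmul r 1 = r := by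
  simp only [rmul, one_00, one_01, one_10, one_11]
  simp

theorem rmul_mul (r : R K × R K) (g h : SL2 K) : rmul r (g * h) = rmul (rmul r g) h := by
  simp only [rmul, sl2_mul]
  refine Prod.ext ?_ ?_ <;> ring

theorem rmul_inv_cancel (r : R K × R K) (g : SL2 K) : rmul (rmul r g) g⁻¹ = r := by
  rw [← rmul_mul, mul_inv_cancel, rmul_one]

theorem rmul_inv_cancel' (r : R K × R K) (g : SL2 K) : rmul (rmul r g⁻¹) g = r := by
  rw [← rmul_mul, inv_mul_cancel, rmul_one]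

theorem rmul_smul (u : R K) (r : R K × R K) (g : SL2 K) :
    rmul (u * r.1, u * r.2) g = (u * (rmul r g).1, u * (rmul r g).2) := by
  simp only [rmul]
  refine Prod.ext ?_ ?_ <;> ring

theorem row_mul (g h : SL2 K) : row (g * h) = rmul (row g) h := by
  simp only [rmul, row, sl2_mul]

theorem row_eq (g : SL2 K) : row g = rmul (0, 1) g := by
  simp [rmul, row]

theorem row_one : row (1 : SL2 K) = (0, 1) := rfl

theorem row_mN_mul (x : R K) (g : SL2 K) : row (mN x * g) = row g := by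
  simp only [row, sl2_mul, mN_10, mN_11]
  simp

theorem row_mD_mul (u : (R K)ˣ) (g : SL2 K) :
    row (mD u * g) = (((u⁻¹ : (R K)ˣ) : R K) * (row g).1, ((u⁻¹ : (R K)ˣ) : R K) * (row g).2) := by
  simp only [row, sl2_mul, mD_10, mD_11]
  simp

theorem rmul_mS (c d : R K) : rmul (c, d) mS = (d, -c) := by
  simp only [rmul, mS_00, mS_01, mS_10, mS_11]
  simp

theorem rmul_mN (c d x : R K) : rmul (c, d) (mN x) = (c, c * x + d) := by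
  simp only [rmul, mN_00, mN_01, mN_10, mN_11]
  simp

theorem rmul_mD (c d : R K) (u : (R K)ˣ) :
    rmul (c, d) (mD u) = (c * u, d * ((u⁻¹ : (R K)ˣ) : R K)) := by
  simp only [rmul, mD_00, mD_01, mD_10, mD_11]
  simp

theorem coprime_of_rmul {r : R K × R K} (g : SL2 K) (h : IsCoprime (rmul r g).1 (rmul r g).2) :
    IsCoprime r.1 r.2 := by
  obtain ⟨a, b, h⟩ := h
  refine ⟨a * g.1 0 0 + b * g.1 0 1, a * g.1 1 0 + b * g.1 1 1, ?_⟩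
  simp only [rmul] at h
  linear_combination h

theorem coprime_rmul {r : R K × R K} (g : SL2 K) :
    IsCoprime (rmul r g).1 (rmul r g).2 ↔ IsCoprime r.1 r.2 :=
  ⟨coprime_of_rmul g, fun h => coprime_of_rmul g⁻¹ (by rwa [rmul_inv_cancel])⟩

theorem coprime_row (g : SL2 K) : IsCoprime (row g).1 (row g).2 :=
  ⟨-g.1 0 1, g.1 0 0, by simp only [row]; linear_combination sl2_det g⟩

theorem exists_row {r : R K × R K} (h : IsCoprime r.1 r.2) : ∃ g, row g = r := by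
  obtain ⟨a, b, h⟩ := h
  exact ⟨⟨!![b, -a; r.1, r.2], by rw [Matrix.det_fin_two_of]; linear_combination h⟩, rfl⟩

theorem row_eq_row_iff {g h : SL2 K} : row g = row h ↔ ∃ x, g = mN x * h := by
  constructor
  · intro e
    have e1 : g.1 1 0 = h.1 1 0 := congrArg Prod.fst e
    have e2 : g.1 1 1 = h.1 1 1 := congrArg Prod.snd e
    have d1 := sl2_det g
    have d2 := sl2_det h
    rw [e1, e2] at d1
    refine ⟨g.1 0 1 * h.1 0 0 - g.1 0 0 * h.1 0 1, ?_⟩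
    apply sl2_ext <;> simp only [sl2_mul, mN_00, mN_01, mN_10, mN_11]
    · linear_combination h.1 0 0 * d1 - g.1 0 0 * d2
    · linear_combination h.1 0 1 * d1 - g.1 0 1 * d2
    · rw [e1]; ring
    · rw [e2]; ring
  · rintro ⟨x, rfl⟩
    exact row_mN_mul x h

theorem row_eq_unit_iff {g h : SL2 K} {u : (R K)ˣ} :
    row g = ((u : R K) * (row h).1, (u : R K) * (row h).2) ↔ ∃ x, g = mN x * mD u⁻¹ * h := by
  have := row_mD_mul u⁻¹ h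
  rw [inv_inv] at this
  rw [← this, row_eq_row_iff]
  simp only [mul_assoc]

/-! ## ideals of `𝓞 K` inside `R` -/

/-- the ideal `𝔪` of `𝓞 K` as a subset of `R` -/
noncomputable def inR (𝔪 : Ideal (𝓞 K)) : Submodule (𝓞 K) (R K) :=
  Submodule.map (Algebra.linearMap (𝓞 K) (R K)) 𝔪

/-- `M ^ a * x ∈ 𝓞 K` -/
def Den (a : ℕ) (x : R K) : Prop := SIn 0 ((MM K : K) ^ a * x)

/-- all entries have denominator dividing `M ^ a` -/
def MDen (a : ℕ) (g : SL2 K) : Prop := ∀ i j, Den a (g.1 i j)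

theorem mem_inR {𝔪 : Ideal (𝓞 K)} {x : R K} :
    x ∈ inR 𝔪 ↔ ∃ t ∈ 𝔪, x = algebraMap (𝓞 K) (R K) t :=
  ⟨fun ⟨t, ht, e⟩ => ⟨t, ht, e.symm⟩, fun ⟨t, ht, e⟩ => ⟨t, ht, e.symm⟩⟩

theorem int_mem_inR {𝔪 : Ideal (𝓞 K)} {t : 𝓞 K} : algebraMap (𝓞 K) (R K) t ∈ inR 𝔪 ↔ t ∈ 𝔪 :=
  ⟨fun h => by
    obtain ⟨s, hs, e⟩ := mem_inR.1 h
    rwa [algebraMap_R_injective K e], fun h => mem_inR.2 ⟨t, h, rfl⟩⟩

theorem inR_mono {𝔪 𝔫 : Ideal (𝓞 K)} (h : 𝔪 ≤ 𝔫) {x : R K} (hx : x ∈ inR 𝔪) : x ∈ inR 𝔫 :=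
  Submodule.map_mono h hx

theorem mem_inR_top {x : R K} : x ∈ inR ⊤ ↔ SIn 0 (x : K) := by
  rw [sIn_R_iff0, mem_inR]
  simp

theorem mem_inR_lev_mul {a : ℕ} {𝔪 : Ideal (𝓞 K)} {x : R K} :
    x ∈ inR (lev K a * 𝔪) ↔ ∃ y ∈ inR 𝔪, x = (MM K : R K) ^ a * y := by
  constructor
  · intro h
    obtain ⟨t, ht, rfl⟩ := mem_inR.1 h
    obtain ⟨z, hz, rfl⟩ := Ideal.mem_span_singleton_mul.1 ht
    exact ⟨_, int_mem_inR.2 hz, by simp⟩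
  · rintro ⟨y, hy, rfl⟩
    obtain ⟨t, ht, rfl⟩ := mem_inR.1 hy
    exact mem_inR.2 ⟨_, Ideal.mem_span_singleton_mul.2 ⟨t, ht, rfl⟩, by simp⟩

/-- `R ∩ M ^ a O_S = M ^ a 𝓞 K` -/
theorem mem_inR_lev {a : ℕ} {x : R K} : x ∈ inR (lev K a) ↔ SIn a (x : K) := by
  rw [← Ideal.mul_top (lev K a), mem_inR_lev_mul, sIn_R_iff]
  constructor
  · rintro ⟨y, hy, rfl⟩
    obtain ⟨t, -, rfl⟩ := mem_inR.1 hy
    exact ⟨t, rfl⟩
  · rintro ⟨t, rfl⟩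
    exact ⟨_, int_mem_inR.2 trivial, rfl⟩

theorem inR_mul {𝔪 𝔫 : Ideal (𝓞 K)} {x y : R K} (hx : x ∈ inR 𝔪) (hy : y ∈ inR 𝔫) :
    x * y ∈ inR (𝔪 * 𝔫) := by
  obtain ⟨s, hs, rfl⟩ := mem_inR.1 hx
  obtain ⟨t, ht, rfl⟩ := mem_inR.1 hy
  rw [← map_mul]
  exact int_mem_inR.2 (Ideal.mul_mem_mul hs ht)

theorem inR_mul_left {𝔪 𝔫 : Ideal (𝓞 K)} {x y : R K} (hx : x ∈ inR 𝔪) (hy : y ∈ inR 𝔫) :
    x * y ∈ inR 𝔫 := inR_mono Ideal.mul_le_right (inR_mul hx hy)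

theorem inR_mul_right {𝔪 𝔫 : Ideal (𝓞 K)} {x y : R K} (hx : x ∈ inR 𝔪) (hy : y ∈ inR 𝔫) :
    x * y ∈ inR 𝔪 := inR_mono Ideal.mul_le_left (inR_mul hx hy)

theorem one_mem_inR : (1 : R K) ∈ inR ⊤ := mem_inR.2 ⟨1, trivial, (map_one _).symm⟩

theorem lev_zero : lev K 0 = ⊤ := by
  rw [lev, pow_zero, Ideal.span_singleton_one]

theorem lev_mul (a b : ℕ) : lev K a * lev K b = lev K (a + b) := by
  rw [lev, lev, lev, Ideal.span_singleton_mul_span_singleton, pow_add]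

theorem lev_anti {a b : ℕ} (h : a ≤ b) : lev K b ≤ lev K a :=
  Ideal.span_singleton_le_span_singleton.2 (pow_dvd_pow _ h)

theorem lev_mul_anti {a b : ℕ} (h : a ≤ b) (𝔪 : Ideal (𝓞 K)) : lev K b * 𝔪 ≤ lev K a * 𝔪 :=
  Ideal.mul_mono_left (lev_anti h)

theorem lev_add_mul (a b : ℕ) (𝔪 : Ideal (𝓞 K)) :
    lev K (a + b) * 𝔪 = lev K a * (lev K b * 𝔪) := by
  rw [← mul_assoc, lev_mul]

theorem lev_ne_bot (a : ℕ) : lev K a ≠ ⊥ :=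
  mt Ideal.span_singleton_eq_bot.1 (pow_ne_zero _ M_int_ne_zero)

theorem Lev.lev {a : ℕ} (h : 10 ≤ a) : Lev (lev K a) := ⟨lev_ne_bot a, lev_anti h⟩

theorem Lev.le {𝔪 : Ideal (𝓞 K)} (h : Lev 𝔪) : 𝔪 ≤ P319.lev K 10 := h.2

theorem Lev.mono {𝔪 𝔫 : Ideal (𝓞 K)} (h : Lev 𝔪) (hn : 𝔫 ≠ ⊥) (hle : 𝔫 ≤ 𝔪) : Lev 𝔫 :=
  ⟨hn, hle.trans h.2⟩

theorem Lev.mul_left {𝔪 𝔫 : Ideal (𝓞 K)} (h : Lev 𝔪) (hn : 𝔫 ≠ ⊥) : Lev (𝔫 * 𝔪) :=
  h.mono (mul_ne_zero hn h.1) Ideal.mul_le_right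

theorem Lev.lev_mul {𝔪 : Ideal (𝓞 K)} (h : Lev 𝔪) (b : ℕ) : Lev (P319.lev K b * 𝔪) :=
  h.mul_left (lev_ne_bot b)

theorem Lev.inf {𝔪 𝔫 : Ideal (𝓞 K)} (h : Lev 𝔪) (hn : 𝔫 ≠ ⊥) : Lev (𝔪 ⊓ 𝔫) :=
  h.mono (fun e => mul_ne_zero h.1 hn (le_bot_iff.1 (e ▸ Ideal.mul_le_inf))) inf_le_left

theorem den_iff {a : ℕ} {x : R K} : Den a x ↔ (MM K : R K) ^ a * x ∈ inR ⊤ := by
  rw [mem_inR_top, Den]
  simp

theorem den_zero_iff {x : R K} : Den 0 x ↔ x ∈ inR ⊤ := by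
  rw [den_iff, pow_zero, one_mul]

theorem exists_den (x : R K) : ∃ a, Den a x := exists_sIn_pow _

theorem Den.add {a : ℕ} {x y : R K} (hx : Den a x) (hy : Den a y) : Den a (x + y) := by
  rw [den_iff] at *
  rw [mul_add]
  exact add_mem hx hy

theorem Den.neg {a : ℕ} {x : R K} (hx : Den a x) : Den a (-x) := by
  rw [den_iff] at *
  rw [mul_neg]
  exact neg_mem hx

theorem Den.sub {a : ℕ} {x y : R K} (hx : Den a x) (hy : Den a y) : Den a (x - y) := by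
  rw [sub_eq_add_neg]
  exact hx.add hy.neg

theorem Den.mul {a b : ℕ} {x y : R K} (hx : Den a x) (hy : Den b y) : Den (a + b) (x * y) := by
  rw [den_iff] at *
  rw [pow_add, mul_mul_mul_comm]
  exact inR_mul_left hx hy

theorem den_one (a : ℕ) : Den a (1 : R K) := by
  rw [den_iff, mul_one]
  exact mem_inR.2 ⟨(MM K : 𝓞 K) ^ a, trivial, by simp⟩

theorem den_zero (a : ℕ) : Den a (0 : R K) := by
  rw [den_iff, mul_zero]
  exact zero_mem _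

theorem Den.mono {a b : ℕ} (h : a ≤ b) {x : R K} (hx : Den a x) : Den b x := by
  have := hx.mul (den_one (b - a))
  rwa [mul_one, Nat.add_sub_cancel' h] at this

theorem den_of_inR {𝔪 : Ideal (𝓞 K)} {x : R K} (hx : x ∈ inR 𝔪) (a : ℕ) : Den a x :=
  (den_zero_iff.2 (inR_mono le_top hx)).mono (Nat.zero_le a)

theorem Den.mul_inR {a : ℕ} {𝔪 : Ideal (𝓞 K)} {x y : R K} (hx : Den a x)
    (hy : y ∈ inR (lev K a * 𝔪)) : x * y ∈ inR 𝔪 := by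
  obtain ⟨z, hz, rfl⟩ := mem_inR_lev_mul.1 hy
  rw [mul_left_comm, ← mul_assoc]
  exact inR_mul_left (den_iff.1 hx) hz

theorem Den.inR_mul {a : ℕ} {𝔪 : Ideal (𝓞 K)} {x y : R K} (hx : Den a x)
    (hy : y ∈ inR (lev K a * 𝔪)) : y * x ∈ inR 𝔪 := mul_comm x y ▸ hx.mul_inR hy

/-- `c' ∈ c U_(a+b)` implies `c ≡ c' mod M ^ b` -/
theorem Den.sub_mem_of_inUq {a b : ℕ} {c c' : R K} (hc : Den a c) (h0 : c ≠ 0)
    (h : InUq (a + b) ((c' : K) / c)) : c - c' ∈ inR (lev K b) := by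
  rw [mem_inR_lev, ← sIn_pow_mul_iff (a := a)]
  have := (SIn.mul_left h hc).neg
  have h1 := coe_ne_zero h0
  rw [map_sub]
  refine (congrArg (SIn (a + b)) ?_).mp this
  field_simp
  ring

theorem mden_iff {a : ℕ} {g : SL2 K} : MDen a g ↔
    Den a (g.1 0 0) ∧ Den a (g.1 0 1) ∧ Den a (g.1 1 0) ∧ Den a (g.1 1 1) := by
  simp only [MDen, Fin.forall_fin_two, and_assoc]

theorem MDen.mono {a b : ℕ} (h : a ≤ b) {g : SL2 K} (hg : MDen a g) : MDen b g :=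
  fun i j => (hg i j).mono h

theorem exists_mden (g : SL2 K) : ∃ a, MDen a g := by
  obtain ⟨a, ha⟩ := exists_den (g.1 0 0)
  obtain ⟨b, hb⟩ := exists_den (g.1 0 1)
  obtain ⟨c, hc⟩ := exists_den (g.1 1 0)
  obtain ⟨d, hd⟩ := exists_den (g.1 1 1)
  exact ⟨a + b + c + d, mden_iff.2 ⟨ha.mono (by omega), hb.mono (by omega), hc.mono (by omega),
    hd.mono (by omega)⟩⟩

theorem MDen.inv {a : ℕ} {g : SL2 K} (hg : MDen a g) : MDen a g⁻¹ := by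
  rw [mden_iff, inv_00, inv_01, inv_10, inv_11]
  exact ⟨hg 1 1, (hg 0 1).neg, (hg 1 0).neg, hg 0 0⟩

theorem MDen.mul {a b : ℕ} {g h : SL2 K} (hg : MDen a g) (hh : MDen b h) :
    MDen (a + b) (g * h) := fun i j => by
  rw [sl2_mul]
  exact ((hg i 0).mul (hh 0 j)).add ((hg i 1).mul (hh 1 j))

theorem mden_mS : MDen 0 (mS : SL2 K) :=
  mden_iff.2 ⟨den_zero 0, (den_one 0).neg, den_one 0, den_zero 0⟩

theorem mden_mN {a : ℕ} {x : R K} (hx : Den a x) : MDen a (mN x) :=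
  mden_iff.2 ⟨den_one a, hx, den_zero a, den_one a⟩

/-! ## the groups `Gam` -/

theorem gam_iff' {𝔪 : Ideal (𝓞 K)} {δ : SL2 K} :
    Gam 𝔪 δ ↔ ∀ i j, δ.1 i j - (1 : SL2 K).1 i j ∈ inR 𝔪 := by
  refine forall₂_congr fun i j => ?_
  rw [mem_inR]
  exact exists_congr fun t => and_congr_right fun _ => sub_eq_iff_eq_add'.symm

theorem gam_iff {𝔪 : Ideal (𝓞 K)} {δ : SL2 K} : Gam 𝔪 δ ↔
    δ.1 0 0 - 1 ∈ inR 𝔪 ∧ δ.1 0 1 ∈ inR 𝔪 ∧ δ.1 1 0 ∈ inR 𝔪 ∧ δ.1 1 1 - 1 ∈ inR 𝔪 := by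
  rw [gam_iff']
  simp only [Fin.forall_fin_two, one_00, one_01, one_10, one_11, sub_zero, and_assoc]

theorem gam_one (𝔪 : Ideal (𝓞 K)) : Gam 𝔪 (1 : SL2 K) :=
  gam_iff'.2 fun i j => by rw [sub_self]; exact zero_mem _

theorem Gam.mono {𝔪 𝔫 : Ideal (𝓞 K)} (h : 𝔪 ≤ 𝔫) {δ : SL2 K} (hδ : Gam 𝔪 δ) : Gam 𝔫 δ :=
  gam_iff'.2 fun i j => inR_mono h (gam_iff'.1 hδ i j)

theorem Gam.mden {𝔪 : Ideal (𝓞 K)} {δ : SL2 K} (hδ : Gam 𝔪 δ) : MDen 0 δ := by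
  obtain ⟨h1, h2, h3, h4⟩ := gam_iff.1 hδ
  refine mden_iff.2 ⟨?_, den_of_inR h2 0, den_of_inR h3 0, ?_⟩
  · simpa using (den_of_inR h1 0).add (den_one 0)
  · simpa using (den_of_inR h4 0).add (den_one 0)

theorem rw_congr_mul {a : ℕ} {𝔪 : Ideal (𝓞 K)} {g g' h : SL2 K} (hh : MDen a h)
    (e : ∀ i j, g.1 i j - g'.1 i j ∈ inR (lev K a * 𝔪)) :
    (∀ i j, (g * h).1 i j - (g' * h).1 i j ∈ inR 𝔪) ∧
      ∀ i j, (h * g).1 i j - (h * g').1 i j ∈ inR 𝔪 := by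
  refine ⟨fun i j => ?_, fun i j => ?_⟩
  · have := add_mem ((hh 0 j).inR_mul (e i 0)) ((hh 1 j).inR_mul (e i 1))
    rw [sl2_mul, sl2_mul]
    refine (congrArg (· ∈ inR 𝔪) ?_).mp this
    ring
  · have := add_mem ((hh i 0).mul_inR (e 0 j)) ((hh i 1).mul_inR (e 1 j))
    rw [sl2_mul, sl2_mul]
    refine (congrArg (· ∈ inR 𝔪) ?_).mp this
    ring

theorem gam_of_congr {a : ℕ} {𝔪 : Ideal (𝓞 K)} {g g₀ : SL2 K} (h₀ : MDen a g₀)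
    (h : ∀ i j, g.1 i j - g₀.1 i j ∈ inR (lev K a * 𝔪)) :
    Gam 𝔪 (g * g₀⁻¹) ∧ Gam 𝔪 (g₀⁻¹ * g) := by
  have := rw_congr_mul h₀.inv h
  rw [mul_inv_cancel, inv_mul_cancel] at this
  exact ⟨gam_iff'.2 this.1, gam_iff'.2 this.2⟩

theorem Gam.mul {𝔪 : Ideal (𝓞 K)} {δ δ' : SL2 K} (h : Gam 𝔪 δ) (h' : Gam 𝔪 δ') :
    Gam 𝔪 (δ * δ') := by
  have k := (rw_congr_mul (𝔪 := 𝔪) (g := δ) (g' := 1) h'.mden
    (by rw [lev_zero, Ideal.top_mul]; exact gam_iff'.1 h)).1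
  refine gam_iff'.2 fun i j => ?_
  have := add_mem (k i j) (gam_iff'.1 h' i j)
  rwa [one_mul, sub_add_sub_cancel] at this

theorem Gam.inv {𝔪 : Ideal (𝓞 K)} {δ : SL2 K} (h : Gam 𝔪 δ) : Gam 𝔪 δ⁻¹ := by
  obtain ⟨h1, h2, h3, h4⟩ := gam_iff.1 h
  rw [gam_iff, inv_00, inv_01, inv_10, inv_11]
  exact ⟨h4, neg_mem h2, neg_mem h3, h1⟩

/-- `Gam 𝔪` as a subgroup -/
noncomputable def GamS (𝔪 : Ideal (𝓞 K)) : Subgroup (SL2 K) where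
  carrier := {δ | Gam 𝔪 δ}
  mul_mem' := Gam.mul
  one_mem' := gam_one 𝔪
  inv_mem' := Gam.inv

theorem mem_GamS {𝔪 : Ideal (𝓞 K)} {δ : SL2 K} : δ ∈ GamS 𝔪 ↔ Gam 𝔪 δ := Iff.rfl

theorem gam_mN {𝔪 : Ideal (𝓞 K)} {x : R K} : Gam 𝔪 (mN x) ↔ x ∈ inR 𝔪 := by
  rw [gam_iff, mN_00, mN_01, mN_10, mN_11, sub_self]
  exact ⟨fun h => h.2.1, fun h => ⟨zero_mem _, h, zero_mem _, zero_mem _⟩⟩

theorem inU_of_inR {x : R K} (h : x - 1 ∈ inR (lev K 10)) : InU (x : K) := by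
  have := mem_inR_lev.1 h
  rwa [map_sub, map_one] at this

theorem Gam.inU {𝔪 : Ideal (𝓞 K)} (hm : Lev 𝔪) {δ : SL2 K} (hδ : Gam 𝔪 δ) :
    InU ((δ.1 0 0 : R K) : K) ∧ InU ((δ.1 1 1 : R K) : K) := by
  obtain ⟨h1, -, -, h4⟩ := gam_iff.1 (hδ.mono hm.le)
  exact ⟨inU_of_inR h1, inU_of_inR h4⟩

theorem Gam.conj {a : ℕ} {𝔪 : Ideal (𝓞 K)} {g δ : SL2 K} (hg : MDen a g)
    (hδ : Gam (lev K (2 * a) * 𝔪) δ) : Gam 𝔪 (g * δ * g⁻¹) := by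
  rw [two_mul, lev_add_mul] at hδ
  have k := (rw_congr_mul hg (gam_iff'.1 hδ)).2
  rw [mul_one] at k
  exact (gam_of_congr hg k).1

theorem rmul_congr {a : ℕ} {𝔪 : Ideal (𝓞 K)} {g : SL2 K} (hg : MDen a g) {r r' : R K × R K}
    (h1 : r.1 - r'.1 ∈ inR (lev K a * 𝔪)) (h2 : r.2 - r'.2 ∈ inR (lev K a * 𝔪)) :
    (rmul r g).1 - (rmul r' g).1 ∈ inR 𝔪 ∧ (rmul r g).2 - (rmul r' g).2 ∈ inR 𝔪 := by
  simp only [rmul]
  constructor
  · refine (congrArg (· ∈ inR 𝔪) ?_).mp (add_mem ((hg 0 0).inR_mul h1) ((hg 1 0).inR_mul h2))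
    ring
  · refine (congrArg (· ∈ inR 𝔪) ?_).mp (add_mem ((hg 0 1).inR_mul h1) ((hg 1 1).inR_mul h2))
    ring

theorem rmul_congr_of_gam {a : ℕ} {𝔪 : Ideal (𝓞 K)} {δ : SL2 K} (hδ : Gam (lev K a * 𝔪) δ)
    {r : R K × R K} (h1 : Den a r.1) (h2 : Den a r.2) :
    (rmul r δ).1 - r.1 ∈ inR 𝔪 ∧ (rmul r δ).2 - r.2 ∈ inR 𝔪 := by
  obtain ⟨k1, k2, k3, k4⟩ := gam_iff.1 hδ
  simp only [rmul]
  constructor
  · refine (congrArg (· ∈ inR 𝔪) ?_).mp (add_mem (h1.mul_inR k1) (h2.mul_inR k3))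
    ring
  · refine (congrArg (· ∈ inR 𝔪) ?_).mp (add_mem (h1.mul_inR k2) (h2.mul_inR k4))
    ring

theorem rw_exists_reps {α β : Type} [Finite β] (f : α → β) (S : Set α) :
    ∃ T : Finset α, (∀ x ∈ T, x ∈ S) ∧ ∀ x ∈ S, ∃ y ∈ T, f x = f y := by
  classical
  have hf : (f '' S).Finite := Set.toFinite _
  choose g hg hg' using fun (b : f '' S) => b.2
  have : Finite (f '' S) := hf
  refine ⟨(Set.finite_range g).toFinset, fun x hx => ?_, fun x hx => ?_⟩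
  · obtain ⟨b, rfl⟩ := (Set.Finite.mem_toFinset _).1 hx
    exact hg b
  · exact ⟨g ⟨f x, x, hx, rfl⟩, (Set.Finite.mem_toFinset _).2 ⟨_, rfl⟩, (hg' ⟨f x, x, hx, rfl⟩).symm⟩

/-- matrices with bounded denominators lie in finitely many congruence classes -/
theorem exists_fin_congr (a : ℕ) {𝔫 : Ideal (𝓞 K)} (hn : 𝔫 ≠ ⊥) {S : Set (SL2 K)}
    (hS : ∀ g ∈ S, MDen a g) : ∃ T : Finset (SL2 K), (∀ g ∈ T, g ∈ S) ∧
      ∀ g ∈ S, ∃ g₀ ∈ T, ∀ i j, g.1 i j - g₀.1 i j ∈ inR 𝔫 := by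
  classical
  have h0 : lev K a * 𝔫 ≠ ⊥ := mul_ne_zero (lev_ne_bot a) hn
  have : Finite (𝓞 K ⧸ lev K a * 𝔫) := Ring.HasFiniteQuotients.finiteQuotient h0
  have k : ∀ x : R K, ∃ t : 𝓞 K, Den a x → (MM K : R K) ^ a * x = algebraMap (𝓞 K) (R K) t := by
    intro x
    by_cases hx : Den a x
    · obtain ⟨t, -, e⟩ := mem_inR.1 (den_iff.1 hx)
      exact ⟨t, fun _ => e⟩
    · exact ⟨0, fun h => (hx h).elim⟩
  choose t ht using k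
  obtain ⟨T, h1, h2⟩ := rw_exists_reps
    (fun (g : SL2 K) (i j : Fin 2) => Ideal.Quotient.mk (lev K a * 𝔫) (t (g.1 i j))) S
  refine ⟨T, h1, fun g hg => ?_⟩
  obtain ⟨g₀, h3, h4⟩ := h2 g hg
  refine ⟨g₀, h3, fun i j => ?_⟩
  have h5 := int_mem_inR.2 (Ideal.Quotient.eq.1 (congrFun (congrFun h4 i) j))
  rw [map_sub, ← ht _ (hS g hg i j), ← ht _ (hS g₀ (h1 g₀ h3) i j), ← mul_sub] at h5
  obtain ⟨y, hy, e⟩ := mem_inR_lev_mul.1 h5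
  rwa [mul_left_cancel₀ (isUnit_MR.pow a).ne_zero e]

/-- matrices with bounded denominators lie in finitely many cosets of `Gam 𝔪` -/
theorem exists_fin_cosets (a : ℕ) {𝔪 : Ideal (𝓞 K)} (hm : 𝔪 ≠ ⊥) {S : Set (SL2 K)}
    (hS : ∀ g ∈ S, MDen a g) : ∃ T : Finset (SL2 K), (∀ g ∈ T, g ∈ S) ∧
      ∀ g ∈ S, ∃ g₀ ∈ T, Gam 𝔪 (g * g₀⁻¹) ∧ Gam 𝔪 (g₀⁻¹ * g) := by
  obtain ⟨T, h1, h2⟩ := exists_fin_congr a (mul_ne_zero (lev_ne_bot a) hm) hS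
  refine ⟨T, h1, fun g hg => ?_⟩
  obtain ⟨g₀, h3, h4⟩ := h2 g hg
  exact ⟨g₀, h3, gam_of_congr (hS g₀ (h1 g₀ h3)) h4⟩

/-- a subgroup with bounded denominators meets `Gam 𝔪` in a subgroup of finite index -/
theorem relIndex_GamS_of_mden {𝔪 : Ideal (𝓞 K)} (hm : 𝔪 ≠ ⊥) {a : ℕ} {H : Subgroup (SL2 K)}
    (hH : ∀ g ∈ H, MDen a g) : (GamS 𝔪).relIndex H ≠ 0 := by
  obtain ⟨T, h1, h2⟩ := exists_fin_cosets a hm (S := H) hH
  have : Finite (H ⧸ (GamS 𝔪).subgroupOf H) := by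
    refine Finite.of_surjective
      (fun g : T => (QuotientGroup.mk ⟨g.1, h1 g.1 g.2⟩ : H ⧸ (GamS 𝔪).subgroupOf H)) fun x => ?_
    obtain ⟨g, rfl⟩ := QuotientGroup.mk_surjective x
    obtain ⟨g₀, h3, -, h4⟩ := h2 g.1 g.2
    exact ⟨⟨g₀, h3⟩, QuotientGroup.eq.2 h4⟩
  exact Subgroup.index_ne_zero_of_finite

theorem relIndex_GamS_ne_zero {𝔪 : Ideal (𝓞 K)} (hm : 𝔪 ≠ ⊥) (𝔫 : Ideal (𝓞 K)) :
    (GamS 𝔪).relIndex (GamS 𝔫) ≠ 0 :=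
  relIndex_GamS_of_mden hm (a := 0) fun _ hg => Gam.mden hg

/-! ## the sets `Box` (`Box.mono`, `exists_box` are in `N/Val`) -/

theorem Box.coprime {a : ℕ} {r : R K × R K} (h : Box a r) : IsCoprime r.1 r.2 := h.1

theorem Box.den1 {a : ℕ} {r : R K × R K} (h : Box a r) : Den a r.1 := h.2.1

theorem Box.den2 {a : ℕ} {r : R K × R K} (h : Box a r) : Den a r.2 := h.2.2.1

theorem MDen.box_row {a : ℕ} {g : SL2 K} (hg : MDen a g) : Box a (row g) := by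
  refine ⟨coprime_row g, hg 1 0, hg 1 1, _, _, (hg 0 1).neg, hg 0 0, ?_⟩
  have := congrArg (algebraMap (R K) K) (sl2_det g)
  simp only [row, map_sub, map_mul, map_one, map_neg] at this ⊢
  linear_combination (MM K : K) ^ a * this

theorem Box.exists_row {a : ℕ} {r : R K × R K} (h : Box a r) : ∃ g, row g = r ∧ MDen a g := by
  obtain ⟨⟨B, A, h0⟩, h1, h2, s, t, hs, ht, e⟩ := h
  have hM : (MM K : K) ^ a ≠ 0 := pow_ne_zero _ M_ne_zero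
  have h0' := congrArg (algebraMap (R K) K) h0
  simp only [map_add, map_mul, map_one] at h0'
  obtain ⟨x, hx⟩ := exists_R_approx 0 ((t * B - s * A) / (MM K : K) ^ a)
  obtain ⟨g, e1, e2, e3, e4⟩ := exists_sl2 (a := A + x * r.1) (b := -B + x * r.2) (c := r.1)
    (d := r.2) (by linear_combination h0)
  refine ⟨g, Prod.ext e3 e4, mden_iff.2 ⟨?_, ?_, e3 ▸ h1, e4 ▸ h2⟩⟩
  · refine (congrArg (SIn 0) ?_).mp (ht.sub (hx.mul_right h1))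
    rw [e1, map_add, map_mul]
    field_simp
    linear_combination (A : K) * e - t * h0'
  · refine (congrArg (SIn 0) ?_).mp (hs.neg.sub (hx.mul_right h2))
    rw [e2, map_add, map_mul, map_neg]
    field_simp
    linear_combination -(B : K) * e + s * h0'

theorem box_iff {a : ℕ} {r : R K × R K} : Box a r ↔ ∃ g, row g = r ∧ MDen a g :=
  ⟨Box.exists_row, fun ⟨_, h, hg⟩ => h ▸ hg.box_row⟩

theorem Box.rmul {a b : ℕ} {r : R K × R K} (h : Box a r) {g : SL2 K} (hg : MDen b g) :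
    Box (a + b) (P319.rmul r g) := by
  obtain ⟨g₀, rfl, h₀⟩ := h.exists_row
  rw [← row_mul]
  exact (h₀.mul hg).box_row

theorem box_rmul_gam {a : ℕ} {𝔪 : Ideal (𝓞 K)} {δ : SL2 K} (hδ : Gam 𝔪 δ) (r : R K × R K) :
    Box a (rmul r δ) ↔ Box a r :=
  ⟨fun h => rmul_inv_cancel r δ ▸ h.rmul hδ.inv.mden, fun h => h.rmul hδ.mden⟩

theorem mden_mD {u : (R K)ˣ} (hu : u ∈ EU K) : MDen 0 (mD u) := by
  have k : ∀ v ∈ EU K, Den 0 ((v : (R K)ˣ) : R K) := fun v hv =>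
    den_zero_iff.2 (mem_inR_top.2 (mem_EU.1 hv).sIn)
  exact mden_iff.2 ⟨k u hu, den_zero 0, den_zero 0, k _ (inv_mem hu)⟩

theorem box_unit {a : ℕ} {u : (R K)ˣ} (hu : u ∈ EU K) (r : R K × R K) :
    Box a ((u : R K) * r.1, (u : R K) * r.2) ↔ Box a r := by
  have k : ∀ v ∈ EU K, ∀ r : R K × R K, Box a r →
      Box a (((v : (R K)ˣ) : R K) * r.1, (v : R K) * r.2) := by
    intro v hv r h
    obtain ⟨g, rfl, hg⟩ := h.exists_row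
    have := ((mden_mD (inv_mem hv)).mul hg).box_row
    rwa [row_mD_mul, inv_inv, zero_add] at this
  refine ⟨fun h => ?_, k u hu r⟩
  simpa using k _ (inv_mem hu) _ h

theorem box_zero_one (a : ℕ) : Box a ((0, 1) : R K × R K) :=
  ((gam_one ⊤).mden.mono (Nat.zero_le a)).box_row

theorem Box.congr {a : ℕ} {r r' : R K × R K} (h : Box a r) (h' : IsCoprime r'.1 r'.2)
    (h1 : r.1 - r'.1 ∈ inR (lev K (a + 1))) (h2 : r.2 - r'.2 ∈ inR (lev K (a + 1))) :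
    Box a r' := by
  have hM : (MM K : K) ^ a ≠ 0 := pow_ne_zero _ M_ne_zero
  have d1 := h.den1.sub (den_of_inR h1 a)
  have d2 := h.den2.sub (den_of_inR h2 a)
  rw [sub_sub_cancel] at d1 d2
  obtain ⟨-, -, -, s, t, hs, ht, e⟩ := h
  have k : InUq 1 ((s * r'.1 + t * r'.2) / (MM K : K) ^ a) := by
    rw [InUq, ← sIn_pow_mul_iff (a := a)]
    refine (congrArg (SIn (a + 1)) ?_).mp
      (((mem_inR_lev.1 h1).mul_left hs).add ((mem_inR_lev.1 h2).mul_left ht)).neg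
    rw [map_sub, map_sub]
    field_simp
    linear_combination -e
  have k0 := k.ne_zero le_rfl
  have k1 := (k.inv le_rfl).sIn
  refine ⟨h', d1, d2, _, _, hs.mul_left k1, ht.mul_left k1, ?_⟩
  rw [mul_assoc, mul_assoc, ← mul_add, inv_div, div_mul_cancel₀ _ (div_ne_zero_iff.1 k0).1]

theorem exists_gam_of_congr {a : ℕ} {𝔪 : Ideal (𝓞 K)} {r r' : R K × R K} (h : Box a r)
    (h' : Box a r') (h1 : r.1 - r'.1 ∈ inR (lev K (5 * a) * 𝔪))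
    (h2 : r.2 - r'.2 ∈ inR (lev K (5 * a) * 𝔪)) : ∃ δ, Gam 𝔪 δ ∧ r' = rmul r δ := by
  obtain ⟨g, rfl, hg⟩ := h.exists_row
  obtain ⟨g', rfl, hg'⟩ := h'.exists_row
  rw [show 5 * a = a + (a + a + 2 * a) by ring, lev_add_mul, lev_add_mul] at h1 h2
  have k := rmul_congr hg.inv h1 h2
  rw [← row_mul, ← row_mul, mul_inv_cancel] at k
  have ht' := hg'.mul hg.inv
  obtain ⟨t, ht⟩ : ∃ t, t = g' * g⁻¹ := ⟨_, rfl⟩
  rw [← ht] at k ht'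
  obtain ⟨ha, hb⟩ := k
  simp only [row, one_10, one_11] at ha hb
  have d := sl2_det t
  have hm : Gam (lev K (2 * a) * 𝔪) (mN (-t.1 0 1) * t) := by
    rw [gam_iff]
    simp only [sl2_mul, mN_00, mN_01, mN_10, mN_11]
    refine ⟨(congrArg (· ∈ inR _) ?_).mp ((ht' 0 0).mul_inR hb),
      (congrArg (· ∈ inR _) ?_).mp ((ht' 0 1).mul_inR hb),
      (congrArg (· ∈ inR _) ?_).mp (neg_mem (inR_mono Ideal.mul_le_right ha)),
      (congrArg (· ∈ inR _) ?_).mp (neg_mem (inR_mono Ideal.mul_le_right hb))⟩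
    · linear_combination -d
    · ring
    · ring
    · ring
  refine ⟨_, hm.conj hg.inv, ?_⟩
  rw [← row_mul]
  refine (row_eq_row_iff.2 ⟨-t.1 0 1, ?_⟩).symm
  generalize mN (-t.1 0 1) = n
  rw [ht]
  group

/-- finitely many `Gam 𝔪`-orbits on `Box a` -/
theorem exists_fin_orbits (a : ℕ) {𝔪 : Ideal (𝓞 K)} (hm : 𝔪 ≠ ⊥) :
    ∃ T : Finset (SL2 K), (∀ g ∈ T, MDen a g) ∧
      ∀ r, Box a r → ∃ g ∈ T, ∃ δ, Gam 𝔪 δ ∧ r = row (g * δ) := by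
  obtain ⟨T, h1, h2⟩ := exists_fin_cosets a hm (S := {g | MDen a g}) fun _ h => h
  refine ⟨T, h1, fun r hr => ?_⟩
  obtain ⟨g, rfl, hg⟩ := hr.exists_row
  obtain ⟨g₀, h3, -, h4⟩ := h2 g hg
  exact ⟨g₀, h3, _, h4, by rw [mul_inv_cancel_left]⟩

end Vale.Agent.P319
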