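import Vale.Agent.P319.N.RowsA
import Vale.Agent.P319.N.Sym

/-! # ROWS, part B: the Kubota symbol.

`rw_den`: `cub a x = cub a y` if `y / x ∈ U` and `a ∣ x - y`.
`kap_mul`: make the bottom left entry of the first factor coprime to the bottom right entry of the second.
`kapJ_left`, `kapJ_right`: the two transformation rules for `cub d c`; together they give `kap_conj`. -/

namespace Vale.Agent.P319

open scoped ComplexConjugate Real NumberField

variable {K : Type} [Field K] [NumberField K] [Stp K]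

theorem norm_kap (δ : SL2 K) : ‖kap δ‖ = 1 := norm_cub (coprime_row δ)

theorem kap_ne_zero (δ : SL2 K) : kap δ ≠ 0 := by
  rw [← norm_ne_zero_iff, norm_kap]
  exact one_ne_zero

theorem kap_mul_conj (δ : SL2 K) : kap δ * conj (kap δ) = 1 := by
  rw [Complex.mul_conj, Complex.normSq_eq_norm_sq, norm_kap]
  simp

theorem isUnit_of_upper {δ : SL2 K} (h : δ.1 1 0 = 0) : IsUnit (δ.1 1 1) := by
  have d := sl2_det δ
  rw [h, mul_zero, sub_zero] at d
  exact IsUnit.of_mul_eq_one_right _ d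

theorem kap_upper {δ : SL2 K} (h : δ.1 1 0 = 0) : kap δ = 1 := cub_unit_right (isUnit_of_upper h) _

theorem kap_one : kap (1 : SL2 K) = 1 := kap_upper rfl

theorem kap_mN (x : R K) : kap (mN x) = 1 := kap_upper rfl

theorem kap_mN_mul (x : R K) (δ : SL2 K) : kap (mN x * δ) = kap δ := by
  have := row_mN_mul x δ
  simp only [row, Prod.mk.injEq] at this
  rw [kap, kap, this.1, this.2]

/-- a translate `d + c x`, `x ≡ 0 mod M ^ q`, coprime to a given `n ≠ 0` -/
theorem rw_shift {c d n : R K} (h : IsCoprime c d) (hn : n ≠ 0) (q : ℕ) :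
    ∃ x ∈ inR (lev K q), IsCoprime (d + c * x) n := by
  classical
  obtain ⟨x, hx⟩ : ∃ x,
      x = ((UniqueFactorizationMonoid.factors n).filter fun p => ¬p ∣ d).prod := ⟨_, rfl⟩
  obtain ⟨k, hk⟩ := exists_den x
  refine ⟨(MM K : R K) ^ q * ((MM K : R K) ^ k * x), ?_, ?_⟩
  · rw [← Ideal.mul_top (lev K q)]
    exact mem_inR_lev_mul.2 ⟨_, den_iff.1 hk, rfl⟩
  refine isCoprime_of_prime_dvd (fun e => hn e.2) fun p hp h1 h2 => ?_
  by_cases hd : p ∣ d
  · rcases hp.dvd_or_dvd ((dvd_add_right hd).1 h1) with h3 | h3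
    · exact hp.not_isUnit (h.isUnit_of_dvd' h3 hd)
    · rw [(isUnit_MR.pow q).dvd_mul_left, (isUnit_MR.pow k).dvd_mul_left, hx] at h3
      obtain ⟨p', h4, h5⟩ := hp.exists_mem_multiset_dvd h3
      rw [Multiset.mem_filter] at h4
      exact h4.2 (((hp.associated_of_dvd
        (UniqueFactorizationMonoid.prime_of_factor _ h4.1) h5).symm.dvd).trans hd)
  · obtain ⟨p', h4, h5⟩ := UniqueFactorizationMonoid.exists_mem_factors_of_dvd hn hp.irreducible h2
    have h6 : p ∣ x := h5.dvd.trans (hx ▸ Multiset.dvd_prod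
      (Multiset.mem_filter.2 ⟨h4, fun e => hd (h5.dvd.trans e)⟩))
    exact hd ((dvd_add_left (((h6.mul_left _).mul_left _).mul_left c)).1 h1)

theorem rw_ne {x y : R K} (h : InU ((x : K) / y)) : x ≠ 0 ∧ y ≠ 0 := by
  have := div_ne_zero_iff.1 (h.ne_zero (by norm_num))
  exact ⟨fun e => this.1 (coe_eq_zero.2 e), fun e => this.2 (coe_eq_zero.2 e)⟩

theorem rw_ne' {x : R K} (h : InU (x : K)) : x ≠ 0 :=
  fun e => h.ne_zero (by norm_num) (coe_eq_zero.2 e)

theorem rw_gam_inU {δ : SL2 K} (hδ : Gam (lev K 10) δ) :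
    InU ((δ.1 0 0 : R K) : K) ∧ InU ((δ.1 1 1 : R K) : K) := hδ.inU (Lev.lev le_rfl)

variable [Rcp K]

theorem rw_recip {x y : R K} (hx : InU (x : K)) (hy : y ≠ 0) (h : IsCoprime x y) :
    cub y x = cub x y := Rcp.cubic x y hx hy h

theorem rw_cub_unit {u : R K} (hu : IsUnit u) (h : InU (u : K)) (n : R K) : cub u n = 1 := by
  rcases eq_or_ne n 0 with rfl | hn
  · exact cub_zero_right u
  · obtain ⟨u, rfl⟩ := hu
    rw [← rw_recip h hn (isCoprime_unit u n), cub_unit_right u.isUnit]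

theorem rw_cub_unitU {u : (R K)ˣ} (hu : u ∈ EU K) (n : R K) : cub (u : R K) n = 1 :=
  rw_cub_unit u.isUnit (mem_EU.1 hu) n

theorem rw_den {a x y : R K} (h : IsCoprime a x) (hd : a ∣ x - y) (hU : InU ((y : K) / x)) :
    cub a x = cub a y := by
  obtain ⟨hy, hx⟩ := rw_ne hU
  rcases eq_or_ne a 0 with rfl | ha
  · rw [sub_eq_zero.1 (zero_dvd_iff.1 hd)]
  obtain ⟨z, h1, w, h2⟩ := exists_R_inUq 10 (inv_ne_zero (coe_ne_zero hx)) ha 1
  obtain ⟨v, hv⟩ := hd
  have hz : IsCoprime a z := ⟨-w, 1, by linear_combination h2⟩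
  have hy' : IsCoprime a y := by
    have := h.add_mul_left_right (-v)
    rwa [show x + a * -v = y by linear_combination hv] at this
  have u1 : InU ((z * x : R K) : K) := by rwa [div_inv_eq_mul, ← map_mul] at h1
  have u2 : InU ((z * y : R K) : K) := by
    have := u1.mul hU
    rwa [map_mul, mul_assoc, mul_div_cancel₀ _ (coe_ne_zero hx), ← map_mul] at this
  have z0 : z ≠ 0 := left_ne_zero_of_mul (rw_ne' u1)
  refine mul_left_cancel₀ (cub_ne_zero hz) ?_
  rw [← cub_mul_right z0 hx, ← cub_mul_right z0 hy, rw_recip u1 ha (hz.mul_right h).symm,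
    rw_recip u2 ha (hz.mul_right hy').symm]
  exact cub_congr ⟨z * v, by linear_combination z * hv⟩

theorem rw_den' {a x y : R K} (h : IsCoprime a x) (hd : a ∣ x - y) (hx : InU (x : K))
    (hy : InU (y : K)) : cub a x = cub a y := rw_den h hd (hy.div (by norm_num) hx)

theorem kap_mul_mN {δ : SL2 K} (hδ : Gam (lev K 10) δ) {x : R K} (hx : x ∈ inR (lev K 10)) :
    kap (δ * mN x) = kap δ := by
  have k := rw_gam_inU (hδ.mul (gam_mN.2 hx))
  have e1 : (δ * mN x).1 1 0 = δ.1 1 0 := by rw [sl2_mul, mN_00, mN_10]; ring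
  have e2 : (δ * mN x).1 1 1 = δ.1 1 0 * x + δ.1 1 1 := by rw [sl2_mul, mN_01, mN_11]; ring
  rw [kap, kap, e1]
  exact (rw_den' (coprime_row δ) ⟨-x, by rw [e2]; simp only [row]; ring⟩ (rw_gam_inU hδ).2 k.2).symm

theorem rw_kap_mul {δ δ' : SL2 K} (hδ : Gam (lev K 10) δ) (hδ' : Gam (lev K 10) δ')
    (h : IsCoprime (δ'.1 1 1) (δ.1 1 0)) : kap (δ * δ') = kap δ * kap δ' := by
  have uD := (rw_gam_inU (hδ.mul hδ')).2
  have ud := (rw_gam_inU hδ).2
  have ud' := (rw_gam_inU hδ').2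
  have h1 : IsCoprime (δ.1 1 0) (δ.1 1 1) := coprime_row δ
  have det := sl2_det δ'
  rw [kap, kap, kap]
  rw [sl2_mul] at uD ⊢
  rw [sl2_mul]
  generalize δ.1 1 0 = c, δ.1 1 1 = d, δ'.1 0 0 = a', δ'.1 0 1 = b', δ'.1 1 0 = c',
    δ'.1 1 1 = d' at *
  have h2 : IsCoprime d' b' := ⟨a', -c', by linear_combination det⟩
  have h3 : IsCoprime (c * b' + d * d') d' := (h.mul_right h2).symm.add_mul_right_left d
  have e1 : cub d' (c * b' + d * d') * cub (c * a' + d * c') (c * b' + d * d') =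
      cub c (c * b' + d * d') := by
    rw [← cub_mul_left]
    exact cub_congr ⟨c', by linear_combination c * det⟩
  have e2 : cub c (d * d') = cub c (c * b' + d * d') :=
    rw_den' (h1.mul_right h.symm) ⟨-b', by ring⟩ (by rw [map_mul]; exact ud.mul ud') uD
  have e3 : cub d' (c * b' + d * d') = cub c d' * cub b' d' := by
    rw [rw_recip uD (rw_ne' ud') h3, ← cub_mul_left]
    exact cub_congr ⟨d, by ring⟩
  have e4 : cub b' d' * cub c' d' = 1 := by
    rw [← cub_mul_left, cub_congr (b := -1) ⟨a', by linear_combination -det⟩, cub_neg_left,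
      cub_one_left]
  rw [cub_mul_right (rw_ne' ud) (rw_ne' ud')] at e2
  refine mul_left_cancel₀ (cub_ne_zero h.symm) ?_
  rw [e3, ← e2] at e1
  linear_combination cub c' d' * e1 -
    cub c d' * cub (c * a' + d * c') (c * b' + d * d') * e4

theorem kap_mul {δ δ' : SL2 K} (hδ : Gam (lev K 10) δ) (hδ' : Gam (lev K 10) δ') :
    kap (δ * δ') = kap δ * kap δ' := by
  rcases eq_or_ne (δ.1 1 0) 0 with h | h
  · have hu := isUnit_of_upper h
    rw [kap_upper h, one_mul, kap, kap, sl2_mul, sl2_mul, h, zero_mul, zero_mul, zero_add, zero_add,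
      cub_associated (associated_unit_mul_left _ _ hu), cub_mul_left,
      rw_cub_unit hu (rw_gam_inU hδ).2, one_mul]
  obtain ⟨x, hx, h1⟩ := rw_shift (coprime_row δ') h 10
  rw [← kap_mul_mN (hδ.mul hδ') hx, ← kap_mul_mN hδ' hx, mul_assoc]
  refine rw_kap_mul hδ (hδ'.mul (gam_mN.2 hx)) ?_
  rw [sl2_mul, mN_01, mN_11, mul_one, add_comm]
  exact h1

theorem kap_inv {δ : SL2 K} (hδ : Gam (lev K 10) δ) : kap δ⁻¹ = conj (kap δ) := by
  refine mul_left_cancel₀ (kap_ne_zero δ) ?_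
  rw [← kap_mul hδ hδ.inv, mul_inv_cancel, kap_one, kap_mul_conj]

theorem Lev.kap_mul {𝔪 : Ideal (𝓞 K)} (hm : Lev 𝔪) {δ δ' : SL2 K} (hδ : Gam 𝔪 δ)
    (hδ' : Gam 𝔪 δ') : kap (δ * δ') = kap δ * kap δ' :=
  P319.kap_mul (hδ.mono hm.2) (hδ'.mono hm.2)

theorem Lev.kap_inv {𝔪 : Ideal (𝓞 K)} (hm : Lev 𝔪) {δ : SL2 K} (hδ : Gam 𝔪 δ) :
    kap δ⁻¹ = conj (kap δ) := P319.kap_inv (hδ.mono hm.2)

omit [Rcp K] in
theorem rw_U_mul_div {u c c' : R K} (hu : InU (u : K)) (h : InU ((c' : K) / c)) :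
    InU (((u * c : R K) : K) / c') := by
  rw [map_mul, mul_div_assoc]
  exact hu.mul (h.div_symm (by norm_num))

theorem rw_kapJ_left {δ g₀ : SL2 K} (hδ : Gam (lev K 10) δ)
    (hU : InU ((((δ * g₀).1 1 0 : R K) : K) / g₀.1 1 0))
    (h : IsCoprime (g₀.1 0 0) ((δ * g₀).1 1 0)) :
    cub ((δ * g₀).1 1 1) ((δ * g₀).1 1 0) = kap δ * cub (g₀.1 1 1) (g₀.1 1 0) := by
  have u4 := (rw_gam_inU hδ).2
  have h1 : IsCoprime ((δ * g₀).1 1 0) ((δ * g₀).1 1 1) := coprime_row (δ * g₀)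
  have det := sl2_det g₀
  obtain ⟨c0', c0⟩ := rw_ne hU
  rw [kap]
  rw [sl2_mul] at hU h c0'
  rw [sl2_mul, sl2_mul] at h1 ⊢
  generalize δ.1 1 0 = x, δ.1 1 1 = y, g₀.1 0 0 = a, g₀.1 0 1 = b, g₀.1 1 0 = c,
    g₀.1 1 1 = d at *
  have h2 : IsCoprime y (x * a + y * c) := by
    have := (h.mul_left h1.symm).add_mul_right_left (-b)
    rwa [show a * (x * b + y * d) + -b * (x * a + y * c) = y by linear_combination y * det] at this
  have h3 : IsCoprime a y := (h.of_mul_add_right_right).of_mul_right_left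
  have e1 : cub a (x * a + y * c) * cub (x * b + y * d) (x * a + y * c) =
      cub y (x * a + y * c) := by
    rw [← cub_mul_left]
    exact cub_congr ⟨b, by linear_combination y * det⟩
  have e2 : cub y (x * a + y * c) = cub x y * cub a y := by
    rw [← rw_recip u4 c0' h2, ← cub_mul_left]
    exact cub_congr ⟨c, by ring⟩
  have e3 : cub a (x * a + y * c) = cub a y * cub a c := by
    rw [← cub_mul_right (rw_ne' u4) c0]
    exact rw_den h ⟨x, by ring⟩ (rw_U_mul_div u4 hU)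
  have e4 : cub a c * cub d c = 1 := by
    rw [← cub_mul_left, cub_congr (b := 1) ⟨b, by linear_combination det⟩, cub_one_left]
  refine mul_left_cancel₀ (cub_ne_zero h3) ?_
  rw [e2, e3] at e1
  linear_combination cub d c * e1 - cub a y * cub (x * b + y * d) (x * a + y * c) * e4

/-- the rule `J'` -/
theorem kapJ_left {δ g₀ : SL2 K} (hδ : Gam (lev K 10) δ)
    (hU : InU ((((δ * g₀).1 1 0 : R K) : K) / g₀.1 1 0)) :
    cub ((δ * g₀).1 1 1) ((δ * g₀).1 1 0) = kap δ * cub (g₀.1 1 1) (g₀.1 1 0) := by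
  have h0 : IsCoprime (g₀.1 1 0) (g₀.1 0 0) :=
    ⟨-g₀.1 0 1, g₀.1 1 1, by linear_combination sl2_det g₀⟩
  obtain ⟨x, hx, h1⟩ := rw_shift h0 (rw_ne hU).1 10
  have e : δ * g₀ = δ * mN (-x) * (mN x * g₀) := by rw [← mN_inv]; group
  have e1 := row_mN_mul x g₀
  simp only [row, Prod.mk.injEq] at e1
  have k := rw_kapJ_left (g₀ := mN x * g₀) (hδ.mul (gam_mN.2 (neg_mem hx)))
    (by rw [← e, e1.1]; exact hU)
    (by rw [← e, sl2_mul (mN x), mN_00, mN_01, one_mul, mul_comm x]; exact h1)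
  rwa [← e, e1.1, e1.2, kap_mul_mN hδ (neg_mem hx)] at k

theorem rw_kapJ_right {δ : SL2 K} (hδ : Gam (lev K 10) δ) {r : R K × R K} (hr : IsCoprime r.1 r.2)
    (hU : InU ((((rmul r δ).1 : R K) : K) / r.1)) (h : IsCoprime (δ.1 0 0) (rmul r δ).1) :
    cub (rmul r δ).2 (rmul r δ).1 = kap δ * cub r.2 r.1 := by
  obtain ⟨u1, u4⟩ := rw_gam_inU hδ
  have h1 := (coprime_rmul δ).2 hr
  have det := sl2_det δ
  obtain ⟨c0', c0⟩ := rw_ne hU
  obtain ⟨c, d⟩ := r
  rw [kap]
  simp only [rmul] at hU h h1 c0' c0 hr ⊢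
  generalize δ.1 0 0 = x, δ.1 0 1 = y, δ.1 1 0 = z, δ.1 1 1 = w at *
  have h2 : IsCoprime d (c * x + d * z) := by
    have := (h.mul_left h1.symm).add_mul_right_left (-y)
    rwa [show x * (c * y + d * w) + -y * (c * x + d * z) = d by linear_combination d * det] at this
  have h3 : IsCoprime x d := (h.of_mul_add_right_right).of_mul_right_left
  have e1 : cub x (c * x + d * z) * cub (c * y + d * w) (c * x + d * z) =
      cub d (c * x + d * z) := by
    rw [← cub_mul_left]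
    exact cub_congr ⟨y, by linear_combination d * det⟩
  have e2 : cub x (c * x + d * z) = cub d x * cub z x := by
    rw [← rw_recip u1 c0' h, ← cub_mul_left]
    exact cub_congr ⟨c, by ring⟩
  have e3 : cub d (c * x + d * z) = cub d x * cub d c := by
    rw [← cub_mul_right (rw_ne' u1) c0]
    exact rw_den h2 ⟨z, by ring⟩ (rw_U_mul_div u1 hU)
  have e4 : cub z x * cub z w = 1 := by
    rw [← cub_mul_right (rw_ne' u1) (rw_ne' u4), ← cub_one_right z]
    refine (rw_den' isCoprime_one_right ⟨-y, by linear_combination -det⟩ ?_ ?_).symm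
    · rw [map_one]; exact inUq_one 10
    · rw [map_mul]; exact u1.mul u4
  refine mul_left_cancel₀ (cub_ne_zero h3.symm) ?_
  rw [e2, e3] at e1
  linear_combination cub z w * e1 - cub d x * cub (c * y + d * w) (c * x + d * z) * e4

/-- the rule `J''` -/
theorem kapJ_right {δ : SL2 K} (hδ : Gam (lev K 10) δ) {r : R K × R K} (hr : IsCoprime r.1 r.2)
    (hU : InU ((((rmul r δ).1 : R K) : K) / r.1)) :
    cub (rmul r δ).2 (rmul r δ).1 = kap δ * cub r.2 r.1 := by
  have h0 : IsCoprime (δ.1 1 0) (δ.1 0 0) := ⟨-δ.1 0 1, δ.1 1 1, by linear_combination sl2_det δ⟩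
  obtain ⟨x, hx, h1⟩ := rw_shift h0 (rw_ne hU).1 10
  obtain ⟨c, d⟩ := r
  have e : rmul (c, d) δ = rmul (c, c * -x + d) (mN x * δ) := by
    rw [← rmul_mN, ← rmul_mul, ← mN_inv, inv_mul_cancel_left]
  have k := rw_kapJ_right (r := (c, c * -x + d)) ((gam_mN.2 hx).mul hδ)
    (IsCoprime.mul_add_left_right hr _) (by rw [← e]; exact hU)
    (by rw [← e, sl2_mul, mN_00, mN_01, one_mul, mul_comm x]; exact h1)
  rw [← e, kap_mN_mul] at k
  rw [k]
  exact congrArg _ (cub_congr ⟨-x, by ring⟩)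

theorem rw_conj_ne {g : SL2 K} (h : g.1 1 0 ≠ 0) :
    ∃ b : ℕ, ∀ δ, Gam (lev K b) δ → kap (g * δ * g⁻¹) = kap δ := by
  obtain ⟨e, he⟩ := exists_mden g
  obtain ⟨a, ha⟩ := exists_inUq_close (coe_ne_zero h) 10
  refine ⟨2 * e + 10 + a, fun δ hδ => ?_⟩
  have h1 : Gam (lev K 10) (g * δ * g⁻¹) :=
    Gam.conj he (by rw [lev_mul]; exact hδ.mono (lev_anti (by omega)))
  have h2 := (rmul_congr_of_gam (a := e) (𝔪 := lev K a) (r := row g)
    (by rw [lev_mul]; exact hδ.mono (lev_anti (by omega))) (he 1 0) (he 1 1)).1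
  rw [mem_inR_lev, map_sub] at h2
  have h3 := ha _ h2
  have k1 := kapJ_right (hδ.mono (lev_anti (by omega))) (coprime_row g) h3
  rw [← row_mul] at h3 k1
  have k2 := kapJ_left (g₀ := g) h1 (by rw [inv_mul_cancel_right]; exact h3)
  rw [inv_mul_cancel_right] at k2
  exact mul_right_cancel₀ (cub_ne_zero (coprime_row g).symm) (k2.symm.trans k1)

theorem rw_conj (g : SL2 K) : ∃ b : ℕ, ∀ δ, Gam (lev K b) δ → kap (g * δ * g⁻¹) = kap δ := by
  rcases eq_or_ne (g.1 1 0) 0 with h | h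
  swap
  · exact rw_conj_ne h
  obtain ⟨b1, h1⟩ := rw_conj_ne (g := g * mS⁻¹) (by
    rw [sl2_mul, inv_00, inv_10, mS_11, mS_10, mul_zero, zero_add, mul_neg, mul_one]
    exact neg_ne_zero.2 (isUnit_of_upper h).ne_zero)
  obtain ⟨b2, h2⟩ := rw_conj_ne (g := (mS : SL2 K)) one_ne_zero
  refine ⟨b1 + b2, fun δ hδ => ?_⟩
  rw [← h2 δ (hδ.mono (lev_anti (by omega))), ← h1 (mS * δ * mS⁻¹) (Gam.conj mden_mS
    (by rw [lev_mul]; exact hδ.mono (lev_anti (by omega))))]
  congr 1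
  group

/-- `kap` is invariant under conjugation on a deep enough subgroup; the depth depends only on the
denominators of `g` -/
theorem kap_conj (e : ℕ) : ∃ b : ℕ, ∀ g : SL2 K, MDen e g → ∀ δ, Gam (lev K b) δ →
    Gam (lev K 10) (g * δ * g⁻¹) ∧ kap (g * δ * g⁻¹) = kap δ := by
  obtain ⟨T, h1, h2⟩ := exists_fin_cosets e (lev_ne_bot (K := K) 10) (S := {g | MDen e g})
    fun _ h => h
  choose b hb using rw_conj (K := K)
  refine ⟨2 * e + 10 + T.sup b, fun g hg δ hδ => ?_⟩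
  have h3 : Gam (lev K (2 * e) * lev K 10) δ := by
    rw [lev_mul]; exact hδ.mono (lev_anti (by omega))
  refine ⟨h3.conj hg, ?_⟩
  obtain ⟨g₀, h4, h5, -⟩ := h2 g hg
  have h6 := h3.conj (h1 g₀ h4)
  have h7 : b g₀ ≤ T.sup b := Finset.le_sup h4
  rw [show g * δ * g⁻¹ = g * g₀⁻¹ * (g₀ * δ * g₀⁻¹) * (g * g₀⁻¹)⁻¹ by group,
    kap_mul (h5.mul h6) h5.inv, kap_mul h5 h6, kap_inv h5, hb g₀ δ (hδ.mono (lev_anti (by omega)))]
  linear_combination kap δ * kap_mul_conj (g * g₀⁻¹)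

end Vale.Agent.P319
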