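import Vale.Agent.P319.N.Main
import Vale.Agent.P319.N.Pnt

/-! Small primes modulo which `p` is not an `l`-th power. -/

namespace Vale.Agent.P319

theorem nt_main : NTStmt := nt_of xi zf_all

end Vale.Agent.P319
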