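import Vale.Agent.P319.N.ThCRes

/-! # TH-C: sums over units modulo `EU`.
PLAN.  `tsum_unit_le`: `summable_of_sum_le`, `Real.tsum_le_of_sum_le`.  For `t` with `Den a (uo t * β)` write `M^a uo t β = y t ∈ 𝓞 K` (`sIn_R_iff0`),
`φ t = spart (span {y t})`, `SId (φ t)`, `NS (M^a) * NS (uo t β) = absNorm (φ t)` (`NS_int`, `NS_mul`).  If `φ t = φ t'` then `span {y t} = span {y t'}`
(`spart_mul_idl`, `gen_span`, `pp_unit_mul`), so `uo t = ε uo t'` with `ε ∈ (𝓞 K)ˣ`; a fibre of `φ` injects into the finite set of `exists_EU_reps`.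
`Finset.sum_comp` (or `Finset.sum_fiberwise_of_maps_to`), `sum_SId_le`.  `C = card T * NS (M^a)^σ * C'`.
`hol_unit`: `Complex.differentiableOn_tsum_of_summable_norm` on the ball of `re_of_ball`, `rpow_le_add`.
`tsum_uo_mul`: `Equiv.mulRight (w : UQ K)`, `uo_mul`.  `summable_dir`: `summable_prod_of_nonneg` after `Equiv.prodComm`,
`nK_eq_nm_mul`, `tsum_unit_le` with `β = n`, `summable_ind_rpow`. -/

namespace Vale.Agent.P319.TC

open scoped ComplexConjugate Real Topology NumberField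
open MeasureTheory Filter

theorem summable_ind_mul {α : Type*} {f : α → ℂ} (hf : Summable f) (Q : α → Prop) :
    Summable fun x => ind (Q x) * f x :=
  Summable.of_norm_bounded hf.norm fun c => by
    rw [norm_mul]
    exact mul_le_of_le_one_left (norm_nonneg _) (norm_ind_le _)

/-- splitting a sum along an injection -/
theorem tsum_split {α β : Type*} {f : α → ℂ} (hf : Summable f) {m : β → α}
    (hm : Function.Injective m) {Q : α → Prop} (hQ : ∀ x, Q x ↔ x ∉ Set.range m) :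
    ∑' x, f x = ∑' x, ind (Q x) * f x + ∑' y, f (m y) := by
  have h2 : ∑' x, ind (¬Q x) * f x = ∑' y, f (m y) := by
    rw [← hm.tsum_eq (f := fun x => ind (¬Q x) * f x)]
    · exact tsum_congr fun y => by rw [ind_of fun h => (hQ _).1 h ⟨y, rfl⟩, one_mul]
    · intro x hx
      by_contra h
      exact hx (by simp [ind_of_not (not_not.2 ((hQ x).2 h))])
  rw [← h2, ← (summable_ind_mul hf _).tsum_add (summable_ind_mul hf _)]
  refine tsum_congr fun x => ?_
  by_cases h : Q x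
  · rw [ind_of h, ind_of_not (not_not.2 h)]; ring
  · rw [ind_of_not h, ind_of h]; ring

variable {K : Type} [Field K] [NumberField K] [Stp K]

theorem isUnit_uo (t : UQ K) : IsUnit (uo t) := Units.isUnit _

theorem uo_ne_zero (t : UQ K) : uo t ≠ 0 := Units.ne_zero _

theorem uo_mk (u : (R K)ˣ) : ∃ ε ∈ EU K, uo (u : UQ K) = ε * u := by
  obtain ⟨ε, h⟩ := QuotientGroup.mk_out_eq_mul (EU K) u
  exact ⟨ε, ε.2, by rw [uo, h, Units.val_mul, mul_comm]⟩

theorem uo_mul (t : UQ K) (u : (R K)ˣ) : ∃ ε ∈ EU K, uo (t * (u : UQ K)) = ε * (uo t * u) := by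
  obtain ⟨ε, h1, h2⟩ := uo_mk (t.out * u)
  rw [QuotientGroup.mk_mul, QuotientGroup.out_eq'] at h2
  exact ⟨ε, h1, h2⟩

theorem eq_of_uo {t t' : UQ K} {ε : (R K)ˣ} (hε : ε ∈ EU K) (h : uo t' = ε * uo t) : t = t' := by
  rw [← QuotientGroup.out_eq' t, ← QuotientGroup.out_eq' t', QuotientGroup.eq,
    show t'.out = ε * t.out from Units.ext h, mul_comm ε, inv_mul_cancel_left]
  exact hε

theorem NS_EU {ε : (R K)ˣ} (hε : ε ∈ EU K) (x : R K) : NS ((ε : R K) * x) = NS x := by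
  rw [NS_mul, NS_unit, nK_EU hε, one_mul]

theorem den_EU {ε : (R K)ˣ} (hε : ε ∈ EU K) {a : ℕ} {x : R K} : Den a ((ε : R K) * x) ↔ Den a x := by
  have key : ∀ ε ∈ EU K, ∀ x, Den a x → Den a ((ε : R K) * x) := fun ε hε x hx => by
    rw [Den, map_mul, mul_left_comm]
    exact SIn.mul_left hx (mem_EU.1 hε).sIn
  exact ⟨fun h => by simpa using key _ (inv_mem hε) _ h, key ε hε x⟩

theorem tsum_unit_le (a : ℕ) {σ : ℝ} (hσ : 0 < σ) : ∃ C : ℝ, 0 ≤ C ∧ ∀ β : R K, β ≠ 0 →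
    Summable (fun t : UQ K => ‖ind (Den a (uo t * β))‖ * NS (uo t * β) ^ (-σ)) ∧
      ∑' t : UQ K, ‖ind (Den a (uo t * β))‖ * NS (uo t * β) ^ (-σ) ≤ C := by
  classical
  obtain ⟨T, hT⟩ := exists_EU_reps (K := K)
  obtain ⟨C, hC, h⟩ := sum_SId_le (K := K) hσ
  have hM : (MM K : R K) ^ a ≠ 0 := (isUnit_MR.pow a).ne_zero
  have hN := NS_pos hM
  refine ⟨T.card * (NS ((MM K : R K) ^ a) ^ σ * C), by positivity, fun β hβ => ?_⟩
  have h0 : ∀ t : UQ K, uo t * β ≠ 0 := fun t => mul_ne_zero (uo_ne_zero t) hβ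
  have hy : ∀ t : UQ K, ∃ y : 𝓞 K, Den a (uo t * β) →
      (MM K : R K) ^ a * (uo t * β) = algebraMap (𝓞 K) (R K) y := fun t => by
    by_cases ht : Den a (uo t * β)
    · obtain ⟨y, -, hy⟩ := mem_inR.1 (den_iff.1 ht)
      exact ⟨y, fun _ => hy⟩
    · exact ⟨0, fun h => absurd h ht⟩
  choose y hy using hy
  have hy0 : ∀ t, Den a (uo t * β) → y t ≠ 0 := fun t ht e =>
    mul_ne_zero hM (h0 t) (by rw [hy t ht, e, map_zero])
  have key : ∀ u : Finset (UQ K), ∑ t ∈ u, ‖ind (Den a (uo t * β))‖ * NS (uo t * β) ^ (-σ) ≤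
      T.card * (NS ((MM K : R K) ^ a) ^ σ * C) := by
    intro u
    set φ := fun t => spart (Ideal.span {y t})
    set u' := u.filter fun t => Den a (uo t * β)
    have e : ∑ t ∈ u, ‖ind (Den a (uo t * β))‖ * NS (uo t * β) ^ (-σ) =
        ∑ t ∈ u', NS ((MM K : R K) ^ a) ^ σ * (Ideal.absNorm (φ t) : ℝ) ^ (-σ) := by
      rw [Finset.sum_filter]
      refine Finset.sum_congr rfl fun t _ => ?_
      split_ifs with ht
      · rw [ind_of ht, norm_one, one_mul, ← NS_int (hy0 t ht), ← hy t ht, NS_mul ((MM K : R K) ^ a),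
          Real.mul_rpow hN.le (NS_pos (h0 t)).le, ← mul_assoc, ← Real.rpow_add hN, add_neg_cancel,
          Real.rpow_zero, one_mul]
      · rw [ind_of_not ht, norm_zero, zero_mul]
    rw [e, Finset.sum_comp (fun s => NS ((MM K : R K) ^ a) ^ σ * (Ideal.absNorm s : ℝ) ^ (-σ)) φ]
    refine le_trans ?_ (mul_le_mul_of_nonneg_left (mul_le_mul_of_nonneg_left (h (u'.image φ)
      fun s hs => ?_) (by positivity)) (by positivity))
    · rw [Finset.mul_sum, Finset.mul_sum]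
      refine Finset.sum_le_sum fun s hs => ?_
      obtain ⟨t₀, ht₀, rfl⟩ := Finset.mem_image.1 hs
      rw [nsmul_eq_mul]
      refine mul_le_mul_of_nonneg_right (Nat.cast_le.2 ((Finset.card_le_card fun t ht => ?_).trans
        (Finset.card_image_le (f := fun τ => t₀ * (uOR K τ : UQ K))))) (by positivity)
      obtain ⟨h1, h2⟩ := Finset.mem_filter.1 ht
      have h3 := hy _ (Finset.mem_filter.1 h1).2
      have h4 := hy _ (Finset.mem_filter.1 ht₀).2
      have h5 : ∀ t, pp ((MM K : R K) ^ a * (uo t * β)) = pp β := fun t => by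
        rw [pp_mul, pp_mul, pp_of_isUnit (isUnit_MR.pow a), pp_of_isUnit (isUnit_uo t), one_mul,
          one_mul]
      have h6 : Ideal.span {y t₀} = Ideal.span {y t} := by
        rw [← spart_mul_idl (Ideal.span {y t₀}), ← spart_mul_idl (Ideal.span {y t}), gen_span,
          gen_span, ← h3, ← h4, h5, h5]
        exact congrArg (· * _) h2.symm
      obtain ⟨ε, hε⟩ := Ideal.span_singleton_eq_span_singleton.1 h6
      obtain ⟨τ, ⟨h7, h8⟩, -⟩ := hT ε
      obtain ⟨η, h9, h10⟩ := uo_mul t₀ (uOR K τ)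
      refine Finset.mem_image.2 ⟨τ, h7, eq_of_uo (mul_mem h8 (inv_mem h9)) ?_⟩
      have h11 : uo t = uo t₀ * uOR K ε := by
        refine mul_left_cancel₀ (mul_ne_zero hM hβ) ?_
        rw [← hε, map_mul, ← h4, ← val_uOR] at h3
        linear_combination h3
      rw [h10, h11, map_mul, map_inv, uo, ← Units.val_mul, ← Units.val_mul, ← Units.val_mul,
        ← Units.val_mul]
      congr 1
      simp only [mul_comm, mul_left_comm, mul_assoc, mul_inv_cancel_left, mul_inv_cancel, one_mul]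
    · obtain ⟨t, ht, rfl⟩ := Finset.mem_image.1 hs
      exact sId_spart (mt Ideal.span_singleton_eq_bot.1 (hy0 t (Finset.mem_filter.1 ht).2))
  have hn : 0 ≤ fun t : UQ K => ‖ind (Den a (uo t * β))‖ * NS (uo t * β) ^ (-σ) := fun t =>
    mul_nonneg (norm_nonneg _) (Real.rpow_nonneg (NS_pos (h0 t)).le _)
  exact ⟨summable_of_sum_le hn key, Real.tsum_le_of_sum_le hn key⟩

theorem hol_unit (a : ℕ) : ∃ C : ℝ, 0 ≤ C ∧ ∀ (β : R K) (A : UQ K → ℂ) (D : ℝ), β ≠ 0 → 0 ≤ D →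
    (∀ t, ‖A t‖ ≤ D * (‖ind (Den a (uo t * β))‖ * NS (uo t * β))) →
    Hol (fun s => ∑' t, A t * (NS (uo t * β) : ℂ) ^ (-s)) ∧
      ‖∑' t, A t * (NS (uo t * β) : ℂ) ^ (-(4 / 3) : ℂ)‖ ≤ C * D := by
  obtain ⟨C, hC, h⟩ := tsum_unit_le (K := K) a (σ := 1 / 3) (by norm_num)
  refine ⟨C, hC, fun β A D hβ hD hA => ?_⟩
  have h0 : ∀ t : UQ K, 0 < NS (uo t * β) := fun t => NS_pos (mul_ne_zero (uo_ne_zero t) hβ)
  have key : ∀ (t : UQ K) (s : ℂ), ‖A t * (NS (uo t * β) : ℂ) ^ (-s)‖ ≤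
      D * (‖ind (Den a (uo t * β))‖ * NS (uo t * β) ^ (-(s.re - 1))) := fun t s => by
    rw [norm_mul, Complex.norm_cpow_eq_rpow_re_of_pos (h0 t), Complex.neg_re, neg_sub,
      sub_eq_add_neg, Real.rpow_add (h0 t), Real.rpow_one, ← mul_assoc _ (NS _), ← mul_assoc D]
    exact mul_le_mul_of_nonneg_right (hA t) (Real.rpow_nonneg (h0 t).le _)
  refine ⟨fun s₀ hs₀ => ?_, ?_⟩
  · have hs₀ : 1 < s₀.re := hs₀
    obtain ⟨_, -, h1⟩ := tsum_unit_le (K := K) a (σ := (1 + s₀.re) / 2 - 1) (by linarith)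
    obtain ⟨_, -, h2⟩ := tsum_unit_le (K := K) a (σ := 2 * s₀.re - 1) (by linarith)
    refine ((Complex.differentiableOn_tsum_of_summable_norm (((h1 β hβ).1.add (h2 β hβ).1).mul_left D)
      (fun t => ?_) Metric.isOpen_ball fun t s hs => (key t s).trans ?_).differentiableAt
      (Metric.ball_mem_nhds s₀ (ε := (s₀.re - 1) / 2) (by linarith))).differentiableWithinAt
    · exact ((differentiable_neg.const_cpow (Or.inl (Complex.ofReal_ne_zero.2 (h0 t).ne'))).const_mul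
        _).differentiableOn
    · rw [← mul_add, add_comm]
      gcongr
      exact rpow_le_add (h0 t) (by linarith [(re_of_ball hs).2]) (by linarith [(re_of_ball hs).1])
  · refine (tsum_of_norm_bounded ((h β hβ).1.hasSum.mul_left D) fun t => ?_).trans ?_
    · refine (key t _).trans_eq ?_
      norm_num
    · rw [mul_comm]
      exact mul_le_mul_of_nonneg_right (h β hβ).2 hD

theorem tsum_uo_mul {F : R K → ℂ} (hF : ∀ ε ∈ EU K, ∀ x, F ((ε : R K) * x) = F x) (u : (R K)ˣ)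
    (x : R K) : ∑' t : UQ K, F (uo t * (u * x)) = ∑' t : UQ K, F (uo t * x) := by
  rw [← (Equiv.mulRight (u : UQ K)).tsum_eq fun t => F (uo t * x)]
  refine tsum_congr fun t => ?_
  obtain ⟨ε, h1, h2⟩ := uo_mul t u
  rw [Equiv.coe_mulRight, h2, mul_assoc, hF ε h1, mul_assoc]

theorem summable_dir {F : UQ K × R K → ℂ} {a : ℕ} {C : ℝ}
    (hF : ∀ x, Prim x.2 → ‖F x‖ ≤ C * (‖ind (Den a (uo x.1 * x.2))‖ * nK ((uo x.1 * x.2 : R K) : K)))
    (h0 : ∀ x, ¬Prim x.2 → F x = 0) {s : ℂ} (hs : 2 < s.re) :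
    Summable fun x : UQ K × R K => F x * (nK ((uo x.1 * x.2 : R K) : K) : ℂ) ^ (-s) := by
  obtain ⟨D, hD, h⟩ := tsum_unit_le (K := K) a (σ := s.re - 1) (by linarith)
  let G : R K × UQ K → ℝ := fun x => ‖ind (Prim x.1)‖ * (nm x.1 : ℝ) ^ (-(s.re - 1)) *
    (‖ind (Den a (uo x.2 * x.1))‖ * NS (uo x.2 * x.1) ^ (-(s.re - 1)))
  have h1 : ∀ n, ¬Prim n → ∀ t, G (n, t) = 0 := fun n hn t => by simp [G, ind_of_not hn]
  have h2 : 0 ≤ G := fun x => by
    have : 0 ≤ NS (uo x.2 * x.1) := div_nonneg (nK_nonneg _) (Nat.cast_nonneg _)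
    simp only [G, Pi.zero_apply]
    positivity
  have hG : Summable G := by
    refine (summable_prod_of_nonneg h2).2 ⟨fun n => ?_, ((summable_ind_rpow (K := K) (σ := s.re - 1)
      (by linarith)).mul_right D).of_nonneg_of_le (fun n => tsum_nonneg fun t => h2 _) fun n => ?_⟩
    · by_cases hn : Prim n
      · simp only [G]
        exact (h n hn.1).1.mul_left _
      · simp only [h1 n hn, summable_zero]
    · by_cases hn : Prim n
      · simp only [G, tsum_mul_left]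
        exact mul_le_mul_of_nonneg_left (h n hn.1).2 (by positivity)
      · simp only [h1 n hn, tsum_zero]
        positivity
  refine Summable.of_norm_bounded (hG.prod_symm.mul_left C) fun x => ?_
  by_cases hn : Prim x.2
  · have h3 := mul_ne_zero (uo_ne_zero x.1) hn.1
    have h4 := nK_pos (coe_ne_zero h3)
    rw [norm_mul, Complex.norm_cpow_eq_rpow_re_of_pos h4, Complex.neg_re]
    refine (mul_le_mul_of_nonneg_right (hF x hn) (by positivity)).trans_eq ?_
    simp only [G, Prod.fst_swap, Prod.snd_swap, ind_of hn, norm_one, one_mul]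
    rw [mul_left_comm ((nm x.2 : ℝ) ^ _), ← Real.mul_rpow (Nat.cast_nonneg _) (NS_pos h3).le,
      ← nm_unit_mul x.1.out, ← uo, ← nK_eq_nm_mul, neg_sub, sub_eq_add_neg, Real.rpow_add h4,
      Real.rpow_one]
    ring
  · simp [h0 x hn, h1 _ hn, Prod.swap]

theorem tsum_peel {p : R K} (hp : Prime p) {f : R K → ℂ} (hf : Summable f) :
    ∑' c, f c = ∑' c, ind (IsCoprime c p) * f c + ∑' c, f (p * c) :=
  tsum_split hf (mul_right_injective₀ hp.ne_zero) fun x => by
    rw [isCoprime_comm, hp.irreducible.coprime_iff_not_dvd]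
    exact not_congr ⟨fun ⟨y, e⟩ => ⟨y, e.symm⟩, fun ⟨y, e⟩ => ⟨y, e.symm⟩⟩

theorem tsum_peel₂ {ι : Type*} {p : R K} (hp : Prime p) {f : ι × R K → ℂ} (hf : Summable f) :
    ∑' x, f x = ∑' x, ind (IsCoprime x.2 p) * f x + ∑' x : ι × R K, f (x.1, p * x.2) :=
  tsum_split hf (m := Prod.map id fun x => p * x)
    (Function.injective_id.prodMap (mul_right_injective₀ hp.ne_zero)) fun x => by
    rw [isCoprime_comm, hp.irreducible.coprime_iff_not_dvd]
    exact not_congr ⟨fun ⟨y, e⟩ => ⟨(x.1, y), Prod.ext rfl e.symm⟩,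
      fun ⟨y, e⟩ => ⟨y.2, (congrArg Prod.snd e).symm⟩⟩

theorem prim_mul_iff {p n : R K} (hp : Prim p) : Prim (p * n) ↔ Prim n := ⟨hp.of_mul, hp.mul⟩

theorem nm_mul_cpow (a c : R K) (s : ℂ) :
    (nm (a * c) : ℂ) ^ s = (nm a : ℂ) ^ s * (nm c : ℂ) ^ s := by
  rw [nm_mul, Nat.cast_mul, Complex.natCast_mul_natCast_cpow]

theorem nK_mul_cpow (a c : R K) (s : ℂ) :
    (nK ((a * c : R K) : K) : ℂ) ^ s = (nK (a : K) : ℂ) ^ s * (nK (c : K) : ℂ) ^ s := by
  rw [map_mul, nK_mul, Complex.ofReal_mul,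
    Complex.mul_cpow_ofReal_nonneg (nK_nonneg _) (nK_nonneg _)]

theorem nK_cpow {c : R K} (hc : c ≠ 0) (s : ℂ) :
    (nK (c : K) : ℂ) ^ s = (nm c : ℂ) ^ s * (NS c : ℂ) ^ s := by
  rw [nK_eq_nm_mul, Complex.ofReal_mul,
    Complex.mul_cpow_ofReal_nonneg (Nat.cast_nonneg _) (NS_pos hc).le, Complex.ofReal_natCast]

/-- Dirichlet series over `Prim` elements with `‖f n‖ ≤ C * nm n ^ k` -/
theorem summable_prim {f : R K → ℂ} {C k : ℝ} (hf : ∀ n, Prim n → ‖f n‖ ≤ C * (nm n : ℝ) ^ k)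
    (h0 : ∀ n, ¬Prim n → f n = 0) {s : ℂ} (hs : k + 1 < s.re) :
    Summable fun n => ‖f n * (nm n : ℂ) ^ (-s)‖ := by
  refine ((summable_ind_rpow (K := K) (σ := s.re - k) (by linarith)).mul_left C).of_nonneg_of_le
    (fun _ => norm_nonneg _) fun n => ?_
  by_cases hn : Prim n
  · have h1 := nm_pos_real hn.1
    rw [norm_mul, ← Complex.ofReal_natCast, Complex.norm_cpow_eq_rpow_re_of_pos h1, Complex.neg_re,
      ind_of hn, norm_one, one_mul, neg_sub, sub_eq_add_neg, Real.rpow_add h1, ← mul_assoc]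
    exact mul_le_mul_of_nonneg_right (hf n hn) (by positivity)
  · simp [h0 n hn, ind_of_not hn]

end Vale.Agent.P319.TC
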