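import Vale.Agent.P319.N.ThCMv2
import Vale.Agent.P319.N.ThCUnit
import Vale.Agent.P319.N.Recip

/-! # TH-C: the coefficients `Acf`, the series `aD` and `psi`.
PLAN.  `sb_row`: write `M^j c = c₀`, `M^i ν = ν₀` in `𝓞 K` (`exists_pow_mul`); period ideal `span {c₀ M^i} * 𝔪`: for `y = c₀ M^i m` we have
`y = c * (M^(i+j) m)` (`Cls.add_period`) and `ν y / c = ν₀ M^j m ∈ 𝓞 K` (`eTr_int`).  `Acf_EU`: `Mv_dvd` with the unit `p = ε` (`nK_EU`), `Cls.unit`.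
`Acf_eq_zero`: `mem_dual_iff` gives `y ∈ 𝔪` with `eTr (ν y) ≠ 1`; `Mv_eq_zero` with `t = c y`.  `den_of_dl`: `exists_int_of_eTr` for `ξ = M^a ν`.
`aD_mN`: `rmul_mN`, `Mv_shift`.  `gq_eq`: two admissible units differ by an element of `EU` (`InUq.div`, `mem_EU`), `g3_EU`.
`Acf_Psb`: on the support `eTr (ν d / c) = eq (ν * d) c` (`eq_of_sIn`; `ν d / c = (ν d / β) (β / (u c)) u`), `Mv_factor_S` with `f = ind (SIn b ·)`, `Mv_ind`,
`nK_eq_nm_mul`, `NS_eq_of_inUq`.  `aD_Psb`: `Function.Injective.tsum_eq` along `n ↦ (t n, n)`, `t n` the class of a unit `u` with `u n / β ∈ U_q`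
(any class if there is none); `uo_mk`, `gq_eq`, `nK_cpow`. -/

namespace Vale.Agent.P319.TC

open scoped ComplexConjugate Real Topology NumberField
open MeasureTheory Filter

variable {K : Type} [Field K] [NumberField K] [Stp K] {a : ℕ} {𝔪 : Ideal (𝓞 K)}
  {Ψ : R K × R K → ℂ} {q : ℕ} {β : R K}

theorem row_shift (h : Cls a 𝔪 Ψ) (ν : R K) {y : R K} (hy : y ∈ inR 𝔪) {c : R K} (hc : c ≠ 0)
    (x : R K) : Ψ (c, x + c * y) * eTr ((ν : K) * (x + c * y : R K) / c) =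
      eTr ((ν : K) * y) * (Ψ (c, x) * eTr ((ν : K) * x / c)) := by
  have h0 := coe_ne_zero hc
  rw [add_comm, h.add_period hy, map_add, map_mul, show (ν : K) * (c * y + x) / c =
    ν * y + ν * x / c by field_simp, eTr_add]
  ring

theorem row_period (h : Cls a 𝔪 Ψ) {ν y : R K} (hy : y ∈ inR 𝔪) (h1 : eTr ((ν : K) * y) = 1)
    {c : R K} (hc : c ≠ 0) (x : R K) :
    Ψ (c, x + c * y) * eTr ((ν : K) * (x + c * y : R K) / c) = Ψ (c, x) * eTr ((ν : K) * x / c) := by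
  rw [row_shift h ν hy hc, h1, one_mul]

theorem sb_row (h : Cls a 𝔪 Ψ) (hm : 𝔪 ≠ ⊥) (ν : R K) {c : R K} (hc : c ≠ 0) :
    SB fun d => Ψ (c, d) * eTr ((ν : K) * d / c) := by
  refine ⟨⟨a, fun d hd => (h.box (left_ne_zero_of_mul hd)).den2⟩, ?_⟩
  obtain ⟨j, c₀, h1⟩ := exists_pow_mul c
  obtain ⟨i, ν₀, h2⟩ := exists_pow_mul ν
  have h0 : c₀ ≠ 0 := fun e => mul_ne_zero (isUnit_MR.pow j).ne_zero hc (by rw [h1, e, map_zero])
  refine ⟨Ideal.span {c₀ * MM K ^ i} * 𝔪, mul_ne_zero (mt Ideal.span_singleton_eq_bot.1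
    (mul_ne_zero h0 (pow_ne_zero _ M_int_ne_zero))) hm, fun x y hy => ?_⟩
  obtain ⟨_, h3, rfl⟩ := mem_inR.1 hy
  obtain ⟨m, h4, rfl⟩ := Ideal.mem_span_singleton_mul.1 h3
  have e : algebraMap (𝓞 K) (R K) (c₀ * MM K ^ i * m) =
      c * algebraMap (𝓞 K) (R K) (MM K ^ (i + j) * m) := by
    simp only [map_mul, map_pow, map_natCast, ← h1]
    ring
  rw [e]
  refine row_period h (int_mem_inR.2 (𝔪.mul_mem_left _ h4)) ?_ hc x
  rw [← map_mul, show ν * algebraMap (𝓞 K) (R K) (MM K ^ (i + j) * m) =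
    algebraMap (𝓞 K) (R K) (ν₀ * MM K ^ j * m) by
      simp only [map_mul, map_pow, map_natCast, ← h2]; ring, coe_int, eTr_int]

theorem norm_Acf_le (h : Cls a 𝔪 Ψ) (hm : 𝔪 ≠ ⊥) (ν : R K) {c : R K} (hc : c ≠ 0) :
    ‖Acf Ψ ν c‖ ≤ nK ((MM K : K) ^ a) * (‖ind (Den a c)‖ * nK (c : K)) := by
  by_cases hd : Den a c
  · rw [Acf, norm_mul, Complex.norm_real, Real.norm_of_nonneg (nK_nonneg _), ind_of hd, norm_one,
      one_mul, mul_comm]
    refine mul_le_mul_of_nonneg_right (norm_Mv_le (sb_row h hm ν hc)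
      (fun d hd => (h.box (left_ne_zero_of_mul hd)).den2) fun d => ?_) (nK_nonneg _)
    rw [norm_mul, norm_eTr, mul_one]
    exact h.norm_le _
  · have : ∀ d, Ψ (c, d) = 0 := fun d => h.eq_zero fun hb => hd hb.den1
    simp [Acf, this, Mv_zero, ind_of_not hd]

theorem Acf_EU (h : Cls a 𝔪 Ψ) (hm : 𝔪 ≠ ⊥) (ν : R K) {ε : (R K)ˣ} (hε : ε ∈ EU K) (c : R K) :
    Acf Ψ ν ((ε : R K) * c) = Acf Ψ ν c := by
  rcases eq_or_ne c 0 with rfl | hc
  · rw [mul_zero]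
  have h1 := Mv_dvd (sb_row h hm ν (mul_ne_zero ε.ne_zero hc)) ε.ne_zero
  have h2 := coe_unit_ne_zero ε
  simp only [nK_EU hε, ind_of ε.isUnit.dvd, one_mul, Complex.ofReal_one] at h1
  rw [Acf, Acf, ← h1, map_mul, nK_mul, nK_EU hε, one_mul]
  congr 2
  ext d
  rw [h.unit hε (c, d), map_mul, mul_left_comm, mul_div_mul_left _ _ h2]

theorem aD_smul (h : Cls a 𝔪 Ψ) (hm : 𝔪 ≠ ⊥) (ζ : ℂ) (ν P : R K) (s : ℂ) :
    aD (fun r => ζ * Ψ r) ν P s = ζ * aD Ψ ν P s := by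
  rw [aD, aD, ← tsum_mul_left]
  refine tsum_congr fun x => ?_
  by_cases hx : Prim x.2
  · simp only [Acf, mul_assoc ζ, Mv_const_mul (sb_row h hm ν (mul_ne_zero (uo_ne_zero x.1) hx.1))]
    ring
  · simp [ind_of_not fun h' : Prim x.2 ∧ IsCoprime x.2 P => hx h'.1]

theorem Acf_eq_zero (h : Cls a 𝔪 Ψ) (hm : 𝔪 ≠ ⊥) {ν : R K} (hν : (ν : K) ∉ dl (𝔪 : FI K)) {c : R K}
    (hc : c ≠ 0) : Acf Ψ ν c = 0 := by
  rw [mem_dual_iff (FractionalIdeal.coeIdeal_ne_zero.2 hm)] at hν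
  push Not at hν
  obtain ⟨_, h1, h2⟩ := hν
  obtain ⟨y, hy, rfl⟩ := (FractionalIdeal.mem_coeIdeal _).1 h1
  rw [Acf, Mv_eq_zero (sb_row h hm ν hc) h2 fun x => by
    simpa only [coe_int] using row_shift h ν (int_mem_inR.2 hy) hc x, mul_zero]

theorem aD_eq_zero (h : Cls a 𝔪 Ψ) (hm : 𝔪 ≠ ⊥) {ν : R K} (hν : (ν : K) ∉ dl (𝔪 : FI K)) (P : R K) :
    aD Ψ ν P = fun _ => 0 := by
  ext s
  refine (tsum_congr fun x => ?_).trans tsum_zero
  by_cases hx : Prim x.2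
  · rw [Acf_eq_zero h hm hν (mul_ne_zero (uo_ne_zero x.1) hx.1), mul_zero, zero_mul]
  · rw [ind_of_not fun h' => hx h'.1, zero_mul, zero_mul]

theorem rz_of_not_dl (h : Cls a 𝔪 Ψ) (hm : 𝔪 ≠ ⊥) {ν : R K} (hν : (ν : K) ∉ dl (𝔪 : FI K))
    (P : R K) : Rz (aD Ψ ν P) 0 := by
  rw [aD_eq_zero h hm hν]
  exact (Hol.const 0).rs

theorem dl_of_rho (h : Cls a 𝔪 Ψ) (hm : 𝔪 ≠ ⊥) {ν : R K} (hν : rho Ψ ν ≠ 0) :
    (ν : K) ∈ dl (𝔪 : FI K) := by
  by_contra h'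
  exact hν (rz_of_not_dl h hm h' 1).rho_eq

theorem int_of_dl {ν : K} (hν : ν ∈ dl (lev K a : FI K)) :
    ∃ t : 𝓞 K, (MM K : K) ^ (a + 1) * ν = t := by
  rw [mem_dual_iff (FractionalIdeal.coeIdeal_ne_zero.2 (lev_ne_bot a))] at hν
  obtain ⟨t, ht⟩ := exists_int_of_eTr (ξ := (MM K : K) ^ a * ν) fun t => by
    rw [← hν _ (FractionalIdeal.mem_coeIdeal_of_mem _
      (Ideal.mul_mem_right t _ (Ideal.mem_span_singleton_self _)))]
    simp only [map_mul, map_pow, map_natCast]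
    congr 1
    ring
  exact ⟨t, by rw [← ht]; ring⟩

theorem den_of_dl {ν : R K} (hν : (ν : K) ∈ dl (lev K a : FI K)) : Den (a + 1) ν := by
  obtain ⟨t, ht⟩ := int_of_dl hν
  rw [Den, ht]
  exact sIn_int t

theorem mem_RS_of_dl {ν : K} (hν : ν ∈ dl (lev K a : FI K)) : ν ∈ RS K :=
  (mem_RS_iff_pow ν).2 ⟨_, int_of_dl hν⟩

theorem aD_mN (h : Cls a 𝔪 Ψ) (hm : 𝔪 ≠ ⊥) (x P : R K) :
    aD (fun r => Ψ (rmul r (mN x))) 0 P = aD Ψ 0 P := by
  ext s
  refine tsum_congr fun y => ?_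
  by_cases hy : Prim y.2
  · have := Mv_shift (sb_row h hm 0 (mul_ne_zero (uo_ne_zero y.1) hy.1)) (uo y.1 * y.2 * x)
    simp only [map_zero, zero_mul, zero_div, add_comm _ (uo y.1 * y.2 * x)] at this
    simp only [Acf, rmul_mN, map_zero, zero_mul, zero_div, this]
  · simp only [ind_of_not fun h' : Prim y.2 ∧ IsCoprime y.2 P => hy h'.1, zero_mul]

theorem summable_aD (h : Cls a 𝔪 Ψ) (hm : 𝔪 ≠ ⊥) (ν P : R K) {s : ℂ} (hs : 2 < s.re) :
    Summable fun x : UQ K × R K => ind (Prim x.2 ∧ IsCoprime x.2 P) * Acf Ψ ν (uo x.1 * x.2) *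
      (nK ((uo x.1 * x.2 : R K) : K) : ℂ) ^ (-s) := by
  refine summable_dir (a := a) (C := nK ((MM K : K) ^ a)) (fun x hx => ?_)
    (fun x hx => by rw [ind_of_not fun h' => hx h'.1, zero_mul]) hs
  rw [norm_mul]
  exact (mul_le_of_le_one_left (norm_nonneg _) (norm_ind_le _)).trans
    (norm_Acf_le h hm ν (mul_ne_zero (uo_ne_zero x.1) hx.1))

theorem gq_of_not {n : R K} (h : ¬∃ u : (R K)ˣ, InUq q (((u * n : R K) : K) / β)) (ν : R K) :
    gq q β ν n = 0 := dif_neg h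

theorem norm_gq_le (q : ℕ) (β ν : R K) {n : R K} (hn : n ≠ 0) : ‖gq q β ν n‖ ≤ nm n := by
  unfold gq
  split_ifs with h
  · rw [← nm_unit_mul h.choose]
    exact norm_g3_le (mul_ne_zero (Units.ne_zero _) hn) ν
  · simp

theorem summable_psi (q : ℕ) (β ν P : R K) {s : ℂ} (hs : 2 < s.re) :
    Summable fun n : R K => ind (Prim n ∧ IsCoprime n P) * gq q β ν n * (nm n : ℂ) ^ (-s) := by
  refine (summable_prim (C := 1) (k := 1) (fun n hn => ?_)
    (fun n hn => by rw [ind_of_not fun h' => hn h'.1, zero_mul]) (by linarith)).of_norm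
  rw [norm_mul, one_mul, Real.rpow_one]
  exact (mul_le_of_le_one_left (norm_nonneg _) (norm_ind_le _)).trans (norm_gq_le q β ν hn.1)

theorem EU_of_inUq (hq : 10 ≤ q) {n : R K} {u u' : (R K)ˣ} (h : InUq q (((u * n : R K) : K) / β))
    (h' : InUq q (((u' * n : R K) : K) / β)) : u' * u⁻¹ ∈ EU K := by
  have h1 := (h'.div (by omega) h).mono hq
  have h2 := div_ne_zero_iff.1 (h.ne_zero (by omega))
  rw [map_mul] at h2
  rw [div_div_div_cancel_right₀ h2.2, map_mul, map_mul,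
    mul_div_mul_right _ _ (right_ne_zero_of_mul h2.1)] at h1
  rwa [mem_EU, Units.val_mul, map_mul, coe_unit_inv, ← div_eq_mul_inv]

variable [Rcp K]

theorem gq_eq (hq : 10 ≤ q) {n : R K} {u : (R K)ˣ} (h : InUq q (((u * n : R K) : K) / β)) (ν : R K) :
    gq q β ν n = g3 ν (u * n) := by
  have h1 : ∃ u : (R K)ˣ, InUq q (((u * n : R K) : K) / β) := ⟨u, h⟩
  rw [gq, dif_pos h1, ← g3_EU (EU_of_inUq hq h h1.choose_spec) ν (h.mono hq).left_ne, ← mul_assoc,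
    ← Units.val_mul, inv_mul_cancel_right]

omit [Rcp K] in
theorem sb_ind_per {b : ℕ} {y : R K} (hy : SIn b (y : K)) (x : R K) :
    ind (SIn b ((x + y : R K) : K)) = ind (SIn b (x : K)) := by
  rw [map_add]
  exact ind_congr ⟨fun h => by simpa using h.sub hy, fun h => h.add hy⟩

omit [Rcp K] in
theorem Acf_Psb (hq : 10 ≤ q) {b : ℕ} {ν : R K}
    (h : ∀ d : R K, SIn b (d : K) → SIn 0 ((ν : K) * d / β)) {c : R K} (hc : c ≠ 0) :
    Acf (Psb q β b) ν c = ((nK ((MM K : K) ^ b) : ℝ) : ℂ)⁻¹ * (NS β : ℂ) *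
      (ind (∃ u ∈ EU K, InUq q ((((u : R K) * c : R K) : K) / β)) * g3 ν c) := by
  by_cases hu : ∃ u ∈ EU K, InUq q ((((u : R K) * c : R K) : K) / β)
  swap
  · simp only [Acf, Psb, ind_of_not hu, zero_mul, Mv_zero, mul_zero]
  obtain ⟨u, h1, h2⟩ := hu
  have h3 := div_ne_zero_iff.1 (h2.ne_zero (by omega))
  have e : ∀ d : R K, Psb q β b (c, d) * eTr ((ν : K) * d / c) =
      cub d c * eq (ν * d) c * ind (SIn b (d : K)) := fun d => by
    rw [Psb, ind_of ⟨u, h1, h2⟩, one_mul]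
    by_cases hd : SIn b (d : K)
    · rw [eq_of_sIn, map_mul, mul_right_comm]
      have := ((h d hd).mul_right (h2.inv (by omega)).sIn).mul_right (mem_EU.1 h1).sIn
      have h4 := coe_unit_ne_zero u
      have h5 := coe_ne_zero hc
      have h6 := h3.2
      rw [map_mul] at this ⊢
      convert this using 1
      field_simp
    · simp [ind_of_not hd]
  simp only [Acf, e]
  rw [Mv_factor_S (a := 0) (b := b) hc ((per_cub c).mul_eq ν)
    (fun x hx => by_contra fun h' => hx (ind_of_not fun h'' => h' (den_of_inR (mem_inR_lev.2 h'') 0)))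
    (fun x y hy => (sb_ind_per hy x)), Mv_ind, ind_of ⟨u, h1, h2⟩,
    ← NS_eq_of_inUq (by omega) h2, NS_EU h1, NS, g3]
  push_cast
  ring

theorem aD_Psb (hq : 10 ≤ q) (hβ : β ≠ 0) {b : ℕ} {ν : R K}
    (h : ∀ d : R K, SIn b (d : K) → SIn 0 ((ν : K) * d / β)) (P : R K) (s : ℂ) :
    aD (Psb q β b) ν P s =
      ((nK ((MM K : K) ^ b) : ℝ) : ℂ)⁻¹ * (NS β : ℂ) ^ (1 + -1 * s) * psi q β ν P s := by
  have ht : ∀ n : R K, ∃ u : (R K)ˣ, (∃ u : (R K)ˣ, InUq q (((u * n : R K) : K) / β)) →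
      InUq q (((u * n : R K) : K) / β) := fun n => by
    by_cases hn : ∃ u : (R K)ˣ, InUq q (((u * n : R K) : K) / β)
    · exact ⟨_, fun _ => hn.choose_spec⟩
    · exact ⟨1, fun h => absurd h hn⟩
  choose u hu using ht
  have hi : Function.Injective fun n : R K => ((u n : UQ K), n) := fun _ _ e => congrArg Prod.snd e
  have h0 : (NS β : ℂ) ≠ 0 := Complex.ofReal_ne_zero.2 (NS_pos hβ).ne'
  have key : ∀ (t : UQ K) (n : R K) (ε : (R K)ˣ), InUq q ((((ε : R K) * (uo t * n) : R K) : K) / β) →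
      InUq q ((((ε * t.out : (R K)ˣ) * n : R K) : K) / β) := fun t n ε h => by
    rwa [Units.val_mul, mul_assoc]
  rw [aD, psi, ← tsum_mul_left, ← hi.tsum_eq]
  · refine tsum_congr fun n => ?_
    by_cases hn : Prim n
    swap
    · simp [ind_of_not fun h' : Prim n ∧ IsCoprime n P => hn h'.1]
    have h1 := mul_ne_zero (uo_ne_zero (u n : UQ K)) hn.1
    rw [Acf_Psb hq h h1]
    by_cases h2 : ∃ u : (R K)ˣ, InUq q (((u * n : R K) : K) / β)
    · obtain ⟨ε, h3, h4⟩ := uo_mk (u n)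
      have h5 := hu n h2
      rw [ind_of (p := ∃ _ ∈ EU K, _)
          ⟨ε⁻¹, inv_mem h3, by rwa [h4, mul_assoc, Units.inv_mul_cancel_left]⟩,
        nK_cpow h1, gq_eq hq h5, h4, mul_assoc (ε : R K), g3_EU h3 ν (h5.mono hq).left_ne, NS_EU h3,
        NS_eq_of_inUq (by omega) h5, nm_unit_mul, nm_unit_mul, Complex.cpow_add _ _ h0,
        Complex.cpow_one, neg_one_mul]
      ring
    · rw [gq_of_not h2, ind_of_not (p := ∃ _ ∈ EU K, _) fun ⟨ε, _, h3⟩ => h2 ⟨_, key _ _ _ h3⟩]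
      ring
  · rintro ⟨t, n⟩ hx
    have h1 := left_ne_zero_of_mul (Function.mem_support.1 hx)
    have hn : Prim n := by_contra fun hn =>
      left_ne_zero_of_mul h1 (ind_of_not fun h' => hn h'.1)
    have h2 := right_ne_zero_of_mul h1
    rw [Acf_Psb hq h (mul_ne_zero (uo_ne_zero t) hn.1)] at h2
    obtain ⟨ε, h3, h4⟩ : ∃ ε ∈ EU K, InUq q ((((ε : R K) * (uo t * n) : R K) : K) / β) :=
      by_contra fun h' => left_ne_zero_of_mul (right_ne_zero_of_mul h2) (ind_of_not h')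
    have h5 := key _ _ _ h4
    refine ⟨n, Prod.ext ?_ rfl⟩
    rw [← QuotientGroup.out_eq' t]
    refine QuotientGroup.eq.2 ?_
    have := mul_mem (inv_mem h3) (EU_of_inUq hq (hu n ⟨_, h5⟩) h5)
    rwa [mul_assoc, inv_mul_cancel_left, mul_comm] at this

omit [Rcp K] in
theorem exists_b (x : K) : ∃ b : ℕ, ∀ (y : K) (d : R K), SIn 0 y → SIn b (d : K) → SIn 0 (x * y * d) := by
  obtain ⟨b, hb⟩ := exists_sIn_mul x
  refine ⟨b, fun y d hy hd => ?_⟩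
  rw [mul_assoc]
  exact hb 0 _ (by simpa using hd.mul_left hy)

end Vale.Agent.P319.TC
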