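import Vale.Agent.P319.N.ThCUnf

/-! # TH-C: existence of residues and the cusp lemma in Dirichlet series form. -/

namespace Vale.Agent.P319.TC

open scoped ComplexConjugate Real Topology NumberField
open MeasureTheory Filter Set

variable {K : Type} [Field K] [NumberField K] [Stp K]

theorem rs_coef (hE : EisB K) {a : ℕ} {𝔪 : Ideal (𝓞 K)} (hm : 𝔪 ≠ ⊥) {Ψ : R K × R K → ℂ}
    (hΨ : Cls a 𝔪 Ψ) {P : Set (Pl K → ℂ)} (hP : Tile 𝔪 P) {ν : R K} (hν : (ν : K) ∈ dl (𝔪 : FI K))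
    {ψ : (Pl K → ℝ) → ℂ} (hψ : Test1 ψ) {x : ℂ}
    (hx : HasRes (fun s => ∫ w, Eis Ψ w s * Ftst P ν ψ w ∂hmuK K) x) :
    Rz (fun s => (Ideal.absNorm 𝔪 : ℂ) * wI (ν : K) ψ s * aD Ψ ν 1 s) x := by
  obtain ⟨h, hh, e⟩ := unfold_Eis hE hm hΨ hP hν hψ
  have := (rz_of_hasRes hx).sub hh.rs
  rw [sub_zero] at this
  exact this.congr fun s hs => by rw [e s hs, add_sub_cancel_right]

theorem resStmt (hB : ThBStmt K) : ResStmt K := by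
  rintro Ψ ⟨a, ha, hΨ⟩ ν
  refine Classical.epsilon_spec (p := Rz (aD Ψ ν 1)) ?_
  have hm := lev_ne_bot (K := K) a
  by_cases hν : (ν : K) ∈ dl (lev K a : FI K)
  · obtain ⟨hE, Θ, h⟩ := hB
    obtain ⟨ψ, hψ, h0⟩ := exists_wI (ν : K)
    have hP := tile_par hm
    exact ⟨_, (rs_coef hE hm hΨ hP hν hψ ((h a _ (Lev.lev ha)).1 Ψ hΨ _
      (test_Ftst hP ν hψ))).of_mul ((Hol.const _).mul (hol_wI _ hψ))
        (mul_ne_zero (absNorm_ne hm) h0)⟩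
  · exact ⟨0, rz_of_not_dl hΨ hm hν 1⟩

theorem cuspStmt (hB : ThBStmt K) : CuspStmt K := by
  intro a 𝔪 Φ hL hΦ h ν
  obtain ⟨hE, Θ, hΘ⟩ := hB
  have hm := hL.1
  by_cases hν : (ν : K) ∈ dl (𝔪 : FI K)
  swap
  · exact rz_of_not_dl hΦ hm hν 1
  have h0 := (hΘ a 𝔪 hL).2.2.2 Φ hΦ fun g a' 𝔪' P ψ hL' hg hP hψ => by
    have h1 : ((0 : R K) : K) ∈ dl (𝔪' : FI K) := by
      rw [map_zero]
      exact FractionalIdeal.zero_mem _
    have := (rs_coef hE hL'.1 hg hP h1 hψ ((hΘ a' 𝔪' hL').1 _ hg _ (test_Ftst hP _ hψ))).unique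
      ((h g).hol_mul ((Hol.const (Ideal.absNorm 𝔪' : ℂ)).mul (hol_wI _ hψ)))
    rw [mul_zero] at this
    rw [← this]
    congr 1
    ext w
    simp [Ftst, chr_zero]
  obtain ⟨ψ, hψ, hw⟩ := exists_wI (ν : K)
  have hP := tile_par hm
  have := (rs_coef hE hm hΦ hP hν hψ ((hΘ a 𝔪 hL).1 Φ hΦ _ (test_Ftst hP ν hψ))).of_mul
    ((Hol.const _).mul (hol_wI _ hψ)) (mul_ne_zero (absNorm_ne hm) hw)
  rwa [h0 _ (test_Ftst hP ν hψ), zero_div] at this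

end Vale.Agent.P319.TC
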