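import Vale.Agent.P319.N.ThCRep
import Vale.Agent.P319.N.ThCCoef

/-! # TH-C: automorphy of `th (rho Ψ)` (port of `P026/ThCAut.lean`).
PLAN.  `eq_of_test`: as in P026 with `K = Metric.closedBall w ε` in `Hy K` (`= Set.pi univ` of balls, `closedBall_pi`; `hmuK K` of it is the product
`Measure.pi_pi` of positive finite numbers), `isOpen_pos`, `hmuK_Sg`. -/

namespace Vale.Agent.P319.TC

open scoped ComplexConjugate Real Topology NumberField
open MeasureTheory Filter Set

variable {K : Type} [Field K] [NumberField K] [Stp K]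

theorem eq_of_test {D D' : Hy K → ℂ} (hD : ContinuousOn D {w | Pos w})
    (hD' : ContinuousOn D' {w | Pos w})
    (h : ∀ F, Test F → ∫ w, D w * F w ∂hmuK K = ∫ w, D' w * F w ∂hmuK K) {w : Hy K} (hw : Pos w) :
    D w = D' w := by
  by_contra hne
  set c := conj (D w - D' w) with hc
  have hg : ContinuousOn (fun x => (c * (D x - D' x)).re) {w | Pos w} :=
    Complex.continuous_re.comp_continuousOn (continuousOn_const.mul (hD.sub hD'))
  have ha : 0 < (c * (D w - D' w)).re := by
    rw [hc, Complex.conj_mul', ← Complex.ofReal_pow, Complex.ofReal_re]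
    exact pow_pos (norm_pos_iff.2 (sub_ne_zero.2 hne)) 2
  have h1 : ∀ᶠ x in 𝓝 w, (c * (D w - D' w)).re / 2 < (c * (D x - D' x)).re :=
    (hg.continuousAt (isOpen_pos.mem_nhds hw)).eventually (lt_mem_nhds (half_lt_self ha))
  obtain ⟨T, hT, h2⟩ := wh_nhds hw
  obtain ⟨ε, hε, hK⟩ := Metric.nhds_basis_closedBall.eventually_iff.1 (h1.and h2)
  have hpi := closedBall_pi w hε.le
  set B := Metric.closedBall w ε
  have hKc : IsCompact B := isCompact_closedBall w ε
  have hKm : MeasurableSet B := measurableSet_closedBall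
  have hKU : B ⊆ {w | Pos w} := fun x hx v => (one_div_pos.2 hT).trans_le ((hK hx).2 v).2.1
  have hfin : hmuK K B ≠ ⊤ :=
    (lt_of_le_of_lt (measure_mono fun x hx => (hK hx).2.mem_Sg) (hmuK_Sg hT)).ne
  have hpos : hmuK K B ≠ 0 := by
    rw [hpi, hmuK, Measure.pi_pi]
    refine Finset.prod_ne_zero_iff.2 fun v _ h0 => ?_
    have := withDensity_absolutelyContinuous'
      (μ := (volume : Measure (ℂ × ℝ)).restrict {w | 0 < w.2})
      (f := fun w => ENNReal.ofReal (1 / w.2 ^ 3)) (by fun_prop) (by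
        filter_upwards [ae_restrict_mem measurableSet_upper] with x (hx : 0 < x.2)
        exact (ENNReal.ofReal_pos.2 (by positivity)).ne') h0
    rw [Measure.restrict_apply' measurableSet_upper] at this
    exact (Measure.measure_pos_of_mem_nhds volume (inter_mem (Metric.closedBall_mem_nhds _ hε)
      ((isOpen_lt continuous_const continuous_snd).mem_nhds (hw v)))).ne' this
  have : IsFiniteMeasure ((hmuK K).restrict B) := isFiniteMeasure_restrict.2 hfin
  have hi : ∀ G : Hy K → ℂ, ContinuousOn G {w | Pos w} → IntegrableOn G B (hmuK K) := by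
    intro G hG
    obtain ⟨C, hC⟩ := hKc.exists_bound_of_continuousOn (hG.mono hKU)
    exact Integrable.of_bound ((hG.mono hKU).aestronglyMeasurable hKm) C
      ((ae_restrict_mem hKm).mono hC)
  have hF : Test (B.indicator fun _ => (T : ℂ)) :=
    ⟨measurable_const.indicator hKm, T, hT, fun x => ⟨(norm_indicator_le_norm_self _ _).trans
      (by rw [Complex.norm_real, Real.norm_of_nonneg hT.le]), fun hx =>
        (hK (mem_of_indicator_ne_zero hx)).2⟩⟩
  have e := h _ hF
  simp only [← indicator_mul_right, integral_indicator hKm, integral_mul_const] at e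
  have e := mul_right_cancel₀ (Complex.ofReal_ne_zero.2 hT.ne') e
  have hI := ((hi D hD).sub (hi D' hD')).const_mul c
  have h3 := setIntegral_ge_of_const_le hKm hfin (fun x hx => (hK hx).1.le) hI.re
  have h4 : ∫ x in B, (c * (D x - D' x)).re ∂hmuK K = 0 := by
    have := integral_re hI
    simp only [Pi.sub_apply, RCLike.re_to_complex] at this
    rw [this, integral_const_mul, integral_sub (hi D hD) (hi D' hD'), e, sub_self, mul_zero,
      Complex.zero_re]
  rw [h4, smul_eq_mul] at h3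
  exact absurd h3 (not_le.2 (mul_pos (ENNReal.toReal_pos hpos hfin) (half_pos ha)))

theorem bdd_rho (hb : BndStmt K) {Ψ : R K × R K → ℂ} (hΨ : Cl Ψ) : Bdd (rho Ψ) := by
  obtain ⟨C, hC⟩ := hb Ψ hΨ
  obtain ⟨a, -, h⟩ := hΨ
  exact ⟨a + 1, C, fun ν => ⟨hC ν, fun h0 => den_of_dl (dl_of_rho h (lev_ne_bot a) h0)⟩⟩

theorem autStmt [Rcp K] (hB : ThBStmt K) (hb : BndStmt K) : AutStmt K := by
  have hR := resStmt hB
  obtain ⟨hE, Θ, hΘ⟩ := hB
  have rep : ∀ a Ψ, 10 ≤ a → Cls a (lev K a) Ψ → RepHyp (lev K a) (Θ Ψ) (rho Ψ) := fun a Ψ ha hΨ => by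
    obtain ⟨h1, h2, h3, -⟩ := hΘ a _ (Lev.lev ha)
    have hP := tile_par (lev_ne_bot (K := K) a)
    exact
    { ne := lev_ne_bot a
      bdd := bdd_rho hb ⟨a, ha, hΨ⟩
      sub := fun ν hν => mem_RS_of_dl hν
      supp := fun ν hν => dl_of_rho hΨ (lev_ne_bot a) hν
      add := fun F G hF hG => (h1 Ψ hΨ _ (test_add hF hG)).unique
        (((h1 Ψ hΨ F hF).add (h1 Ψ hΨ G hG)).congr fun s _ hs => by
          rw [← integral_add (integrable_Eis hE hΨ hF hs) (integrable_Eis hE hΨ hG hs)]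
          simp only [mul_add])
      bound := fun T hT => by
        obtain ⟨C, -, hC⟩ := h2 T hT
        exact ⟨C, hC Ψ hΨ⟩
      tr := fun F hF y hy => by
        rw [h3 Ψ hΨ F hF (mN y)]
        congr 1
        ext ⟨c, d⟩
        rw [rmul_mN, hΨ.add_period hy]
      coef := fun ν ψ hν hψ =>
        (rs_coef hE (lev_ne_bot a) hΨ hP hν hψ (h1 Ψ hΨ _ (test_Ftst hP _ hψ))).unique
          ((hR Ψ ⟨a, ha, hΨ⟩ ν).hol_mul ((Hol.const _).mul (hol_wI _ hψ))) }
  intro Ψ hΨ g w hw
  have hg := hΨ.rmul g⁻¹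
  refine eq_of_test (D := fun w => th (rho Ψ) (act g w))
    ((bdd_rho hb hΨ).continuousOn_th.comp (continuousOn_act g) fun x hx => act_pos g hx)
    (bdd_rho hb hg).continuousOn_th (fun F hF => ?_) hw
  obtain ⟨a, ha, hΨ⟩ := hΨ
  obtain ⟨a', ha', hg⟩ := hg
  rw [← (rep _ _ ha' hg).rep hF, ← (hΘ a _ (Lev.lev ha)).2.2.1 Ψ hΨ F hF g⁻¹,
    (rep a Ψ ha hΨ).rep (hF.comp_act g⁻¹),
    ← integral_act g (f := fun w => th (rho Ψ) w * F (act g⁻¹ w))
      ((measurable_th _).mul (hF.comp_act g⁻¹).1)]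
  apply integral_congr_ae
  filter_upwards [ae_pos] with x hx
  rw [act_inv_act g hx]

end Vale.Agent.P319.TC
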