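import Vale.Agent.P319.N.ThCAcf

/-! # TH-C: `Acf = Bc * g3`.
PLAN.  `d1 a c d ≡ d mod M^(6a)` at the primes above `M` and `≡ 1 mod c` (`exists_R_approx_mod`).  `xi_congr`, `xi_mul`: `Cls.struct_lev`, `cub_congr`,
`cub_one_left`, `mem_inR_lev`.  `psiS` is additive (`eTr_add`, `psiK_add`) and `1` on `O_S` (`psiK_of_sIn`).
`Acf_eq`: `Ψ (c,d) eTr (ν d / c) = [cub d c * eq (ν d) c] * [xi * psiS (ν d / c)]`, `Mv_factor_S` with `b = 6a + b'` (`exists_sIn_mul (ν / c)`).
`Bc_congr`: if `¬ Den a c` then `¬ Den a c'` and both sides vanish.  Otherwise `c - c' ∈ lev (6a)` (`Den.sub_mem_of_inUq`).  Choose `l : R K` with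
`l / (c'/c) ∈ U_N`, `N` large (`exists_R_inUq`), so `l ∈ U_(7a)`, `NS l = 1`; `Mv_scale` gives `Mv f' = Mv (f' (l ·))`, and `f' (l d) = f d`:
for `Den a d`, `l d - d ∈ lev (6a)` and `ν l d / c' - ν d / c = (ν d / c) (l c / c' - 1) ∈ O_S`; for `¬ Den a d` also `¬ Den a (l d)`. -/

namespace Vale.Agent.P319.TC

open scoped ComplexConjugate Real Topology NumberField
open MeasureTheory Filter

variable {K : Type} [Field K] [NumberField K] [Stp K] {a : ℕ} {Ψ : R K × R K → ℂ} {c c' d d' : R K}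

/-- an element `≡ d mod M^(6a)` and `≡ 1 mod c` -/
noncomputable def d1 (a : ℕ) (c d : R K) : R K :=
  Classical.epsilon fun y : R K => SIn (6 * a) ((d : K) - y) ∧ c ∣ y - 1

/-- the part of `Ψ` at the primes above `M` -/
noncomputable def xi (a : ℕ) (Ψ : R K × R K → ℂ) (c d : R K) : ℂ := Ψ (c, d1 a c d)

/-- the part of `Acf` at the primes above `M` -/
noncomputable def Bc (a : ℕ) (Ψ : R K × R K → ℂ) (ν c : R K) : ℂ :=
  (NS c : ℂ) * Mv fun d => xi a Ψ c d * psiS ((ν : K) * d / c)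

theorem d1_spec (a : ℕ) (hc : c ≠ 0) (d : R K) :
    SIn (6 * a) ((d : K) - d1 a c d) ∧ c ∣ d1 a c d - 1 :=
  Classical.epsilon_spec (exists_R_approx_mod (6 * a) (d : K) hc 1)

theorem psiS_add (x y : K) : psiS (x + y) = psiS x * psiS y := by
  simp only [psiS, eTr_add, psiK_add, map_mul]
  ring

theorem psiS_of_sIn {x : K} (h : SIn 0 x) : psiS x = 1 := by
  rw [psiS, psiK_of_sIn h, mul_comm, conj_mul_of_norm (norm_eTr x)]

theorem norm_psiS (x : K) : ‖psiS x‖ = 1 := by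
  rw [psiS, norm_mul, Complex.norm_conj, norm_eTr, norm_psiK, one_mul]

theorem psiK_mul_psiS (x : K) : psiK x * psiS x = eTr x := by
  rw [psiS, mul_left_comm, mul_comm (psiK x), conj_mul_of_norm (norm_psiK x), mul_one]

theorem xi_den (h : Cls a (lev K a) Ψ) (hc : c ≠ 0) (h0 : xi a Ψ c d ≠ 0) : Den a c ∧ Den a d := by
  refine ⟨(h.box h0).den1, ?_⟩
  have h1 := (d1_spec a hc d).1
  rw [← map_sub, ← mem_inR_lev] at h1
  simpa using (den_of_inR h1 a).add (h.box h0).den2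

variable [Rcp K]

theorem xi_congr (ha : 10 ≤ a) (h : Cls a (lev K a) Ψ) (hU : InU ((c' : K) / c))
    (h1 : SIn (6 * a) ((c : K) - c')) (h2 : SIn (6 * a) ((d : K) - d')) :
    xi a Ψ c' d' = xi a Ψ c d := by
  obtain ⟨h3, h4⟩ := d1_spec a hU.right_ne d
  obtain ⟨h5, h6⟩ := d1_spec a hU.left_ne d'
  have := h.struct_lev ha (d := d1 a c d) (d' := d1 a c' d') hU (by rwa [mem_inR_lev, map_sub]) (by
    rw [mem_inR_lev, map_sub]
    convert (h2.sub h3).add h5 using 1
    ring)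
  rwa [cub_congr h4, cub_congr h6, cub_one_left, cub_one_left, mul_one, mul_one] at this

theorem xi_mul (ha : 10 ≤ a) (h : Cls a (lev K a) Ψ) (hc : c ≠ 0) (d : R K) :
    cub d c * xi a Ψ c d = Ψ (c, d) := by
  obtain ⟨h3, h4⟩ := d1_spec a hc d
  have := h.struct_lev ha (d := d) (d' := d1 a c d) (inU_div_self hc) (by simp)
    (by rwa [mem_inR_lev, map_sub])
  rwa [cub_congr h4, cub_one_left, mul_one, mul_comm] at this

theorem xi_per (ha : 10 ≤ a) (h : Cls a (lev K a) Ψ) (ν : R K) (hc : c ≠ 0) :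
    ∃ b, ∀ x y : R K, SIn b (y : K) → xi a Ψ c (x + y) * psiS ((ν : K) * (x + y : R K) / c) =
      xi a Ψ c x * psiS ((ν : K) * x / c) := by
  obtain ⟨b, hb⟩ := exists_sIn_mul ((ν : K) / c)
  refine ⟨6 * a + b, fun x y hy => ?_⟩
  rw [xi_congr ha h (d := x) (inU_div_self hc) (by simpa using sIn_zero _)
    (by simpa using (hy.mono (by omega)).neg), map_add, mul_add, add_div, psiS_add,
    psiS_of_sIn (x := (ν : K) * y / c) (by rw [mul_div_right_comm]; exact (hb _ _ hy).zero), mul_one]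

theorem norm_Bc_le (ha : 10 ≤ a) (h : Cls a (lev K a) Ψ) (ν : R K) (hc : c ≠ 0) :
    ‖Bc a Ψ ν c‖ ≤ nK ((MM K : K) ^ a) * (‖ind (Den a c)‖ * NS c) := by
  by_cases hd : Den a c
  · obtain ⟨b, hb⟩ := xi_per ha h ν hc
    have h1 := fun d (hd : xi a Ψ c d * psiS ((ν : K) * d / c) ≠ 0) =>
      (xi_den h hc (left_ne_zero_of_mul hd)).2
    rw [Bc, norm_mul, Complex.norm_real, Real.norm_of_nonneg (NS_pos hc).le, ind_of hd, norm_one,
      one_mul, mul_comm]
    refine mul_le_mul_of_nonneg_right (norm_Mv_le (sb_of_sIn h1 hb) h1 fun d => ?_) (NS_pos hc).le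
    rw [norm_mul, norm_psiS, mul_one]
    exact h.norm_le _
  · have : ∀ d, xi a Ψ c d = 0 := fun d => by_contra fun h' => hd (xi_den h hc h').1
    simp [Bc, this, Mv_zero, ind_of_not hd]

theorem Acf_eq (ha : 10 ≤ a) (h : Cls a (lev K a) Ψ) (ν : R K) (hc : c ≠ 0) :
    Acf Ψ ν c = Bc a Ψ ν c * g3 ν c := by
  obtain ⟨b, hb⟩ := xi_per ha h ν hc
  have e : ∀ d : R K, Ψ (c, d) * eTr ((ν : K) * d / c) =
      cub d c * eq (ν * d) c * (xi a Ψ c d * psiS ((ν : K) * d / c)) := fun d => by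
    rw [← xi_mul ha h hc, ← psiK_mul_psiS, eq, map_mul]
    ring
  simp only [Acf, e]
  rw [Mv_factor_S hc ((per_cub c).mul_eq ν)
    (fun d hd => (xi_den h hc (left_ne_zero_of_mul hd)).2) hb, Bc, NS, g3]
  push_cast
  ring

omit [Rcp K] in
theorem den_inUq {q : ℕ} (hq : 1 ≤ q) (hU : InUq q ((c' : K) / c)) : Den a c' ↔ Den a c := by
  have key : ∀ c c' : R K, InUq q ((c' : K) / c) → Den a c → Den a c' := fun c c' h h' => by
    have := SIn.mul_right h' h.sIn
    rwa [mul_assoc, mul_div_cancel₀ _ (div_ne_zero_iff.1 (h.ne_zero hq)).2] at this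
  exact ⟨key _ _ (hU.div_symm hq), key _ _ hU⟩

theorem Bc_congr (ha : 10 ≤ a) (h : Cls a (lev K a) Ψ) (ν : R K) (hU : InUq (7 * a) ((c' : K) / c)) :
    Bc a Ψ ν c' = Bc a Ψ ν c := by
  have hU' : InU ((c' : K) / c) := hU.mono (by omega)
  have hc := hU'.right_ne
  have hc' := hU'.left_ne
  rw [Bc, Bc, NS_eq_of_inUq one_le_ten hU']
  congr 1
  by_cases hd : Den a c
  swap
  · have h1 : ∀ d, xi a Ψ c d = 0 := fun d => by_contra fun h' => hd (xi_den h hc h').1
    have h2 : ∀ d, xi a Ψ c' d = 0 := fun d =>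
      by_contra fun h' => hd ((den_inUq one_le_ten hU').1 (xi_den h hc' h').1)
    simp only [h1, h2, zero_mul]
  have h1 := hd.sub_mem_of_inUq (b := 6 * a) hc (by rwa [show a + 6 * a = 7 * a by ring])
  rw [mem_inR_lev, map_sub] at h1
  obtain ⟨b, hb⟩ := xi_per ha h ν hc'
  obtain ⟨e, he⟩ := exists_sIn_mul ((ν : K) / c)
  obtain ⟨l, h2, -⟩ := exists_R_inUq (7 * a + e) (hU'.ne_zero one_le_ten) one_ne_zero 0
  have h3 : InUq (7 * a) ((l : K) / (1 : R K)) := by
    have := (h2.mono (Nat.le_add_right _ _)).mul hU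
    rwa [div_mul_cancel₀ _ (hU'.ne_zero one_le_ten), ← div_one (l : K), ← map_one (algebraMap (R K) K)]
      at this
  have hl := (h3.mono (q' := 10) (by omega)).left_ne
  have h4 := Mv_scale (f := fun d => xi a Ψ c' d * psiS ((ν : K) * d / c')) hl
    (fun d hd => (xi_den h hc' (left_ne_zero_of_mul hd)).2) hb
  rw [NS_eq_of_inUq (by omega) h3, NS, map_one, nK_one, nm_one, Nat.cast_one, div_one,
    Complex.ofReal_one, one_mul] at h4
  rw [← h4]
  congr 1
  ext d
  rcases eq_or_ne d 0 with rfl | hd0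
  · simp only [mul_zero, map_zero, zero_div,
      xi_congr ha h hU' h1 (d := 0) (d' := 0) (by simpa using sIn_zero _)]
  have h5 : InUq (7 * a) (((l * d : R K) : K) / d) := by
    rwa [map_mul, mul_div_cancel_right₀ _ (coe_ne_zero hd0), ← div_one (l : K),
      ← map_one (algebraMap (R K) K)]
  by_cases hdd : Den a d
  · have h6 := hdd.sub_mem_of_inUq (b := 6 * a) hd0 (by rwa [show a + 6 * a = 7 * a by ring])
    rw [mem_inR_lev, map_sub] at h6
    have h7 := coe_ne_zero hc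
    have h8 := coe_ne_zero hc'
    have h9 : SIn 0 ((ν : K) / c * (d * (l / (c' / c) - 1))) := by
      refine he 0 _ ((sIn_pow_mul_iff (a := a)).1 ?_)
      rw [← mul_assoc]
      exact (SIn.mul_left h2 hdd).mono (by omega)
    rw [xi_congr ha h hU' h1 h6, map_mul, show (ν : K) * (l * d) / c' =
      ν * d / c + ν / c * (d * (l / (c' / c) - 1)) by field_simp; ring, psiS_add, psiS_of_sIn h9,
      mul_one]
  · rw [show xi a Ψ c d = 0 from by_contra fun h' => hdd (xi_den h hc h').2,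
      show xi a Ψ c' (l * d) = 0 from
        by_contra fun h' => hdd ((den_inUq (by omega) h5).1 (xi_den h hc' h').2), zero_mul, zero_mul]

end Vale.Agent.P319.TC
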