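import Vale.Agent.P319.N.Base
import Vale.Agent.P319.N.Rows
import Vale.Agent.P319.N.LatDefs

/-! # P319, part TH-C: definitions (sub-lead helper15).  Overview in `notes/P319THC.md`.
Everything lives in the namespace `Vale.Agent.P319.TC`. -/

namespace Vale.Agent.P319.TC

open scoped ComplexConjugate Real Topology NumberField
open MeasureTheory Filter

variable {K : Type} [Field K] [NumberField K] [Stp K]

/-- holomorphic on `Re s > 1` -/
def Hol (w : ℂ → ℂ) : Prop := DifferentiableOn ℂ w {s | 1 < s.re}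

/-- `HasRes` up to a holomorphic multiplier that equals `1` at `4/3` (`RS` in P026) -/
def Rz (f : ℂ → ℂ) (x : ℂ) : Prop :=
  ∃ w : ℂ → ℂ, Hol w ∧ w (4 / 3) = 1 ∧ HasRes (fun s => w s * f s) x

/-- the units of `R` modulo `EU` -/
abbrev UQ (K : Type) [Field K] [NumberField K] [Stp K] : Type := (R K)ˣ ⧸ EU K

/-- the chosen representative of a unit class -/
noncomputable def uo (t : UQ K) : R K := ((t.out : (R K)ˣ) : R K)

/-- `f` is periodic modulo the ideal `J` of `𝓞 K` -/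
def PerI (J : Ideal (𝓞 K)) (f : R K → ℂ) : Prop := ∀ x, ∀ y ∈ inR J, f (x + y) = f x

/-- bounded denominators and a period ideal -/
def SB (f : R K → ℂ) : Prop :=
  (∃ a, ∀ x, f x ≠ 0 → Den a x) ∧ ∃ J : Ideal (𝓞 K), J ≠ ⊥ ∧ PerI J f

/-- the invariant mean on `R` that gives mass `1` to `𝓞 K` -/
noncomputable def Mv (f : R K → ℂ) : ℂ :=
  open Classical in
  if h : ∃ J : Ideal (𝓞 K), J ≠ ⊥ ∧ PerI J f then
    (∑' x : R K ⧸ inR h.choose, f x.out) / (Ideal.absNorm h.choose : ℂ) else 0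

/-- the part of `eTr` at the primes above `M` -/
noncomputable def psiS (x : K) : ℂ := eTr x * conj (psiK x)

/-- `(1 / N 𝔪) ∑_{d mod c 𝔪} Ψ(c,d) e(Tr (ν d / c))`, independent of the level `𝔪` -/
noncomputable def Acf (Ψ : R K × R K → ℂ) (ν c : R K) : ℂ :=
  (nK (c : K) : ℂ) * Mv fun d => Ψ (c, d) * eTr ((ν : K) * d / c)

/-- the Dirichlet series of `Acf`, over `c ≠ 0` modulo `EU`, coprime to `P` -/
noncomputable def aD (Ψ : R K × R K → ℂ) (ν P : R K) (s : ℂ) : ℂ :=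
  ∑' x : UQ K × R K, ind (Prim x.2 ∧ IsCoprime x.2 P) * Acf Ψ ν (uo x.1 * x.2) *
    (nK ((uo x.1 * x.2 : R K) : K) : ℂ) ^ (-s)

/-- the Gauss sum of the generator of `(n)` that lies in `β U_q` -/
noncomputable def gq (q : ℕ) (β ν n : R K) : ℂ :=
  open Classical in
  if h : ∃ u : (R K)ˣ, InUq q (((u * n : R K) : K) / β) then g3 ν (h.choose * n) else 0

/-- the Dirichlet series of cubic Gauss sums, over `c ∈ β U_q` modulo units, coprime to `P` -/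
noncomputable def psi (q : ℕ) (β ν P : R K) (s : ℂ) : ℂ :=
  ∑' n : R K, ind (Prim n ∧ IsCoprime n P) * gq q β ν n * (nm n : ℂ) ^ (-s)

/-- residue of `aD Ψ ν 1` -/
noncomputable def rho (Ψ : R K × R K → ℂ) (ν : R K) : ℂ := Classical.epsilon (Rz (aD Ψ ν 1))

/-- residue of `psi q β ν 1` -/
noncomputable def rb (q : ℕ) (β ν : R K) : ℂ := Classical.epsilon (Rz (psi q β ν 1))

/-- the measure `dv / v³` on `(0, ∞)` -/
noncomputable def hm1 : Measure ℝ :=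
  (volume.restrict (Set.Ioi (0 : ℝ))).withDensity fun v => ENNReal.ofReal (1 / v ^ 3)

/-- the product measure on the heights -/
noncomputable def ymu (K : Type) [Field K] [NumberField K] [Stp K] : Measure (Pl K → ℝ) :=
  Measure.pi fun _ => hm1

/-- the Whittaker function of `K` -/
noncomputable def WhK (s : ℂ) (ν : K) (y : Pl K → ℝ) : ℂ := ∏ v, Wh s (ev v ν) (y v)

/-- `∫ Wh(s,ν,y) ψ(y) dy / y³` -/
noncomputable def wI (ν : K) (ψ : (Pl K → ℝ) → ℂ) (s : ℂ) : ℂ := ∫ y, WhK s ν y * ψ y ∂ymu K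

/-- the test function `1_P(z) ψ(y) e(-Tr (ν z))` -/
noncomputable def Ftst (P : Set (Pl K → ℂ)) (ν : K) (ψ : (Pl K → ℝ) → ℂ) (w : Hy K) : ℂ :=
  P.indicator (fun _ => (1 : ℂ)) (fun v => (w v).1) * ψ (fun v => (w v).2) *
    chr (-ν) fun v => (w v).1

/-- bounded coefficients with bounded denominators -/
def Bdd (τ : R K → ℂ) : Prop := ∃ (b : ℕ) (C : ℝ), ∀ ν, ‖τ ν‖ ≤ C ∧ (τ ν ≠ 0 → Den b ν)

/-- the row function whose coefficient series is a multiple of `psi q β` (see `cls_basic`) -/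
noncomputable def Psb (q : ℕ) (β : R K) (b : ℕ) (r : R K × R K) : ℂ :=
  ind (∃ u ∈ EU K, InUq q ((((u : R K) * r.1 : R K) : K) / β)) * cub r.2 r.1 *
    ind (SIn b (r.2 : K))

/-- `t₁ Ψ^∞ + t₀ Ψ^0` -/
noncomputable def Phi (p : R K) (t₁ t₀ : ℂ) (Ψ : R K × R K → ℂ) (r : R K × R K) : ℂ :=
  open Classical in
  if p ∣ r.1 then t₁ * (ind (IsCoprime r.1 r.2) * Ψ (rdv r.1 p, r.2)) else t₀ * Ψ (r.1, p * r.2)

/-- row functions of some principal level -/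
def Cl (Ψ : R K × R K → ℂ) : Prop := ∃ a, 10 ≤ a ∧ Cls a (lev K a) Ψ

/-- the convergence part of `ThBStmt` -/
def EisB (K : Type) [Field K] [NumberField K] [Stp K] : Prop :=
  ∀ (a : ℕ) (σ T : ℝ), 2 < σ → 0 < T → ∃ C : ℝ, ∀ w : Hy K, InBox T w →
    Summable (fun r : RowQ K => ‖ind (Box a r.out)‖ * vr r.out w ^ σ) ∧
      ∑' r : RowQ K, ‖ind (Box a r.out)‖ * vr r.out w ^ σ ≤ C

/-- residues exist -/
def ResStmt (K : Type) [Field K] [NumberField K] [Stp K] : Prop :=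
  ∀ Ψ : R K × R K → ℂ, Cl Ψ → ∀ ν, Rz (aD Ψ ν 1) (rho Ψ ν)

/-- vanishing of all constant terms forces vanishing of all coefficients -/
def CuspStmt (K : Type) [Field K] [NumberField K] [Stp K] : Prop :=
  ∀ (a : ℕ) (𝔪 : Ideal (𝓞 K)) (Φ : R K × R K → ℂ), Lev 𝔪 → Cls a 𝔪 Φ →
    (∀ g : SL2 K, Rz (aD (fun r => Φ (rmul r g)) 0 1) 0) → ∀ ν, Rz (aD Φ ν 1) 0

/-- the coefficients are bounded -/
def BndStmt (K : Type) [Field K] [NumberField K] [Stp K] : Prop :=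
  ∀ Ψ : R K × R K → ℂ, Cl Ψ → ∃ C : ℝ, ∀ ν, ‖rho Ψ ν‖ ≤ C

/-- automorphy -/
def AutStmt (K : Type) [Field K] [NumberField K] [Stp K] : Prop :=
  ∀ Ψ : R K × R K → ℂ, Cl Ψ → ∀ (g : SL2 K) (w : Hy K), Pos w →
    th (rho Ψ) (act g w) = th (rho fun r => Ψ (rmul r g⁻¹)) w

/-- the constant terms -/
def ZeroStmt (K : Type) [Field K] [NumberField K] [Stp K] : Prop :=
  ∀ q, 10 ≤ q → ∃ x : R K → ℂ, x 1 ≠ 0 ∧ ∀ β, β ≠ 0 → Rz (psi q β 0 1) (x β) ∧
    ∀ p, Prime p → Prim p → Rz (psi q β 0 p) (x β / (1 + 1 / (nm p : ℂ)))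

/-- the Hecke relation -/
def HeckeStmt (K : Type) [Field K] [NumberField K] [Stp K] : Prop :=
  ∀ (q : ℕ) (p β ν : R K), 10 ≤ q → Prime p → Prim p → β ≠ 0 →
    Rz (psi q β ν 1) (rb q β ν) ∧ Rz (psi q β ν p) (rb q β ν / (1 + 1 / (nm p : ℂ)))

theorem Cl.rmul [Rcp K] {Ψ : R K × R K → ℂ} (h : Cl Ψ) (g : SL2 K) :
    Cl fun r => Ψ (rmul r g) := by
  obtain ⟨a, ha, h⟩ := h
  obtain ⟨a', h1, h2⟩ := h.exists_rmul_lev g
  exact ⟨a', ha.trans h1, h2⟩

theorem cl_Psb [Rcp K] {q : ℕ} (hq : 10 ≤ q) {β : R K} (hβ : β ≠ 0) (b : ℕ) : Cl (Psb q β b) :=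
  cls_basic (coe_ne_zero hβ) hq b

end Vale.Agent.P319.TC
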