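import Vale.Agent.P319.N.ThCAcf

/-! # TH-C: Euler factors of `psi` at a prime `p` (port of `P026/ThCEuler.lean`).
PLAN.  `gq_congr`, `gq_unit`, `gq_twist`: case distinction on `∃ u, InUq q (u n / β)`, `gq_eq`, `gq_of_not`, `g3_unit_mul`, `g3_twist`, `cub_unit_congr`.
`g3_one_sq`: as `g3_sq_cube` in N/Gauss: `cub x (p²) = conj (cub x p)`, `sum_res_mul_per`, `conj_eq`, `g3_twist` with `t = -1`, `cub_neg_left`.
`peel`: `tsum_peel`; for `n` coprime to `p`: `u p^k n / β ∈ U_q ↔ u n / β' ∈ U_q`, `g3_mul`, `bc_congr_left`.  `tail`: `WfDvdMonoid.max_power_factor`,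
`g3_mul`, `g3_prime_pow_eq_zero`.  In `psi_one'`, `psi_two` the steps with vanishing Gauss sum (`g3_prime_pow_of_le`) use the explicit classes `β p^(j-k)`. -/

namespace Vale.Agent.P319.TC

open scoped ComplexConjugate Real Topology NumberField
open MeasureTheory Filter

variable {K : Type} [Field K] [NumberField K] [Stp K] {q : ℕ} {p β β' ν : R K}

theorem g3_one_sq (hp : Prime p) (ν : R K) : g3 (ν * p) (p ^ 2) = nm p * conj (g3 ν p) :=
  Vale.Agent.P319.g3_one_sq hp ν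

/-- the general term -/
noncomputable def eT (q : ℕ) (β ν : R K) (s : ℂ) (n : R K) : ℂ :=
  ind (Prim n) * gq q β ν n * (nm n : ℂ) ^ (-s)

theorem psi_one_eq (q : ℕ) (β ν : R K) (s : ℂ) (p : R K) :
    psi q β ν 1 s = ∑' n, eT q β ν s (p ^ 0 * n) := by
  refine tsum_congr fun c => ?_
  rw [pow_zero, one_mul, eT, ind_and, ind_of isCoprime_one_right, mul_one]

theorem nm_pow_cpow (p : R K) (k : ℕ) (s : ℂ) : (nm (p ^ k) : ℂ) ^ s = ((nm p : ℂ) ^ s) ^ k := by
  induction k with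
  | zero => simp [isUnit_iff_nm.1 isUnit_one]
  | succ k ih => rw [pow_succ', nm_mul_cpow, ih, pow_succ']

theorem eul_cpow (hp : p ≠ 0) (k l : ℕ) (s : ℂ) :
    (nm p : ℂ) ^ ((k : ℂ) + -(l : ℂ) * s) = (nm p : ℂ) ^ k * ((nm p : ℂ) ^ (-s)) ^ l := by
  have h0 : (nm p : ℂ) ≠ 0 := by exact_mod_cast (nm_pos hp).ne'
  rw [Complex.cpow_add _ _ h0, Complex.cpow_natCast, ← Complex.cpow_nat_mul]
  congr 2
  ring

theorem eul_ne (hq : 10 ≤ q) {x y : R K} (h : InUq q ((x : K) / y)) : x ≠ 0 ∧ y ≠ 0 :=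
  ⟨(h.mono hq).left_ne, (h.mono hq).right_ne⟩

theorem eul_cls (hp : p ≠ 0) (hβ : β ≠ 0) (q k j : ℕ) {l : ℕ} (hl : k + j = l) :
    InUq q (((p ^ k * (β * p ^ j) : R K) : K) / (β * p ^ l : R K)) := by
  rw [show p ^ k * (β * p ^ j) = β * p ^ l by rw [← hl]; ring,
    div_self (coe_ne_zero (mul_ne_zero hβ (pow_ne_zero l hp)))]
  exact inUq_one _

variable [Rcp K]

theorem bc_self {x : R K} (hx : x ≠ 0) : bc x x = 1 :=
  Vale.Agent.P319.bc_self hx

theorem bc_unit_right (hβ : β ≠ 0) (t : (R K)ˣ) : bc β t = conj (cub t β) := by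
  rw [bc_symm t.ne_zero hβ, symb_cub.unit_eq_bs t hβ, bc]

theorem psi_congr (hq : 10 ≤ q) (h : InUq q ((β' : K) / β)) (ν P : R K) :
    psi q β' ν P = psi q β ν P := by
  have h1 : 1 ≤ q := by omega
  funext s
  refine tsum_congr fun n => ?_
  by_cases k : ∃ u : (R K)ˣ, InUq q (((u * n : R K) : K) / β)
  · obtain ⟨u, hu⟩ := k
    rw [gq_eq hq hu, gq_eq hq (hu.div_trans h1 (h.div_symm h1))]
  · rw [gq_of_not k, gq_of_not fun ⟨u, hu⟩ => k ⟨u, hu.div_trans h1 h⟩]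

theorem psi_unit (hq : 10 ≤ q) (t : (R K)ˣ) (β ν P : R K) (s : ℂ) :
    psi q (β * (t : R K)) ν P s = cub t β * psi q β ν P s := by
  have e : ∀ u : (R K)ˣ, ∀ n : R K, ((((t * u : (R K)ˣ) : R K) * n : R K) : K) / (β * t : R K) =
      ((u * n : R K) : K) / β := fun u n => by
    rw [Units.val_mul, mul_assoc, map_mul, mul_comm β, map_mul (algebraMap (R K) K) (t : R K),
      mul_div_mul_left _ _ (coe_unit_ne_zero t)]
  rw [psi, psi, ← tsum_mul_left]
  refine tsum_congr fun n => ?_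
  by_cases k : ∃ u : (R K)ˣ, InUq q (((u * n : R K) : K) / β)
  · obtain ⟨u, hu⟩ := k
    rw [gq_eq hq hu, gq_eq hq (e u n ▸ hu), Units.val_mul, mul_assoc (t : R K),
      g3_unit_mul (eul_ne hq hu).1, cub_unit_congr t (hu.mono hq)]
    ring
  · rw [gq_of_not k, gq_of_not fun ⟨u, hu⟩ => k ⟨t⁻¹ * u, by
      rwa [← e, mul_inv_cancel_left]⟩]
    ring

theorem psi_twist (hq : 10 ≤ q) (t : (R K)ˣ) (β ν P : R K) (s : ℂ) :
    psi q β (ν * (t : R K)) P s = conj (cub t β) * psi q β ν P s := by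
  rw [psi, psi, ← tsum_mul_left]
  refine tsum_congr fun n => ?_
  by_cases k : ∃ u : (R K)ˣ, InUq q (((u * n : R K) : K) / β)
  · obtain ⟨u, hu⟩ := k
    rw [gq_eq hq hu, gq_eq hq hu, g3_twist (eul_ne hq hu).1 (unit_coprime t _),
      cub_unit_congr t (hu.mono hq)]
    ring
  · rw [gq_of_not k, gq_of_not k]
    ring

theorem psi_cube (hq : 10 ≤ q) (β ν p : R K) : psi q β (ν * p ^ 3) p = psi q β ν p := by
  funext s
  refine tsum_congr fun n => ?_
  by_cases h : Prim n ∧ IsCoprime n p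
  · by_cases k : ∃ u : (R K)ˣ, InUq q (((u * n : R K) : K) / β)
    · obtain ⟨u, hu⟩ := k
      have h1 := ((unit_coprime u p).mul_left h.2).symm
      rw [gq_eq hq hu, gq_eq hq hu, g3_twist (eul_ne hq hu).1 h1.pow_left, cub_pow_left,
        cub_cube h1, map_one, one_mul]
    · rw [gq_of_not k, gq_of_not k]
  · rw [ind_of_not h, zero_mul, zero_mul, zero_mul, zero_mul]

/-- one peeling step -/
theorem peel (hq : 10 ≤ q) (hp : Prime p) (hp' : Prim p) (ν : R K) {s : ℂ} (hs : 2 < s.re) (k : ℕ)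
    (h : InUq q (((p ^ k * β' : R K) : K) / β)) :
    ∑' n, eT q β ν s (p ^ k * n) =
      g3 ν (p ^ k) * bc β' (p ^ k) * ((nm p : ℂ) ^ (-s)) ^ k * psi q β' (ν * p ^ k) p s +
        ∑' n, eT q β ν s (p ^ (k + 1) * n) := by
  have h1 : 1 ≤ q := by omega
  have hk := pow_ne_zero k hp.ne_zero
  obtain ⟨h2, h3⟩ := eul_ne hq h
  have h4 := coe_ne_zero (right_ne_zero_of_mul h2)
  have h5 := coe_ne_zero h3
  have h6 := coe_ne_zero hk
  have hsum : Summable (eT q β ν s) := (summable_psi q β ν 1 hs).congr fun n => by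
    rw [eT, ind_and, ind_of isCoprime_one_right, mul_one]
  rw [tsum_peel hp (f := fun n => eT q β ν s (p ^ k * n))
    (hsum.comp_injective (mul_right_injective₀ hk)), psi, ← tsum_mul_left]
  congr 1
  · refine tsum_congr fun n => ?_
    rw [eT, ind_and, prim_mul_iff (hp'.pow k), nm_mul_cpow, nm_pow_cpow]
    by_cases h7 : IsCoprime n p
    · by_cases k' : ∃ u : (R K)ˣ, InUq q (((u * n : R K) : K) / β')
      · obtain ⟨u, hu⟩ := k'
        have h8 : InUq q (((u * (p ^ k * n) : R K) : K) / β) := by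
          have := hu.mul h
          simp only [map_mul] at this ⊢
          rwa [show ∀ a b c d e : K, d ≠ 0 → a * b / d * (c * d / e) = a * (c * b) / e from
            fun a b c d e hd => by field_simp] at this
          exact h4
        rw [gq_eq hq hu, gq_eq hq h8, mul_left_comm (u : R K), g3_mul hk (eul_ne hq hu).1
          ((unit_coprime u p).mul_left h7).symm.pow_left, bc_congr_left (hu.mono hq) hk]
        ring
      · rw [gq_of_not k', gq_of_not fun ⟨u, hu⟩ => k' ⟨u, by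
          have := hu.div h1 h
          simp only [map_mul] at this ⊢
          rwa [div_div_div_cancel_right₀ h5, mul_left_comm, mul_div_mul_left _ _ h6] at this⟩]
        ring
    · rw [ind_of_not h7]
      ring
  · exact tsum_congr fun c => by rw [pow_succ, mul_assoc]

theorem tail (hq : 10 ≤ q) (hp : Prime p) (hp' : Prim p) (hν : ¬p ∣ ν) (β : R K) (s : ℂ) (i : ℕ) :
    ∑' n, eT q β (ν * p ^ i) s (p ^ (i + 2) * n) = 0 := by
  rw [← tsum_zero (α := ℂ) (β := R K)]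
  refine tsum_congr fun n => ?_
  by_cases k' : ∃ u : (R K)ˣ, InUq q (((u * (p ^ (i + 2) * n) : R K) : K) / β)
  · obtain ⟨u, hu⟩ := k'
    have hn : n ≠ 0 := right_ne_zero_of_mul (right_ne_zero_of_mul (eul_ne hq hu).1)
    obtain ⟨k, d, h1, rfl⟩ := WfDvdMonoid.max_power_factor hn hp.irreducible
    rw [eT, gq_eq hq hu, show u * (p ^ (i + 2) * (p ^ k * d)) = p ^ (i + 2 + k) * (u * d) by ring,
      g3_mul (pow_ne_zero _ hp.ne_zero) (mul_ne_zero u.ne_zero (right_ne_zero_of_mul hn))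
        ((unit_coprime u p).mul_left (coprime_of_not_dvd hp h1)).symm.pow_left,
      g3_prime_pow_eq_zero hp hν (by omega)]
    ring
  · rw [eT, gq_of_not k']
    ring

theorem eul_zero (hq : 10 ≤ q) (hp : Prime p) (hp' : Prim p) (hβ : β ≠ 0) (ν : R K) {s : ℂ}
    (hs : 2 < s.re) : psi q β ν 1 s = psi q β ν p s + ∑' n, eT q β ν s (p ^ 1 * n) := by
  rw [psi_one_eq q β ν s p, peel hq hp hp' ν hs 0 (β' := β) (by
    rw [pow_zero, one_mul, div_self (coe_ne_zero hβ)]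
    exact inUq_one _), pow_zero, g3_one, bc_inU_right hβ (by
      rw [map_one]
      exact inUq_one _), pow_zero, mul_one, mul_one, one_mul, mul_one]

theorem psi_one (hq : 10 ≤ q) (hp : Prime p) (hp' : Prim p) (hβ : β ≠ 0) (hν : ¬p ∣ ν) {s : ℂ}
    (hs : 2 < s.re) : psi q (β * p) ν 1 s = psi q (β * p) ν p s +
      g3 ν p * bc β p * (nm p : ℂ) ^ (0 + -1 * s) * psi q β (ν * p) p s := by
  have h := tail hq hp hp' hν (β * p) s 0
  have h1 := eul_cls hp.ne_zero hβ q 1 0 rfl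
  have e := eul_cpow hp.ne_zero 0 1 s
  rw [pow_zero, mul_one] at h h1
  rw [pow_one] at h1
  rw [Nat.cast_zero, Nat.cast_one] at e
  rw [eul_zero hq hp hp' (mul_ne_zero hβ hp.ne_zero) ν hs,
    peel hq hp hp' ν hs 1 (β' := β) (by simpa only [pow_one] using h1), h, e]
  simp only [pow_one, pow_zero, one_mul, add_zero]

theorem psi_one' (hq : 10 ≤ q) (hp : Prime p) (hp' : Prim p) (hβ : β ≠ 0) (hν : ¬p ∣ ν) {s : ℂ}
    (hs : 2 < s.re) : psi q (β * p ^ 2) (ν * p) 1 s = psi q (β * p ^ 2) (ν * p) p s +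
      conj (g3 ν p * bc β p) * (nm p : ℂ) ^ (1 + -2 * s) * psi q β ν p s := by
  have h := tail hq hp hp' hν (β * p ^ 2) s 1
  have h1 := eul_cls hp.ne_zero hβ q 2 0 rfl
  have h2 := g3_prime_pow_of_le hp ν (i := 1) (l := 1) le_rfl le_rfl
  have e := eul_cpow hp.ne_zero 1 2 s
  have e1 : bc β (p ^ 2) = conj (bc β p) := by
    have a1 := bc_cube hβ hp.ne_zero
    have a2 := conj_mul_of_norm (norm_bc β p)
    rw [sq, bc_mul_right hβ hp.ne_zero hp.ne_zero]
    linear_combination conj (bc β p) * a1 - bc β p ^ 2 * a2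
  rw [pow_zero, mul_one] at h1
  rw [pow_one p] at h
  rw [if_neg (by norm_num), pow_one p] at h2
  rw [Nat.cast_one, Nat.cast_ofNat] at e
  rw [eul_zero hq hp hp' (mul_ne_zero hβ (pow_ne_zero 2 hp.ne_zero)) _ hs,
    peel hq hp hp' _ hs 1 (eul_cls hp.ne_zero hβ q 1 1 rfl), peel hq hp hp' _ hs 2 h1, h, e,
    pow_one p, h2, g3_one_sq hp, e1, show ν * p * p ^ 2 = ν * p ^ 3 by ring, psi_cube hq, map_mul]
  ring

theorem psi_two (hq : 10 ≤ q) (hp : Prime p) (hp' : Prim p) (hβ : β ≠ 0) (hν : ¬p ∣ ν) {s : ℂ}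
    (hs : 2 < s.re) : psi q (β * p ^ 3) (ν * p ^ 2) 1 s = psi q (β * p ^ 3) (ν * p ^ 2) p s -
      (nm p : ℂ) ^ (2 + -3 * s) * psi q β (ν * p ^ 2) p s := by
  have h := tail hq hp hp' hν (β * p ^ 3) s 2
  have h1 := eul_cls hp.ne_zero hβ q 3 0 rfl
  have e := eul_cpow hp.ne_zero 2 3 s
  rw [pow_zero, mul_one] at h1
  rw [Nat.cast_ofNat, Nat.cast_ofNat] at e
  rw [eul_zero hq hp hp' (mul_ne_zero hβ (pow_ne_zero 3 hp.ne_zero)) _ hs,
    peel hq hp hp' _ hs 1 (eul_cls hp.ne_zero hβ q 1 2 rfl),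
    peel hq hp hp' _ hs 2 (eul_cls hp.ne_zero hβ q 2 1 rfl), peel hq hp hp' _ hs 3 h1, h, e,
    g3_prime_pow_of_le hp ν (l := 1) (by norm_num) le_rfl,
    g3_prime_pow_of_le hp ν (l := 2) le_rfl (by norm_num), g3_sq_cube hp hν, psi_cube hq,
    bc_cube_right hβ hp.ne_zero, if_neg (by norm_num), if_neg (by norm_num)]
  ring

end Vale.Agent.P319.TC
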