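import Vale.Agent.P319.N.ThG1
import Vale.Agent.P319.N.RowsA

/-! TH-B: the action of `SL₂(R)` on the product of hyperbolic spaces.
PLAN.  Everything is the one place statement of `ThG1` at every place, through `act_apply` (`funext`, `map_mul (evM v)`).
`vr_act`: `div_denC_aC`, `Finset.prod_congr`.  `vr_smul`: `denC_mul`, `prod_norm_ev`.  `act_box`: `aC_box`, take the sum of the bounds.
`Test.comp_act`: `act_box g⁻¹`, `act_pos_iff`, `act_inv_act`.  `tsum_rmul`: the equivalence `q ↦ Quot.mk _ (rmul q.out g)` of `RowQ K`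
(`Quot.map`, `rmul_smul`, `RowQ_out`).  `vr_le`: if `c ≠ 0` then `denC ≥ |c_v|² y_v²` and `1 ≤ nK (M^a c)` (`sIn_R_iff0`, `one_le_nK`);
if `c = 0` then `denC = |d_v|²`, `d ≠ 0`. -/

namespace Vale.Agent.P319

open scoped ComplexConjugate Real Topology ENNReal NNReal InnerProductSpace NumberField
open MeasureTheory Filter Set

variable {K : Type} [Field K] [NumberField K] [Stp K]

/-- the embedding of `R` at `v` -/
noncomputable def evR (v : Pl K) : R K →+* ℂ := v.1.comp (algebraMap (R K) K)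

theorem evR_apply (v : Pl K) (x : R K) : evR v x = ev v (x : K) := rfl

/-- the embedding of `SL₂(R)` at `v` -/
noncomputable def evM (v : Pl K) : SL2 K →* SC := Matrix.SpecialLinearGroup.map (evR v)

theorem evM_apply (v : Pl K) (g : SL2 K) (i j : Fin 2) :
    (evM v g).1 i j = ev v ((g.1 i j : R K) : K) := rfl

theorem act_apply (g : SL2 K) (w : Hy K) (v : Pl K) : act g w v = aC (evM v g) (w v) := rfl

/-- the total height -/
noncomputable def Ht (w : Hy K) : ℝ := ∏ v, (w v).2

/-- functions of rows that are invariant under `EU` -/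
def EInv {β : Type} (F : R K × R K → β) : Prop :=
  ∀ u ∈ EU K, ∀ r : R K × R K, F ((u : R K) * r.1, (u : R K) * r.2) = F r

instance thb_countable_R : Countable (R K) := by
  have : Countable K := Countable.of_equiv _ (Module.finBasis ℚ K).equivFun.toEquiv.symm
  exact coe_injective.countable
instance thb_countable_SL2 : Countable (SL2 K) := by
  have : Countable (Matrix (Fin 2) (Fin 2) (R K)) :=
    inferInstanceAs (Countable (Fin 2 → Fin 2 → R K))
  exact Subtype.val_injective.countable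
instance thb_countable_RowQ : Countable (RowQ K) := Quot.mk_surjective.countable

variable {w : Hy K} {r : R K × R K} {T : ℝ}

theorem Pos.ht_pos (hw : Pos w) : 0 < Ht w := Finset.prod_pos fun v _ => hw v
theorem ne_zero_of_coprime (hr : IsCoprime r.1 r.2) : r ≠ 0 := by
  rintro rfl
  exact not_isCoprime_zero_zero hr
theorem den_ev_pos (hr : r ≠ 0) (hw : Pos w) (v : Pl K) :
    0 < denC (ev v (r.1 : K)) (ev v (r.2 : K)) (w v) := by
  refine denC_pos ?_ (hw v)
  by_contra h
  rw [not_or, not_not, not_not, ev_eq_zero, ev_eq_zero, coe_eq_zero, coe_eq_zero] at h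
  exact hr (Prod.ext h.1 h.2)
theorem vr_pos (hr : r ≠ 0) (hw : Pos w) : 0 < vr r w :=
  Finset.prod_pos fun v _ => div_pos (hw v) (den_ev_pos hr hw v)
theorem vr_eq (r : R K × R K) (w : Hy K) :
    vr r w = Ht w / ∏ v, denC (ev v (r.1 : K)) (ev v (r.2 : K)) (w v) :=
  Finset.prod_div_distrib _ _
theorem Ht_act (g : SL2 K) (w : Hy K) : Ht (act g w) = vr (row g) w := rfl
theorem vr_zero_one (w : Hy K) : vr (0, 1) w = Ht w := by
  refine Finset.prod_congr rfl fun v _ => ?_
  simp only [map_zero, map_one, ev_zero, ev_one, denC_zero_one, div_one]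
theorem act_pos (g : SL2 K) (hw : Pos w) : Pos (act g w) := fun v => aC_pos (evM v g) (hw v)
theorem act_pos_iff (g : SL2 K) : Pos (act g w) ↔ Pos w :=
  forall_congr' fun v => aC_pos_iff (evM v g)
theorem act_one (w : Hy K) : act 1 w = w := by
  funext v
  rw [act_apply, map_one, aC_one]
theorem act_mul (g h : SL2 K) (hw : Pos w) : act (g * h) w = act g (act h w) := by
  funext v
  rw [act_apply, map_mul, aC_mul _ _ (hw v), act_apply, act_apply]
theorem act_inv_act (g : SL2 K) (hw : Pos w) : act g⁻¹ (act g w) = w := by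
  rw [← act_mul _ _ hw, inv_mul_cancel, act_one]
theorem act_act_inv (g : SL2 K) (hw : Pos w) : act g (act g⁻¹ w) = w := by
  rw [← act_mul _ _ hw, mul_inv_cancel, act_one]
theorem vr_act (r : R K × R K) (g : SL2 K) (hw : Pos w) : vr r (act g w) = vr (rmul r g) w := by
  refine Finset.prod_congr rfl fun v _ => ?_
  rw [act_apply, div_denC_aC _ _ _ (hw v)]
  simp only [rmul, evM_apply, map_add, map_mul, ev_add, ev_mul]
theorem vr_smul (u : R K) (r : R K × R K) (w : Hy K) :
    vr (u * r.1, u * r.2) w = vr r w / nK (u : K) := by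
  rw [vr, vr, ← prod_norm_ev, ← Finset.prod_div_distrib]
  refine Finset.prod_congr rfl fun v _ => ?_
  simp only [map_mul, ev_mul]
  rw [denC_mul, div_div, mul_comm]
theorem einv_vr (w : Hy K) : EInv fun r => vr r w := fun u hu r => by
  simp only [vr_smul, nK_EU hu, div_one]
theorem act_mN (x : R K) (w : Hy K) :
    act (mN x) w = fun v => ((w v).1 + ev v (x : K), (w v).2) := by
  funext v
  have e : evM v (mN x) = nC (ev v (x : K)) := by
    apply sc_ext <;> simp [evM_apply, mN_00, mN_01, mN_10, mN_11, nC]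
  rw [act_apply, e, aC_nC]
theorem act_mD (u : (R K)ˣ) (w : Hy K) : act (mD u) w = fun v =>
    (ev v ((u : R K) : K) ^ 2 * (w v).1, ‖ev v ((u : R K) : K)‖ ^ 2 * (w v).2) := by
  funext v
  have e : evM v (mD u) = dC (ev v ((u : R K) : K)) (ev_ne_zero v (coe_unit_ne_zero u)) := by
    apply sc_ext
    · simp [evM_apply, mD_00, dC]
    · simp [evM_apply, mD_01, dC]
    · simp [evM_apply, mD_10, dC]
    · rw [evM_apply, mD_11, coe_unit_inv, ev_inv]
      simp [dC]
  rw [act_apply, e, aC_dC]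
theorem act_mS (w : Hy K) : act mS w = fun v =>
    (-conj (w v).1 / ((‖(w v).1‖ ^ 2 + (w v).2 ^ 2 : ℝ) : ℂ),
      (w v).2 / (‖(w v).1‖ ^ 2 + (w v).2 ^ 2)) := by
  funext v
  have e : evM v (mS : SL2 K) = sC := by
    apply sc_ext <;> simp [evM_apply, mS_00, mS_01, mS_10, mS_11, sC, ev_neg]
  rw [act_apply, e, aC_sC]
theorem measurable_act (g : SL2 K) : Measurable (act g : Hy K → Hy K) :=
  measurable_pi_lambda _ fun v => (measurable_aC (evM v g)).comp (measurable_pi_apply v)
theorem measurable_vr (r : R K × R K) : Measurable (vr r : Hy K → ℝ) :=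
  Finset.measurable_prod _ fun v _ => (measurable_pi_apply v).snd.div
    ((continuous_denC _ _).measurable.comp (measurable_pi_apply v))
theorem measurable_Ht : Measurable (Ht : Hy K → ℝ) :=
  Finset.measurable_prod _ fun v _ => (measurable_pi_apply v).snd
theorem measurableSet_Pos : MeasurableSet {w : Hy K | Pos w} := by
  have e : {w : Hy K | Pos w} = ⋂ v, {w : Hy K | 0 < (w v).2} := by
    ext w
    simp only [Pos, mem_ofPred_eq, mem_iInter]
  rw [e]
  exact MeasurableSet.iInter fun v =>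
    measurableSet_lt measurable_const (measurable_pi_apply v).snd
theorem InBox.pos (hT : 0 < T) (h : InBox T w) : Pos w := fun v =>
  lt_of_lt_of_le (by positivity) (h v).2.1
theorem InBox.mono {T' : ℝ} (hT : 0 < T) (h : InBox T w) (hle : T ≤ T') : InBox T' w := fun v =>
  ⟨(h v).1.trans hle, (one_div_le_one_div_of_le hT hle).trans (h v).2.1, (h v).2.2.trans hle⟩
theorem exists_inBox (hw : Pos w) : ∃ T : ℝ, 1 ≤ T ∧ InBox T w := by
  have h0 : ∀ v, 0 ≤ ‖(w v).1‖ + 1 / (w v).2 + (w v).2 := fun v => by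
    have := hw v
    positivity
  have h1 : 0 ≤ ∑ v, (‖(w v).1‖ + 1 / (w v).2 + (w v).2) := Finset.sum_nonneg fun v _ => h0 v
  refine ⟨1 + ∑ v, (‖(w v).1‖ + 1 / (w v).2 + (w v).2), by linarith, fun v => ?_⟩
  have h2 := Finset.single_le_sum (fun v _ => h0 v) (Finset.mem_univ v)
  have h3 := hw v
  have h4 : 0 < 1 / (w v).2 := by positivity
  have h5 := norm_nonneg (w v).1
  refine ⟨by linarith, ?_, by linarith⟩
  rw [one_div_le (by linarith) h3]
  linarith
theorem InBox.max_le (hT : 0 < T) (h : InBox T w) :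
    max (Ht w) (1 / Ht w) ≤ T ^ Fintype.card (Pl K) := by
  have hw := h.pos hT
  rw [← Finset.card_univ, ← Finset.prod_const]
  refine _root_.max_le (Finset.prod_le_prod (fun v _ => (hw v).le) fun v _ => (h v).2.2) ?_
  rw [Ht, one_div, ← Finset.prod_inv_distrib]
  refine Finset.prod_le_prod (fun v _ => (inv_pos.2 (hw v)).le) fun v _ => ?_
  rw [← one_div, one_div_le (hw v) hT]
  exact (h v).2.1
theorem act_box (g : SL2 K) (hT : 0 < T) :
    ∃ T' : ℝ, 0 < T' ∧ ∀ w : Hy K, InBox T w → InBox T' (act g w) := by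
  choose t ht h using fun v : Pl K => aC_box (evM v g) hT
  have h1 : 0 ≤ ∑ v, t v := Finset.sum_nonneg fun v _ => (ht v).le
  refine ⟨1 + ∑ v, t v, by linarith, fun w hw v => ?_⟩
  have h2 : t v ≤ 1 + ∑ v, t v := by
    have := Finset.single_le_sum (fun v _ => (ht v).le) (Finset.mem_univ v)
    linarith
  obtain ⟨h3, h4, h5⟩ := h v (w v) (hw v)
  exact ⟨h3.trans h2, (one_div_le_one_div_of_le (ht v) h2).trans h4, h5.trans h2⟩
theorem Test.comp_act {F : Hy K → ℂ} (hF : Test F) (g : SL2 K) : Test fun w => F (act g w) := by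
  obtain ⟨hm, T, hT, h⟩ := hF
  obtain ⟨T', hT', h'⟩ := act_box g⁻¹ hT
  refine ⟨hm.comp (measurable_act g), T + T', by positivity, fun w =>
    ⟨(h _).1.trans (by linarith), fun h0 => ?_⟩⟩
  have h1 := (h _).2 h0
  have h2 := h' _ h1
  rw [act_inv_act g ((act_pos_iff g).1 (h1.pos hT))] at h2
  exact h2.mono hT' (by linarith)
theorem EInv.out {β : Type} {F : R K × R K → β} (h : EInv F) (r : R K × R K) :
    F (Quot.mk _ r : RowQ K).out = F r := by
  obtain ⟨u, hu, e⟩ := RowQ_out r
  rw [e, h u hu]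
theorem EInv.rmul {β : Type} {F : R K × R K → β} (h : EInv F) (g : SL2 K) :
    EInv fun r => F (rmul r g) := fun u hu r => by
  simp only [rmul_smul]
  exact h u hu _
theorem EInv.comp₂ {α β γ : Type} {F : R K × R K → α} {G : R K × R K → β} (h : EInv F)
    (h' : EInv G) (φ : α → β → γ) : EInv fun r => φ (F r) (G r) := fun u hu r => by
  simp only [h u hu r, h' u hu r]
private theorem einv_mk (g : SL2 K) : EInv fun r => (Quot.mk _ (rmul r g) : RowQ K) :=
  EInv.rmul (F := fun r => (Quot.mk _ r : RowQ K))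
    (fun u hu _ => (RowQ_eq.2 ⟨u, hu, rfl⟩).symm) g
theorem exists_rowQEquiv (g : SL2 K) :
    ∃ e : RowQ K ≃ RowQ K, ∀ q, e q = Quot.mk _ (rmul q.out g) := by
  refine ⟨⟨fun q => Quot.mk _ (rmul q.out g), fun q => Quot.mk _ (rmul q.out g⁻¹),
    fun q => ?_, fun q => ?_⟩, fun _ => rfl⟩
  · simp only
    rw [(einv_mk g⁻¹).out, rmul_inv_cancel, Quot.out_eq]
  · simp only
    rw [(einv_mk g).out, rmul_inv_cancel', Quot.out_eq]
theorem tsum_rmul {F : R K × R K → ℂ} (h : EInv F) (g : SL2 K) :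
    ∑' q : RowQ K, F (rmul q.out g) = ∑' q : RowQ K, F q.out := by
  obtain ⟨e, he⟩ := exists_rowQEquiv g
  rw [← e.tsum_eq fun q => F q.out]
  exact tsum_congr fun q => by rw [he, h.out]
theorem Eis_act {Ψ : R K × R K → ℂ} (h : EInv Ψ) (g : SL2 K) (hw : Pos w) (s : ℂ) :
    Eis Ψ (act g w) s = Eis (fun r => Ψ (rmul r g⁻¹)) w s := by
  have h1 := tsum_rmul ((h.rmul g⁻¹).comp₂ (einv_vr w) fun a b => a * ((b : ℝ) : ℂ) ^ s) g
  rw [Eis, Eis, ← h1]
  exact tsum_congr fun q => by rw [rmul_inv_cancel, vr_act _ _ hw]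
theorem measurable_Eis (Ψ : R K × R K → ℂ) (s : ℂ) : Measurable fun w : Hy K => Eis Ψ w s :=
  Measurable.tsum fun q =>
    ((Complex.measurable_ofReal.comp (measurable_vr q.out)).pow_const s).const_mul _
theorem Den.one_le_nK {a : ℕ} {x : R K} (h : Den a x) (hx : x ≠ 0) :
    1 ≤ nK ((MM K : K) ^ a) * nK (x : K) := by
  obtain ⟨t, -, e⟩ := mem_inR.1 (den_iff.1 h)
  have h1 : t ≠ 0 := by
    rintro rfl
    rw [map_zero] at e
    exact mul_ne_zero (pow_ne_zero _ isUnit_MR.ne_zero) hx e
  have h2 := congrArg (algebraMap (R K) K) e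
  rw [map_mul, map_pow, map_natCast, coe_int] at h2
  rw [← nK_mul, h2]
  exact P319.one_le_nK h1
theorem vr_le {a : ℕ} (hr : Box a r) (hw : Pos w) :
    vr r w ≤ nK ((MM K : K) ^ a) * max (Ht w) (1 / Ht w) := by
  have hH := hw.ht_pos
  have hN := nK_nonneg ((MM K : K) ^ a)
  have key : ∀ x : R K, Den a x → x ≠ 0 → 1 / nK (x : K) ≤ nK ((MM K : K) ^ a) := fun x h hx => by
    rw [div_le_iff₀ (nK_pos (coe_ne_zero hx))]
    exact h.one_le_nK hx
  by_cases hc : r.1 = 0
  · have hd : r.2 ≠ 0 := fun h => ne_zero_of_coprime hr.coprime (Prod.ext hc h)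
    have e : vr r w = 1 / nK (r.2 : K) * Ht w := by
      rw [vr_eq, ← prod_norm_ev, hc, one_div_mul_eq_div]
      simp [denC]
    rw [e]
    exact mul_le_mul (key _ hr.den2 hd) (le_max_left _ _) hH.le hN
  · have h1 : vr r w ≤ 1 / nK (r.1 : K) * (1 / Ht w) := by
      rw [vr, ← prod_norm_ev, Ht, one_div_mul_one_div, ← Finset.prod_mul_distrib, one_div,
        ← Finset.prod_inv_distrib]
      refine Finset.prod_le_prod (fun v _ => div_nonneg (hw v).le (denC_nonneg _ _ _))
        fun v _ => ?_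
      have h2 := hw v
      have h3 := norm_pos_iff.2 (ev_ne_zero v (coe_ne_zero hc))
      rw [div_le_iff₀ (den_ev_pos (ne_zero_of_coprime hr.coprime) hw v), inv_mul_eq_div,
        le_div_iff₀ (by positivity), denC]
      nlinarith [sq_nonneg ‖ev v (r.1 : K) * (w v).1 + ev v (r.2 : K)‖]
    exact h1.trans (mul_le_mul (key _ hr.den1 hc) (le_max_right _ _) (by positivity) hN)

end Vale.Agent.P319
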