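import Vale.Agent.P319.N.ThM1
import Vale.Agent.P319.N.ThGeo

/-! TH-B: the invariant measure on the product.
PLAN.  `ae_pos`: `ae_all_iff`, `Measure.quasiMeasurePreserving_eval` (or `Measure.ae_pi..`) and `ae_pos1`.
`measurePreserving_pi` of `measurePreserving_aC`.  `hmuK_Sg`: `Measure.pi_pi`, `hmu_siegel`, `ENNReal.prod_lt_top`.
The rest as in P026 ThMeas. -/

namespace Vale.Agent.P319

open scoped ComplexConjugate Real Topology ENNReal NNReal InnerProductSpace NumberField
open MeasureTheory Filter Set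

variable {K : Type} [Field K] [NumberField K] [Stp K]

instance thb_sigmaFinite_hmuK : SigmaFinite (hmuK K) := by unfold hmuK; infer_instance

/-- a Siegel set -/
def Sg (K : Type) [Field K] [NumberField K] [Stp K] (T : ℝ) : Set (Hy K) :=
  {w | ∀ v, ‖(w v).1‖ ≤ T ∧ 1 / T ≤ (w v).2}

theorem ae_pos : ∀ᵐ w ∂hmuK K, Pos w :=
  ae_all_iff.2 fun v =>
    (Measure.quasiMeasurePreserving_eval (fun _ : Pl K => hmu) v).ae ae_pos1
theorem measurable_piC (g : Pl K → SC) : Measurable fun (w : Hy K) v => aC (g v) (w v) :=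
  measurable_pi_lambda _ fun v => (measurable_aC (g v)).comp (measurable_pi_apply v)
theorem measurePreserving_piC (g : Pl K → SC) :
    MeasurePreserving (fun (w : Hy K) v => aC (g v) (w v)) (hmuK K) (hmuK K) :=
  measurePreserving_pi _ _ fun v => measurePreserving_aC (g v)
theorem measurePreserving_act (g : SL2 K) : MeasurePreserving (act g) (hmuK K) (hmuK K) :=
  measurePreserving_piC fun v => evM v g
theorem lintegral_act (g : SL2 K) {f : Hy K → ℝ≥0∞} (hf : Measurable f) :
    ∫⁻ w, f (act g w) ∂hmuK K = ∫⁻ w, f w ∂hmuK K := (measurePreserving_act g).lintegral_comp hf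
theorem integral_act (g : SL2 K) {f : Hy K → ℂ} (hf : Measurable f) :
    ∫ w, f (act g w) ∂hmuK K = ∫ w, f w ∂hmuK K := by
  rw [← integral_map (measurable_act g).aemeasurable hf.aestronglyMeasurable,
    (measurePreserving_act g).map_eq]
theorem Sg_eq_pi (T : ℝ) :
    Sg K T = Set.pi univ fun _ => {w : ℂ × ℝ | ‖w.1‖ ≤ T ∧ 1 / T ≤ w.2} := by
  ext w
  simp only [Sg, mem_ofPred_eq, mem_univ_pi]
theorem measurableSet_Sg (T : ℝ) : MeasurableSet (Sg K T) := by
  rw [Sg_eq_pi]
  exact MeasurableSet.univ_pi fun _ => measurableSet_siegel _ _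
theorem hmuK_Sg {T : ℝ} (hT : 0 < T) : hmuK K (Sg K T) < ⊤ := by
  rw [Sg_eq_pi, hmuK, Measure.pi_pi]
  exact ENNReal.prod_lt_top fun _ _ => hmu_siegel _ (by positivity)
theorem InBox.mem_Sg {T : ℝ} {w : Hy K} (h : InBox T w) : w ∈ Sg K T :=
  fun v => ⟨(h v).1, (h v).2.1⟩
/-- a bounded measurable function supported in a Siegel set is integrable -/
theorem integrable_of_Sg {E : Type*} [NormedAddCommGroup E] {F : Hy K → E}
    (hF : AEStronglyMeasurable F (hmuK K)) {T M : ℝ} (hT : 0 < T)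
    (h : ∀ w : Hy K, Pos w → ‖F w‖ ≤ M ∧ (F w ≠ 0 → w ∈ Sg K T)) : Integrable F (hmuK K) := by
  have hi : Integrable ((Sg K T).indicator fun _ => M) (hmuK K) :=
    (integrableOn_const (hmuK_Sg hT).ne).integrable_indicator (measurableSet_Sg T)
  refine hi.norm.mono' hF (ae_pos.mono fun w hw => ?_)
  by_cases h0 : F w = 0
  · rw [h0, norm_zero]
    exact norm_nonneg _
  · rw [indicator_of_mem ((h w hw).2 h0)]
    exact (h w hw).1.trans (le_abs_self M)
theorem Test.integrable {F : Hy K → ℂ} (hF : Test F) : Integrable F (hmuK K) := by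
  obtain ⟨hm, T, hT, h⟩ := hF
  exact integrable_of_Sg hm.aestronglyMeasurable hT fun w _ =>
    ⟨(h w).1, fun h0 => ((h w).2 h0).mem_Sg⟩
theorem Test.integrable_sq {F : Hy K → ℂ} (hF : Test F) :
    Integrable (fun w => ‖F w‖ ^ 2) (hmuK K) := by
  obtain ⟨hm, T, hT, h⟩ := hF
  refine integrable_of_Sg (M := T ^ 2) (hm.norm.pow_const 2).aestronglyMeasurable hT fun w _ =>
    ⟨?_, fun h0 => ((h w).2 fun h1 => h0 (by simp [h1])).mem_Sg⟩
  rw [Real.norm_eq_abs, abs_of_nonneg (by positivity)]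
  exact pow_le_pow_left₀ (norm_nonneg _) (h w).1 2

end Vale.Agent.P319
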