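import Vale.Agent.P319.N.WhEq

/-! # Properties of `Wh (4/3)` at one complex place.  Port of P026 WhBasic. -/

namespace Vale.Agent.P319

open scoped ComplexConjugate Real Topology
open MeasureTheory Filter Set

/-- `Kf (4/3)` -/
noncomputable def Kr (y : ℝ) : ℝ :=
  ∫ t in Ioi (0 : ℝ), t ^ (-2 / 3 : ℝ) * Real.exp (-(t + y / t))

/-- `Wh (4/3)` -/
noncomputable def Wr (ν : ℂ) (v : ℝ) : ℝ :=
  π * v ^ (2 / 3 : ℝ) / Real.Gamma (4 / 3) * Kr ((2 * π) ^ 2 * ‖ν‖ ^ 2 * v ^ 2)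

theorem Kf_four_thirds (y : ℝ) : Kf (4 / 3) y = Kr y := by
  rw [Kf, Kr, ← integral_complex_ofReal]
  refine setIntegral_congr_fun measurableSet_Ioi fun t ht => ?_
  rw [Complex.ofReal_mul, Complex.ofReal_cpow (le_of_lt ht), Complex.ofReal_exp]
  push_cast
  norm_num
theorem Wh_four_thirds (ν : ℂ) {v : ℝ} (hv : 0 < v) : Wh (4 / 3) ν v = Wr ν v := by
  have e : (4 / 3 : ℂ) = ((4 / 3 : ℝ) : ℂ) := by push_cast; rfl
  rw [Wh_eq (by norm_num) ν hv, Kf_four_thirds, Wr, e, Complex.Gamma_ofReal, Complex.ofReal_mul,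
    Complex.ofReal_div _ (Real.Gamma _), Complex.ofReal_mul, Complex.ofReal_cpow hv.le]
  push_cast
  norm_num

theorem WhBasic_le {x y t : ℝ} (h : x ≤ y) (ht : 0 < t) :
    t ^ (-2 / 3 : ℝ) * Real.exp (-(t + y / t)) ≤ t ^ (-2 / 3 : ℝ) * Real.exp (-(t + x / t)) := by
  gcongr

theorem WhBasic_zero (t : ℝ) :
    t ^ (-2 / 3 : ℝ) * Real.exp (-(t + 0 / t)) = Real.exp (-t) * t ^ (1 / 3 - 1 : ℝ) := by
  rw [zero_div, add_zero, mul_comm]
  norm_num

theorem WhBasic_int : IntegrableOn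
    (fun t : ℝ => t ^ (-2 / 3 : ℝ) * Real.exp (-(t + 0 / t))) (Ioi 0) := by
  simp only [WhBasic_zero]
  exact Real.GammaIntegral_convergent (by norm_num)

theorem WhBasic_norm {y t : ℝ} (hy : 0 ≤ y) (ht : 0 < t) :
    ‖t ^ (-2 / 3 : ℝ) * Real.exp (-(t + y / t))‖ ≤ t ^ (-2 / 3 : ℝ) * Real.exp (-(t + 0 / t)) := by
  rw [Real.norm_of_nonneg (by positivity)]
  exact WhBasic_le hy ht

theorem WhBasic_meas (y : ℝ) :
    Measurable fun t : ℝ => t ^ (-2 / 3 : ℝ) * Real.exp (-(t + y / t)) := by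
  fun_prop

theorem integrableOn_Kr {y : ℝ} (hy : 0 ≤ y) :
    IntegrableOn (fun t : ℝ => t ^ (-2 / 3 : ℝ) * Real.exp (-(t + y / t))) (Ioi 0) :=
  WhBasic_int.mono' (WhBasic_meas y).aestronglyMeasurable
    ((ae_restrict_mem measurableSet_Ioi).mono fun _ ht => WhBasic_norm hy ht)
theorem Kr_zero : Kr 0 = Real.Gamma (1 / 3) := by
  simp only [Kr, WhBasic_zero]
  exact (Real.Gamma_eq_integral (by norm_num)).symm
theorem Kr_pos {y : ℝ} (hy : 0 ≤ y) : 0 < Kr y := by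
  have k : ∀ t ∈ Ioi (0 : ℝ), 0 < t ^ (-2 / 3 : ℝ) * Real.exp (-(t + y / t)) := fun t ht => by
    have := mem_Ioi.1 ht
    positivity
  rw [Kr, setIntegral_pos_iff_support_of_nonneg_ae
    ((ae_restrict_mem measurableSet_Ioi).mono fun t ht => (k t ht).le) (integrableOn_Kr hy),
    inter_eq_right.2 fun t ht => Function.mem_support.2 (k t ht).ne', Real.volume_Ioi]
  exact ENNReal.zero_lt_top
theorem Kr_anti {x y : ℝ} (hx : 0 ≤ x) (h : x ≤ y) : Kr y ≤ Kr x :=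
  setIntegral_mono_on (integrableOn_Kr (hx.trans h)) (integrableOn_Kr hx) measurableSet_Ioi
    fun _ ht => WhBasic_le h ht
theorem Kr_decay (A : ℕ) : ∃ C : ℝ, 0 < C ∧ ∀ y : ℝ, 0 < y → Kr y ≤ C / y ^ A := by
  have hA : (0 : ℝ) < A + 1 / 3 := by positivity
  have hf : (0 : ℝ) < A.factorial := by positivity
  refine ⟨A.factorial * Real.Gamma (A + 1 / 3), mul_pos hf (Real.Gamma_pos_of_pos hA),
    fun y hy => ?_⟩
  rw [mul_div_right_comm, Real.Gamma_eq_integral hA, ← integral_const_mul]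
  refine setIntegral_mono_on (integrableOn_Kr hy.le)
    ((Real.GammaIntegral_convergent hA).const_mul _) measurableSet_Ioi fun t ht => ?_
  have t0 := mem_Ioi.1 ht
  have k := Real.pow_div_factorial_le_exp (y / t) (by positivity) A
  have e : t ^ (A + 1 / 3 - 1 : ℝ) = t ^ (-2 / 3 : ℝ) * t ^ A := by
    rw [← Real.rpow_natCast, ← Real.rpow_add t0]
    congr 1
    ring
  have k2 : Real.exp (-(y / t)) ≤ A.factorial / y ^ A * t ^ A := by
    rw [Real.exp_neg]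
    refine (inv_anti₀ (by positivity) k).trans_eq ?_
    rw [div_pow]
    field_simp
  rw [e, neg_add, Real.exp_add]
  calc _ ≤ t ^ (-2 / 3 : ℝ) * (Real.exp (-t) * (A.factorial / y ^ A * t ^ A)) := by gcongr
    _ = _ := by ring
theorem continuousOn_Kr : ContinuousOn Kr (Ici 0) :=
  continuousOn_of_dominated (fun y _ => (WhBasic_meas y).aestronglyMeasurable)
    (fun _ hy => (ae_restrict_mem measurableSet_Ioi).mono fun _ ht => WhBasic_norm hy ht)
    WhBasic_int (Eventually.of_forall fun t => Continuous.continuousOn (by fun_prop))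

theorem WhBasic_G : 0 < Real.Gamma (4 / 3) := Real.Gamma_pos_of_pos (by norm_num)

theorem WhBasic_G' (x : ℝ) : π * x / Real.Gamma (4 / 3) * Kr 0 = 3 * π * x := by
  have := Real.Gamma_pos_of_pos (s := 1 / 3) (by norm_num)
  rw [Kr_zero, show (4 / 3 : ℝ) = 1 / 3 + 1 by norm_num, Real.Gamma_add_one (by norm_num)]
  field_simp

theorem Wr_pos (ν : ℂ) {v : ℝ} (hv : 0 < v) : 0 < Wr ν v :=
  mul_pos (div_pos (by positivity) WhBasic_G) (Kr_pos (by positivity))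
theorem Wr_zero {v : ℝ} (hv : 0 < v) : Wr 0 v = 3 * π * v ^ (2 / 3 : ℝ) := by
  rw [Wr, norm_zero, zero_pow two_ne_zero, mul_zero, zero_mul, WhBasic_G']
theorem Wr_le (ν : ℂ) {v : ℝ} (hv : 0 < v) : Wr ν v ≤ 3 * π * v ^ (2 / 3 : ℝ) := by
  rw [← WhBasic_G']
  exact mul_le_mul_of_nonneg_left (Kr_anti le_rfl (by positivity))
    (div_pos (by positivity) WhBasic_G).le
theorem Wr_lower : ∃ c : ℝ, 0 < c ∧ ∀ (ν : ℂ) (v : ℝ), 0 < v → ‖ν‖ ^ 2 * v ^ 2 ≤ 4 →
    c * v ^ (2 / 3 : ℝ) ≤ Wr ν v := by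
  refine ⟨π / Real.Gamma (4 / 3) * Kr ((2 * π) ^ 2 * 4),
    mul_pos (div_pos Real.pi_pos WhBasic_G) (Kr_pos (by positivity)), fun ν v hv h => ?_⟩
  refine le_trans (le_of_eq (by ring)) (mul_le_mul_of_nonneg_left (Kr_anti (y := (2 * π) ^ 2 * 4)
    (by positivity) ?_) (div_pos (by positivity) WhBasic_G).le)
  rw [mul_assoc]
  gcongr
theorem Wr_decay (A : ℕ) : ∃ C : ℝ, 0 < C ∧ ∀ (ν : ℂ) (v : ℝ), ν ≠ 0 → 0 < v →
    Wr ν v ≤ C * v ^ (2 / 3 : ℝ) / (‖ν‖ ^ 2 * v ^ 2) ^ A := by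
  obtain ⟨C, hC, h⟩ := Kr_decay A
  have h0 := Real.pi_pos
  have hG := WhBasic_G
  refine ⟨π / Real.Gamma (4 / 3) * C / ((2 * π) ^ 2) ^ A, by positivity, fun ν v hν hv => ?_⟩
  have h1 := norm_pos_iff.2 hν
  refine (mul_le_mul_of_nonneg_left (h _ (by positivity)) (by positivity)).trans_eq ?_
  rw [mul_assoc ((2 * π) ^ 2), mul_pow]
  field_simp
theorem continuousOn_Wr (ν : ℂ) : ContinuousOn (Wr ν) (Ioi 0) :=
  ((continuousOn_const.mul (continuousOn_id.rpow_const fun _ hv =>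
    Or.inl (ne_of_gt hv))).div_const _).mul (continuousOn_Kr.comp
      (Continuous.continuousOn (by fun_prop)) fun v _ => mem_Ici.2 (by positivity))

end Vale.Agent.P319
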