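import Vale.Agent.P319.N.ThCRes
import Vale.Agent.P319.N.ThMeas
import Vale.Agent.P319.N.WhBasic

/-! # TH-C: Fubini for `hmuK`, the Whittaker function of `K` (port of the second half of `P026/WhTh.lean`).
PLAN.  `hmu_eq`: `restrict_upper`, `prod_withDensity_right`.  `measurePreserving_zy`: `measurePreserving_arrowProdEquivProdArrow` (symm), `volume_pi`.
`integral_hmuK`: `MeasurePreserving.integral_comp'`, `integral_prod_symm`.  `WhK_eq`: `integral_fintype_prod_volume_eq_prod`, `Finset.prod_mul_distrib`,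
`Complex.mul_cpow_ofReal_nonneg` by induction (`ofReal_prod_cpow`).  `ymu_box`: `Measure.pi_pi`, `hm1 (Icc (1/T) T) < ⊤`.
`hol_wI`: `differentiableOn_integral_of_bound`; on the box each factor is bounded by `norm_Wh_le`, `rpow_le_add`.
`exists_wI`: `ψ = indicator of ∏ [1,2]`; the integrand at `4/3` is real and positive (`Wh_four_thirds`, `Wr_pos`),
`setIntegral_pos_iff_support_of_nonneg_ae` or `integral_fintype_prod_eq_prod` and one positive integral per place. -/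

namespace Vale.Agent.P319.TC

open scoped ComplexConjugate Real Topology NumberField ENNReal
open MeasureTheory Filter Set

instance : SigmaFinite hm1 := by
  unfold hm1
  infer_instance

theorem hmu_eq : hmu = (volume : Measure ℂ).prod hm1 := by
  rw [hmu, restrict_upper, hm1, prod_withDensity_right (by fun_prop)]

theorem fub_meas (s ξ : ℂ) : Measurable fun p : ℝ × ℂ =>
    ((p.1 / (‖p.2‖ ^ 2 + p.1 ^ 2) : ℝ) : ℂ) ^ s * ecc (-(ξ * p.2)) :=
  (Measurable.pow_const (by fun_prop) s).mul (continuous_ecc.measurable.comp (by fun_prop))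

theorem measurable_Wh (s ξ : ℂ) : Measurable (Wh s ξ) :=
  (fub_meas s ξ).stronglyMeasurable.integral_prod_right'.measurable

theorem hol_Wh (ξ : ℂ) {v : ℝ} (hv : 0 < v) : Hol fun s => Wh s ξ v := by
  have p : ∀ z : ℂ, 0 < v / (‖z‖ ^ 2 + v ^ 2) := fun z => by positivity
  refine differentiableOn_integral_of_bound isOpen_half
    (fun s hs => (integrable_Wh hs ξ hv).aestronglyMeasurable)
    (Eventually.of_forall fun z => ((differentiable_id.const_cpow
      (Or.inl (Complex.ofReal_ne_zero.2 (p z).ne'))).mul_const _).differentiableOn)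
    fun s₀ hs₀ => ?_
  have hs₀ : 1 < s₀.re := hs₀
  refine ⟨(s₀.re - 1) / 2, _, by linarith, (integrable_rpow_Wh (σ := (1 + s₀.re) / 2)
    (by linarith) hv).add (integrable_rpow_Wh (σ := 2 * s₀.re) (by linarith) hv),
    Eventually.of_forall fun z s hs => ?_⟩
  rw [WhEq_norm s ξ hv]
  exact rpow_le_add (p z) (re_of_ball hs).1 (re_of_ball hs).2

theorem fub_ae_hm1 : ∀ᵐ v ∂hm1, 0 < v :=
  (withDensity_absolutelyContinuous _ _).ae_le (ae_restrict_mem measurableSet_Ioi)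

theorem fub_hm1_Icc {a : ℝ} (ha : 0 < a) (b : ℝ) : hm1 (Icc a b) < ⊤ := by
  rw [hm1, withDensity_apply _ measurableSet_Icc, Measure.restrict_restrict measurableSet_Icc]
  refine (setLIntegral_mono' (g := fun _ => ENNReal.ofReal (1 / a ^ 3))
    (measurableSet_Icc.inter measurableSet_Ioi) fun v hv => ?_).trans_lt ?_
  · have := hv.1.1
    gcongr
  · rw [setLIntegral_const]
    exact ENNReal.mul_lt_top ENNReal.ofReal_lt_top
      ((measure_mono inter_subset_left).trans_lt measure_Icc_lt_top)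

theorem fub_hm1_pos : 0 < hm1 (Icc 1 2) := by
  refine pos_iff_ne_zero.2 fun h => ?_
  rw [hm1, withDensity_apply_eq_zero (by fun_prop), Measure.restrict_apply' measurableSet_Ioi] at h
  have h1 : Icc (1 : ℝ) 2 ⊆ {x | ENNReal.ofReal (1 / x ^ 3) ≠ 0} ∩ Icc 1 2 ∩ Ioi 0 := fun x hx => by
    have h0 : 0 < x := one_pos.trans_le hx.1
    exact ⟨⟨(ENNReal.ofReal_pos.2 (by positivity)).ne', hx⟩, h0⟩
  have h2 := measure_mono_null h1 h
  rw [Real.volume_Icc] at h2
  norm_num at h2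

theorem fub_prod_cpow {ι : Type} (t : Finset ι) {f : ι → ℝ} (hf : ∀ i, 0 ≤ f i) (s : ℂ) :
    ((∏ i ∈ t, f i : ℝ) : ℂ) ^ s = ∏ i ∈ t, (f i : ℂ) ^ s := by
  classical
  induction t using Finset.induction_on with
  | empty => simp
  | insert a t ha ih =>
    rw [Finset.prod_insert ha, Finset.prod_insert ha, Complex.ofReal_mul,
      Complex.mul_cpow_ofReal_nonneg (hf a) (Finset.prod_nonneg fun i _ => hf i), ih]

variable {K : Type} [Field K] [NumberField K] [Stp K]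

instance : SigmaFinite (ymu K) := by
  unfold ymu
  infer_instance

/-- the point with coordinates `z`, `y` -/
def zy (z : Pl K → ℂ) (y : Pl K → ℝ) : Hy K := fun v => (z v, y v)

theorem measurePreserving_zy : MeasurePreserving (fun p : (Pl K → ℂ) × (Pl K → ℝ) => zy p.1 p.2)
    ((volume : Measure (Pl K → ℂ)).prod (ymu K)) (hmuK K) := by
  have h := (measurePreserving_arrowProdEquivProdArrow ℂ ℝ (Pl K) (fun _ => volume)
    fun _ => hm1).symm
  rw [hmuK, hmu_eq]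
  exact h

theorem measurable_zy : Measurable fun p : (Pl K → ℂ) × (Pl K → ℝ) => zy p.1 p.2 :=
  measurePreserving_zy.measurable

theorem integral_hmuK {E : Type} [NormedAddCommGroup E] [NormedSpace ℝ E] {f : Hy K → E}
    (hf : Integrable f (hmuK K)) : ∫ w, f w ∂hmuK K = ∫ y, (∫ z, f (zy z y)) ∂ymu K := by
  have h := measurePreserving_zy (K := K)
  rw [← integral_prod_symm (fun p : (Pl K → ℂ) × (Pl K → ℝ) => f (zy p.1 p.2))
    (h.integrable_comp_of_integrable hf), ← h.map_eq,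
    integral_map h.measurable.aemeasurable (h.map_eq.symm ▸ hf.aestronglyMeasurable)]

theorem lintegral_hmuK {f : Hy K → ℝ≥0∞} (hf : Measurable f) :
    ∫⁻ w, f w ∂hmuK K = ∫⁻ y, (∫⁻ z, f (zy z y)) ∂ymu K := by
  rw [← measurePreserving_zy.lintegral_comp hf,
    lintegral_prod_symm _ (hf.fun_comp measurable_zy).aemeasurable]

theorem ae_pos_ymu : ∀ᵐ y ∂ymu K, ∀ v, 0 < y v :=
  ae_all_iff.2 fun v =>
    (Measure.quasiMeasurePreserving_eval (fun _ : Pl K => hm1) v).ae fub_ae_hm1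

theorem fub_box_eq (a b : ℝ) :
    {y : Pl K → ℝ | ∀ v, a ≤ y v ∧ y v ≤ b} = Set.pi univ fun _ => Icc a b := by
  ext y
  simp only [mem_ofPred_eq, mem_univ_pi, mem_Icc]

theorem ymu_box {T : ℝ} (hT : 0 < T) : ymu K {y | ∀ v, 1 / T ≤ y v ∧ y v ≤ T} < ⊤ := by
  rw [fub_box_eq, ymu, Measure.pi_pi]
  exact ENNReal.prod_lt_top fun _ _ => fub_hm1_Icc (by positivity) T

theorem measurableSet_box (T : ℝ) : MeasurableSet {y : Pl K → ℝ | ∀ v, 1 / T ≤ y v ∧ y v ≤ T} := by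
  rw [fub_box_eq]
  exact MeasurableSet.univ_pi fun _ => measurableSet_Icc

theorem fub_ind {T : ℝ} (hT : 0 < T) (C : ℝ) :
    Integrable ({y : Pl K → ℝ | ∀ v, 1 / T ≤ y v ∧ y v ≤ T}.indicator fun _ => C) (ymu K) :=
  (integrableOn_const (ymu_box hT).ne).integrable_indicator (measurableSet_box T)

theorem test1_integrable {ψ : (Pl K → ℝ) → ℂ} (hψ : Test1 ψ) : Integrable ψ (ymu K) := by
  obtain ⟨hm, T, hT, h⟩ := hψ
  refine (fub_ind hT T).mono' hm.aestronglyMeasurable (Eventually.of_forall fun y => ?_)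
  by_cases k : ψ y = 0
  · rw [k, norm_zero]
    exact indicator_apply_nonneg fun _ => hT.le
  · rw [indicator_of_mem (show y ∈ {y : Pl K → ℝ | ∀ v, 1 / T ≤ y v ∧ y v ≤ T} from (h y).2 k)]
    exact (h y).1

theorem measurable_WhK (s : ℂ) (ν : K) : Measurable (WhK s ν : (Pl K → ℝ) → ℂ) :=
  Finset.measurable_fun_prod _ fun v _ => (measurable_Wh s _).fun_comp (measurable_pi_apply v)

/-- the height of the row `(1, 0)` -/
theorem vr_one_zero (w : Hy K) :
    vr (1, 0) w = ∏ v, (w v).2 / (‖(w v).1‖ ^ 2 + (w v).2 ^ 2) := by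
  refine Finset.prod_congr rfl fun v _ => ?_
  have h1 : ev v (((1 : R K), (0 : R K)).1 : K) = 1 := (congrArg (ev v) (map_one _)).trans (ev_one v)
  have h0 : ev v (((1 : R K), (0 : R K)).2 : K) = 0 :=
    (congrArg (ev v) (map_zero _)).trans (ev_zero v)
  rw [h1, h0]
  simp [denC]

theorem fub_eq (s : ℂ) (ν : K) {y : Pl K → ℝ} (hy : ∀ v, 0 < y v) (z : Pl K → ℂ) :
    ((vr (1, 0) (zy z y) : ℝ) : ℂ) ^ s * chr (-ν) z =
      ∏ v, ((y v / (‖z v‖ ^ 2 + y v ^ 2) : ℝ) : ℂ) ^ s * ecc (-(ev v ν * z v)) := by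
  rw [vr_one_zero, fub_prod_cpow _ (fun v => by have := hy v; simp only [zy]; positivity), chr,
    ← Finset.prod_mul_distrib]
  simp only [zy, ev_neg, neg_mul]

theorem integrable_vr_chr {s : ℂ} (hs : 1 < s.re) (ν : K) {y : Pl K → ℝ} (hy : ∀ v, 0 < y v) :
    Integrable fun z => ((vr (1, 0) (zy z y) : ℝ) : ℂ) ^ s * chr (-ν) z := by
  simp only [fub_eq s ν hy]
  exact Integrable.fintype_prod (f := fun v (z : ℂ) =>
    ((y v / (‖z‖ ^ 2 + y v ^ 2) : ℝ) : ℂ) ^ s * ecc (-(ev v ν * z)))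
    fun v => integrable_Wh hs _ (hy v)

theorem WhK_eq (s : ℂ) (ν : K) {y : Pl K → ℝ} (hy : ∀ v, 0 < y v) :
    ∫ z, ((vr (1, 0) (zy z y) : ℝ) : ℂ) ^ s * chr (-ν) z = WhK s ν y := by
  simp only [fub_eq s ν hy]
  exact integral_fintype_prod_volume_eq_prod fun v (z : ℂ) =>
    ((y v / (‖z‖ ^ 2 + y v ^ 2) : ℝ) : ℂ) ^ s * ecc (-(ev v ν * z))

theorem fub_Wh_bound {T a : ℝ} (hT : 0 < T) (ha : 1 < a) (b : ℝ) : ∃ C : ℝ, ∀ (s ξ : ℂ) (v : ℝ),
    a ≤ s.re → s.re ≤ b → 1 / T ≤ v → v ≤ T → ‖Wh s ξ v‖ ≤ C := by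
  have p : ∀ v ∈ Icc (1 / T) T, v ≠ 0 := fun v hv => ((one_div_pos.2 hT).trans_le hv.1).ne'
  have a1 : 0 < a - 1 := by linarith
  obtain ⟨C, hC⟩ := (isCompact_Icc (a := 1 / T) (b := T)).exists_bound_of_continuousOn
    (f := fun v : ℝ => π * (v ^ (2 - b) + v ^ (2 - a)) / (a - 1))
    ((continuousOn_const.mul ((continuousOn_id.rpow_const fun v hv => Or.inl (p v hv)).add
      (continuousOn_id.rpow_const fun v hv => Or.inl (p v hv)))).div_const _)
  refine ⟨C, fun s ξ v h1 h2 h3 h4 => ?_⟩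
  have hv : 0 < v := (one_div_pos.2 hT).trans_le h3
  have k1 := rpow_le_add hv (sub_le_sub_left h2 2) (sub_le_sub_left h1 2)
  refine (norm_Wh_le (by linarith) ξ hv).trans (le_trans ?_ ((le_abs_self _).trans (hC v ⟨h3, h4⟩)))
  gcongr

theorem fub_bound {ψ : (Pl K → ℝ) → ℂ} (hψ : Test1 ψ) (ν : K) {a : ℝ} (ha : 1 < a) (b : ℝ) :
    ∃ B : (Pl K → ℝ) → ℝ, Integrable B (ymu K) ∧ ∀ (y : Pl K → ℝ) (s : ℂ), a ≤ s.re → s.re ≤ b →
      ‖WhK s ν y * ψ y‖ ≤ B y := by
  obtain ⟨-, T, hT, h⟩ := hψ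
  obtain ⟨C, hC⟩ := fub_Wh_bound hT ha b
  refine ⟨_, fub_ind hT ((∏ _v : Pl K, |C|) * T), fun y s h1 h2 => ?_⟩
  by_cases k : ψ y = 0
  · rw [k, mul_zero, norm_zero]
    exact indicator_apply_nonneg fun _ => by positivity
  · have hy := (h y).2 k
    rw [indicator_of_mem (show y ∈ {y : Pl K → ℝ | ∀ v, 1 / T ≤ y v ∧ y v ≤ T} from hy), norm_mul,
      WhK, norm_prod]
    exact mul_le_mul (Finset.prod_le_prod (fun _ _ => norm_nonneg _) fun v _ =>
      (hC s _ _ h1 h2 (hy v).1 (hy v).2).trans (le_abs_self C)) (h y).1 (norm_nonneg _)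
      (by positivity)

theorem integrable_wI {ψ : (Pl K → ℝ) → ℂ} (hψ : Test1 ψ) (ν : K) {s : ℂ} (hs : 1 < s.re) :
    Integrable (fun y => WhK s ν y * ψ y) (ymu K) := by
  obtain ⟨B, hB, h⟩ := fub_bound hψ ν hs s.re
  exact hB.mono' ((measurable_WhK s ν).fun_mul hψ.1).aestronglyMeasurable
    (Eventually.of_forall fun y => h y s le_rfl le_rfl)

theorem hol_wI (ν : K) {ψ : (Pl K → ℝ) → ℂ} (hψ : Test1 ψ) : Hol (wI ν ψ) := by
  refine differentiableOn_integral_of_bound isOpen_half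
    (fun s _ => ((measurable_WhK s ν).fun_mul hψ.1).aestronglyMeasurable)
    (ae_pos_ymu.mono fun y hy => DifferentiableOn.mul_const
      (DifferentiableOn.fun_finsetProd fun v _ => hol_Wh _ (hy v)) _) fun s₀ hs₀ => ?_
  have hs₀ : 1 < s₀.re := hs₀
  obtain ⟨B, hB, h⟩ := fub_bound hψ ν (a := (1 + s₀.re) / 2) (by linarith) (2 * s₀.re)
  exact ⟨(s₀.re - 1) / 2, B, by linarith, hB, Eventually.of_forall
    fun y s hs => h y s (re_of_ball hs).1 (re_of_ball hs).2⟩

theorem fub_one (ξ : ℂ) :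
    ∫ v, Wh (4 / 3) ξ v * (Icc (1 : ℝ) 2).indicator (fun _ => (1 : ℂ)) v ∂hm1 ≠ 0 := by
  have hp : ∀ v ∈ Icc (1 : ℝ) 2, 0 < v := fun v hv => one_pos.trans_le hv.1
  have e : ∀ v, Wh (4 / 3) ξ v * (Icc (1 : ℝ) 2).indicator (fun _ => (1 : ℂ)) v =
      (((Icc (1 : ℝ) 2).indicator (Wr ξ) v : ℝ) : ℂ) := fun v => by
    by_cases h : v ∈ Icc (1 : ℝ) 2
    · rw [indicator_of_mem h, indicator_of_mem h, mul_one, Wh_four_thirds ξ (hp v h)]
    · rw [indicator_of_notMem h, indicator_of_notMem h, mul_zero, Complex.ofReal_zero]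
  simp only [e]
  rw [integral_complex_ofReal, integral_indicator measurableSet_Icc, Complex.ofReal_ne_zero]
  have hc : ContinuousOn (Wr ξ) (Icc 1 2) := (continuousOn_Wr ξ).mono hp
  obtain ⟨C, hC⟩ := isCompact_Icc.exists_bound_of_continuousOn hc
  refine ((setIntegral_pos_iff_support_of_nonneg_ae
    ((ae_restrict_mem measurableSet_Icc).mono fun v hv => (Wr_pos ξ (hp v hv)).le)
    ((integrableOn_const (C := C) (fub_hm1_Icc one_pos 2).ne).mono'
      (hc.aestronglyMeasurable measurableSet_Icc) ?_)).2 ?_).ne'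
  · exact (ae_restrict_mem measurableSet_Icc).mono hC
  · exact fub_hm1_pos.trans_le (measure_mono fun v hv => ⟨(Wr_pos ξ (hp v hv)).ne', hv⟩)

theorem exists_wI (ν : K) : ∃ ψ, Test1 ψ ∧ wI ν ψ (4 / 3) ≠ 0 := by
  refine ⟨fun y => ∏ v, (Icc (1 : ℝ) 2).indicator (fun _ => (1 : ℂ)) (y v),
    ⟨Finset.measurable_fun_prod _ fun v _ =>
      (measurable_const.indicator measurableSet_Icc).fun_comp (measurable_pi_apply v),
      2, two_pos, fun y => ⟨?_, fun h v => ?_⟩⟩, ?_⟩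
  · rw [norm_prod]
    refine (Finset.prod_le_one (fun _ _ => norm_nonneg _) fun v _ => ?_).trans one_le_two
    exact (norm_indicator_le_norm_self _ _).trans norm_one.le
  · have h1 := mem_of_indicator_ne_zero (Finset.prod_ne_zero_iff.1 h v (Finset.mem_univ v))
    exact ⟨le_trans (by norm_num) h1.1, h1.2⟩
  · simp only [wI, WhK, ← Finset.prod_mul_distrib, ymu]
    rw [integral_fintype_prod_eq_prod fun v (t : ℝ) =>
      Wh (4 / 3) (ev v ν) t * (Icc (1 : ℝ) 2).indicator (fun _ => (1 : ℂ)) t]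
    exact Finset.prod_ne_zero_iff.2 fun v _ => fub_one _

end Vale.Agent.P319.TC
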