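import Vale.Agent.P319.N.ThCAcf

/-! # TH-C: the Hecke row function `Phi`, group theory (port of `P026/ThCHeckeA.lean`).
PLAN.  For `g = [[a,b],[p c₁,d]]` put `g' = [[a, p b],[c₁, d]]` (`exists_sl2`).  `Phi_rmul`: as in P026, `rdv_mul`, `mul_rdv`, `coprime_rmul`.
`cls_Phi`: `M^e p, M^e / p ∈ O_S` (`exists_sIn_both`), level `lev K (a+e) ⊓ idl p`, box `a + e`:
`s (c/p) + t d = M^a` gives `(s M^e / p) c + (t M^e) d = M^(a+e)`; `s c + t p d = M^a` gives `(s M^e) c + (t p M^e) d = M^(a+e)`.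
`EU`-invariance: `p ∣ u c ↔ p ∣ c`, `rdv (u c) p = u * rdv c p`.  For `Gam (lev (a+e) ⊓ idl p) δ` (`gam_iff`, `mem_inR_lev`, `mem_inR`, `mem_idl`): `Gam (lev a) δ'` and
`kap δ = cub p d * cub c₁ d`, `cub p d = cub d p = cub 1 p = 1` (`cub_recip_inU`, `Gam.inU`, `cub_congr`). -/

namespace Vale.Agent.P319.TC

open scoped ComplexConjugate Real Topology NumberField
open MeasureTheory Filter

variable {K : Type} [Field K] [NumberField K] [Stp K] {p : R K}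

theorem Phi_mul (hp : p ≠ 0) (t₁ t₀ : ℂ) (Ψ : R K × R K → ℂ) (c d : R K) :
    Phi p t₁ t₀ Ψ (p * c, d) = t₁ * (ind (IsCoprime (p * c) d) * Ψ (c, d)) := by
  simp only [Phi]
  rw [if_pos (dvd_mul_right _ _), rdv_mul hp]

theorem Phi_of_not (t₁ t₀ : ℂ) (Ψ : R K × R K → ℂ) {c : R K} (hc : ¬p ∣ c) (d : R K) :
    Phi p t₁ t₀ Ψ (c, d) = t₀ * Ψ (c, p * d) := if_neg hc

theorem Phi_rmul (hp : Prime p) {g : SL2 K} (hg : p ∣ g.1 1 0) :
    ∃ g' : SL2 K, g'.1 0 0 = g.1 0 0 ∧ g'.1 0 1 = p * g.1 0 1 ∧ p * g'.1 1 0 = g.1 1 0 ∧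
      g'.1 1 1 = g.1 1 1 ∧ ∀ (t₁ t₀ : ℂ) (Ψ : R K × R K → ℂ) (r : R K × R K),
        Phi p t₁ t₀ Ψ (rmul r g) = Phi p t₁ t₀ (fun r => Ψ (rmul r g')) r := by
  obtain ⟨c, hc⟩ := hg
  have hd := sl2_det g
  obtain ⟨g', e1, e2, e3, e4⟩ := exists_sl2 (a := g.1 0 0) (b := p * g.1 0 1) (c := c)
    (d := g.1 1 1) (by linear_combination hd + g.1 0 1 * hc)
  refine ⟨g', e1, e2, by rw [e3, hc], e4, fun t₁ t₀ Ψ r => ?_⟩
  obtain ⟨x, y⟩ := r
  by_cases hx : p ∣ x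
  · obtain ⟨x, rfl⟩ := hx
    have e : rmul (p * x, y) g = (p * (rmul (x, y) g').1, (rmul (x, y) g').2) := by
      simp only [rmul, hc, e1, e2, e3, e4]
      refine Prod.ext ?_ ?_ <;> ring
    have k := coprime_rmul (r := (p * x, y)) g
    rw [e] at k
    rw [e, Phi_mul hp.ne_zero, Phi_mul hp.ne_zero, ind_congr k]
  · have h1 : ¬p ∣ (rmul (x, y) g).1 := by
      intro h
      simp only [rmul, hc] at h
      rcases hp.dvd_or_dvd ((dvd_add_left ⟨y * c, by ring⟩).1 h) with h | ⟨e, he⟩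
      · exact hx h
      · exact hp.not_dvd_one ⟨e * g.1 1 1 - g.1 0 1 * c, by
          linear_combination -hd + g.1 1 1 * he - g.1 0 1 * hc⟩
    rw [Phi_of_not _ _ _ hx, ← Prod.mk.eta (p := rmul (x, y) g), Phi_of_not _ _ _ h1]
    congr 2
    simp only [rmul, hc, e1, e2, e3, e4]
    refine Prod.ext ?_ ?_ <;> ring

theorem cls_Phi [Rcp K] (hp : Prime p) {t₁ t₀ : ℂ} (h₁ : ‖t₁‖ ≤ 1) (h₀ : ‖t₀‖ ≤ 1)
    {Ψ : R K × R K → ℂ} (hΨ : Cl Ψ) :
    ∃ (a : ℕ) (𝔪 : Ideal (𝓞 K)), Lev 𝔪 ∧ Cls a 𝔪 (Phi p t₁ t₀ Ψ) := by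
  obtain ⟨a, ha, hΨ⟩ := hΨ
  have p0 := coe_ne_zero hp.ne_zero
  obtain ⟨e, he, he'⟩ := exists_sIn_both p0
  have hM := (sIn_pow_M (K := K) e).zero
  have hl : Lev (lev K (e + a) ⊓ idl p) := (Lev.lev (by omega)).inf (idl_ne_bot hp.ne_zero)
  refine ⟨e + a, _, hl, fun r hr => ?_, fun r => ?_, fun u hu r => ?_, fun δ hδ r => ?_⟩
  · obtain ⟨c, d⟩ := r
    refine by_contra fun h => hr ?_
    by_cases hc : p ∣ c
    · obtain ⟨c, rfl⟩ := hc
      rw [Phi_mul hp.ne_zero] at h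
      have h1 := right_ne_zero_of_mul h
      have h2 := hΨ.box (right_ne_zero_of_mul h1)
      obtain ⟨s, t, hs, ht, h3⟩ := h2.2.2.2
      refine ⟨by_contra fun k => left_ne_zero_of_mul h1 (ind_of_not k), Den.mul he h2.den1,
        h2.den2.mono (by omega), _, _, hs.mul_left he', ht.mul_left hM, ?_⟩
      rw [pow_add, ← h3, map_mul]
      field_simp
    · rw [Phi_of_not _ _ _ hc] at h
      have h2 := hΨ.box (right_ne_zero_of_mul h)
      obtain ⟨s, t, hs, ht, h3⟩ := h2.2.2.2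
      refine ⟨h2.1.of_mul_right_right, h2.den1.mono (by omega), ?_, _, _, hs.mul_left hM,
        ht.mul_left he, ?_⟩
      · refine (congrArg (SIn 0) ?_).mp (SIn.mul_left h2.den2 he')
        rw [pow_add, map_mul]
        field_simp
      · rw [pow_add, ← h3, map_mul]
        ring
  · unfold Phi
    split_ifs <;> rw [norm_mul]
    · rw [norm_mul]
      exact mul_le_one₀ h₁ (by positivity)
        (mul_le_one₀ (norm_ind_le _) (norm_nonneg _) (hΨ.norm_le _))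
    · exact mul_le_one₀ h₀ (norm_nonneg _) (hΨ.norm_le _)
  · obtain ⟨c, d⟩ := r
    by_cases hc : p ∣ c
    · obtain ⟨c, rfl⟩ := hc
      have k := isCoprime_mul_unit_left u.isUnit (p * c) d
      rw [mul_left_comm] at k
      rw [mul_left_comm, Phi_mul hp.ne_zero, Phi_mul hp.ne_zero, ind_congr k, hΨ.unit hu (c, d)]
    · rw [Phi_of_not _ _ _ hc, Phi_of_not _ _ _ (mt u.isUnit.dvd_mul_left.1 hc), mul_left_comm,
        hΨ.unit hu (c, p * d)]
  · obtain ⟨h1, h2, h3, h4⟩ := gam_iff.1 (hδ.mono inf_le_left)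
    obtain ⟨-, -, k3, k4⟩ := gam_iff.1 (hδ.mono inf_le_right)
    have k : ∀ x ∈ inR (idl p), p ∣ x := fun x hx => by
      obtain ⟨t, ht, rfl⟩ := mem_inR.1 hx
      exact mem_idl.1 ht
    obtain ⟨g, e1, e2, e3, e4, h⟩ := Phi_rmul hp (k _ k3)
    have hle : lev K (e + a) ≤ lev K a := lev_anti (by omega)
    have hg : Gam (lev K a) g := by
      refine gam_iff.2 ⟨e1 ▸ inR_mono hle h1, e2 ▸ Den.mul_inR he (by rwa [lev_mul]), ?_,
        e4 ▸ inR_mono hle h4⟩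
      rw [mem_inR_lev, ← sIn_pow_mul_iff (a := e)]
      refine (congrArg (SIn (e + a)) ?_).mp ((mem_inR_lev.1 h3).mul_left he')
      rw [← e3, map_mul]
      field_simp
    have hk : kap δ = kap g := by
      rw [kap, kap, ← e3, cub_mul_left, cub_recip_inU (hδ.inU hl).2 hp.ne_zero,
        cub_congr (k _ k4), cub_one_left, one_mul, e4]
    rw [h, hk]
    simp only [hΨ.gam hg, Phi]
    split_ifs <;> ring

theorem sl2_decomp (hp : Prime p) (g : SL2 K) :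
    p ∣ g.1 1 0 ∨ ∃ (x : R K) (γ : SL2 K), p ∣ γ.1 1 0 ∧ g = mN x * mS * γ := by
  refine or_iff_not_imp_left.2 fun h => ?_
  obtain ⟨u, v, huv⟩ := hp.irreducible.coprime_iff_not_dvd.2 h
  have hd := sl2_det g
  obtain ⟨γ, e1, e2, e3, e4⟩ := exists_sl2 (a := g.1 1 0) (b := g.1 1 1)
    (c := g.1 0 0 * v * g.1 1 0 - g.1 0 0) (d := g.1 0 0 * v * g.1 1 1 - g.1 0 1)
    (by linear_combination hd)
  refine ⟨g.1 0 0 * v, γ, ⟨-(g.1 0 0 * u), by linear_combination e3 + g.1 0 0 * huv⟩, ?_⟩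
  apply sl2_ext <;> rw [sl2_mul, sl2_mul, sl2_mul] <;>
    simp only [mN_00, mN_01, mN_10, mN_11, mS_00, mS_01, mS_10, mS_11, e1, e2, e3, e4] <;> ring

end Vale.Agent.P319.TC
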