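import Vale.Agent.P319.N.ThCHeckeA

/-! # TH-C: Fourier coefficients of `Phi` (port of `P026/ThCHeckeB.lean`, sums mod `9c` become means `Mv`).
PLAN.  `k = nK p`, `P = nm p`, `f d = Ψ (c,d) eTr (ν d / c)` (`sb_row`).  `Mv_row_dvd`: if `p ∣ c` the function vanishes (`Cls.box`, `Box.coprime`); otherwise
`Mv_factor` with `f₁ = ind (p ∣ ·)` (`per_ind_dvd`, `sum_res_ind`) and the translations `t = c * y`, `y ∈ M^N 𝓞 K`, `N` large (`Cls.add_period`,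
`mem_inR_lev`, `eTr (ν y) = 1` by `SIn.exists_int`, `eTr_int`), `c y ≡ x mod p` by `exists_R_approx_mod N 0`.
`Acf_Phi_mul`: `Phi_mul`, `ind (IsCoprime (p c) d) Ψ (c,d) = Ψ (c,d) - ind (p ∣ d) Ψ (c,d)`, `Mv_sub`.  `Acf_Phi_of_not`: `Phi_of_not`, `Mv_dvd`.
`Acf_Phi_S`: `rmul_mS`; with `Ψ' (c,d) = Ψ (d,-c)` the function is `ind (p ∣ d) * Φ' d + t₀ Ψ' (p c, d)`; `Mv_add`, `Mv_dvd`, `Phi_mul`.
`aD_*`: `tsum_peel₂`, `prim_mul_iff`, `nK_mul_cpow`, `summable_aD` (for `Phi` by `cls_Phi`), `uo t * (p * n) = p * (uo t * n)`. -/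

namespace Vale.Agent.P319.TC

open scoped ComplexConjugate Real Topology NumberField
open MeasureTheory Filter

variable {K : Type} [Field K] [NumberField K] [Stp K] {p c : R K} {Ψ : R K × R K → ℂ} {t₁ t₀ : ℂ}

theorem Cl.sb (hΨ : Cl Ψ) (ν : R K) (hc : c ≠ 0) :
    SB fun d => Ψ (c, d) * eTr ((ν : K) * d / c) :=
  sb_row hΨ.choose_spec.2 (lev_ne_bot _) ν hc

theorem Cl.eq_zero (hΨ : Cl Ψ) {d : R K} (h : ¬IsCoprime c d) : Ψ (c, d) = 0 :=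
  hΨ.choose_spec.2.eq_zero fun k => h k.1

theorem Cl.summable (hΨ : Cl Ψ) (ν P : R K) {s : ℂ} (hs : 2 < s.re) :
    Summable fun x : UQ K × R K => ind (Prim x.2 ∧ IsCoprime x.2 P) * Acf Ψ ν (uo x.1 * x.2) *
      (nK ((uo x.1 * x.2 : R K) : K) : ℂ) ^ (-s) :=
  summable_aD hΨ.choose_spec.2 (lev_ne_bot _) ν P hs

theorem nK_cast_ne (hc : c ≠ 0) : (nK (c : K) : ℂ) ≠ 0 :=
  Complex.ofReal_ne_zero.2 (nK_pos (coe_ne_zero hc)).ne'

theorem ind_uo (t : UQ K) (n p : R K) : ind (IsCoprime (uo t * n) p) = ind (IsCoprime n p) :=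
  ind_congr (isCoprime_mul_unit_left_left (isUnit_uo t) n p)

theorem Mv_row_dvd (hp : Prime p) (hΨ : Cl Ψ) (ν : R K) (hc : c ≠ 0) :
    Mv (fun d => ind (p ∣ d) * (Ψ (c, d) * eTr ((ν : K) * d / c))) =
      ind (IsCoprime c p) / (nm p : ℂ) * Mv fun d => Ψ (c, d) * eTr ((ν : K) * d / c) := by
  by_cases h : IsCoprime c p
  · have h4 : ∑ x ∈ res p, ind (p ∣ x) = 1 := by
      simpa only [zero_sub, dvd_neg] using sum_res_ind hp.ne_zero 0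
    rw [Mv_factor hp.ne_zero (per_ind_dvd p) (hΨ.sb ν hc) fun x => ?_, h4, ind_of h]
    obtain ⟨a, -, hΨ⟩ := hΨ
    obtain ⟨u, v, e⟩ := h
    obtain ⟨b, hb⟩ := exists_sIn_mul (ν : K)
    obtain ⟨y, h1, z, h2⟩ := exists_R_approx_mod (a + b) (0 : K) hp.ne_zero (u * x)
    rw [sIn_sub_comm, sub_zero] at h1
    obtain ⟨t, ht⟩ := (hb a y h1).zero.exists_int (mul_mem (coe_mem ν) (coe_mem y))
    refine ⟨c * y, ⟨c * z - v * x, by linear_combination c * h2 + x * e⟩, fun d => ?_⟩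
    have := coe_ne_zero hc
    rw [add_comm d, hΨ.add_period (mem_inR_lev.2 (h1.mono (Nat.le_add_right a b))),
      show (ν : K) * ((c * y + d : R K) : K) / c = ν * y + ν * d / c by
        rw [map_add, map_mul]; field_simp, eTr_add, ht, pow_zero, one_mul, eTr_int, one_mul]
  · rw [ind_of_not h, zero_div, zero_mul, ← Mv_zero (K := K)]
    congr 1
    funext d
    by_cases h' : p ∣ d
    · rw [hΨ.eq_zero fun k => h (k.of_isCoprime_of_dvd_right h'), zero_mul, mul_zero]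
    · rw [ind_of_not h', zero_mul]

theorem Acf_Phi_mul (hp : Prime p) (hΨ : Cl Ψ) (t₁ t₀ : ℂ) (ν : R K) (hc : c ≠ 0) :
    Acf (Phi p t₁ t₀ Ψ) (p * ν) (p * c) =
      t₁ * (nK (p : K) : ℂ) * (1 - ind (IsCoprime c p) / (nm p : ℂ)) * Acf Ψ ν c := by
  have h0 := hp.ne_zero
  have e : ∀ d, Phi p t₁ t₀ Ψ (p * c, d) * eTr (((p * ν : R K) : K) * d / (p * c : R K)) =
      t₁ * (Ψ (c, d) * eTr ((ν : K) * d / c) - ind (p ∣ d) * (Ψ (c, d) * eTr ((ν : K) * d / c))) := by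
    intro d
    rw [Phi_mul h0, map_mul, map_mul, mul_assoc (p : K), mul_div_mul_left _ _ (coe_ne_zero h0)]
    by_cases h : p ∣ d
    · rw [ind_of h, ind_of_not fun h' => hp.not_isUnit (h'.isUnit_of_dvd' (dvd_mul_right _ _) h)]
      ring
    rw [ind_of_not h]
    by_cases h' : IsCoprime c d
    · rw [ind_of ((hp.irreducible.coprime_iff_not_dvd.2 h).mul_left h')]
      ring
    · rw [hΨ.eq_zero h']
      ring
  have h1 := hΨ.sb ν hc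
  have h2 := h1.per_mul h0 (per_ind_dvd p)
  have h3 : SB fun d => Ψ (c, d) * eTr ((ν : K) * d / c) -
      ind (p ∣ d) * (Ψ (c, d) * eTr ((ν : K) * d / c)) := by
    simpa only [neg_one_mul, ← sub_eq_add_neg] using h1.add (h2.const_mul (-1))
  simp only [Acf, e]
  rw [Mv_const_mul h3, Mv_sub h1 h2, Mv_row_dvd hp hΨ ν hc, map_mul, nK_mul]
  push_cast
  ring

theorem Acf_Phi_of_not (hp : Prime p) (hΨ : Cl Ψ) (t₁ t₀ : ℂ) (ν : R K) (hc : ¬p ∣ c) :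
    Acf (Phi p t₁ t₀ Ψ) (p * ν) c = t₀ * ((nK (p : K) : ℂ) / nm p) * Acf Ψ ν c := by
  have h0 : c ≠ 0 := fun h => hc (h ▸ dvd_zero p)
  have e : ∀ d, Phi p t₁ t₀ Ψ (c, d) * eTr (((p * ν : R K) : K) * d / c) =
      t₀ * (Ψ (c, p * d) * eTr ((ν : K) * (p * d : R K) / c)) := by
    intro d
    rw [Phi_of_not _ _ _ hc, map_mul, map_mul, mul_assoc, mul_left_comm (ν : K), mul_assoc (p : K)]
  have h1 := hΨ.sb ν h0
  simp only [Acf, e]
  rw [Mv_const_mul (h1.comp_mul hp.ne_zero), Mv_dvd h1 hp.ne_zero, Mv_row_dvd hp hΨ ν h0,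
    ind_of (hp.irreducible.coprime_iff_not_dvd.2 hc).symm]
  ring

variable [Rcp K]

theorem Acf_Phi_S (hp : Prime p) (hΨ : Cl Ψ) (h₁ : ‖t₁‖ ≤ 1) (h₀ : ‖t₀‖ ≤ 1) (hc : c ≠ 0) :
    Acf (fun r => Phi p t₁ t₀ Ψ (rmul r mS)) 0 c =
      t₁ / (nK (p : K) : ℂ) * (ind (IsCoprime c p) * Acf (fun r => Ψ (rmul r mS)) 0 c) +
        t₀ / (nK (p : K) : ℂ) * Acf (fun r => Ψ (rmul r mS)) 0 (p * c) := by
  have h0 := hp.ne_zero
  have hk := nK_cast_ne h0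
  obtain ⟨a, 𝔪, hm, hΦ⟩ := cls_Phi hp h₁ h₀ hΨ
  obtain ⟨a', 𝔪', -, -, hm', hΦ'⟩ := hΦ.exists_rmul hm mS
  have s1 := sb_row hΦ' hm'.1 0 hc
  have s2 := (hΨ.rmul mS).sb 0 hc
  have s3 := (hΨ.rmul mS).sb 0 (mul_ne_zero h0 hc)
  simp only [Acf, rmul_mS, map_zero, zero_mul, zero_div, eTr_zero, mul_one] at s1 s2 s3 ⊢
  have e : ∀ d, Phi p t₁ t₀ Ψ (d, -c) =
      ind (p ∣ d) * Phi p t₁ t₀ Ψ (d, -c) + t₀ * Ψ (d, -(p * c)) := by
    intro d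
    by_cases h : p ∣ d
    · rw [ind_of h, hΨ.eq_zero fun h' => hp.not_isUnit
        (h'.isUnit_of_dvd' h (dvd_neg.2 (dvd_mul_right _ _)))]
      ring
    · rw [ind_of_not h, zero_mul, zero_add, Phi_of_not _ _ _ h, mul_neg]
  have e' : ∀ d, Phi p t₁ t₀ Ψ (p * d, -c) = t₁ * ind (IsCoprime c p) * Ψ (d, -c) := by
    intro d
    rw [Phi_mul h0, mul_assoc]
    by_cases h : IsCoprime d (-c)
    · rw [IsCoprime.mul_left_iff, and_iff_left h, IsCoprime.neg_right_iff, isCoprime_comm]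
    · rw [hΨ.eq_zero h]
      simp
  have h1 := Mv_dvd s1 h0
  simp only [e'] at h1
  rw [Mv_const_mul s2] at h1
  rw [funext e, Mv_add (s1.per_mul h0 (per_ind_dvd p)) (s3.const_mul t₀), Mv_const_mul s3,
    map_mul, nK_mul, ← mul_right_inj' hk]
  push_cast
  field_simp
  linear_combination -(nK (c : K) : ℂ) * h1

theorem aD_Phi (hp : Prime p) (hp' : Prim p) (hΨ : Cl Ψ) (h₁ : ‖t₁‖ ≤ 1) (h₀ : ‖t₀‖ ≤ 1) (ν : R K)
    {s : ℂ} (hs : 2 < s.re) : aD (Phi p t₁ t₀ Ψ) (p * ν) 1 s =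
      t₁ * (nK (p : K) : ℂ) ^ (1 + -1 * s) * aD Ψ ν 1 s -
        (t₁ * (nK (p : K) : ℂ) ^ (1 + -1 * s) - t₀ * (nK (p : K) : ℂ)) / nm p * aD Ψ ν p s := by
  have hP : (nm p : ℂ) ≠ 0 := Nat.cast_ne_zero.2 (nm_pos hp.ne_zero).ne'
  have hk := nK_cast_ne hp.ne_zero
  obtain ⟨a, 𝔪, hm, hΦ⟩ := cls_Phi hp h₁ h₀ hΨ
  have s1 := hΨ.summable ν 1 hs
  have s2 := hΨ.summable ν p hs
  have e1 : ∀ x : UQ K × R K, ind (IsCoprime x.2 p) * (ind (Prim x.2 ∧ IsCoprime x.2 1) *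
      Acf (Phi p t₁ t₀ Ψ) (p * ν) (uo x.1 * x.2) * (nK ((uo x.1 * x.2 : R K) : K) : ℂ) ^ (-s)) =
      t₀ * (nK (p : K) : ℂ) / nm p * (ind (Prim x.2 ∧ IsCoprime x.2 p) * Acf Ψ ν (uo x.1 * x.2) *
        (nK ((uo x.1 * x.2 : R K) : K) : ℂ) ^ (-s)) := by
    intro x
    rw [ind_and, ind_and, ind_of isCoprime_one_right]
    by_cases h : IsCoprime x.2 p
    · rw [Acf_Phi_of_not hp hΨ t₁ t₀ ν (hp.irreducible.coprime_iff_not_dvd.1
        ((isCoprime_mul_unit_left_left (isUnit_uo x.1) _ p).2 h).symm)]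
      ring
    · rw [ind_of_not h]
      ring
  have e2 : ∀ x : UQ K × R K, ind (Prim (p * x.2) ∧ IsCoprime (p * x.2) 1) *
      Acf (Phi p t₁ t₀ Ψ) (p * ν) (uo x.1 * (p * x.2)) *
        (nK ((uo x.1 * (p * x.2) : R K) : K) : ℂ) ^ (-s) =
      t₁ * (nK (p : K) : ℂ) ^ (1 + -1 * s) * (ind (Prim x.2 ∧ IsCoprime x.2 1) *
        Acf Ψ ν (uo x.1 * x.2) * (nK ((uo x.1 * x.2 : R K) : K) : ℂ) ^ (-s)) -
      t₁ * (nK (p : K) : ℂ) ^ (1 + -1 * s) / nm p * (ind (Prim x.2 ∧ IsCoprime x.2 p) *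
        Acf Ψ ν (uo x.1 * x.2) * (nK ((uo x.1 * x.2 : R K) : K) : ℂ) ^ (-s)) := by
    intro x
    rw [ind_and, ind_and, ind_and, ind_of isCoprime_one_right, ind_of isCoprime_one_right,
      ind_congr (prim_mul_iff hp')]
    by_cases h : Prim x.2
    · rw [mul_left_comm (uo x.1), nK_mul_cpow, Acf_Phi_mul hp hΨ t₁ t₀ ν
        (mul_ne_zero (uo_ne_zero _) h.1), ind_uo, Complex.cpow_add _ _ hk, Complex.cpow_one,
        neg_one_mul]
      ring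
    · rw [ind_of_not h]
      ring
  rw [aD, tsum_peel₂ hp (summable_aD hΦ hm.1 (p * ν) 1 hs)]
  simp only [e1, e2]
  rw [(s1.mul_left _).tsum_sub (s2.mul_left _), tsum_mul_left, tsum_mul_left, tsum_mul_left, aD, aD]
  ring

theorem aD_Phi_S (hp : Prime p) (hp' : Prim p) (hΨ : Cl Ψ) (h₁ : ‖t₁‖ ≤ 1) (h₀ : ‖t₀‖ ≤ 1) {s : ℂ}
    (hs : 2 < s.re) : aD (fun r => Phi p t₁ t₀ Ψ (rmul r mS)) 0 1 s =
      t₁ / (nK (p : K) : ℂ) * aD (fun r => Ψ (rmul r mS)) 0 p s +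
        t₀ * (nK (p : K) : ℂ) ^ (-1 + 1 * s) *
          (aD (fun r => Ψ (rmul r mS)) 0 1 s - aD (fun r => Ψ (rmul r mS)) 0 p s) := by
  have h0 := hp.ne_zero
  have hk := nK_cast_ne h0
  set Ψ' : R K × R K → ℂ := fun r => Ψ (rmul r mS)
  have s1 := (hΨ.rmul mS).summable 0 1 hs
  have s2 := (hΨ.rmul mS).summable 0 p hs
  have s3 := s1.comp_injective (i := fun x : UQ K × R K => (x.1, p * x.2)) fun x y h =>
    Prod.ext (congrArg Prod.fst h :) (mul_left_cancel₀ h0 (congrArg Prod.snd h))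
  simp only [Function.comp_def] at s3
  have e : ∀ x : UQ K × R K, ind (Prim x.2 ∧ IsCoprime x.2 1) *
      Acf (fun r => Phi p t₁ t₀ Ψ (rmul r mS)) 0 (uo x.1 * x.2) *
        (nK ((uo x.1 * x.2 : R K) : K) : ℂ) ^ (-s) =
      t₁ / (nK (p : K) : ℂ) * (ind (Prim x.2 ∧ IsCoprime x.2 p) * Acf Ψ' 0 (uo x.1 * x.2) *
        (nK ((uo x.1 * x.2 : R K) : K) : ℂ) ^ (-s)) + t₀ * (nK (p : K) : ℂ) ^ (-1 + 1 * s) *
      (ind (Prim (p * x.2) ∧ IsCoprime (p * x.2) 1) * Acf Ψ' 0 (uo x.1 * (p * x.2)) *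
        (nK ((uo x.1 * (p * x.2) : R K) : K) : ℂ) ^ (-s)) := by
    intro x
    rw [ind_and, ind_and, ind_and, ind_of isCoprime_one_right, ind_of isCoprime_one_right,
      ind_congr (prim_mul_iff hp')]
    by_cases h : Prim x.2
    · rw [mul_left_comm (uo x.1), nK_mul_cpow p, Acf_Phi_S hp hΨ h₁ h₀
        (mul_ne_zero (uo_ne_zero _) h.1), ind_uo, Complex.cpow_add _ _ hk, Complex.cpow_neg_one,
        one_mul s, Complex.cpow_neg (nK (p : K))]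
      have := (Complex.cpow_ne_zero_iff (y := s)).2 (Or.inl hk)
      field_simp
      simp only [Ψ']
      ring
    · rw [ind_of_not h]
      ring
  have e2 := tsum_peel₂ hp s1
  have e3 : ∀ x : UQ K × R K, ind (IsCoprime x.2 p) * (ind (Prim x.2 ∧ IsCoprime x.2 1) *
      Acf Ψ' 0 (uo x.1 * x.2) * (nK ((uo x.1 * x.2 : R K) : K) : ℂ) ^ (-s)) =
      ind (Prim x.2 ∧ IsCoprime x.2 p) * Acf Ψ' 0 (uo x.1 * x.2) *
        (nK ((uo x.1 * x.2 : R K) : K) : ℂ) ^ (-s) := fun x => by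
    rw [ind_and, ind_and, ind_of isCoprime_one_right]
    ring
  rw [tsum_congr e3] at e2
  rw [aD, tsum_congr e, (s2.mul_left _).tsum_add (s3.mul_left _), tsum_mul_left, tsum_mul_left, aD,
    aD, e2]
  ring

end Vale.Agent.P319.TC
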