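import Vale.Agent.P319.N.ThCDefs

/-! # TH-C: the invariant mean `Mv`, basic calculus.
PLAN.  `qs A f = ∑' x : R ⧸ A, f x.out` for an additive subgroup `A` (for the submodule `inR J` the quotient type is
the one of `(inR J).toAddSubgroup`, by `rfl`).  `qs_index`: `AddSubgroup.quotientEquivProdOfLE`, `Equiv.tsum_eq`,
`Summable.tsum_prod`, `f a.out = f ((e a).1).out` by periodicity.  `finite_supp`: the classes with `f x.out ≠ 0` lie in the image of the
finite type `𝓞 K ⧸ (lev K a * J)` under `t ↦ t / M^a` (`Ideal.finiteQuotientOfFreeOfNeBot`, `uM`, `mem_inR_lev_mul`).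
`relIndex_inR`: `AddSubgroup.relIndex_map_map_of_injective` (or `relIndex_comap`), `relIndex_mul_index`, `Ideal.absNorm_apply`, `Submodule.cardQuot_apply`.
`Mv_eq`: compare `J` and the chosen ideal with their product.  The rest: write all means with one common period ideal
(`SB.common`), `Summable.tsum_add`, `tsum_mul_left`; `Mv_shift`: `Equiv.addRight` on the quotient.
`norm_Mv_le`, `Mv_ind`: period ideal `lev K a * J`, resp. `lev K b`; `ind (Den a x)` has `N(M^a) * N J` classes mod `J`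
(`Mv_den`); `nK_int`. -/

namespace Vale.Agent.P319.TC

open scoped ComplexConjugate Real Topology NumberField
open MeasureTheory Filter

variable {K : Type} [Field K] [NumberField K] [Stp K] {f g : R K → ℂ} {J J' : Ideal (𝓞 K)}

/-- sum over the classes modulo `A` -/
noncomputable def qs (A : AddSubgroup (R K)) (f : R K → ℂ) : ℂ := ∑' x : R K ⧸ A, f x.out

theorem out_per {A : AddSubgroup (R K)} (hf : ∀ x, ∀ y ∈ A, f (x + y) = f x) (x : R K) :
    f (QuotientAddGroup.mk x : R K ⧸ A).out = f x := by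
  obtain ⟨y, hy⟩ := QuotientAddGroup.mk_out_eq_add A x
  rw [hy, hf x y y.2]

theorem qs_index {A B : AddSubgroup (R K)} (h : A ≤ B) (h0 : A.relIndex B ≠ 0)
    (hf : ∀ x, ∀ y ∈ B, f (x + y) = f x) (hs : Summable fun x : R K ⧸ B => f x.out) :
    qs A f = A.relIndex B * qs B f := by
  have : Finite (B ⧸ A.addSubgroupOf B) := Nat.finite_of_card_ne_zero h0
  have he : ∀ x : R K ⧸ A, f x.out = f (AddSubgroup.quotientEquivProdOfLE h x).1.out * 1 := by
    intro x
    have : (AddSubgroup.quotientEquivProdOfLE h x).1 = QuotientAddGroup.mk x.out := by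
      conv_lhs => rw [← QuotientAddGroup.out_eq' x]
      rfl
    rw [this, out_per hf, mul_one]
  rw [qs, tsum_congr he, (AddSubgroup.quotientEquivProdOfLE h).tsum_eq fun p => f p.1.out * 1,
    ← tsum_mul_tsum_of_summable_norm (g := fun _ => 1) hs.norm Summable.of_finite, tsum_const,
    mul_comm, qs, nsmul_eq_mul, mul_one]
  rfl

theorem qs_ind (B : AddSubgroup (R K)) : qs B (fun x => ind (x ∈ B)) = 1 := by
  have h : ∀ x : R K ⧸ B, x.out ∈ B ↔ x = 0 := fun x => by
    rw [← QuotientAddGroup.eq_zero_iff, QuotientAddGroup.out_eq']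
  rw [qs, tsum_eq_single 0 fun x hx => ind_of_not (mt (h x).1 hx), ind_of ((h 0).2 rfl)]

theorem finite_supp {a : ℕ} (hf : ∀ x, f x ≠ 0 → Den a x) (hJ : J ≠ ⊥) :
    (Function.support fun x : R K ⧸ (inR J).toAddSubgroup => f x.out).Finite := by
  have := Ideal.finiteQuotientOfFreeOfNeBot (lev K a * J) (mul_ne_zero (lev_ne_bot a) hJ)
  refine (Set.finite_range fun y : 𝓞 K ⧸ (lev K a * J) => (QuotientAddGroup.mk
    ((((uM K ^ a)⁻¹ : (R K)ˣ) : R K) * algebraMap (𝓞 K) (R K) y.out) : R K ⧸ _)).subset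
    fun x hx => ?_
  obtain ⟨t, -, ht⟩ := mem_inR.1 (den_iff.1 (hf _ hx))
  refine ⟨Ideal.Quotient.mk _ t, ?_⟩
  have h1 : t - (Ideal.Quotient.mk (lev K a * J) t).out ∈ lev K a * J :=
    Ideal.Quotient.eq.1 (Ideal.Quotient.mk_out _).symm
  obtain ⟨y, hy, e⟩ := mem_inR_lev_mul.1 (int_mem_inR.2 h1)
  rw [← QuotientAddGroup.out_eq' x]
  refine QuotientAddGroup.eq.2 ?_
  have e2 : (((uM K ^ a)⁻¹ : (R K)ˣ) : R K) * (MM K : R K) ^ a = 1 := by
    rw [← val_uM, ← Units.val_pow_eq_pow_val, Units.inv_mul]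
  rw [map_sub, ← ht] at e
  rw [show -((((uM K ^ a)⁻¹ : (R K)ˣ) : R K) * algebraMap (𝓞 K) (R K) _) + x.out = y by
    linear_combination (((uM K ^ a)⁻¹ : (R K)ˣ) : R K) * e + (y - x.out) * e2]
  exact hy

theorem SB.summable (hf : SB f) (hJ : J ≠ ⊥) :
    Summable fun x : R K ⧸ (inR J).toAddSubgroup => f x.out :=
  summable_of_hasFiniteSupport (finite_supp hf.1.choose_spec hJ)

theorem relIndex_inR (h : J' ≤ J) :
    (inR J').toAddSubgroup.relIndex (inR J).toAddSubgroup * Ideal.absNorm J = Ideal.absNorm J' := by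
  rw [Ideal.absNorm_eq_index, Ideal.absNorm_eq_index,
    ← AddSubgroup.relIndex_mul_index (H := J'.toAddSubgroup) (K := J.toAddSubgroup) h,
    ← AddSubgroup.relIndex_map_map_of_injective (f := (algebraMap (𝓞 K) (R K)).toAddMonoidHom) _ _
      (algebraMap_R_injective K)]
  rfl

omit [Stp K] in
theorem absNorm_ne (hJ : J ≠ ⊥) : (Ideal.absNorm J : ℂ) ≠ 0 :=
  Nat.cast_ne_zero.2 (mt Ideal.absNorm_eq_zero_iff.1 hJ)

theorem qs_div (hf : SB f) (h : J' ≤ J) (hJ : J' ≠ ⊥) (hp : PerI J f) :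
    qs (inR J').toAddSubgroup f / (Ideal.absNorm J' : ℂ) =
      qs (inR J).toAddSubgroup f / (Ideal.absNorm J : ℂ) := by
  have h0 : J ≠ ⊥ := ne_bot_of_le_ne_bot hJ h
  have h1 := absNorm_ne hJ
  rw [← relIndex_inR h, Nat.cast_mul] at h1 ⊢
  rw [qs_index (fun _ => inR_mono h) (Nat.cast_ne_zero.1 (left_ne_zero_of_mul h1)) hp
    (hf.summable h0), mul_div_mul_left _ _ (left_ne_zero_of_mul h1)]

theorem PerI.mono (h : PerI J f) (hle : J' ≤ J) : PerI J' f := fun x y hy => h x y (inR_mono hle hy)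

theorem Mv_eq (hf : SB f) (hJ : J ≠ ⊥) (h : PerI J f) :
    Mv f = qs (inR J).toAddSubgroup f / (Ideal.absNorm J : ℂ) := by
  have h0 := hf.2.choose_spec
  rw [Mv, dif_pos hf.2, ← qs_div hf Ideal.mul_le_right (mul_ne_zero h0.1 hJ) h,
    qs_div hf Ideal.mul_le_left (mul_ne_zero h0.1 hJ) h0.2]
  rfl

theorem sb_zero : SB fun _ : R K => 0 :=
  ⟨⟨0, fun _ h => absurd rfl h⟩, ⊤, top_ne_bot, fun _ _ _ => rfl⟩

theorem SB.common (hf : SB f) (hg : SB g) : ∃ J : Ideal (𝓞 K), J ≠ ⊥ ∧ PerI J f ∧ PerI J g := by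
  obtain ⟨J, h1, h2⟩ := hf.2
  obtain ⟨J', h3, h4⟩ := hg.2
  exact ⟨J * J', mul_ne_zero h1 h3, h2.mono Ideal.mul_le_left, h4.mono Ideal.mul_le_right⟩

theorem SB.add (hf : SB f) (hg : SB g) : SB fun x => f x + g x := by
  obtain ⟨J, h1, h2, h3⟩ := hf.common hg
  obtain ⟨a, ha⟩ := hf.1
  obtain ⟨b, hb⟩ := hg.1
  refine ⟨⟨a + b, fun x hx => ?_⟩, J, h1, fun x y hy => by simp only [h2 x y hy, h3 x y hy]⟩
  by_cases h : f x = 0
  · exact (hb x fun h' => hx (by simp [h, h'])).mono (by omega)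
  · exact (ha x h).mono (by omega)

theorem SB.sum {ι : Type*} (t : Finset ι) {F : ι → R K → ℂ} (h : ∀ i ∈ t, SB (F i)) :
    SB fun x => ∑ i ∈ t, F i x := by
  classical
  induction t using Finset.induction_on with
  | empty => simpa using sb_zero
  | insert a t ha ih =>
    simp only [Finset.sum_insert ha]
    exact (h a (Finset.mem_insert_self _ _)).add (ih fun i hi => h i (Finset.mem_insert_of_mem hi))

/-- product with a periodic function -/
theorem SB.mul_left (hf : SB f) (hJ : J ≠ ⊥) (hg : PerI J g) : SB fun x => g x * f x := by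
  obtain ⟨⟨a, ha⟩, J', h1, h2⟩ := hf
  exact ⟨⟨a, fun x hx => ha x (right_ne_zero_of_mul hx)⟩, J * J', mul_ne_zero hJ h1, fun x y hy => by
    simp only [hg.mono Ideal.mul_le_left x y hy, h2.mono Ideal.mul_le_right x y hy]⟩

theorem SB.const_mul (hf : SB f) (c : ℂ) : SB fun x => c * f x :=
  hf.mul_left (g := fun _ => c) top_ne_bot fun _ _ _ => rfl

theorem perI_of_per {n : R K} (h : Per n g) : PerI (idl n) g := by
  intro x y hy
  obtain ⟨t, ht, rfl⟩ := mem_inR.1 hy
  exact h _ _ (by simpa using mem_idl.1 ht)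

theorem SB.per_mul (hf : SB f) {n : R K} (hn : n ≠ 0) (hg : Per n g) : SB fun x => g x * f x :=
  hf.mul_left (idl_ne_bot hn) (perI_of_per hg)

theorem SB.shift (hf : SB f) (t : R K) : SB fun x => f (x + t) := by
  obtain ⟨⟨a, ha⟩, J, h1, h2⟩ := hf
  obtain ⟨b, hb⟩ := exists_den t
  refine ⟨⟨a + b, fun x hx => ?_⟩, J, h1, fun x y hy => by
    simp only [add_right_comm x y, h2 _ y hy]⟩
  simpa using ((ha _ hx).mono (Nat.le_add_right a b)).sub (hb.mono (Nat.le_add_left b a))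

theorem SB.comp_mul (hf : SB f) {p : R K} (hp : p ≠ 0) : SB fun x => f (p * x) := by
  obtain ⟨⟨a, ha⟩, J, h1, h2⟩ := hf
  obtain ⟨b, hb, hb'⟩ := exists_sIn_both (coe_ne_zero hp)
  refine ⟨⟨a + b, fun x hx => ?_⟩, lev K b * J, mul_ne_zero (lev_ne_bot b) h1, fun x y hy => by
    simp only [mul_add, h2 _ _ (Den.mul_inR hb hy)]⟩
  have := SIn.mul_left (ha _ hx) hb'
  rw [map_mul] at this
  have h0 := coe_ne_zero hp
  rwa [Den, show (MM K : K) ^ (a + b) * x = (MM K : K) ^ b / p * ((MM K : K) ^ a * (p * x)) by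
    field_simp; ring]

/-- functions of `x` modulo `M^b` at the primes above `M` -/
theorem sb_of_sIn {a b : ℕ} (h1 : ∀ x, f x ≠ 0 → Den a x)
    (h2 : ∀ x y : R K, SIn b (y : K) → f (x + y) = f x) : SB f :=
  ⟨⟨a, h1⟩, lev K b, lev_ne_bot b, fun x y hy => h2 x y (mem_inR_lev.1 hy)⟩

theorem sb_ind (b : ℕ) : SB fun x : R K => ind (SIn b (x : K)) := by
  refine sb_of_sIn (a := 0) (b := b) (fun x hx => ?_) fun x y hy => ind_congr ?_
  · by_contra h
    exact hx (ind_of_not fun h' => h (den_of_inR (mem_inR_lev.2 h') 0))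
  · rw [map_add]
    exact ⟨fun h => by simpa using h.sub hy, fun h => h.add hy⟩

theorem perI_den (a : ℕ) (J : Ideal (𝓞 K)) : PerI J fun x : R K => ind (Den a x) := fun x y hy =>
  ind_congr ⟨fun h => by simpa using h.sub (den_of_inR hy a), fun h => h.add (den_of_inR hy a)⟩

theorem sb_den (a : ℕ) : SB fun x : R K => ind (Den a x) :=
  ⟨⟨a, fun _ hx => by_contra fun h => hx (ind_of_not h)⟩, ⊤, top_ne_bot, perI_den a ⊤⟩

theorem Mv_zero : Mv (fun _ : R K => 0) = 0 := by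
  rw [Mv_eq sb_zero top_ne_bot fun _ _ _ => rfl, qs, tsum_zero, zero_div]

theorem Mv_add (hf : SB f) (hg : SB g) : Mv (fun x => f x + g x) = Mv f + Mv g := by
  obtain ⟨J, h1, h2, h3⟩ := hf.common hg
  rw [Mv_eq (hf.add hg) h1 fun x y hy => by simp only [h2 x y hy, h3 x y hy], Mv_eq hf h1 h2,
    Mv_eq hg h1 h3, qs, (hf.summable h1).tsum_add (hg.summable h1), add_div]
  rfl

theorem Mv_const_mul (hf : SB f) (c : ℂ) : Mv (fun x => c * f x) = c * Mv f := by
  obtain ⟨J, h1, h2⟩ := hf.2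
  rw [Mv_eq (hf.const_mul c) h1 fun x y hy => by simp only [h2 x y hy], Mv_eq hf h1 h2, qs,
    tsum_mul_left, mul_div_assoc]
  rfl

theorem Mv_sub (hf : SB f) (hg : SB g) : Mv (fun x => f x - g x) = Mv f - Mv g := by
  have := Mv_add hf (hg.const_mul (-1))
  rw [Mv_const_mul hg] at this
  simpa only [neg_one_mul, ← sub_eq_add_neg] using this

theorem Mv_sum {ι : Type*} (t : Finset ι) {F : ι → R K → ℂ} (h : ∀ i ∈ t, SB (F i)) :
    Mv (fun x => ∑ i ∈ t, F i x) = ∑ i ∈ t, Mv (F i) := by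
  classical
  induction t using Finset.induction_on with
  | empty => simpa using Mv_zero
  | insert a t ha ih =>
    have h' := fun i hi => h i (Finset.mem_insert_of_mem hi)
    simp only [Finset.sum_insert ha]
    rw [Mv_add (h a (Finset.mem_insert_self _ _)) (SB.sum t h'), ih h']

theorem Mv_shift (hf : SB f) (t : R K) : Mv (fun x => f (x + t)) = Mv f := by
  obtain ⟨J, h1, h2⟩ := hf.2
  rw [Mv_eq (hf.shift t) h1 fun x y hy => by simp only [add_right_comm x y, h2 _ y hy],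
    Mv_eq hf h1 h2, qs, qs, ← (Equiv.addRight (QuotientAddGroup.mk t)).tsum_eq fun x => f x.out]
  congr 2
  ext x
  rw [← out_per (A := (inR J).toAddSubgroup) h2, QuotientAddGroup.mk_add,
    QuotientAddGroup.out_eq', Equiv.coe_addRight]

theorem Mv_eq_zero (hf : SB f) {t : R K} {ζ : ℂ} (hζ : ζ ≠ 1) (h : ∀ x, f (x + t) = ζ * f x) :
    Mv f = 0 := by
  have h1 := Mv_shift hf t
  simp only [h, Mv_const_mul hf] at h1
  by_contra h0
  exact hζ (mul_right_cancel₀ h0 (h1.trans (one_mul _).symm))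

theorem absNorm_lev (a : ℕ) : (Ideal.absNorm (lev K a) : ℝ) = nK ((MM K : K) ^ a) := by
  rw [lev, ← nK_int]
  simp

theorem Mv_ind (b : ℕ) : Mv (fun x : R K => ind (SIn b (x : K))) = ((nK ((MM K : K) ^ b) : ℝ) : ℂ)⁻¹ := by
  have h := qs_ind (inR (lev K b)).toAddSubgroup
  simp only [Submodule.mem_toAddSubgroup, mem_inR_lev] at h
  rw [Mv_eq (sb_ind b) (lev_ne_bot b) fun x y hy => ind_congr ?_, h, ← absNorm_lev, one_div,
    Complex.ofReal_natCast]
  rw [map_add]
  exact ⟨fun h => by simpa using h.sub (mem_inR_lev.1 hy), fun h => h.add (mem_inR_lev.1 hy)⟩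

theorem Mv_den (a : ℕ) : Mv (fun x : R K => ind (Den a x)) = ((nK ((MM K : K) ^ a) : ℝ) : ℂ) := by
  have h0 : (MM K : R K) ^ a ≠ 0 := (isUnit_MR.pow a).ne_zero
  let φ := AddMonoidHom.mulLeft ((MM K : R K) ^ a)
  let B := (inR (⊤ : Ideal (𝓞 K))).toAddSubgroup.comap φ
  have hB : ∀ x, x ∈ B ↔ Den a x := fun x => den_iff.symm
  have h1 := qs_ind B
  simp only [hB] at h1
  have h2 : (inR (⊤ : Ideal (𝓞 K))).toAddSubgroup.relIndex B = Ideal.absNorm (lev K a) := by
    rw [← relIndex_inR (le_top (a := lev K a)), Ideal.absNorm_top, mul_one,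
      ← AddSubgroup.relIndex_map_map_of_injective (f := φ) _ _ (mul_right_injective₀ h0),
      AddSubgroup.map_comap_eq_self_of_surjective (isUnit_MR.pow a).unit.mulLeft.surjective]
    congr 1
    ext x
    rw [← Ideal.mul_top (lev K a), Submodule.mem_toAddSubgroup, mem_inR_lev_mul]
    simp only [AddSubgroup.mem_map, eq_comm (a := x)]
    rfl
  have h3 : ∀ x, ∀ y ∈ B, ind (Den a (x + y)) = ind (Den a x) := fun x y hy =>
    ind_congr ⟨fun h => by simpa using h.sub ((hB y).1 hy), fun h => h.add ((hB y).1 hy)⟩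
  rw [Mv_eq (sb_den a) top_ne_bot (perI_den a ⊤), Ideal.absNorm_top, Nat.cast_one, div_one,
    qs_index (B := B) (fun x hx => (hB x).2 (den_of_inR hx a))
      (h2 ▸ Nat.cast_ne_zero.1 (absNorm_ne (lev_ne_bot a))) h3 ?_, h1, h2, mul_one, ← absNorm_lev,
    Complex.ofReal_natCast]
  by_contra h4
  exact one_ne_zero (h1.symm.trans (tsum_eq_zero_of_not_summable h4))

theorem norm_Mv_le (hf : SB f) {a : ℕ} (h1 : ∀ x, f x ≠ 0 → Den a x) (h2 : ∀ x, ‖f x‖ ≤ 1) :
    ‖Mv f‖ ≤ nK ((MM K : K) ^ a) := by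
  obtain ⟨J, h3, h4⟩ := hf.2
  have h5 := Mv_den (K := K) a
  have h6 := absNorm_ne h3
  rw [Mv_eq (sb_den a) h3 (perI_den a J), div_eq_iff h6] at h5
  have h7 := Complex.hasSum_re (((sb_den a).summable h3).hasSum_iff.2 h5)
  rw [Mv_eq hf h3 h4, norm_div, div_le_iff₀ (norm_pos_iff.2 h6), Complex.norm_natCast]
  refine (tsum_of_norm_bounded h7 fun x => ?_).trans_eq (by simp)
  by_cases h : f x.out = 0
  · rw [h, norm_zero]
    by_cases h' : Den a x.out
    · simp [ind_of h']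
    · simp [ind_of_not h']
  · simpa [ind_of (h1 _ h)] using h2 _

end Vale.Agent.P319.TC
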