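import Vale.Agent.P319.N.ThCMv

/-! # TH-C: the invariant mean, scaling and unfolding.
PLAN.  `cI c 𝔪 = c * 𝔪` as an additive subgroup of `R`.  `qs_mul`: `x ↦ p x` induces an injection `R ⧸ cI c 𝔪 → R ⧸ cI (p c) 𝔪`
whose range contains the classes divisible by `p` (`Function.Injective.tsum_eq`).  `qs_cI`: choose `k` with `M^k c = c₀ ∈ 𝓞 K`
(`exists_pow_mul`); `cI (M^k c) 𝔪 = inR (span {c₀} * 𝔪)`; `qs_index` for `cI (M^k c) 𝔪 = cI c (lev K k * 𝔪) ≤ cI c 𝔪`, the relative index is the one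
of `inR (lev K k * 𝔪)` in `inR 𝔪` (map by the injective `x ↦ c x`), `relIndex_inR`, `Mv_eq`, `nK_int`.
`Mv_dvd`: `J` a period ideal of `f (p ·)`: `qs_cI` with `(c, 𝔪) = (p, J)` and `(1, J)`, `qs_mul`.
`Mv_factor`: average `Mv (f₁ (· + t) f₂) = Mv (f₁ f₂)` (`Mv_shift`) over `t = σ x`, `x ∈ res n`; `sum_res_perm`, `Mv_sum`.
`Mv_scale`: `Mv_dvd`, `Mv_factor` with `f₁ = ind (p ∣ ·)` (`exists_R_approx_mod`, `sum_res_ind`), `nK_eq_nm_mul`.
`tsum_unfold`: `R ≃ (R ⧸ A) × A` (`AddSubgroup.addGroupEquivQuotientProdAddSubgroup`, or the explicit bijection `(x, y) ↦ x.out + y`),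
`HasSum.prod_fiberwise`, `𝔪 ≃ cI c 𝔪`, `qs_cI`. -/

namespace Vale.Agent.P319.TC

open scoped ComplexConjugate Real Topology NumberField
open MeasureTheory Filter

variable {K : Type} [Field K] [NumberField K] [Stp K] {f : R K → ℂ} {𝔪 : Ideal (𝓞 K)} {c p : R K}

/-- the subgroup `c 𝔪` -/
noncomputable def cI (c : R K) (𝔪 : Ideal (𝓞 K)) : AddSubgroup (R K) :=
  (inR 𝔪).toAddSubgroup.map (AddMonoidHom.mulLeft c)

theorem mem_cI {x : R K} : x ∈ cI c 𝔪 ↔ ∃ y ∈ inR 𝔪, x = c * y := by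
  simp only [cI, AddSubgroup.mem_map, eq_comm (a := x)]
  rfl

theorem qs_mul (hp : p ≠ 0) (c : R K) (h : ∀ x, ∀ y ∈ inR 𝔪, f (x + p * c * y) = f x) :
    qs (cI (p * c) 𝔪) (fun x => ind (p ∣ x) * f x) = qs (cI c 𝔪) fun x => f (p * x) := by
  let m : R K ⧸ cI c 𝔪 → R K ⧸ cI (p * c) 𝔪 := fun x => QuotientAddGroup.mk (p * x.out)
  have key : ∀ x y : R K, (QuotientAddGroup.mk (p * x) : R K ⧸ cI (p * c) 𝔪) =
      QuotientAddGroup.mk (p * y) ↔ (QuotientAddGroup.mk x : R K ⧸ cI c 𝔪) = QuotientAddGroup.mk y := by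
    intro x y
    simp only [QuotientAddGroup.eq, mem_cI]
    refine exists_congr fun z => and_congr_right fun _ => ?_
    rw [show -(p * x) + p * y = p * (-x + y) by ring, mul_assoc, mul_right_inj' hp]
  have hm : Function.Injective m := fun x y e => by
    rwa [key, QuotientAddGroup.out_eq', QuotientAddGroup.out_eq'] at e
  have hF : ∀ x, ∀ y ∈ cI (p * c) 𝔪, ind (p ∣ x + y) * f (x + y) = ind (p ∣ x) * f x := by
    intro x y hy
    obtain ⟨z, hz, rfl⟩ := mem_cI.1 hy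
    rw [h x z hz, ind_congr (dvd_add_left ⟨c * z, mul_assoc _ _ _⟩)]
  rw [qs, qs, ← hm.tsum_eq]
  · refine tsum_congr fun x => ?_
    rw [out_per (f := fun x => ind (p ∣ x) * f x) hF, ind_of (dvd_mul_right _ _), one_mul]
  · intro x hx
    obtain ⟨y, hy⟩ : p ∣ x.out := by_contra fun h' => hx (by simp [ind_of_not h'])
    exact ⟨QuotientAddGroup.mk y, by
      rw [← QuotientAddGroup.out_eq' x, hy]
      exact (key _ _).2 (QuotientAddGroup.out_eq' _)⟩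

theorem finite_of_le {A B : AddSubgroup (R K)} (h : A ≤ B) (hf : ∀ x, ∀ y ∈ B, f (x + y) = f x)
    (hs : (Function.support fun x : R K ⧸ A => f x.out).Finite) :
    (Function.support fun x : R K ⧸ B => f x.out).Finite := by
  refine (hs.image fun x => QuotientAddGroup.mk x.out).subset fun y hy =>
    ⟨QuotientAddGroup.mk y.out, ?_, ?_⟩
  · rwa [Function.mem_support, out_per fun x z hz => hf x z (h hz)]
  · obtain ⟨z, hz⟩ := QuotientAddGroup.mk_out_eq_add A y.out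
    simp only
    rw [hz, QuotientAddGroup.mk_add_of_mem _ (h z.2), QuotientAddGroup.out_eq']

theorem qs_cI (hf : SB f) (hc : c ≠ 0) (hm : 𝔪 ≠ ⊥) (h : ∀ x, ∀ y ∈ inR 𝔪, f (x + c * y) = f x) :
    qs (cI c 𝔪) f = (nK (c : K) : ℂ) * (Ideal.absNorm 𝔪 : ℂ) * Mv f := by
  obtain ⟨k, t, ht⟩ := exists_pow_mul c
  have ht0 : t ≠ 0 := fun e => mul_ne_zero (isUnit_MR.pow k).ne_zero hc (by rw [ht, e, map_zero])
  have hJ : Ideal.span {t} * 𝔪 ≠ ⊥ := mul_ne_zero (mt Ideal.span_singleton_eq_bot.1 ht0) hm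
  have e : (inR (Ideal.span {t} * 𝔪)).toAddSubgroup = cI c (lev K k * 𝔪) := by
    ext x
    simp only [Submodule.mem_toAddSubgroup, mem_cI, mem_inR_lev_mul]
    simp only [mem_inR, Ideal.mem_span_singleton_mul]
    constructor
    · rintro ⟨_, ⟨z, hz, rfl⟩, rfl⟩
      exact ⟨_, ⟨_, ⟨z, hz, rfl⟩, rfl⟩, by rw [map_mul, ← ht]; ring⟩
    · rintro ⟨_, ⟨_, ⟨z, hz, rfl⟩, rfl⟩, rfl⟩
      exact ⟨_, ⟨z, hz, rfl⟩, by rw [map_mul, ← ht]; ring⟩
  have hle : cI c (lev K k * 𝔪) ≤ cI c 𝔪 := AddSubgroup.map_mono fun _ => inR_mono Ideal.mul_le_right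
  have hp : ∀ x, ∀ y ∈ cI c 𝔪, f (x + y) = f x := fun x y hy => by
    obtain ⟨z, hz, rfl⟩ := mem_cI.1 hy
    exact h x z hz
  have hi : (cI c (lev K k * 𝔪)).relIndex (cI c 𝔪) = Ideal.absNorm (lev K k) := by
    have := relIndex_inR (Ideal.mul_le_right (I := lev K k) (J := 𝔪))
    rw [map_mul] at this
    rw [cI, cI, AddSubgroup.relIndex_map_map_of_injective _ _ (mul_right_injective₀ hc)]
    exact mul_right_cancel₀ (Nat.cast_ne_zero.1 (absNorm_ne hm)) this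
  have h1 := absNorm_ne (lev_ne_bot (K := K) k)
  have h2 := absNorm_ne hm
  have h3 : (Ideal.absNorm (Ideal.span {t}) : ℂ) = Ideal.absNorm (lev K k) * (nK (c : K) : ℂ) := by
    have := congrArg (fun x : R K => ((nK (x : K) : ℝ) : ℂ)) ht
    simp only [coe_int, nK_int, map_mul, map_pow, map_natCast, nK_mul, ← absNorm_lev] at this
    exact_mod_cast this.symm
  have h4 : (nK (c : K) : ℂ) ≠ 0 := Complex.ofReal_ne_zero.2 (nK_pos (coe_ne_zero hc)).ne'
  rw [Mv_eq hf hJ fun x y hy => hp x y (hle (e ▸ hy)), e, qs_index hle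
    (hi ▸ Nat.cast_ne_zero.1 h1) hp (summable_of_hasFiniteSupport
      (finite_of_le hle hp (e ▸ finite_supp hf.1.choose_spec hJ))), hi, map_mul, Nat.cast_mul, h3]
  field_simp

theorem per_ind_dvd (p : R K) : Per p fun x => ind (p ∣ x) := fun _ _ h =>
  ind_congr (dvd_iff_dvd_of_dvd_sub h)

theorem Mv_dvd (hf : SB f) (hp : p ≠ 0) :
    Mv (fun x => f (p * x)) = (nK (p : K) : ℂ) * Mv fun x => ind (p ∣ x) * f x := by
  obtain ⟨J, h1, h2⟩ := hf.2
  obtain ⟨b, hb⟩ := exists_den p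
  have hJ := mul_ne_zero (lev_ne_bot (K := K) b) h1
  have h3 : ∀ x, ∀ y ∈ inR (lev K b * J), f (x + p * y) = f x := fun x y hy =>
    h2 x _ (hb.mul_inR hy)
  have h4 := qs_mul hp 1 (by simpa only [mul_one] using h3)
  rw [mul_one, qs_cI (hf.per_mul hp (per_ind_dvd p)) hp hJ fun x y hy => by
      rw [h3 x y hy, ind_congr (dvd_add_left (dvd_mul_right _ _))],
    qs_cI (hf.comp_mul hp) one_ne_zero hJ fun x y hy => by rw [one_mul, mul_add, h3 _ y hy],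
    map_one, nK_one] at h4
  refine mul_left_cancel₀ (absNorm_ne hJ) ?_
  push_cast at h4
  linear_combination -h4

theorem Mv_factor {n : R K} (hn : n ≠ 0) {f₁ : R K → ℂ} (h1 : Per n f₁) (hf : SB f)
    (h : ∀ x, ∃ t, n ∣ t - x ∧ ∀ d, f (d + t) = f d) :
    Mv (fun d => f₁ d * f d) = (∑ x ∈ res n, f₁ x) / (nm n : ℂ) * Mv f := by
  have h2 : ∀ x, Per n fun d => f₁ (d + x) := fun x y z e => h1 _ _ (by simpa using e)
  have h3 : ∀ x, Mv (fun d => f₁ d * f d) = Mv fun d => f₁ (d + x) * f d := by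
    intro x
    obtain ⟨t, ht, e⟩ := h x
    rw [← Mv_shift (hf.per_mul hn h1) t]
    congr 1
    ext d
    rw [e, h1 (d + t) (d + x) (by simpa using ht)]
  have h4 := Finset.sum_congr (rfl : res n = res n) fun x _ => h3 x
  have h5 : ∀ d, ∑ x ∈ res n, f₁ (d + x) * f d = (∑ x ∈ res n, f₁ x) * f d := fun d => by
    rw [← Finset.sum_mul, ← sum_res_affine hn h1 isCoprime_one_left d]
    simp only [one_mul, add_comm]
  rw [← Mv_sum _ fun x _ => hf.per_mul hn (h2 x), Finset.sum_const, card_res hn,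
    nsmul_eq_mul] at h4
  simp only [h5, Mv_const_mul hf] at h4
  have h6 : (nm n : ℂ) ≠ 0 := Nat.cast_ne_zero.2 (nm_pos hn).ne'
  field_simp
  linear_combination h4

theorem Mv_factor_S {n : R K} (hn : n ≠ 0) {f₁ : R K → ℂ} (h1 : Per n f₁) {a b : ℕ}
    (h2 : ∀ x, f x ≠ 0 → Den a x) (h3 : ∀ x y : R K, SIn b (y : K) → f (x + y) = f x) :
    Mv (fun d => f₁ d * f d) = (∑ x ∈ res n, f₁ x) / (nm n : ℂ) * Mv f := by
  refine Mv_factor hn h1 (sb_of_sIn h2 h3) fun x => ?_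
  obtain ⟨y, hy, e⟩ := exists_R_approx_mod b 0 hn x
  exact ⟨y, e, fun d => h3 d y (by simpa using hy.neg)⟩

theorem sum_res_ind_dvd (hp : p ≠ 0) : ∑ x ∈ res p, ind (p ∣ x) = 1 := by
  simpa only [zero_sub, dvd_neg] using sum_res_ind hp 0

theorem Mv_scale (hp : p ≠ 0) {a b : ℕ} (h2 : ∀ x, f x ≠ 0 → Den a x)
    (h3 : ∀ x y : R K, SIn b (y : K) → f (x + y) = f x) :
    Mv (fun x => f (p * x)) = (NS p : ℂ) * Mv f := by
  rw [Mv_dvd (sb_of_sIn h2 h3) hp, Mv_factor_S hp (per_ind_dvd p) h2 h3, sum_res_ind_dvd hp, NS]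
  push_cast
  ring

theorem tsum_unfold (hf : SB f) (hc : c ≠ 0) (hm : 𝔪 ≠ ⊥)
    (h : ∀ x, ∀ y ∈ inR 𝔪, f (x + c * y) = f x) {G : R K → ℂ} {I : ℂ}
    (hs : Summable fun d => f d * G d)
    (hG : ∀ d, HasSum (fun y : 𝔪 => G (d + c * algebraMap (𝓞 K) (R K) y)) I) :
    ∑' d, f d * G d = (nK (c : K) : ℂ) * (Ideal.absNorm 𝔪 : ℂ) * Mv f * I := by
  let m : (R K ⧸ cI c 𝔪) × 𝔪 → R K := fun x => x.1.out + c * algebraMap (𝓞 K) (R K) x.2
  have h1 : ∀ x, QuotientAddGroup.mk (m x) = x.1 := fun x => by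
    rw [QuotientAddGroup.mk_add_of_mem _ (mem_cI.2 ⟨_, int_mem_inR.2 x.2.2, rfl⟩),
      QuotientAddGroup.out_eq']
  have hm' : Function.Bijective m := by
    refine ⟨fun x y e => ?_, fun d => ?_⟩
    · have e1 : x.1 = y.1 := by rw [← h1, e, h1]
      simp only [m, e1, add_right_inj, mul_right_inj' hc] at e
      exact Prod.ext e1 (Subtype.ext (algebraMap_R_injective K e))
    · obtain ⟨z, hz⟩ := QuotientAddGroup.mk_out_eq_add (cI c 𝔪) d
      obtain ⟨_, h2, e⟩ := mem_cI.1 (neg_mem z.2)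
      obtain ⟨y, hy, rfl⟩ := mem_inR.1 h2
      exact ⟨(QuotientAddGroup.mk d, ⟨y, hy⟩), by simp only [m, hz, ← e, add_neg_cancel_right]⟩
  have h2 := ((Equiv.ofBijective m hm').hasSum_iff.2 hs.hasSum).prod_fiberwise
    (g := fun x => f x.out * I) fun x => ((hG x.out).mul_left (f x.out)).congr_fun fun y => by
      simp only [Function.comp, Equiv.ofBijective_apply, m, h _ _ (int_mem_inR.2 y.2)]
  rw [← h2.tsum_eq, tsum_mul_right, ← qs_cI hf hc hm h, qs]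

end Vale.Agent.P319.TC
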