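import Vale.Agent.P319.N.ThCUnit
import Vale.Agent.P319.N.ThGeo

/-! # TH-C: sums over rows modulo `EU`.
PLAN.  `summable_row`: `d ↦ Quot.mk _ (c, d)` is injective for `c ≠ 0` (`RowQ_eq`), `Summable.comp_injective`, `EInv.out`.
`tsum_rowQ`: `tsum_split` along the injection `m : (UQ K × {n // Prim n}) × R K → RowQ K`, `((t, n), d) ↦ [uo t * n, d]`
(`unit_prim_unique`, `eq_of_uo`) with `Q q = (q.out.1 = 0)` (`exists_unit_prim`, `uo_mk`); the first sum by `Function.Injective.tsum_eq`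
along `t ↦ [0, uo t]`; the second by `Summable.tsum_prod` and `Function.Injective.tsum_eq` along `(t, n) ↦ (t, n.1)`. -/

namespace Vale.Agent.P319.TC

open scoped ComplexConjugate Real Topology NumberField
open MeasureTheory Filter

variable {K : Type} [Field K] [NumberField K] [Stp K] {G : R K × R K → ℂ}

theorem summable_row (hG : EInv G) (hs : Summable fun q : RowQ K => G q.out) {c : R K} (hc : c ≠ 0) :
    Summable fun d => G (c, d) := by
  have hi : Function.Injective fun d : R K => (Quot.mk _ (c, d) : RowQ K) := fun d d' h => by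
    obtain ⟨u, -, e⟩ := RowQ_eq.1 h
    obtain ⟨e1, e2⟩ := Prod.ext_iff.1 e
    have : (u : R K) = 1 := mul_right_cancel₀ hc (by rw [one_mul]; exact e1.symm)
    simpa [this] using e2.symm
  simpa only [Function.comp_def, hG.out] using hs.comp_injective hi

theorem tsum_rowQ (hG : EInv G) (hs : Summable fun q : RowQ K => G q.out)
    (h0 : ∀ d, ¬IsUnit d → G (0, d) = 0) :
    ∑' q : RowQ K, G q.out = ∑' t : UQ K, G (0, uo t) +
      ∑' x : UQ K × R K, ind (Prim x.2) * ∑' d, G (uo x.1 * x.2, d) := by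
  let m : (UQ K × {n : R K // Prim n}) × R K → RowQ K :=
    fun x => Quot.mk _ (uo x.1.1 * x.1.2.1, x.2)
  have hm : Function.Injective m := by
    rintro ⟨⟨t, n, hn⟩, d⟩ ⟨⟨t', n', hn'⟩, d'⟩ h
    obtain ⟨u, hu, e⟩ := RowQ_eq.1 h
    obtain ⟨e1, e2⟩ := Prod.ext_iff.1 e
    simp only at e1 e2
    rw [← mul_assoc, uo, uo, ← Units.val_mul] at e1
    obtain ⟨e3, rfl⟩ := unit_prim_unique hn' hn e1
    obtain rfl := eq_of_uo (t := t) (t' := t') hu (congrArg Units.val e3)
    obtain rfl : u = 1 := by simpa using e3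
    simpa using e2.symm
  have hQ : ∀ q : RowQ K, q.out.1 = 0 ↔ q ∉ Set.range m := by
    refine fun q => ⟨?_, fun h => by_contra fun k => h ?_⟩
    · rintro h ⟨x, rfl⟩
      obtain ⟨u, -, e⟩ := RowQ_out (uo x.1.1 * x.1.2.1, x.2)
      rw [e] at h
      exact mul_ne_zero u.ne_zero (mul_ne_zero (uo_ne_zero _) x.1.2.2.1) h
    · obtain ⟨u, n, hn, e⟩ := exists_unit_prim k
      obtain ⟨ε, hε, e'⟩ := uo_mk u
      refine ⟨((u, ⟨n, hn⟩), ε * q.out.2), (q.out_eq.symm.trans (RowQ_eq.2 ⟨ε, hε, ?_⟩)).symm⟩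
      rw [e', e, mul_assoc]
  rw [tsum_split hs hm hQ]
  congr 1
  · have hi : Function.Injective fun t : UQ K => (Quot.mk _ (0, uo t) : RowQ K) := fun t t' h => by
      obtain ⟨u, hu, e⟩ := RowQ_eq.1 h
      exact eq_of_uo hu (congrArg Prod.snd e)
    rw [← hi.tsum_eq fun q hq => ?_]
    · refine tsum_congr fun t => ?_
      obtain ⟨u, -, e⟩ := RowQ_out ((0, uo t) : R K × R K)
      rw [hG.out, ind_of (by rw [e, mul_zero]), one_mul]
    · have h1 : q.out.1 = 0 := by_contra fun k => left_ne_zero_of_mul hq (ind_of_not k)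
      obtain ⟨u, hu⟩ : IsUnit q.out.2 := by_contra fun k =>
        right_ne_zero_of_mul hq (by rw [← h0 _ k, ← h1])
      obtain ⟨ε, hε, e'⟩ := uo_mk u
      refine ⟨u, (q.out_eq.symm.trans (RowQ_eq.2 ⟨ε, hε, ?_⟩)).symm⟩
      rw [e', h1, mul_zero, hu]
  · have h1 := hs.comp_injective hm
    simp only [Function.comp_def, m, hG.out] at h1 ⊢
    have hi : Function.Injective fun x : UQ K × {n : R K // Prim n} => (x.1, x.2.1) :=
      Function.injective_id.prodMap Subtype.val_injective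
    rw [h1.tsum_prod, ← hi.tsum_eq fun x hx => ?_]
    · exact tsum_congr fun x => by rw [ind_of x.2.2, one_mul]
    · exact ⟨(x.1, ⟨x.2, by_contra fun k => left_ne_zero_of_mul hx (ind_of_not k)⟩), rfl⟩

end Vale.Agent.P319.TC
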