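import Vale.Agent.P319.N.ThCFub
import Vale.Agent.P319.N.ThCRow
import Vale.Agent.P319.N.ThCAcf
import Vale.Agent.P319.N.LatTile

/-! # TH-C: unfolding (port of `P026/ThCUnf.lean`).
PLAN.  `unf_key`: `EisB` with the box of `F`, `‖Ψ r‖ ≤ ‖ind (Box a r)‖`, `vr_pos`.  `integrable_Eis`, `hasSum_Eis_integral`: as in P026.
`unf_int`: `lintegral_hmuK`, `integrable_vr_chr`, `WhK_eq` with `ν = 0`, `s.re`, `integrable_wI` (or `integrable_prod_iff'` with `measurePreserving_zy`).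
`unfold_row`: `hasSum_tile` with `a = emb (d / c)`; `vr (c, d + c y) w = (nK c)⁻¹ * vr (1,0) (z + d/c + y, v)` (`prod_norm_ev`),
`chr (-ν) z = eTr (ν d / c) * chr (-ν) (z + emb (d/c) + emb y)` (`chr_add_right`, `chr_emb`, `mem_dual_iff`), `integral_hmuK`, `WhK_eq`.
`unfold_Eis`: `G r = Ψ r * ∫ vr r ^ s * F` is `EInv` (`einv_vr`); `tsum_rowQ`; rows `(0, uo t)`: `vr = Ht / nK (uo t)` (`vr_smul`, `vr_zero_one`),
`h s = (∑' t, Ψ (0, uo t) NS (uo t * 1) ^ (-s)) * ∫ Ht ^ s F`, `hol_unit` (`Box a (0,u)` gives `Den a u`, and `1 ≤ C * NS u` by `exists_NS_bound`), `hol_Ht`.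
Rows with `c ≠ 0`: `tsum_unfold` with `f d = Ψ (c,d) eTr (ν d / c)`, `G d = conj (eTr (ν d / c)) * ∫ ..`, `summable_row`, `unfold_row`. -/

namespace Vale.Agent.P319.TC

open scoped ComplexConjugate Real Topology NumberField
open MeasureTheory Filter Set

variable {K : Type} [Field K] [NumberField K] [Stp K] {a : ℕ} {𝔪 : Ideal (𝓞 K)}
  {Ψ : R K × R K → ℂ} {F : Hy K → ℂ} {P : Set (Pl K → ℂ)} {ψ : (Pl K → ℝ) → ℂ} {s : ℂ}

theorem test_Ftst (hP : Tile 𝔪 P) (ν : K) (hψ : Test1 ψ) : Test (Ftst P ν ψ) := by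
  obtain ⟨h1, ⟨B, hB⟩, -⟩ := hP
  obtain ⟨h2, M, hM, h⟩ := hψ
  have m1 : Measurable fun (w : Hy K) v => (w v).1 := by fun_prop
  have m2 : Measurable fun (w : Hy K) v => (w v).2 := by fun_prop
  refine ⟨(((measurable_const.indicator h1).comp m1).mul (h2.comp m2)).mul
    ((continuous_chr _).measurable.comp m1), max M B, lt_max_of_lt_left hM, fun w => ?_⟩
  unfold Ftst
  by_cases k : (fun v => (w v).1) ∈ P
  · rw [indicator_of_mem k, one_mul, norm_mul, norm_chr, mul_one]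
    refine ⟨(h _).1.trans (le_max_left _ _), fun k2 v => ?_⟩
    have k3 := (h _).2 (left_ne_zero_of_mul k2) v
    exact ⟨((norm_le_pi_norm (fun v => (w v).1) v).trans (hB _ k)).trans (le_max_right _ _),
      (one_div_le_one_div_of_le hM (le_max_left _ _)).trans k3.1, k3.2.trans (le_max_left _ _)⟩
  · rw [indicator_of_notMem k, zero_mul, zero_mul, norm_zero]
    exact ⟨hM.le.trans (le_max_left _ _), fun k => absurd rfl k⟩

theorem measurable_vr_cpow (r : R K × R K) (s : ℂ) :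
    Measurable fun w : Hy K => ((vr r w : ℝ) : ℂ) ^ s :=
  (Complex.measurable_ofReal.comp (measurable_vr r)).pow_const s

theorem unf_key (hE : EisB K) (hΨ : Cls a 𝔪 Ψ) (hF : Test F) (hs : 2 < s.re) :
    ∃ C : ℝ, ∀ w : Hy K,
      Summable (fun r : RowQ K => ‖Ψ r.out * ((vr r.out w : ℝ) : ℂ) ^ s * F w‖) ∧
      ∑' r : RowQ K, ‖Ψ r.out * ((vr r.out w : ℝ) : ℂ) ^ s * F w‖ ≤ C * ‖F w‖ := by
  obtain ⟨-, T, hT, hF⟩ := hF
  obtain ⟨C, h⟩ := hE a s.re T hs hT
  refine ⟨C, fun w => ?_⟩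
  by_cases k : F w = 0
  · simp [k, summable_zero]
  obtain ⟨h1, h2⟩ := h w ((hF w).2 k)
  have hw := ((hF w).2 k).pos hT
  have hle : ∀ r : RowQ K, ‖Ψ r.out * ((vr r.out w : ℝ) : ℂ) ^ s‖ ≤
      ‖ind (Box a r.out)‖ * vr r.out w ^ s.re := by
    intro r
    by_cases hb : Box a r.out
    · have hp := vr_pos (ne_zero_of_coprime hb.1) hw
      rw [norm_mul, ind_of hb, norm_one, Complex.norm_cpow_eq_rpow_re_of_pos hp]
      exact mul_le_mul_of_nonneg_right (hΨ.norm_le _) (Real.rpow_nonneg hp.le _)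
    · rw [hΨ.eq_zero hb, ind_of_not hb, zero_mul, norm_zero, zero_mul]
  have h3 := h1.of_nonneg_of_le (fun _ => norm_nonneg _) hle
  simp only [norm_mul _ (F w), tsum_mul_right]
  exact ⟨h3.mul_right _,
    mul_le_mul_of_nonneg_right ((h3.tsum_le_tsum hle h1).trans h2) (norm_nonneg _)⟩

theorem integrable_Eis (hE : EisB K) (hΨ : Cls a 𝔪 Ψ) (hF : Test F) (hs : 2 < s.re) :
    Integrable (fun w => Eis Ψ w s * F w) (hmuK K) := by
  obtain ⟨C, h⟩ := unf_key hE hΨ hF hs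
  refine (hF.integrable.norm.const_mul C).mono' ((measurable_Eis Ψ s).mul
    hF.1).aestronglyMeasurable (Eventually.of_forall fun w => ?_)
  rw [Eis, ← tsum_mul_right]
  exact (norm_tsum_le_tsum_norm (h w).1).trans (h w).2

theorem hasSum_Eis_integral (hE : EisB K) (hΨ : Cls a 𝔪 Ψ) (hF : Test F) (hs : 2 < s.re) :
    HasSum (fun r : RowQ K => Ψ r.out * ∫ w, ((vr r.out w : ℝ) : ℂ) ^ s * F w ∂hmuK K)
      (∫ w, Eis Ψ w s * F w ∂hmuK K) := by
  obtain ⟨C, h⟩ := unf_key hE hΨ hF hs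
  have iK := hF.integrable.norm.const_mul C
  have i : ∀ r : RowQ K, Integrable (fun w => Ψ r.out * ((vr r.out w : ℝ) : ℂ) ^ s * F w) (hmuK K) :=
    fun r => iK.mono' (((measurable_vr_cpow r.out s).const_mul _).mul hF.1).aestronglyMeasurable
      (Eventually.of_forall fun w => ((h w).1.le_tsum r fun _ _ => norm_nonneg _).trans (h w).2)
  simp only [Eis, ← tsum_mul_right, ← integral_const_mul, ← mul_assoc]
  refine hasSum_integral_of_summable_integral_norm i (summable_of_sum_le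
    (c := ∫ w, C * ‖F w‖ ∂hmuK K) (fun r => integral_nonneg fun _ => norm_nonneg _) fun u => ?_)
  rw [← integral_finsetSum _ fun r _ => (i r).norm]
  exact integral_mono (integrable_finsetSum _ fun r _ => (i r).norm) iK
    fun w => ((h w).1.sum_le_tsum u fun _ _ => norm_nonneg _).trans (h w).2

theorem row_one_zero_ne : ((1, 0) : R K × R K) ≠ 0 := fun h => one_ne_zero (congrArg Prod.fst h)

theorem unf_int (ν : K) (hψ : Test1 ψ) (hs : 1 < s.re) :
    Integrable (fun w : Hy K => ((vr (1, 0) w : ℝ) : ℂ) ^ s * chr (-ν) (fun v => (w v).1) *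
      ψ fun v => (w v).2) (hmuK K) := by
  have m1 : Measurable fun (w : Hy K) v => (w v).1 := by fun_prop
  have m2 : Measurable fun (w : Hy K) v => (w v).2 := by fun_prop
  have hm : Measurable fun w : Hy K => ((vr (1, 0) w : ℝ) : ℂ) ^ s * chr (-ν) (fun v => (w v).1) *
      ψ fun v => (w v).2 :=
    ((measurable_vr_cpow _ s).mul ((continuous_chr _).measurable.comp m1)).mul (hψ.1.comp m2)
  refine (measurePreserving_zy.integrable_comp hm.aestronglyMeasurable).1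
    ((integrable_prod_iff' (hm.comp measurable_zy).aestronglyMeasurable).2
      ⟨ae_pos_ymu.mono fun y hy => (integrable_vr_chr hs ν hy).mul_const (ψ y),
        (integrable_wI hψ 0 (s := s.re) hs).norm.congr (ae_pos_ymu.mono fun y hy => ?_)⟩)
  have p : ∀ z, 0 < vr (1, 0) (zy z y) := fun z => vr_pos row_one_zero_ne hy
  have e : WhK s.re (0 : K) y = (∫ z, vr (1, 0) (zy z y) ^ s.re : ℝ) := by
    rw [← WhK_eq _ _ hy, ← integral_complex_ofReal]
    refine integral_congr_ae (Eventually.of_forall fun z => ?_)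
    simp only [neg_zero, chr_zero, mul_one]
    rw [Complex.ofReal_cpow (p z).le]
  simp only [Function.comp, norm_mul, norm_chr, mul_one, Complex.norm_cpow_eq_rpow_re_of_pos (p _),
    e, Complex.norm_real]
  rw [Real.norm_of_nonneg (integral_nonneg fun z => Real.rpow_nonneg (p z).le _),
    ← integral_mul_const]
  rfl

theorem ofReal_div_cpow {x y : ℝ} (hx : 0 ≤ x) (hy : 0 < y) (s : ℂ) :
    ((x / y : ℝ) : ℂ) ^ s = (x : ℂ) ^ s * (y : ℂ) ^ (-s) := by
  rw [div_eq_mul_inv, Complex.ofReal_mul, Complex.mul_cpow_ofReal_nonneg hx (by positivity),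
    Complex.ofReal_inv, Complex.inv_cpow _ _ (by
      rw [Complex.arg_ofReal_of_nonneg hy.le]; exact Real.pi_pos.ne), ← Complex.cpow_neg]

theorem vr_shift {c : R K} (hc : c ≠ 0) (d : R K) (y : 𝓞 K) (w : Hy K) :
    vr (c, d + c * algebraMap (𝓞 K) (R K) y) w =
      vr (1, 0) (fun v => ((w v).1 + emb ((d : K) / c) v + ev v (y : K), (w v).2)) / nK (c : K) := by
  rw [vr_one_zero, vr, ← prod_norm_ev, ← Finset.prod_div_distrib]
  refine Finset.prod_congr rfl fun v _ => ?_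
  have h0 := ev_ne_zero v (coe_ne_zero hc)
  have e : ev v (c : K) * (w v).1 + ev v ((d + c * algebraMap (𝓞 K) (R K) y : R K) : K) =
      ev v (c : K) * ((w v).1 + emb ((d : K) / c) v + ev v (y : K)) := by
    rw [map_add, map_mul, coe_int, ev_add, ev_mul, emb_apply, ev_div]
    field_simp
    ring
  rw [denC, e, norm_mul, mul_pow, ← mul_add, div_div, mul_comm]

omit [Stp K] in
theorem eTr_dl (hm : 𝔪 ≠ ⊥) {ν : K} (hν : ν ∈ dl (𝔪 : FI K)) {y : 𝓞 K} (hy : y ∈ 𝔪) :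
    eTr (ν * y) = 1 :=
  (mem_dual_iff (coe_FI_ne_zero hm)).1 hν _ (FractionalIdeal.mem_coeIdeal_of_mem _ hy)

omit [Stp K] in
theorem eTr_mul_neg (x : K) : eTr x * eTr (-x) = 1 := by rw [← eTr_add, add_neg_cancel, eTr_zero]

theorem unfold_row (hm : 𝔪 ≠ ⊥) (hP : Tile 𝔪 P) {ν : K} (hν : ν ∈ dl (𝔪 : FI K)) (hψ : Test1 ψ)
    (hs : 1 < s.re) {c : R K} (hc : c ≠ 0) (d : R K) :
    HasSum (fun y : 𝔪 => ∫ w, ((vr (c, d + c * algebraMap (𝓞 K) (R K) y) w : ℝ) : ℂ) ^ s *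
      Ftst P ν ψ w ∂hmuK K) (eTr (ν * d / c) * (nK (c : K) : ℂ) ^ (-s) * wI ν ψ s) := by
  have k := (hasSum_tile hP (unf_int ν hψ hs) (emb ((d : K) / c))).mul_left
    (eTr (ν * d / c) * (nK (c : K) : ℂ) ^ (-s))
  have e0 : ∫ w : Hy K, ((vr (1, 0) w : ℝ) : ℂ) ^ s * chr (-ν) (fun v => (w v).1) *
      (ψ fun v => (w v).2) ∂hmuK K = wI ν ψ s := by
    rw [integral_hmuK (unf_int ν hψ hs)]
    refine integral_congr_ae (ae_pos_ymu.mono fun y hy => ?_)
    beta_reduce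
    rw [← WhK_eq s ν hy, ← integral_mul_const]
    rfl
  rw [e0] at k
  refine k.congr_fun fun y => ?_
  rw [← integral_const_mul]
  refine integral_congr_ae (ae_pos.mono fun w hw => ?_)
  have e2 : chr (-ν) (fun v => (w v).1 + emb ((d : K) / c) v + ev v ((y : 𝓞 K) : K)) =
      chr (-ν) (fun v => (w v).1) * eTr (-(ν * d / c)) := by
    have h1 := chr_add_right (-ν) ((fun v => (w v).1) + emb ((d : K) / c)) (emb ((y : 𝓞 K) : K))
    rw [chr_add_right _ _ (emb ((d : K) / c)), chr_emb, chr_emb, neg_mul ν (y : 𝓞 K), ← conj_eTr, eTr_dl hm hν y.2,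
      map_one, mul_one, neg_mul, ← mul_div_assoc] at h1
    exact h1
  have hp : 0 < vr (1, 0) fun v => ((w v).1 + emb ((d : K) / c) v + ev v ((y : 𝓞 K) : K), (w v).2) :=
    vr_pos row_one_zero_ne hw
  simp only [Ftst]
  rw [vr_shift hc, e2, ofReal_div_cpow hp.le (nK_pos (coe_ne_zero hc))]
  linear_combination -((vr (1, 0) fun v => ((w v).1 + emb ((d : K) / c) v + ev v ((y : 𝓞 K) : K),
    (w v).2) : ℝ) : ℂ) ^ s * (nK (c : K) : ℂ) ^ (-s) * (P.indicator (fun _ => (1 : ℂ))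
      (fun v => (w v).1) * ψ (fun v => (w v).2) * chr (-ν) fun v => (w v).1) *
    eTr_mul_neg (ν * d / c)

theorem hol_Ht (hF : Test F) : Hol fun s => ∫ w, ((Ht w : ℝ) : ℂ) ^ s * F w ∂hmuK K := by
  have i := hF.integrable.norm
  obtain ⟨hm, T, hT, h⟩ := hF
  refine differentiableOn_integral_of_bound isOpen_half (fun s _ =>
    (((Complex.measurable_ofReal.comp measurable_Ht).pow_const s).mul hm).aestronglyMeasurable)
    (ae_pos.mono fun w hw => ((differentiable_id.const_cpow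
      (Or.inl (Complex.ofReal_ne_zero.2 hw.ht_pos.ne'))).mul_const _).differentiableOn)
    fun s₀ hs₀ => ?_
  have hs₀ : 1 < s₀.re := hs₀
  refine ⟨(s₀.re - 1) / 2, _, by linarith,
    i.const_mul (max (T ^ Fintype.card (Pl K)) 1 ^ (2 * s₀.re)), ae_pos.mono fun w hw s hs => ?_⟩
  rw [norm_mul, Complex.norm_cpow_eq_rpow_re_of_pos hw.ht_pos]
  by_cases k : F w = 0
  · rw [k, norm_zero, mul_zero, mul_zero]
  · exact mul_le_mul_of_nonneg_right ((Real.rpow_le_rpow hw.ht_pos.le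
      (((le_max_left _ _).trans (((h w).2 k).max_le hT)).trans (le_max_left _ 1))
      (by linarith [(re_of_ball hs).1])).trans
      (Real.rpow_le_rpow_of_exponent_le (le_max_right _ _) (re_of_ball hs).2)) (norm_nonneg _)

/-- the rows with `c ≠ 0` -/
theorem unfold_col (hm : 𝔪 ≠ ⊥) (hΨ : Cls a 𝔪 Ψ) (hP : Tile 𝔪 P) {ν : R K}
    (hν : (ν : K) ∈ dl (𝔪 : FI K)) (hψ : Test1 ψ) (hs : 1 < s.re) {c : R K} (hc : c ≠ 0)
    (h : Summable fun d => Ψ (c, d) * ∫ w, ((vr (c, d) w : ℝ) : ℂ) ^ s * Ftst P (ν : K) ψ w ∂hmuK K) :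
    ∑' d, Ψ (c, d) * ∫ w, ((vr (c, d) w : ℝ) : ℂ) ^ s * Ftst P (ν : K) ψ w ∂hmuK K =
      (Ideal.absNorm 𝔪 : ℂ) * wI (ν : K) ψ s * (Acf Ψ ν c * (nK (c : K) : ℂ) ^ (-s)) := by
  have hc' := coe_ne_zero hc
  have e1 : ∀ (d : R K) (I : ℂ), Ψ (c, d) * I =
      Ψ (c, d) * eTr ((ν : K) * d / c) * (eTr (-((ν : K) * d / c)) * I) := fun d I => by
    linear_combination -Ψ (c, d) * I * eTr_mul_neg ((ν : K) * d / c)
  have e2 : ∀ (d : R K) (y : 𝓞 K), y ∈ 𝔪 →
      eTr ((ν : K) * (d + c * algebraMap (𝓞 K) (R K) y : R K) / c) = eTr ((ν : K) * d / c) := by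
    intro d y hy
    rw [← mul_one (eTr ((ν : K) * d / c)), ← eTr_dl hm hν hy, ← eTr_add, map_add, map_mul, coe_int]
    congr 1
    field_simp
  simp only [e1 _ (∫ _, _ ∂_)] at h ⊢
  rw [tsum_unfold (sb_row hΨ hm ν hc) hc hm (fun x y hy => ?_) h
    (I := (nK (c : K) : ℂ) ^ (-s) * wI (ν : K) ψ s) fun d => ?_, Acf]
  · ring
  · obtain ⟨t, ht, rfl⟩ := mem_inR.1 hy
    rw [e2 x t ht, add_comm, hΨ.add_period hy]
  · have k := (unfold_row hm hP hν hψ hs hc d).mul_left (eTr (-((ν : K) * d / c)))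
    rw [← mul_assoc, ← mul_assoc, mul_comm (eTr _), eTr_mul_neg, one_mul] at k
    refine k.congr_fun fun y => ?_
    rw [← conj_eTr, e2 d y y.2, conj_eTr]

theorem unfold_Eis (hE : EisB K) (hm : 𝔪 ≠ ⊥) (hΨ : Cls a 𝔪 Ψ) (hP : Tile 𝔪 P) {ν : R K}
    (hν : (ν : K) ∈ dl (𝔪 : FI K)) (hψ : Test1 ψ) :
    ∃ h : ℂ → ℂ, Hol h ∧ ∀ s : ℂ, 2 < s.re → ∫ w, Eis Ψ w s * Ftst P (ν : K) ψ w ∂hmuK K =
      (Ideal.absNorm 𝔪 : ℂ) * wI (ν : K) ψ s * aD Ψ ν 1 s + h s := by
  have hF := test_Ftst hP (ν : K) hψ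
  obtain ⟨C, -, hC⟩ := hol_unit (K := K) a
  obtain ⟨D, hD, hN⟩ := exists_NS_bound (K := K) a
  have h1 := (hC 1 (fun t => Ψ (0, uo t)) D one_ne_zero (by linarith) fun t => ?_).1
  swap
  · by_cases k : Ψ (0, uo t) = 0
    · rw [k, norm_zero]
      have := NS_pos (mul_ne_zero (uo_ne_zero t) one_ne_zero)
      positivity
    · have k2 := (hΨ.box k).den2
      rw [mul_one, ind_of k2, norm_one, one_mul]
      exact (hΨ.norm_le _).trans ((hN _ (uo_ne_zero t)).1 k2)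
  refine ⟨_, h1.mul (hol_Ht hF), fun s hs => ?_⟩
  have k := hasSum_Eis_integral hE hΨ hF hs
  have hG : EInv fun r => Ψ r * ∫ w, ((vr r w : ℝ) : ℂ) ^ s * Ftst P (ν : K) ψ w ∂hmuK K :=
    fun u hu r => by simp only [hΨ.unit hu, vr_smul, nK_EU hu, div_one]
  rw [← k.tsum_eq, tsum_rowQ hG k.summable fun d hd => by
    rw [hΨ.eq_zero fun hb => hd (isCoprime_zero_left.1 hb.1), zero_mul], add_comm, aD,
    ← tsum_mul_left, ← tsum_mul_right]
  congr 1
  · refine tsum_congr fun x => ?_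
    by_cases hx : Prim x.2
    · have hc := mul_ne_zero (uo_ne_zero x.1) hx.1
      rw [ind_of hx, ind_of ⟨hx, isCoprime_one_right⟩, one_mul, one_mul,
        unfold_col hm hΨ hP hν hψ (by linarith) hc (summable_row hG k.summable hc)]
    · rw [ind_of_not hx, ind_of_not fun h => hx h.1, zero_mul, zero_mul, zero_mul, mul_zero]
  · refine tsum_congr fun t => ?_
    have e : ∀ w : Hy K, vr (0, uo t) w = Ht w / NS (uo t * 1) := fun w => by
      have := vr_smul (uo t) (0, 1) w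
      rw [mul_zero, mul_one, vr_zero_one] at this
      rw [this, mul_one, uo, NS_unit]
    rw [mul_assoc, ← integral_const_mul ((NS (uo t * 1) : ℂ) ^ (-s))]
    congr 1
    refine integral_congr_ae ((ae_pos (K := K)).mono fun w hw => ?_)
    simp only [e]
    rw [ofReal_div_cpow hw.ht_pos.le (NS_pos (mul_ne_zero (uo_ne_zero t) one_ne_zero))]
    ring

end Vale.Agent.P319.TC
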