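import Vale.Agent.P319.N.ThCWh
import Vale.Agent.P319.N.ThCUnf

/-! # TH-C: an `L²`-bounded periodic functional is determined by its Fourier coefficients. -/

namespace Vale.Agent.P319.TC

open scoped ComplexConjugate Real Topology NumberField
open MeasureTheory Filter Set

variable {K : Type} [Field K] [NumberField K] [Stp K] {F G : Hy K → ℂ} {τ : R K → ℂ}

theorem test_add (hF : Test F) (hG : Test G) : Test fun w => F w + G w := by
  obtain ⟨hF, M, hM, h⟩ := hF
  obtain ⟨hG, M', hM', h'⟩ := hG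
  refine ⟨hF.add hG, M + M', by positivity, fun w =>
    ⟨(norm_add_le _ _).trans (add_le_add (h w).1 (h' w).1), fun h0 => ?_⟩⟩
  by_cases h1 : F w = 0
  · exact ((h' w).2 fun h2 => h0 (by simp [h1, h2])).mono hM' (by linarith)
  · exact ((h w).2 h1).mono hM (by linarith)

theorem test_neg (hF : Test F) : Test fun w => -F w := by
  obtain ⟨hF, M, hM, h⟩ := hF
  exact ⟨hF.neg, M, hM, fun w => ⟨by simpa using (h w).1, fun h0 => (h w).2 (by simpa using h0)⟩⟩

theorem test_zero : Test fun _ : Hy K => 0 :=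
  ⟨measurable_const, 1, one_pos, fun _ => ⟨by simp, fun h => (h rfl).elim⟩⟩

theorem test_sum {ι : Type*} (t : Finset ι) {F : ι → Hy K → ℂ} (h : ∀ i ∈ t, Test (F i)) :
    Test fun w => ∑ i ∈ t, F i w := by
  classical
  induction t using Finset.induction_on with
  | empty => simpa using test_zero
  | insert a t ha ih =>
    simp only [Finset.sum_insert ha]
    exact test_add (h a (Finset.mem_insert_self _ _))
      (ih fun i hi => h i (Finset.mem_insert_of_mem hi))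

theorem rp_mul_left (hF : Test F) (hG : Measurable G) (h1 : ∀ w, ‖G w‖ ≤ 1) :
    Test fun w => G w * F w := by
  obtain ⟨hF, M, hM, h⟩ := hF
  refine ⟨hG.mul hF, M, hM, fun w => ⟨?_, fun h0 => (h w).2 (right_ne_zero_of_mul h0)⟩⟩
  rw [norm_mul]
  exact (mul_le_of_le_one_left (norm_nonneg _) (h1 w)).trans (h w).1

theorem rp_term (hF : Test F) (hG : Measurable G) {M B : ℝ} (hM : ∀ w, F w ≠ 0 → InBox M w)
    (hB : ∀ w, InBox M w → ‖G w‖ ≤ B) :
    Integrable (fun w => G w * F w) (hmuK K) ∧ ∀ w, ‖G w * F w‖ ≤ B * ‖F w‖ := by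
  have h : ∀ w, ‖G w * F w‖ ≤ B * ‖F w‖ := fun w => by
    by_cases h0 : F w = 0
    · simp [h0]
    · rw [norm_mul]
      exact mul_le_mul_of_nonneg_right (hB w (hM w h0)) (norm_nonneg _)
  exact ⟨(hF.integrable.norm.const_mul B).mono' (hG.mul hF.1).aestronglyMeasurable
    (Eventually.of_forall h), h⟩

theorem rp_meas_z : Measurable fun (w : Hy K) v => (w v).1 :=
  measurable_pi_lambda _ fun v => (measurable_pi_apply v).fst

theorem rp_meas_y : Measurable fun (w : Hy K) v => (w v).2 :=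
  measurable_pi_lambda _ fun v => (measurable_pi_apply v).snd

theorem Bdd.integrable_th (hτ : Bdd τ) (hF : Test F) :
    Integrable (fun w => th τ w * F w) (hmuK K) := by
  obtain ⟨M, hM, h⟩ := hF.2
  obtain ⟨u, hu, hb⟩ := hτ.majorant hM
  refine (rp_term hF (measurable_th τ) (B := ∑' ν, u ν) (fun w hw => (h w).2 hw)
    fun w hw => ?_).1
  rw [th_eq]
  refine tsum_of_norm_bounded hu.hasSum fun ν => ?_
  rw [norm_mul, norm_chr, mul_one]
  exact hb ν _ fun v => (hw v).2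

theorem Bdd.hasSum_th (hτ : Bdd τ) (hF : Test F) :
    HasSum (fun ν : R K => ∫ y, τ ν * WhK (4 / 3) (ν : K) y * ∫ z, F (zy z y) * chr (ν : K) z ∂volume ∂ymu K)
      (∫ w, th τ w * F w ∂hmuK K) := by
  have : Countable K := Countable.of_equiv _ (Module.finBasis ℚ K).equivFun.toEquiv.symm
  have : Countable (R K) := coe_injective.countable
  obtain ⟨M, hM, h⟩ := hF.2
  obtain ⟨u, hu, hb⟩ := hτ.majorant hM
  have h1 := fun ν : R K => rp_term hF
    (G := fun w => τ ν * WhK (4 / 3) (ν : K) (fun v => (w v).2) * chr (ν : K) fun v => (w v).1)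
    ((((measurable_WhK _ _).comp rp_meas_y).const_mul _).mul
      ((continuous_chr _).measurable.comp rp_meas_z)) (B := u ν)
    (fun w hw => (h w).2 hw) fun w hw => by
      rw [norm_mul, norm_chr, mul_one]
      exact hb ν _ fun v => (hw v).2
  have h2 := hasSum_integral_of_summable_integral_norm (fun ν => (h1 ν).1)
    ((hu.mul_right (∫ w, ‖F w‖ ∂hmuK K)).of_nonneg_of_le
      (fun ν => integral_nonneg fun w => norm_nonneg _) fun ν => by
        rw [← integral_const_mul]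
        exact integral_mono (h1 ν).1.norm (hF.integrable.norm.const_mul _) (h1 ν).2)
  simp only [tsum_mul_right, ← th_eq] at h2
  refine HasSum.congr_fun h2 fun ν => ?_
  rw [integral_hmuK (h1 ν).1]
  refine integral_congr_ae (Eventually.of_forall fun y => ?_)
  simp only
  rw [← integral_const_mul]
  congr 1
  ext z
  change _ = τ ν * WhK (4 / 3) (ν : K) y * chr (ν : K) z * _
  ring

/-- the hypotheses on the functional -/
structure RepHyp (𝔪 : Ideal (𝓞 K)) (Λ : (Hy K → ℂ) → ℂ) (τ : R K → ℂ) : Prop where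
  ne : 𝔪 ≠ ⊥
  bdd : Bdd τ
  sub : ∀ ν ∈ dl (𝔪 : FI K), ν ∈ RS K
  supp : ∀ ν, τ ν ≠ 0 → (ν : K) ∈ dl (𝔪 : FI K)
  add : ∀ F G, Test F → Test G → Λ (fun w => F w + G w) = Λ F + Λ G
  bound : ∀ T : ℝ, 0 < T → ∃ C : ℝ, ∀ F, Test F → (∀ w, F w ≠ 0 → InBox T w) →
    ‖Λ F‖ ^ 2 ≤ C * ∫ w, ‖F w‖ ^ 2 ∂hmuK K
  tr : ∀ F, Test F → ∀ y ∈ inR 𝔪, Λ (fun w => F (act (mN y) w)) = Λ F
  coef : ∀ (ν : R K) ψ, (ν : K) ∈ dl (𝔪 : FI K) → Test1 ψ →
    Λ (Ftst (par 𝔪) (ν : K) ψ) = (Ideal.absNorm 𝔪 : ℂ) * wI (ν : K) ψ (4 / 3) * τ ν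

variable {𝔪 : Ideal (𝓞 K)} {Λ : (Hy K → ℂ) → ℂ}

theorem RepHyp.sum (h : RepHyp 𝔪 Λ τ) {ι : Type*} (t : Finset ι) {F : ι → Hy K → ℂ}
    (hF : ∀ i, Test (F i)) : Λ (fun w => ∑ i ∈ t, F i w) = ∑ i ∈ t, Λ (F i) := by
  classical
  induction t using Finset.induction_on with
  | empty => simpa using h.add _ _ test_zero test_zero
  | insert a t ha ih =>
    simp only [Finset.sum_insert ha]
    rw [h.add _ _ (hF a) (test_sum t fun i _ => hF i), ih]

/-- Fourier coefficient in the variable `z` -/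
noncomputable def cf (𝔪 : Ideal (𝓞 K)) (F : Hy K → ℂ) (ν : K) (y : Pl K → ℝ) : ℂ :=
  (∫ z in par 𝔪, F (zy z y) * chr ν z) / cvol (𝔪 : FI K)

theorem cf_ne {ν : K} {y : Pl K → ℝ} (h : cf 𝔪 F ν y ≠ 0) : ∃ z, F (zy z y) ≠ 0 := by
  by_contra h1
  push Not at h1
  simp [cf, h1] at h

theorem rp_vol (hm : 𝔪 ≠ ⊥) : volume (par 𝔪) < ⊤ ∧ volume.real (par 𝔪) = cvol (𝔪 : FI K) := by
  rw [Measure.real, (par_spec hm).2.1, ENNReal.toReal_ofReal (cvol_pos (coe_FI_ne_zero hm)).le]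
  exact ⟨ENNReal.ofReal_lt_top, rfl⟩

theorem test1_cf (hm : 𝔪 ≠ ⊥) (hF : Test F) (ν : K) : Test1 (cf 𝔪 F ν) := by
  obtain ⟨hF, M, hM, h⟩ := hF
  have hv := cvol_pos (coe_FI_ne_zero hm)
  refine ⟨(((hF.comp measurable_zy).mul ((continuous_chr ν).measurable.comp
    measurable_fst)).stronglyMeasurable.integral_prod_left'
    (μ := volume.restrict (par 𝔪))).measurable.div_const _, M, hM, fun y => ⟨?_, fun h0 => ?_⟩⟩
  · rw [cf, norm_div, Complex.norm_real, Real.norm_of_nonneg hv.le, div_le_iff₀ hv,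
      ← (rp_vol hm).2]
    refine norm_setIntegral_le_of_norm_le_const (rp_vol hm).1 fun z _ => ?_
    rw [norm_mul, norm_chr, mul_one]
    exact (h _).1
  · obtain ⟨z, hz⟩ := cf_ne h0
    exact fun v => ((h _).2 hz v).2

theorem tendsto_err (hm : 𝔪 ≠ ⊥) (hF : Test F)
    (hP : ∀ w, F w ≠ 0 → (fun v => (w v).1) ∈ par 𝔪) :
    Tendsto (fun t : Finset (dl (𝔪 : FI K)) =>
      ∫ w, ‖F w + -∑ ν ∈ t, Ftst (par 𝔪) (ν : K) (cf 𝔪 F ν) w‖ ^ 2 ∂hmuK K) atTop (𝓝 0) := by
  have hD : ∀ t : Finset (dl (𝔪 : FI K)),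
      Test fun w => F w + -∑ ν ∈ t, Ftst (par 𝔪) (ν : K) (cf 𝔪 F ν) w := fun t =>
    test_add hF (test_neg (test_sum t fun ν _ => test_Ftst (tile_par hm) _ (test1_cf hm hF _)))
  simp only [fun t => integral_hmuK (hD t).integrable_sq]
  obtain ⟨hFm, M, hM, h⟩ := hF
  have hv0 := cvol_pos (coe_FI_ne_zero hm)
  have hmP := (tile_par hm).1
  have hv : ∀ y, Measurable fun z => F (zy z y) := fun y =>
    (hFm.comp measurable_zy).comp measurable_prodMk_right
  have e : ∀ (t : Finset (dl (𝔪 : FI K))) (y : Pl K → ℝ),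
      ∫ z, ‖F (zy z y) + -∑ ν ∈ t, Ftst (par 𝔪) (ν : K) (cf 𝔪 F ν) (zy z y)‖ ^ 2 =
      (∫ z in par 𝔪, ‖F (zy z y)‖ ^ 2) -
        (∑ ν ∈ t, ‖∫ z in par 𝔪, F (zy z y) * chr (ν : K) z‖ ^ 2) / cvol (𝔪 : FI K) := by
    intro t y
    have h1 := bessel hm (tile_par hm) (hv y) (fun z => (h _).1)
      (t.map (Function.Embedding.subtype _)) fun ν hν => by
        obtain ⟨x, -, rfl⟩ := Finset.mem_map.1 hν
        exact x.2
    simp only [Finset.sum_map, Function.Embedding.coe_subtype] at h1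
    rw [← h1, ← setIntegral_eq_integral_of_forall_compl_eq_zero (s := par 𝔪) fun z hz => ?_]
    · refine setIntegral_congr_fun hmP fun z hz => ?_
      simp only [Ftst, zy, indicator_of_mem hz, one_mul, cf, sub_eq_add_neg]
    · have : F (zy z y) = 0 := by
        by_contra h0
        exact hz (hP _ h0)
      rw [this]
      simp [Ftst, zy, indicator_of_notMem hz]
  have hN : ∀ y, (∫ z in par 𝔪, ‖F (zy z y)‖ ^ 2) ≤
      {y : Pl K → ℝ | ∀ v, 1 / M ≤ y v ∧ y v ≤ M}.indicator (fun _ => M ^ 2 * cvol (𝔪 : FI K)) y := by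
    intro y
    by_cases h1 : y ∈ {y : Pl K → ℝ | ∀ v, 1 / M ≤ y v ∧ y v ≤ M}
    · rw [indicator_of_mem h1, ← (rp_vol hm).2]
      refine (Real.le_norm_self _).trans
        (norm_setIntegral_le_of_norm_le_const (rp_vol hm).1 fun z _ => ?_)
      rw [norm_pow, norm_norm]
      exact pow_le_pow_left₀ (norm_nonneg _) (h _).1 2
    · have : ∀ z, F (zy z y) = 0 := fun z => by
        by_contra h0
        exact h1 fun v => ((h _).2 h0 v).2
      rw [indicator_of_notMem h1]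
      simp [this]
  have := countable_FI (dl (𝔪 : FI K))
  have := tendsto_integral_filter_of_dominated_convergence (μ := ymu K)
    (l := atTop) (f := fun _ => (0 : ℝ)) (F := fun (t : Finset (dl (𝔪 : FI K))) y =>
      ∫ z, ‖F (zy z y) + -∑ ν ∈ t, Ftst (par 𝔪) (ν : K) (cf 𝔪 F ν) (zy z y)‖ ^ 2)
    ({y : Pl K → ℝ | ∀ v, 1 / M ≤ y v ∧ y v ≤ M}.indicator fun _ => M ^ 2 * cvol (𝔪 : FI K))
    (Eventually.of_forall fun t => ?_) (Eventually.of_forall fun t => ?_) ?_ ?_
  · simpa using this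
  · exact ((((hD t).1.comp measurable_zy).norm.pow_const
      2).stronglyMeasurable.integral_prod_left').aestronglyMeasurable
  · refine Eventually.of_forall fun y => ?_
    rw [Real.norm_of_nonneg (integral_nonneg fun z => by positivity), e]
    exact (sub_le_self _ (div_nonneg (Finset.sum_nonneg fun _ _ => by positivity) hv0.le)).trans
      (hN y)
  · exact (integrable_indicator_iff (measurableSet_box M)).2 (integrableOn_const (ymu_box hM).ne)
  · refine Eventually.of_forall fun y => ?_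
    simp only [e]
    have h1 := (Tendsto.div_const ((par_spec hm).2.2.2 _ _ (hv y) fun z => (h _).1)
      (cvol (𝔪 : FI K))).const_sub (∫ z in par 𝔪, ‖F (zy z y)‖ ^ 2)
    rwa [mul_div_cancel_left₀ _ hv0.ne', sub_self] at h1

theorem RepHyp.rep_par (h : RepHyp 𝔪 Λ τ) (hF : Test F)
    (hP : ∀ w, F w ≠ 0 → (fun v => (w v).1) ∈ par 𝔪) :
    Λ F * (covol K : ℂ) = ∫ w, th τ w * F w ∂hmuK K := by
  have hm := h.ne
  have hv0 : (cvol (𝔪 : FI K) : ℂ) ≠ 0 := by exact_mod_cast (cvol_pos (coe_FI_ne_zero hm)).ne'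
  have hv1 : (cvol (𝔪 : FI K) : ℂ) = covol K * Ideal.absNorm 𝔪 := by
    rw [cvol, FractionalIdeal.coeIdeal_absNorm]; push_cast; rfl
  choose ι hι using fun ν : dl (𝔪 : FI K) => (mem_RS_iff K _).1 (h.sub ν ν.2)
  have hι' : Function.Injective ι := fun a b e => Subtype.ext (by rw [← hι, ← hι, e])
  have h1 : HasSum (fun ν : R K => (Ideal.absNorm 𝔪 : ℂ) * wI (ν : K) (cf 𝔪 F ν) (4 / 3) * τ ν *
      covol K) (∫ w, th τ w * F w ∂hmuK K) := by
    refine HasSum.congr_fun (h.bdd.hasSum_th hF) fun ν => ?_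
    rw [show (Ideal.absNorm 𝔪 : ℂ) * wI (ν : K) (cf 𝔪 F ν) (4 / 3) * τ ν * covol K =
      τ ν * cvol (𝔪 : FI K) * wI (ν : K) (cf 𝔪 F ν) (4 / 3) by rw [hv1]; ring, wI,
      ← integral_const_mul]
    refine integral_congr_ae (Eventually.of_forall fun y => ?_)
    simp only [cf]
    rw [setIntegral_eq_integral_of_forall_compl_eq_zero fun z hz => ?_]
    · field_simp
    · have : F (zy z y) = 0 := by
        by_contra h0
        exact hz (hP _ h0)
      rw [this, zero_mul]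
  rw [← hι'.hasSum_iff fun ν hν => by
    have : τ ν = 0 := by
      by_contra h0
      exact hν ⟨⟨_, h.supp ν h0⟩, coe_injective (hι _)⟩
    simp [this]] at h1
  refine HasSum.unique (HasSum.mul_right _ ?_) h1
  obtain ⟨-, ⟨T, hT⟩, -⟩ := tile_par hm
  obtain ⟨M, hM, hFM⟩ := hF.2
  obtain ⟨C, hC⟩ := h.bound (M + |T|) (by positivity)
  have hT1 := fun ν : dl (𝔪 : FI K) => test_Ftst (tile_par hm) (ν : K) (test1_cf hm hF ν)
  have hS : ∀ t : Finset (dl (𝔪 : FI K)),
      Test fun w => ∑ ν ∈ t, Ftst (par 𝔪) (ν : K) (cf 𝔪 F ν) w := fun t =>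
    test_sum t fun ν _ => hT1 ν
  have h2 : ∀ t : Finset (dl (𝔪 : FI K)),
      ‖∑ ν ∈ t, (Ideal.absNorm 𝔪 : ℂ) * wI (ι ν : K) (cf 𝔪 F (ι ν)) (4 / 3) * τ (ι ν) - Λ F‖ ^ 2 ≤
      C * ∫ w, ‖F w + -∑ ν ∈ t, Ftst (par 𝔪) (ν : K) (cf 𝔪 F ν) w‖ ^ 2 ∂hmuK K := by
    intro t
    have h3 := h.add _ _ (test_add hF (test_neg (hS t))) (hS t)
    simp only [neg_add_cancel_right] at h3
    rw [h.sum t hT1] at h3
    have h4 : ∀ ν : dl (𝔪 : FI K), Λ (Ftst (par 𝔪) (ν : K) (cf 𝔪 F ν)) =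
        (Ideal.absNorm 𝔪 : ℂ) * wI (ι ν : K) (cf 𝔪 F (ι ν)) (4 / 3) * τ (ι ν) := fun ν => by
      rw [← h.coef (ι ν) _ (by rw [hι]; exact ν.2) (test1_cf hm hF _), hι]
    simp only [h4] at h3
    rw [norm_sub_rev, show Λ F = _ from h3, add_sub_cancel_right]
    refine hC _ (test_add hF (test_neg (hS t))) fun w hw => ?_
    by_cases h0 : F w = 0
    · rw [h0, zero_add, neg_ne_zero] at hw
      obtain ⟨ν, -, hν⟩ := Finset.exists_ne_zero_of_sum_ne_zero hw
      have h4 := left_ne_zero_of_mul hν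
      obtain ⟨z, hz⟩ := cf_ne (right_ne_zero_of_mul h4)
      have h5 := hT _ (mem_of_indicator_ne_zero (left_ne_zero_of_mul h4))
      have h6 := ((hFM _).2 hz).mono hM (le_add_of_nonneg_right (abs_nonneg T))
      exact fun v => ⟨by linarith [norm_le_pi_norm (fun v => (w v).1) v, le_abs_self T], (h6 v).2⟩
    · exact ((hFM w).2 h0).mono hM (le_add_of_nonneg_right (abs_nonneg T))
  have h3 := (tendsto_err hm hF hP).const_mul C
  rw [mul_zero] at h3
  have h4 := (squeeze_zero (fun t => by positivity) h2 h3).sqrt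
  simp only [Real.sqrt_sq (norm_nonneg _), Real.sqrt_zero] at h4
  exact tendsto_iff_norm_sub_tendsto_zero.2 h4

theorem RepHyp.rep (h : RepHyp 𝔪 Λ τ) (hF : Test F) :
    Λ F * (covol K : ℂ) = ∫ w, th τ w * F w ∂hmuK K := by
  classical
  obtain ⟨hmP, ⟨T, hT⟩, hu⟩ := tile_par h.ne
  obtain ⟨M, hM, hFM⟩ := hF.2
  let A : 𝓞 K → R K := algebraMap _ _
  let G : 𝓞 K → Hy K → ℂ := fun y w =>
    (par 𝔪).indicator (fun _ => (1 : ℂ)) (fun v => (w v).1) * F (act (mN (-A y)) w)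
  have hG : ∀ y, Test (G y) := fun y => rp_mul_left (hF.comp_act _)
    ((measurable_const.indicator hmP).comp rp_meas_z) fun w => by
      by_cases h0 : (fun v => (w v).1) ∈ par 𝔪 <;> simp [h0]
  have hG' : ∀ y, Test fun w => G y (act (mN (A y)) w) := fun y => (hG y).comp_act _
  have e : F = fun w => ∑ y ∈ (lat_finite_norm_le (K := K) (M + T)).toFinset.filter (· ∈ 𝔪),
      G y (act (mN (A y)) w) := by
    ext w
    have e1 : ∀ y, G y (act (mN (A y)) w) = (par 𝔪).indicator (fun _ => (1 : ℂ))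
        ((fun v => (w v).1) + emb (y : K)) * F w := fun y => by
      simp only [G, A, act_mN, map_neg, ev_neg, add_neg_cancel_right, coe_int]
      rfl
    simp only [e1]
    by_cases h0 : F w = 0
    · simp [h0]
    · obtain ⟨y, ⟨hy, hy'⟩, hu⟩ := hu fun v => (w v).1
      rw [Finset.sum_eq_single_of_mem y ?_ fun y' h2 h1 => ?_]
      · rw [indicator_of_mem hy', one_mul]
      · refine Finset.mem_filter.2 ⟨(Finite.mem_toFinset _).2 fun v => ?_, hy⟩
        have h1 := norm_sub_le ((w v).1 + ev v (y : K)) (w v).1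
        rw [add_sub_cancel_left] at h1
        have h2 : ‖(w v).1 + ev v (y : K)‖ ≤ T :=
          (norm_le_pi_norm ((fun v => (w v).1) + emb (y : K)) v).trans (hT _ hy')
        linarith [((hFM w).2 h0 v).1]
      · rw [indicator_of_notMem fun h3 => h1 (hu y' ⟨(Finset.mem_filter.1 h2).2, h3⟩), zero_mul]
  rw [e, h.sum _ hG', Finset.sum_mul]
  simp only [Finset.mul_sum]
  rw [integral_finsetSum _ fun y _ => h.bdd.integrable_th (hG' y)]
  refine Finset.sum_congr rfl fun y hy => ?_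
  have hy' := (Finset.mem_filter.1 hy).2
  rw [h.tr _ (hG y) _ (int_mem_inR.2 hy'),
    h.rep_par (hG y) fun w hw => mem_of_indicator_ne_zero (left_ne_zero_of_mul hw),
    ← integral_act (mN (A y)) ((measurable_th τ).fun_mul (hG y).1)]
  simp only [th_add (x := A y) fun ν hν => (mem_dual_iff (coe_FI_ne_zero h.ne)).1 (h.supp ν hν) _
    (by rw [coe_int]; exact FractionalIdeal.mem_coeIdeal_of_mem _ hy')]

end Vale.Agent.P319.TC
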