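import Vale.Agent.P319.N.ThCDefs
import Vale.Agent.P319.N.ThRes

/-! # TH-C: the calculus of residues `Rz`, and holomorphy of dominated integrals (port of P026 ThCRes) -/

namespace Vale.Agent.P319.TC

open scoped ComplexConjugate Real Topology
open MeasureTheory Filter

theorem hol_of_differentiable {w : ℂ → ℂ} (h : Differentiable ℂ w) : Hol w := h.differentiableOn
theorem Hol.const (c : ℂ) : Hol fun _ => c := differentiableOn_const c
theorem Hol.add {w w' : ℂ → ℂ} (h : Hol w) (h' : Hol w') : Hol fun s => w s + w' s :=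
  DifferentiableOn.fun_add h h'
theorem Hol.sub {w w' : ℂ → ℂ} (h : Hol w) (h' : Hol w') : Hol fun s => w s - w' s :=
  DifferentiableOn.fun_sub h h'
theorem Hol.mul {w w' : ℂ → ℂ} (h : Hol w) (h' : Hol w') : Hol fun s => w s * w' s :=
  DifferentiableOn.fun_mul h h'
theorem hol_cpow {P : ℂ} (hP : P ≠ 0) (a b : ℂ) : Hol fun s => P ^ (a + b * s) :=
  hol_of_differentiable (Differentiable.const_cpow (by fun_prop) (Or.inl hP))
theorem rz_of_hasRes {f : ℂ → ℂ} {x : ℂ} (h : HasRes f x) : Rz f x :=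
  ⟨fun _ => 1, Hol.const 1, rfl, h.congr fun _ _ _ => (one_mul _).symm⟩
theorem Rz.unique {f : ℂ → ℂ} {x y : ℂ} (h : Rz f x) (h' : Rz f y) : x = y := by
  obtain ⟨w, hw, hw1, h⟩ := h
  obtain ⟨w', hw', hw1', h'⟩ := h'
  have h1 := h.mul_hol' hw'
  have h2 := h'.mul_hol' hw
  rw [hw1', one_mul] at h1
  rw [hw1, one_mul] at h2
  exact h1.unique (h2.congr fun s _ _ => by ring)
theorem Rz.congr {f g : ℂ → ℂ} {x : ℂ} (h : Rz f x) (hfg : ∀ s : ℂ, 2 < s.re → f s = g s) :
    Rz g x := by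
  obtain ⟨w, hw, hw1, h⟩ := h
  exact ⟨w, hw, hw1, h.congr fun s _ hs => by rw [hfg s hs]⟩
theorem Rz.add {f g : ℂ → ℂ} {x y : ℂ} (h : Rz f x) (h' : Rz g y) :
    Rz (fun s => f s + g s) (x + y) := by
  obtain ⟨w, hw, hw1, h⟩ := h
  obtain ⟨w', hw', hw1', h'⟩ := h'
  have h1 := h.mul_hol' hw'
  have h2 := h'.mul_hol' hw
  rw [hw1', one_mul] at h1
  rw [hw1, one_mul] at h2
  exact ⟨fun s => w s * w' s, hw.mul hw', by simp only [hw1, hw1', one_mul],
    (h1.add h2).congr fun s _ _ => by ring⟩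
theorem Rz.hol_mul {f w : ℂ → ℂ} {x : ℂ} (h : Rz f x) (hw : Hol w) :
    Rz (fun s => w s * f s) (w (4 / 3) * x) := by
  obtain ⟨w', hw', hw1', h⟩ := h
  exact ⟨w', hw', hw1', (h.mul_hol' hw).congr fun s _ _ => by ring⟩
theorem Rz.const_mul {f : ℂ → ℂ} {x : ℂ} (h : Rz f x) (c : ℂ) :
    Rz (fun s => c * f s) (c * x) := h.hol_mul (Hol.const c)
theorem Rz.sub {f g : ℂ → ℂ} {x y : ℂ} (h : Rz f x) (h' : Rz g y) :
    Rz (fun s => f s - g s) (x - y) := by
  have := h.add (h'.const_mul (-1))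
  rw [show x + -1 * y = x - y by ring] at this
  exact this.congr fun s _ => by ring
theorem Rz.of_mul {f w : ℂ → ℂ} {x : ℂ} (h : Rz (fun s => w s * f s) x) (hw : Hol w)
    (h0 : w (4 / 3) ≠ 0) : Rz f (x / w (4 / 3)) := by
  obtain ⟨w', hw', hw1', h⟩ := h
  refine ⟨fun s => (w (4 / 3))⁻¹ * (w' s * w s), (Hol.const _).mul (hw'.mul hw), ?_, ?_⟩
  · simp only [hw1', one_mul, inv_mul_cancel₀ h0]
  · rw [div_eq_inv_mul x]
    exact (h.const_mul (w (4 / 3))⁻¹).congr fun s _ _ => by ring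
theorem Hol.rs {w : ℂ → ℂ} (hw : Hol w) : Rz w 0 := rz_of_hasRes (hasRes_zero hw)
theorem Rz.sum {ι : Type*} (t : Finset ι) {f : ι → ℂ → ℂ} {x : ι → ℂ}
    (h : ∀ i ∈ t, Rz (f i) (x i)) : Rz (fun s => ∑ i ∈ t, f i s) (∑ i ∈ t, x i) := by
  classical
  induction t using Finset.induction_on with
  | empty => simpa using (Hol.const 0).rs
  | insert a t ha ih =>
    simp only [Finset.sum_insert ha]
    exact (h a (Finset.mem_insert_self _ _)).add
      (ih fun i hi => h i (Finset.mem_insert_of_mem hi))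

variable {K : Type} [Field K] [NumberField K] [Stp K]

theorem Rz.rho_eq {Ψ : R K × R K → ℂ} {ν : R K} {x : ℂ} (h : Rz (aD Ψ ν 1) x) : rho Ψ ν = x :=
  (Classical.epsilon_spec ⟨x, h⟩ : Rz (aD Ψ ν 1) _).unique h
theorem Rz.rb_eq {q : ℕ} {β ν : R K} {x : ℂ} (h : Rz (psi q β ν 1) x) : rb q β ν = x :=
  (Classical.epsilon_spec ⟨x, h⟩ : Rz (psi q β ν 1) _).unique h

theorem rpow_le_add {x a b c : ℝ} (hx : 0 < x) (h1 : a ≤ b) (h2 : b ≤ c) :
    x ^ b ≤ x ^ a + x ^ c := by
  rcases le_total x 1 with h | h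
  · exact le_add_of_le_of_nonneg (Real.rpow_le_rpow_of_exponent_ge hx h h1) (by positivity)
  · exact le_add_of_nonneg_of_le (by positivity) (Real.rpow_le_rpow_of_exponent_le h h2)

theorem isOpen_half : IsOpen {s : ℂ | 1 < s.re} := isOpen_lt continuous_const Complex.continuous_re

theorem re_of_ball {s₀ s : ℂ} (h : s ∈ Metric.ball s₀ ((s₀.re - 1) / 2)) :
    (1 + s₀.re) / 2 ≤ s.re ∧ s.re ≤ 2 * s₀.re := by
  have k := abs_lt.1 ((Complex.abs_re_le_norm _).trans_lt (mem_ball_iff_norm.1 h))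
  rw [Complex.sub_re] at k
  constructor <;> linarith [k.1, k.2]

/-- holomorphy of a dominated integral -/
theorem differentiableOn_integral_of_bound {α : Type*} [MeasurableSpace α] {μ : Measure α}
    {U : Set ℂ} (hU : IsOpen U) {f : ℂ → α → ℂ}
    (hm : ∀ s ∈ U, AEStronglyMeasurable (f s) μ)
    (hd : ∀ᵐ a ∂μ, DifferentiableOn ℂ (fun s => f s a) U)
    (hb : ∀ s₀ ∈ U, ∃ (ε : ℝ) (B : α → ℝ), 0 < ε ∧ Integrable B μ ∧
      ∀ᵐ a ∂μ, ∀ s ∈ Metric.ball s₀ ε, ‖f s a‖ ≤ B a) :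
    DifferentiableOn ℂ (fun s => ∫ a, f s a ∂μ) U := by
  intro s₀ hs₀
  obtain ⟨ε, B, hε, hB, hfB⟩ := hb s₀ hs₀
  obtain ⟨δ, hδ, hδU⟩ := Metric.isOpen_iff.1 hU s₀ hs₀
  set r := min ε δ / 3 with hr
  have hr0 : 0 < r := by positivity
  have hsub : ∀ s ∈ Metric.ball s₀ r, Metric.closedBall s r ⊆ Metric.ball s₀ (min ε δ) := by
    intro s hs z hz
    rw [Metric.mem_ball] at hs ⊢
    rw [Metric.mem_closedBall] at hz
    have := dist_triangle z s s₀
    linarith
  have hsU : ∀ s ∈ Metric.ball s₀ r, Metric.closedBall s r ⊆ U := fun s hs z hz =>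
    hδU (Metric.ball_subset_ball (min_le_right _ _) (hsub s hs hz))
  have hmem : ∀ s ∈ Metric.ball s₀ r, s ∈ U := fun s hs =>
    hsU s hs (Metric.mem_closedBall_self hr0.le)
  have hder : ∀ᵐ a ∂μ, ∀ s ∈ Metric.ball s₀ r,
      HasDerivAt (fun s => f s a) (deriv (fun s => f s a) s) s := by
    filter_upwards [hd] with a ha s hs
    exact (ha.differentiableAt (hU.mem_nhds (hmem s hs))).hasDerivAt
  have hmeas : AEStronglyMeasurable (fun a => deriv (fun s => f s a) s₀) μ := by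
    have hu : Tendsto (fun n : ℕ => s₀ + (r / 2 * (1 / ((n : ℝ) + 1)) : ℝ)) atTop (𝓝[≠] s₀) := by
      refine tendsto_nhdsWithin_iff.2 ⟨?_, Eventually.of_forall fun n => ?_⟩
      · have h1 := (tendsto_one_div_add_atTop_nhds_zero_nat (𝕜 := ℝ)).const_mul (r / 2)
        rw [mul_zero] at h1
        have h2 := (Complex.continuous_ofReal.tendsto 0).comp h1
        simpa using h2.const_add s₀
      · have : (0 : ℝ) < r / 2 * (1 / ((n : ℝ) + 1)) := by positivity
        simp only [Set.mem_compl_iff, Set.mem_singleton_iff, add_eq_left, Complex.ofReal_eq_zero]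
        exact this.ne'
    refine aestronglyMeasurable_of_tendsto_ae atTop (f := fun (n : ℕ) a =>
      slope (fun s => f s a) s₀ (s₀ + (r / 2 * (1 / ((n : ℝ) + 1)) : ℝ))) (fun n => ?_) ?_
    · have hn : s₀ + (r / 2 * (1 / ((n : ℝ) + 1)) : ℝ) ∈ U := by
        refine hmem _ ?_
        have h1 : (0 : ℝ) < 1 / ((n : ℝ) + 1) := by positivity
        have h2 : 1 / ((n : ℝ) + 1) ≤ 1 := by
          rw [div_le_one (by positivity)]
          linarith [Nat.cast_nonneg (α := ℝ) n]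
        rw [Metric.mem_ball, dist_eq_norm, add_sub_cancel_left, Complex.norm_real,
          Real.norm_of_nonneg (by positivity)]
        nlinarith
      simp only [slope_def_module]
      exact ((hm _ hn).sub (hm _ hs₀)).const_smul (_ : ℂ)
    · filter_upwards [hder] with a ha
      exact (ha s₀ (Metric.mem_ball_self hr0)).tendsto_slope.comp hu
  have hint : Integrable (f s₀) μ :=
    hB.mono' (hm _ hs₀) (hfB.mono fun a ha => ha s₀ (Metric.mem_ball_self hε))
  refine (hasDerivAt_integral_of_dominated_loc_of_deriv_le (F := f)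
    (F' := fun s a => deriv (fun s => f s a) s) (bound := fun a => B a / r)
    (Metric.ball_mem_nhds s₀ hr0) ?_ hint hmeas ?_ (hB.div_const r)
    hder).2.differentiableAt.differentiableWithinAt
  · filter_upwards [hU.mem_nhds hs₀] with s hs using hm s hs
  · filter_upwards [hd, hfB] with a ha hB s hs
    refine Complex.norm_deriv_le_of_forall_mem_sphere_norm_le hr0 ?_ fun z hz => ?_
    · refine DifferentiableOn.diffContOnCl ?_
      rw [closure_ball s hr0.ne']
      exact ha.mono (hsU s hs)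
    · exact hB z (Metric.ball_subset_ball (min_le_left _ _)
        (hsub s hs (Metric.sphere_subset_closedBall hz)))

end Vale.Agent.P319.TC
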