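import Vale.Agent.P319.N.ThCFub
import Vale.Agent.P319.N.LatPois

/-! # TH-C: the series `th` with bounded coefficients (port of the first half of `P026/WhTh.lean`).
PLAN.  `Wr_box`: `Wr_le` for `‖ξ‖ ≤ 1`, `Wr_decay N` for `‖ξ‖ ≥ 1`.  `summable_den`: `ν ↦ ν` maps `{Den b ν}` injectively into the fractional ideal
`spanSingleton (M^b)⁻¹` (`sIn_R_iff0`), `tsum_lat_le` with `z = 0`, `Function.Injective.summable_iff`/`summable_subtype_iff_indicator`.
`Bdd.majorant`: at a place `v` with `‖ev v ν‖ = ‖emb ν‖` (`Pi.exists_apply_eq_norm`-like: `Finset.exists_max_image`, `pi_norm_le_iff`) use the decay, at the others the bound `C`.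
`continuousOn_th`: `continuousOn_tsum` on `{w | InBox T w}`-like neighbourhoods (`1/T < y v < T` is open).  `th_add`: `chr_add_right`, `chr_emb`. -/

namespace Vale.Agent.P319.TC

open scoped ComplexConjugate Real Topology NumberField
open MeasureTheory Filter Set

theorem Wr_box (N : ℕ) {T : ℝ} (hT : 0 < T) : ∃ C : ℝ, 1 ≤ C ∧ ∀ (ξ : ℂ) (v : ℝ), 1 / T ≤ v → v ≤ T →
    ‖Wh (4 / 3) ξ v‖ ≤ C / (1 + ‖ξ‖) ^ N := by
  obtain ⟨D, hD, hd⟩ := Wr_decay N
  have p1 : 0 ≤ 3 * π * T ^ (2 / 3 : ℝ) * 2 ^ N := by positivity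
  have p2 : 0 ≤ D * T ^ (2 / 3 : ℝ) * (2 * T ^ 2) ^ N := by positivity
  refine ⟨1 + 3 * π * T ^ (2 / 3 : ℝ) * 2 ^ N + D * T ^ (2 / 3 : ℝ) * (2 * T ^ 2) ^ N,
    by linarith, fun ξ v h1 h2 => ?_⟩
  have hv : 0 < v := (one_div_pos.2 hT).trans_le h1
  have h0 := norm_nonneg ξ
  rw [Wh_four_thirds ξ hv, Complex.norm_real, Real.norm_of_nonneg (Wr_pos ξ hv).le,
    le_div_iff₀ (by positivity)]
  rcases le_total ‖ξ‖ 1 with h | h
  · have h3 : Wr ξ v * (1 + ‖ξ‖) ^ N ≤ 3 * π * T ^ (2 / 3 : ℝ) * 2 ^ N := by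
      refine mul_le_mul ((Wr_le ξ hv).trans ?_) (pow_le_pow_left₀ (by positivity) (by linarith) N)
        (by positivity) (by positivity)
      gcongr
    linarith
  · have hξ : ξ ≠ 0 := norm_pos_iff.1 (by linarith)
    have h4 : 1 ≤ T * v := by rwa [div_le_iff₀' hT] at h1
    have h5 : 1 + ‖ξ‖ ≤ 2 * T ^ 2 * (‖ξ‖ ^ 2 * v ^ 2) := by
      have h6 : 1 ≤ (T * v) ^ 2 := one_le_pow₀ h4
      have h7 : ‖ξ‖ ≤ ‖ξ‖ ^ 2 := by nlinarith
      nlinarith
    have h8 : 0 < ‖ξ‖ ^ 2 * v ^ 2 := by positivity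
    have h3 : Wr ξ v * (1 + ‖ξ‖) ^ N ≤ D * T ^ (2 / 3 : ℝ) * (2 * T ^ 2) ^ N := by
      refine (mul_le_mul ((hd ξ v hξ hv).trans (b := _)
        (c := D * T ^ (2 / 3 : ℝ) / (‖ξ‖ ^ 2 * v ^ 2) ^ N) (by gcongr))
        (pow_le_pow_left₀ (by positivity) h5 N) (by positivity) (by positivity)).trans_eq ?_
      rw [mul_pow (2 * T ^ 2)]
      field_simp
    linarith

variable {K : Type} [Field K] [NumberField K] [Stp K] {τ : R K → ℂ}

theorem th_eq (τ : R K → ℂ) (w : Hy K) :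
    th τ w = ∑' ν : R K, τ ν * WhK (4 / 3) (ν : K) (fun v => (w v).2) * chr (ν : K) fun v => (w v).1 := by
  simp only [th, WhK, chr, Finset.prod_mul_distrib, mul_assoc]

theorem summable_den (b : ℕ) :
    Summable fun ν : R K => ‖ind (Den b ν)‖ * (1 / (1 + ‖emb (ν : K)‖) ^ (2 * rr K + 1)) := by
  have hM : (MM K : K) ^ b ≠ 0 := pow_ne_zero b M_ne_zero
  obtain ⟨C, hC⟩ := tsum_lat_le (I := FractionalIdeal.spanSingleton _ ((MM K : K) ^ b)⁻¹)
    (FractionalIdeal.spanSingleton_ne_zero_iff.2 (inv_ne_zero hM))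
  have hm : ∀ ν : {ν : R K | Den b ν}, ((ν : R K) : K) ∈
      (FractionalIdeal.spanSingleton _ ((MM K : K) ^ b)⁻¹ : FI K) := fun ν => by
    obtain ⟨t, -, e⟩ := mem_inR.1 (den_iff.1 ν.2)
    refine (FractionalIdeal.mem_spanSingleton _).2 ⟨t, ?_⟩
    have e' : (MM K : K) ^ b * ((ν : R K) : K) = (t : K) := by
      simpa using congrArg (algebraMap (R K) K) e
    rw [Algebra.smul_def, eq_comm, eq_mul_inv_iff_mul_eq₀ hM, mul_comm]
    exact e'
  have h1 := (hC 0).1.comp_injective (i := fun ν : {ν : R K | Den b ν} => ⟨_, hm ν⟩)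
    fun x y h => Subtype.ext (coe_injective (Subtype.mk.inj h))
  refine (summable_subtype_iff_indicator (s := {ν : R K | Den b ν})
    (f := fun ν : R K => 1 / (1 + ‖emb (ν : K) + 0‖) ^ (2 * rr K + 1))).1 h1 |>.congr fun ν => ?_
  by_cases h : Den b ν
  · rw [indicator_of_mem (show ν ∈ {ν : R K | Den b ν} from h), ind_of h, norm_one, one_mul,
      add_zero]
  · rw [indicator_of_notMem (show ν ∉ {ν : R K | Den b ν} from h), ind_of_not h, norm_zero,
      zero_mul]

theorem wh_one_add_norm (z : Pl K → ℂ) : 1 + ‖z‖ ≤ ∏ v, (1 + ‖z v‖) := by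
  have h1 : ∀ v, 1 ≤ 1 + ‖z v‖ := fun v => le_add_of_nonneg_right (norm_nonneg _)
  rw [← le_sub_iff_add_le', pi_norm_le_iff_of_nonneg
    (sub_nonneg.2 (Finset.one_le_prod fun v _ => h1 v))]
  intro v
  rw [le_sub_iff_add_le']
  exact (Finset.prod_singleton (fun v => 1 + ‖z v‖) v).symm.trans_le
    (Finset.prod_le_prod_of_subset_of_one_le (Finset.subset_univ _) (fun _ _ => by positivity)
      fun v _ _ => h1 v)

/-- uniform majorant on a box -/
theorem Bdd.majorant (h : Bdd τ) {T : ℝ} (hT : 0 < T) : ∃ u : R K → ℝ, Summable u ∧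
    ∀ (ν : R K) (y : Pl K → ℝ), (∀ v, 1 / T ≤ y v ∧ y v ≤ T) → ‖τ ν * WhK (4 / 3) (ν : K) y‖ ≤ u ν := by
  obtain ⟨b, C, h⟩ := h
  obtain ⟨D, hD, hd⟩ := Wr_box (2 * rr K + 1) hT
  have hC : 0 ≤ C := (norm_nonneg _).trans (h 0).1
  refine ⟨_, (summable_den b).mul_left (C * ∏ _v : Pl K, D), fun ν y hy => ?_⟩
  by_cases h0 : τ ν = 0
  · rw [h0, zero_mul, norm_zero]
    positivity
  rw [ind_of ((h ν).2 h0), norm_one, one_mul, norm_mul, mul_assoc, WhK, norm_prod]
  refine mul_le_mul (h ν).1 ((Finset.prod_le_prod (fun _ _ => norm_nonneg _) fun v _ =>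
    hd _ _ (hy v).1 (hy v).2).trans ?_) (Finset.prod_nonneg fun _ _ => norm_nonneg _) hC
  rw [Finset.prod_div_distrib, Finset.prod_pow, mul_one_div]
  exact div_le_div_of_nonneg_left (by positivity) (by positivity)
    (pow_le_pow_left₀ (by positivity) (wh_one_add_norm (emb (ν : K))) _)

theorem isOpen_pos : IsOpen {w : Hy K | Pos w} := by
  simp only [Pos, ofPred_forall]
  exact isOpen_iInter_of_finite fun v => isOpen_lt continuous_const (by fun_prop)

theorem wh_nhds {w : Hy K} (hw : Pos w) : ∃ T : ℝ, 0 < T ∧ ∀ᶠ x in 𝓝 w, InBox T x := by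
  have h1 : ∀ᶠ T : ℝ in atTop, ∀ v, ‖(w v).1‖ < T ∧ 1 / (w v).2 < T ∧ (w v).2 < T :=
    eventually_all.2 fun v => (eventually_gt_atTop _).and
      ((eventually_gt_atTop _).and (eventually_gt_atTop _))
  obtain ⟨T, hT, h⟩ := ((eventually_gt_atTop (0 : ℝ)).and h1).exists
  refine ⟨T, hT, eventually_all.2 fun v => ?_⟩
  have c1 : ContinuousAt (fun x : Hy K => ‖(x v).1‖) w := Continuous.continuousAt (by fun_prop)
  have c2 : ContinuousAt (fun x : Hy K => (x v).2) w := Continuous.continuousAt (by fun_prop)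
  exact (c1.eventually (ge_mem_nhds (h v).1)).and
    ((c2.eventually (le_mem_nhds ((one_div_lt hT (hw v)).2 (h v).2.1))).and
      (c2.eventually (ge_mem_nhds (h v).2.2)))

theorem Bdd.continuousOn_th (h : Bdd τ) : ContinuousOn (th τ) {w : Hy K | Pos w} := by
  intro w hw
  obtain ⟨T, hT, hn⟩ := wh_nhds hw
  obtain ⟨u, hu, h⟩ := h.majorant hT
  have p : ∀ x ∈ {x : Hy K | InBox T x}, ∀ v, 0 < (x v).2 := fun x hx v =>
    (one_div_pos.2 hT).trans_le (hx v).2.1
  have k : ContinuousOn (th τ) {x : Hy K | InBox T x} := by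
    rw [funext (th_eq τ)]
    refine continuousOn_tsum (fun ν => ?_) hu fun ν x hx => ?_
    · refine (continuousOn_const.mul (continuousOn_finsetProd _ fun v _ => ?_)).mul
        ((continuous_chr _).comp (by fun_prop)).continuousOn
      exact (Complex.continuous_ofReal.comp_continuousOn ((continuousOn_Wr (ev v (ν : K))).comp
        (f := fun x : Hy K => (x v).2) (Continuous.continuousOn (by fun_prop))
        fun x hx => p x hx v)).congr fun x hx => Wh_four_thirds _ (p x hx v)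
    · rw [norm_mul, norm_chr, mul_one]
      exact h ν _ fun v => (hx v).2
  exact (k.continuousAt hn).continuousWithinAt

theorem measurable_th (τ : R K → ℂ) : Measurable (th τ : Hy K → ℂ) := by
  rw [funext (th_eq τ)]
  exact Measurable.tsum fun ν => (((measurable_WhK _ _).fun_comp (by fun_prop)).const_mul _).mul
    ((continuous_chr _).measurable.comp (by fun_prop))

theorem th_add {x : R K} (h : ∀ ν, τ ν ≠ 0 → eTr ((ν : K) * x) = 1) (w : Hy K) :
    th τ (act (mN x) w) = th τ w := by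
  rw [th_eq, th_eq, act_mN]
  refine tsum_congr fun ν => ?_
  by_cases h0 : τ ν = 0
  · simp only [h0, zero_mul]
  · have e := chr_add_right (ν : K) (fun v => (w v).1) (emb (x : K))
    rw [chr_emb, h ν h0, mul_one] at e
    exact congrArg _ e

theorem continuousOn_act (g : SL2 K) : ContinuousOn (act g) {w : Hy K | Pos w} :=
  continuousOn_pi.2 fun v => (continuousOn_aC (evM v g)).comp (f := fun w : Hy K => w v)
    (continuous_apply v).continuousOn fun _ hw => hw v

end Vale.Agent.P319.TC
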