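import Vale.Agent.P319.N.ThCAcf

/-! # TH-C: the constant term as a product of Dirichlet series (port of the first half of `P026/ThCZ.lean`).
PLAN.  `g3_zero_ne`, `g3_zero_cube`, `conv`: as in P026 (`g3_crt` instead of `g3_mul`, `rdv n f` instead of `n / f`).
`gq_zero`: `g3 0 (u n) = g3 0 n` by `sum_res_associated`, `cub_unit_mul_right`, `eq_zero`; `ray_one_iff`.
`psi_zero`: reindex `n = e³` as in P026 `psi_one_zero`; for `e = f g` insert `1 = ∑ γ ∈ creps, ind (Ray q 1 f γ)` (`sum_creps_ind`) and use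
`Ray q 1 ((f g)³) β ↔ Ray q 1 ((γ g)³) β` when `Ray q 1 f γ` (`Ray.mul_right`, `Ray.pow`, `Ray.trans`, `Ray.symm`); `conv` for each `γ`,
`Summable.tsum_finsetSum`, `IsCoprime.mul_left_iff`, `IsCoprime.pow_left_iff`. -/

namespace Vale.Agent.P319.TC

open scoped ComplexConjugate Real Topology NumberField
open MeasureTheory Filter

variable {K : Type} [Field K] [NumberField K] [Stp K]

/-- Dirichlet series over `Prim` elements coprime to `P` -/
noncomputable def zC (φ : R K → ℂ) (P : R K) (w : ℂ) : ℂ :=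
  ∑' n : R K, ind (Prim n) * (ind (IsCoprime n P) * φ n * (nm n : ℂ) ^ (-w))

theorem zC_term_le {φ : R K → ℂ} (hφ : ∀ n, ‖φ n‖ ≤ 1) (P n : R K) {σ : ℝ} {w : ℂ}
    (hw : σ ≤ w.re) : ‖ind (Prim n) * (ind (IsCoprime n P) * φ n * (nm n : ℂ) ^ (-w))‖ ≤
      ‖ind (Prim n)‖ * (nm n : ℝ) ^ (-σ) := by
  by_cases h : Prim n
  · rw [norm_mul, norm_mul, norm_mul, Complex.norm_natCast_cpow_of_pos (nm_pos h.1), Complex.neg_re]
    exact mul_le_mul_of_nonneg_left ((mul_le_of_le_one_left (by positivity)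
      (mul_le_one₀ (norm_ind_le _) (norm_nonneg _) (hφ n))).trans
      (Real.rpow_le_rpow_of_exponent_le (one_le_nm h.1) (neg_le_neg hw))) (norm_nonneg _)
  · simp [ind_of_not h]

theorem summable_zC {φ : R K → ℂ} (hφ : ∀ n, ‖φ n‖ ≤ 1) (P : R K) {w : ℂ} (hw : 1 < w.re) :
    Summable fun n : R K => ‖ind (Prim n) * (ind (IsCoprime n P) * φ n * (nm n : ℂ) ^ (-w))‖ := by
  exact (summable_ind_rpow hw).of_nonneg_of_le (fun _ => norm_nonneg _)
    fun n => zC_term_le hφ P n le_rfl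

theorem hol_zC {φ : R K → ℂ} (hφ : ∀ n, ‖φ n‖ ≤ 1) (P : R K) : Hol (zC φ P) := by
  intro w hw
  obtain ⟨σ, h1, h2⟩ := exists_between (show 1 < w.re from hw)
  have hU : IsOpen {z : ℂ | σ < z.re} := isOpen_lt continuous_const Complex.continuous_re
  refine ((Complex.differentiableOn_tsum_of_summable_norm (summable_ind_rpow h1) (fun n => ?_) hU
    fun n z hz => zC_term_le hφ P n (le_of_lt hz)).differentiableAt
    (hU.mem_nhds h2)).differentiableWithinAt
  by_cases h : Prim n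
  · exact ((differentiable_const _).mul ((differentiable_const _).mul (Differentiable.const_cpow
      differentiable_neg (Or.inl (Nat.cast_ne_zero.2 (nm_pos h.1).ne'))))).differentiableOn
  · simp only [ind_of_not h, zero_mul]
    exact differentiableOn_const 0

theorem g3_zero_ne {c : R K} (hc : Prim c) (h : g3 0 c ≠ 0) : ∃ e, Prim e ∧ c = e ^ 3 := by
  induction hk : nm c using Nat.strong_induction_on generalizing c with
  | _ k ih =>
  by_cases hu : IsUnit c
  · exact ⟨1, prim_one, by rw [hc.eq_one_of_isUnit hu, one_pow]⟩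
  obtain ⟨p₀, hp₀, hd⟩ := WfDvdMonoid.exists_irreducible_factor hu hc.ne_zero
  obtain ⟨u, p, hu', hp', rfl⟩ := exists_prim hp₀.ne_zero
  have hp : Prime p := ((associated_unit_mul_left p u hu').irreducible hp₀).prime
  obtain ⟨j, m, hm, rfl⟩ := WfDvdMonoid.max_power_factor hc.ne_zero hp.irreducible
  have hm' : Prim m := (hp'.pow j).of_mul hc
  have hj : 1 ≤ j := by
    rcases Nat.eq_zero_or_pos j with rfl | hj
    · exact (hm (by simpa using (dvd_mul_left p u).trans hd)).elim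
    · exact hj
  rw [g3_crt (hp'.pow j).1 hm'.1 ((hp.irreducible.coprime_iff_not_dvd.2 hm).pow_left)] at h
  have h1 := right_ne_zero_of_mul (left_ne_zero_of_mul h)
  have h2 := g3_prime_pow_of_le hp 0 (le_refl j) hj
  rw [zero_mul] at h2
  have h3 : 3 ∣ j := by
    by_contra h3
    rw [if_neg h3] at h2
    exact h1 h2
  obtain ⟨i, rfl⟩ := h3
  have h4 : nm m < k := by
    rw [← hk, nm_mul, nm_pow]
    exact lt_mul_of_one_lt_left (nm_pos hm'.ne_zero) (Nat.one_lt_pow (by omega) (two_le_nm hp))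
  obtain ⟨e, he, rfl⟩ := ih _ h4 hm' (right_ne_zero_of_mul h) rfl
  exact ⟨p ^ i * e, (hp'.pow i).mul he, by ring⟩

theorem g3_zero_cube {e : R K} (he : Prim e) :
    g3 0 (e ^ 3) = ∑ f ∈ pdiv e, mu f * ((nm e : ℂ) ^ 3 / nm f) := by
  have h1 : ∀ x, cub x (e ^ 3) * eq (0 * x) (e ^ 3) = ∑ f ∈ pdiv e, mu f * ind (f ∣ x) := by
    intro x
    rw [zero_mul, eq_zero, mul_one, cub_cube_right he.ne_zero, ← ind_coprime he]
  rw [g3, Finset.sum_congr rfl fun x _ => h1 x, Finset.sum_comm]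
  refine Finset.sum_congr rfl fun f hf => ?_
  obtain ⟨hf1, c, hc⟩ := (mem_pdiv he.ne_zero).1 hf
  have hc0 : c ≠ 0 := right_ne_zero_of_mul (hc ▸ he.ne_zero)
  have h2 : e ^ 3 = (e ^ 2 * c) * f := by rw [pow_succ, mul_assoc, mul_comm c, ← hc]
  have h4 : ∑ x ∈ res f, ind (f ∣ x) = 1 := by
    simpa only [zero_sub, dvd_neg] using sum_res_ind hf1.ne_zero 0
  have h5 : (nm f : ℂ) ≠ 0 := Nat.cast_ne_zero.2 (nm_pos hf1.ne_zero).ne'
  rw [← Finset.mul_sum, h2, sum_res_mul_per (mul_ne_zero (pow_ne_zero 2 he.ne_zero) hc0)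
    hf1.ne_zero (per_ind_dvd f), h4, mul_one]
  congr 1
  rw [eq_div_iff h5, ← Nat.cast_mul, ← nm_mul, ← h2, nm_pow, Nat.cast_pow]

theorem gq_zero {q : ℕ} {β n : R K} (hβ : β ≠ 0) (hn : n ≠ 0) :
    gq q β 0 n = ind (Ray q 1 n β) * g3 0 n := by
  by_cases h : ∃ u : (R K)ˣ, InUq q (((u * n : R K) : K) / β)
  · rw [gq, dif_pos h, ind_of (ray_one_iff.2 ⟨hn, hβ, h⟩), one_mul, ← g3_unit_mul' hn h.choose 0,
      zero_mul]
  · rw [gq_of_not h, ind_of_not fun h' => h (ray_one_iff.1 h').2.2, zero_mul]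

theorem conv_fiber (A B : R K → ℂ) (n : R K) :
    ∑' p : (fun p : R K × R K => p.1 * p.2) ⁻¹' {n},
      ind (Prim p.1.1) * A p.1.1 * (ind (Prim p.1.2) * B p.1.2) =
      ind (Prim n) * ∑ f ∈ pdiv n, A f * B (rdv n f) := by
  classical
  rw [tsum_subtype ((fun p : R K × R K => p.1 * p.2) ⁻¹' {n}) (fun p : R K × R K =>
    ind (Prim p.1) * A p.1 * (ind (Prim p.2) * B p.2))]
  by_cases hn : Prim n
  · rw [ind_of hn, one_mul, tsum_eq_sum (s := (pdiv n).image fun f => (f, rdv n f)),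
      Finset.sum_image fun f _ g _ h => congrArg Prod.fst h]
    · refine Finset.sum_congr rfl fun f hf => ?_
      obtain ⟨a1, c, rfl⟩ := (mem_pdiv hn.ne_zero).1 hf
      rw [rdv_mul a1.ne_zero, Set.indicator_of_mem
        (show (f, c) ∈ (fun p : R K × R K => p.1 * p.2) ⁻¹' {f * c} from rfl), ind_of a1,
        ind_of (a1.of_mul hn), one_mul, one_mul]
    · intro p hp
      by_cases h : p ∈ (fun p : R K × R K => p.1 * p.2) ⁻¹' {n}
      · rw [Set.indicator_of_mem h]
        have h' : p.1 * p.2 = n := h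
        by_cases a1 : Prim p.1
        · refine (hp (Finset.mem_image.2 ⟨p.1,
            (mem_pdiv hn.ne_zero).2 ⟨a1, h' ▸ dvd_mul_right _ _⟩, ?_⟩)).elim
          rw [← h', rdv_mul a1.ne_zero]
        · simp [ind_of_not a1]
      · exact Set.indicator_of_notMem h _
  · rw [ind_of_not hn, zero_mul]
    refine (tsum_congr fun p => ?_).trans tsum_zero
    by_cases h : p ∈ (fun p : R K × R K => p.1 * p.2) ⁻¹' {n}
    · rw [Set.indicator_of_mem h]
      have h' : p.1 * p.2 = n := h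
      by_cases a1 : Prim p.1
      · have a2 : ¬ Prim p.2 := fun a2 => hn (h' ▸ a1.mul a2)
        simp [ind_of_not a2]
      · simp [ind_of_not a1]
    · exact Set.indicator_of_notMem h _

/-- Dirichlet convolution -/
theorem conv {A B : R K → ℂ} (hA : Summable fun n => ‖ind (Prim n) * A n‖)
    (hB : Summable fun n => ‖ind (Prim n) * B n‖) :
    (∑' n, ind (Prim n) * A n) * ∑' n, ind (Prim n) * B n =
      ∑' n, ind (Prim n) * ∑ f ∈ pdiv n, A f * B (rdv n f) := by
  rw [tsum_mul_tsum_of_summable_norm hA hB, ← ((summable_mul_of_summable_norm hA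
    hB).hasSum.tsum_fiberwise (fun p : R K × R K => p.1 * p.2)).tsum_eq]
  exact tsum_congr (conv_fiber A B)

theorem summable_conv {A B : R K → ℂ} (hA : Summable fun n => ‖ind (Prim n) * A n‖)
    (hB : Summable fun n => ‖ind (Prim n) * B n‖) :
    Summable fun n => ind (Prim n) * ∑ f ∈ pdiv n, A f * B (rdv n f) := by
  exact ((summable_mul_of_summable_norm hA hB).hasSum.tsum_fiberwise
    (fun p : R K × R K => p.1 * p.2)).summable.congr (conv_fiber A B)

theorem mu_mul_zeta {w : ℂ} (hw : 1 < w.re) : zC (mu : R K → ℂ) 1 w * zC (fun _ : R K => 1) 1 w = 1 := by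
  rw [zC, zC, conv (summable_zC norm_mu_le 1 hw) (summable_zC (φ := fun _ => 1) (by simp) 1 hw),
    tsum_eq_single 1]
  · simp [ind_of prim_one, pdiv_one, ind_of isCoprime_one_right, mu_one,
      show rdv (1 : R K) 1 = 1 by simpa using rdv_mul one_ne_zero (1 : R K)]
  · intro n h
    by_cases hn : Prim n
    · rw [Finset.sum_congr rfl (g := fun f => mu f * (nm n : ℂ) ^ (-w)), ← Finset.sum_mul,
        sum_mu_pdiv hn, ind_of_not h, zero_mul, mul_zero]
      intro f hf
      obtain ⟨a1, c, rfl⟩ := (mem_pdiv hn.ne_zero).1 hf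
      rw [rdv_mul a1.ne_zero, ind_of isCoprime_one_right, ind_of isCoprime_one_right, nm_mul_cpow]
      ring
    · rw [ind_of_not hn, zero_mul]

theorem norm_ind_mu (Q : R K → Prop) (n : R K) : ‖ind (Q n) * mu n‖ ≤ 1 := by
  rw [norm_mul]; exact mul_le_one₀ (norm_ind_le _) (norm_nonneg _) (norm_mu_le _)

theorem psi_zero {q : ℕ} (hq : 1 ≤ q) {β : R K} (hβ : β ≠ 0) (P : R K) {s : ℂ} (hs : 2 < s.re) :
    psi q β 0 P s = ∑ γ ∈ creps K q, zC (fun f => ind (Ray q 1 f γ) * mu f) P (3 * s - 2) *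
      zC (fun g => ind (Ray q 1 ((γ * g) ^ 3) β)) P (3 * s - 3) := by
  have h1 := fun γ => summable_zC (norm_ind_mu fun f => Ray q 1 f γ) P (w := 3 * s - 2)
    (by simp; linarith)
  have h2 := fun γ => summable_zC (fun g => norm_ind_le (Ray q 1 ((γ * g) ^ 3) β)) P
    (w := 3 * s - 3) (by simp; linarith)
  simp only [zC]
  rw [Finset.sum_congr rfl fun γ _ => conv (h1 γ) (h2 γ),
    ← Summable.tsum_finsetSum fun γ _ => summable_conv (h1 γ) (h2 γ), psi]
  have hi : Function.Injective fun e : {e : R K | Prim e} => e.1 ^ 3 := fun a b h =>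
    Subtype.ext (cube_decomp_unique' squarefree_one a.2 squarefree_one b.2 (congrArg (1 * ·) h)).2
  rw [← hi.tsum_eq]
  · rw [tsum_subtype {e : R K | Prim e} (fun e => ind (Prim (e ^ 3) ∧ IsCoprime (e ^ 3) P) *
      gq q β 0 (e ^ 3) * (nm (e ^ 3) : ℂ) ^ (-s))]
    refine tsum_congr fun e => ?_
    rw [← Finset.mul_sum]
    by_cases he : Prim e
    · rw [Set.indicator_of_mem (show e ∈ {e : R K | Prim e} from he), ind_of he, ind_and,
        ind_of (he.pow 3), gq_zero hβ (he.pow 3).1, g3_zero_cube he, one_mul, one_mul,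
        Finset.sum_comm, Finset.mul_sum, Finset.mul_sum, Finset.sum_mul]
      refine Finset.sum_congr rfl fun f hf => ?_
      obtain ⟨a1, c, rfl⟩ := (mem_pdiv he.ne_zero).1 hf
      have a2 : (nm f : ℂ) ≠ 0 := Nat.cast_ne_zero.2 (nm_pos a1.ne_zero).ne'
      have a3 : (nm c : ℂ) ≠ 0 := Nat.cast_ne_zero.2 (nm_pos (a1.of_mul he).ne_zero).ne'
      rw [rdv_mul a1.ne_zero, Finset.sum_congr rfl (g := fun γ => ind (Ray q 1 f γ) *
        (ind (IsCoprime f P) * mu f * (nm f : ℂ) ^ (-(3 * s - 2)) * (ind (IsCoprime c P) *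
          ind (Ray q 1 ((f * c) ^ 3) β) * (nm c : ℂ) ^ (-(3 * s - 3))))), ← Finset.sum_mul,
        sum_creps_ind hq a1.1, one_mul, ind_congr ((IsCoprime.pow_left_iff three_pos).trans
          IsCoprime.mul_left_iff), ind_and, nm_pow, Nat.cast_pow,
        ← Complex.natCast_cpow_natCast_mul, nm_mul, Nat.cast_mul,
        Complex.natCast_mul_natCast_cpow, neg_sub, neg_sub, Complex.cpow_sub _ _ a2,
        Complex.cpow_sub _ _ a3, Nat.cast_ofNat, mul_neg, Complex.cpow_neg, Complex.cpow_neg,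
        Complex.cpow_ofNat, Complex.cpow_ofNat]
      · field_simp
      · intro γ _
        by_cases h : Ray q 1 f γ
        · have h3 := (h.mul_right (a1.of_mul he).1).pow 3
          rw [ind_congr (⟨h3.trans, (h3.symm hq).trans⟩ : Ray q 1 ((γ * c) ^ 3) β ↔ _)]
          ring
        · simp [ind_of_not h]
    · rw [Set.indicator_of_notMem (show e ∉ {e : R K | Prim e} from he), ind_of_not he, zero_mul]
  · intro c hc
    have a1 := left_ne_zero_of_mul (Function.mem_support.1 hc)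
    have a2 : Prim c := by
      by_contra a2
      exact left_ne_zero_of_mul a1 (ind_of_not fun h => a2 h.1)
    have a3 := right_ne_zero_of_mul a1
    rw [gq_zero hβ a2.1] at a3
    obtain ⟨e, he, rfl⟩ := g3_zero_ne a2 (right_ne_zero_of_mul a3)
    exact ⟨⟨e, he⟩, rfl⟩

end Vale.Agent.P319.TC
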