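import Vale.Agent.P319.N.ThMink
import Vale.Agent.P319.N.LatPois

/-! TH-B: counting rows and matrices.
PLAN.  `I = spanSingleton (M^a)⁻¹`; `Den a x` puts `x` in `I` (`sIn_R_iff0`).  `exists_bal`: `balanced_vec` (k = 1, `c v = log (t v)`).
`card_rows_high`: to each class `q ∈ s` attach a representative `f q = u • q.out` (injective, `Quot.mk _ (f q) = q`).
If `c = 0` balance `t v = |d_v|²`: `nK d ≤ nK (M^a)` (from `s' d = M^a`, `s' = M^a / d ∈ R ∩ O_S` since `d` is a unit), so `d` lies in a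
fixed ball (`card_ball_le`).  If `c ≠ 0` balance `t v = denC / y_v`, `∏ t ≤ X`, so `t v ≤ A = C X^(1/r)`:
`|c_v|² ≤ A / y_v`, `|c_v z_v + d_v|² ≤ A y_v`; `card_box_le` gives at most `C (1 + A^r / Y)` values of `c`, where
`1 ≤ nK (M^a) nK c ≤ nK (M^a) A^r / Y`, and at most `C (1 + A^r Y)` values of `d` for each `c` (`card_le_fib` of P026 ThCount).
`card_rows`: move `w` by `exists_high`, `exists_rowQEquiv g⁻¹`, `Box.rmul`, `box_unit`, `vr_act`.
`card_act`: if `g₀` is one such matrix then `g g₀⁻¹` is `MDen (2 b)` with bounded entries (`entry_le_of_box`).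
`finite_act`: `Ht (act g w) ≤ B` by `vr_le`, `MDen.box_row`; with all heights `≥ 1 / T` every height is `≤ B T^(r-1)`. -/

namespace Vale.Agent.P319

open scoped ComplexConjugate Real Topology ENNReal NNReal InnerProductSpace NumberField
open MeasureTheory Filter Set

variable {K : Type} [Field K] [NumberField K] [Stp K]

theorem exists_bal : ∃ C : ℝ, 1 ≤ C ∧ ∀ t : Pl K → ℝ, (∀ v, 0 < t v) → ∃ u ∈ EU K, ∀ v,
    (‖ev v ((u : R K) : K)‖ ^ 2 * t v) ^ Fintype.card (Pl K) ≤ C * ∏ v, t v := by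
  obtain ⟨T, hT⟩ := balanced_vec (K := K) one_pos
  refine ⟨Real.exp (rr K * |T|), Real.one_le_exp (by positivity), fun t ht => ?_⟩
  obtain ⟨u, hu, h⟩ := hT fun v => Real.log (t v)
  refine ⟨u, hu, fun v => ?_⟩
  have h1 := (abs_le.1 ((h v).trans (le_abs_self T))).2
  have hr : (0 : ℝ) < rr K := Nat.cast_pos.2 rr_pos
  rw [← Real.log_prod fun v _ => (ht v).ne', sub_le_iff_le_add, ← sub_le_iff_le_add',
    le_div_iff₀ hr] at h1
  rw [← exp_lg v (unit_ne_zero u), ← Real.exp_log (ht v), ← Real.exp_add, ← Real.exp_nat_mul,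
    ← Real.exp_log (Finset.prod_pos fun v _ => ht v), ← Real.exp_add, Real.exp_le_exp]
  linarith

private theorem cnt_mem {a : ℕ} {x : R K} (h : Den a x) :
    (x : K) ∈ FractionalIdeal.spanSingleton (nonZeroDivisors (𝓞 K)) ((MM K : K) ^ a)⁻¹ := by
  obtain ⟨t, -, e⟩ := mem_inR.1 (den_iff.1 h)
  have := congrArg (algebraMap (R K) K) e
  rw [coe_int, map_mul, map_pow, map_natCast] at this
  refine (FractionalIdeal.mem_spanSingleton _).2 ⟨t, ?_⟩
  rw [Algebra.smul_def, mul_inv_eq_iff_eq_mul₀ (pow_ne_zero _ M_ne_zero), mul_comm, this]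

private theorem cnt_box (a : ℕ) : ∃ C : ℝ, 0 < C ∧ ∀ (z : Pl K → ℂ) (ρ : Pl K → ℝ)
    (s : Finset (R K)), (∀ v, 0 < ρ v) →
      (∀ x ∈ s, Den a x ∧ ∀ v, ‖ev v (x : K) - z v‖ ^ 2 ≤ ρ v) →
        (s.card : ℝ) ≤ C * (1 + ∏ v, ρ v) := by
  classical
  obtain ⟨C, hC, h⟩ := card_box_le
    (FractionalIdeal.spanSingleton (nonZeroDivisors (𝓞 K)) ((MM K : K) ^ a)⁻¹)
  refine ⟨C, hC, fun z ρ s hρ hs => ?_⟩
  have := h z (fun v => √(ρ v)) (s.image (algebraMap (R K) K)) (fun v => Real.sqrt_pos.2 (hρ v))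
    fun x hx => by
      obtain ⟨y, hy, rfl⟩ := Finset.mem_image.1 hx
      exact ⟨cnt_mem (hs y hy).1, fun v => Real.le_sqrt_of_sq_le ((hs y hy).2 v)⟩
  rwa [Finset.card_image_of_injective _ coe_injective,
    Finset.prod_congr rfl fun v _ => Real.sq_sqrt (hρ v).le] at this

private theorem cnt_root {B : ℝ} (hB : 0 < B) : ∃ A : ℝ, 0 < A ∧ ∏ _v : Pl K, A = B ∧
    ∀ x : ℝ, 0 ≤ x → x ^ Fintype.card (Pl K) ≤ B → x ≤ A := by
  have h := Real.rpow_inv_natCast_pow hB.le (card_Pl_pos (K := K)).ne'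
  refine ⟨B ^ ((Fintype.card (Pl K) : ℝ)⁻¹), by positivity, by
    rw [Finset.prod_const, Finset.card_univ, h], fun x hx h1 => ?_⟩
  rwa [← pow_le_pow_iff_left₀ hx (by positivity) (card_Pl_pos (K := K)).ne', h]

private theorem cnt_lift (s : Finset (RowQ K)) {P : R K × R K → Prop}
    (h : ∀ q ∈ s, ∃ u ∈ EU K, P ((u : R K) * q.out.1, (u : R K) * q.out.2)) :
    ∃ t : Finset (R K × R K), t.card = s.card ∧ ∀ r ∈ t, P r := by
  classical
  choose! u hu hP using h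
  refine ⟨s.image fun q => ((u q : R K) * q.out.1, (u q : R K) * q.out.2),
    Finset.card_image_of_injOn fun q hq q' hq' e => ?_, fun r hr => ?_⟩
  · have k : ∀ q ∈ s, q = Quot.mk _ ((u q : R K) * q.out.1, (u q : R K) * q.out.2) :=
      fun q hq => q.out_eq.symm.trans (RowQ_eq.2 ⟨u q, hu q hq, rfl⟩)
    exact (k q hq).trans ((congrArg _ e).trans (k q' hq').symm)
  · obtain ⟨q, hq, rfl⟩ := Finset.mem_image.1 hr
    exact hP q hq

private theorem cnt_fib {α β : Type*} [DecidableEq β] (s : Finset α) (f : α → β) {B : ℝ}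
    (h : ∀ b ∈ s.image f, ((s.filter fun a => f a = b).card : ℝ) ≤ B) :
    (s.card : ℝ) ≤ (s.image f).card * B := by
  rw [Finset.card_eq_sum_card_image f s, Nat.cast_sum, ← nsmul_eq_mul]
  exact Finset.sum_le_card_nsmul _ _ _ h

private theorem cnt_nK_le {a : ℕ} {r : R K × R K} (h : Box a r) (h0 : r.1 = 0) :
    nK (r.2 : K) ≤ nK ((MM K : K) ^ a) := by
  obtain ⟨h1, -, -, s, t, -, ht, e⟩ := h
  rw [h0, isCoprime_zero_left] at h1
  obtain ⟨u, hu⟩ := h1
  rw [h0, map_zero, mul_zero, zero_add, ← hu] at e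
  have k : Den a ((u⁻¹ : (R K)ˣ) : R K) := by
    rwa [Den, coe_unit_inv, ← e, mul_inv_cancel_right₀ (coe_unit_ne_zero u)]
  have := k.one_le_nK (Units.ne_zero _)
  rwa [coe_unit_inv, nK_inv, ← div_eq_mul_inv, one_le_div (nK_pos (coe_unit_ne_zero u)), hu] at this

theorem card_rows_high (a : ℕ) {V : ℝ} (hV : 0 < V) : ∃ C : ℝ, 0 < C ∧ ∀ w : Hy K, Pos w →
    V ≤ Ht w → ∀ X : ℝ, 0 < X → ∀ s : Finset (RowQ K),
      (∀ q ∈ s, Box a q.out ∧ 1 / X ≤ vr q.out w) → (s.card : ℝ) ≤ C * (1 + X ^ 2) := by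
  classical
  obtain ⟨C, hC, hc⟩ := cnt_box (K := K) a
  obtain ⟨D, hD, hd⟩ := exists_bal (K := K)
  obtain ⟨N, hN⟩ : ∃ N, N = nK ((MM K : K) ^ a) := ⟨_, rfl⟩
  have N0 : 0 < N := hN ▸ nK_pos (pow_ne_zero _ M_ne_zero)
  have D0 : 0 < D := by linarith
  refine ⟨C * (1 + D * N) + C ^ 2 * (N + 1) * D * (1 / V + D), by positivity,
    fun w hw h4 X hX s hs => ?_⟩
  have hY := hw.ht_pos
  obtain ⟨A₀, a0, a1, a2⟩ := cnt_root (K := K) (mul_pos D0 N0)
  obtain ⟨A, b0, b1, b2⟩ := cnt_root (K := K) (mul_pos D0 hX)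
  obtain ⟨s', e, hs'⟩ := cnt_lift s (P := fun r => Box a r ∧
      (r.1 = 0 → ∀ v, ‖ev v (r.2 : K)‖ ^ 2 ≤ A₀) ∧
      (r.1 ≠ 0 → ∀ v, denC (ev v (r.1 : K)) (ev v (r.2 : K)) (w v) ≤ A * (w v).2)) fun q hq => by
    obtain ⟨h1, h2⟩ := hs q hq
    have h0 := ne_zero_of_coprime h1.1
    by_cases h3 : q.out.1 = 0
    · have h5 : (q.out.2 : K) ≠ 0 := coe_ne_zero fun k => h0 (Prod.ext h3 k)
      obtain ⟨u, hu, h6⟩ := hd (fun v => ‖ev v (q.out.2 : K)‖ ^ 2)
        fun v => pow_pos (norm_pos_iff.2 (ev_ne_zero v h5)) 2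
      refine ⟨u, hu, (box_unit hu _).2 h1, fun _ v => a2 _ (by positivity) ?_,
        fun k => (k (by rw [h3, mul_zero])).elim⟩
      rw [map_mul, ev_mul, norm_mul, mul_pow]
      refine (h6 v).trans (mul_le_mul_of_nonneg_left ?_ D0.le)
      rw [prod_norm_ev, hN]
      exact cnt_nK_le h1 h3
    · obtain ⟨u, hu, h6⟩ := hd
        (fun v => denC (ev v (q.out.1 : K)) (ev v (q.out.2 : K)) (w v) / (w v).2)
        fun v => div_pos (den_ev_pos h0 hw v) (hw v)
      refine ⟨u, hu, (box_unit hu _).2 h1, fun k => (mul_ne_zero u.ne_zero h3 k).elim,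
        fun _ v => ?_⟩
      rw [map_mul, map_mul, ev_mul, ev_mul, denC_mul, ← div_le_iff₀ (hw v), mul_div_assoc]
      refine b2 _ (mul_nonneg (by positivity) (div_pos (den_ev_pos h0 hw v) (hw v)).le)
        ((h6 v).trans (mul_le_mul_of_nonneg_left ?_ D0.le))
      rw [one_div_le hX (vr_pos h0 hw), vr, one_div, ← Finset.prod_inv_distrib] at h2
      simpa only [inv_div] using h2
  rw [← e]
  have h0 : ((s'.filter fun r => r.1 = 0).card : ℝ) ≤ C * (1 + D * N) := by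
    rw [← Finset.card_image_of_injOn (f := Prod.snd), ← a1]
    · refine hc 0 _ _ (fun _ => a0) fun x hx => ?_
      obtain ⟨r, hr, rfl⟩ := Finset.mem_image.1 hx
      obtain ⟨hr, h1⟩ := Finset.mem_filter.1 hr
      exact ⟨(hs' r hr).1.den2, fun v => by simpa using (hs' r hr).2.1 h1 v⟩
    · intro r hr r' hr' h
      exact Prod.ext ((Finset.mem_filter.1 hr).2.trans (Finset.mem_filter.1 hr').2.symm) h
  have h1 : ((s'.filter fun r => ¬r.1 = 0).card : ℝ) ≤
      C ^ 2 * (N + 1) * D * (1 / V + D) * (1 + X ^ 2) := by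
    set t := s'.filter fun r => ¬r.1 = 0
    rcases t.eq_empty_or_nonempty with h | ⟨r0, hr0⟩
    · rw [h]; simp only [Finset.card_empty, Nat.cast_zero]; positivity
    have ht : ∀ r ∈ t, Box a r ∧ r.1 ≠ 0 ∧ ∀ v, ‖ev v (r.1 : K) * (w v).1 + ev v (r.2 : K)‖ ^ 2 +
        ‖ev v (r.1 : K)‖ ^ 2 * (w v).2 ^ 2 ≤ A * (w v).2 := fun r hr => by
      obtain ⟨k1, k2⟩ := Finset.mem_filter.1 hr
      exact ⟨(hs' r k1).1, k2, (hs' r k1).2.2 k2⟩
    have hb : ∀ r ∈ t, ∀ v, ‖ev v (r.1 : K)‖ ^ 2 ≤ A / (w v).2 := by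
      intro r hr v
      have := (ht r hr).2.2 v
      have k := hw v
      rw [le_div_iff₀ k]
      nlinarith [sq_nonneg ‖ev v (r.1 : K) * (w v).1 + ev v (r.2 : K)‖]
    have p1 : ∏ v, A / (w v).2 = D * X / Ht w := by rw [Finset.prod_div_distrib, b1, Ht]
    have p2 : ∏ v, A * (w v).2 = D * X * Ht w := by rw [Finset.prod_mul_distrib, b1, Ht]
    have h2 : 1 ≤ N * (D * X / Ht w) := by
      refine ((ht r0 hr0).1.den1.one_le_nK (ht r0 hr0).2.1).trans ?_
      rw [← hN, ← p1, ← prod_norm_ev]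
      exact mul_le_mul_of_nonneg_left
        (Finset.prod_le_prod (fun v _ => by positivity) fun v _ => hb r0 hr0 v) N0.le
    have h3 : ((t.image Prod.fst).card : ℝ) ≤ C * (1 + D * X / Ht w) := by
      rw [← p1]
      refine hc 0 _ _ (fun v => div_pos b0 (hw v)) fun x hx => ?_
      obtain ⟨r, hr, rfl⟩ := Finset.mem_image.1 hx
      exact ⟨(ht r hr).1.den1, fun v => by simpa using hb r hr v⟩
    have h5 := cnt_fib t Prod.fst (B := C * (1 + D * X * Ht w)) (by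
      intro c _
      rw [← Finset.card_image_of_injOn (f := Prod.snd), ← p2]
      · refine hc (fun v => -(ev v (c : K) * (w v).1)) _ _ (fun v => mul_pos b0 (hw v))
          fun x hx => ?_
        obtain ⟨r, hr, rfl⟩ := Finset.mem_image.1 hx
        obtain ⟨hr', rfl⟩ := Finset.mem_filter.1 hr
        refine ⟨(ht r hr').1.den2, fun v => ?_⟩
        rw [sub_neg_eq_add, add_comm]
        exact (le_add_of_nonneg_right (by positivity)).trans ((ht r hr').2.2 v)
      · intro r hr r' hr' h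
        exact Prod.ext ((Finset.mem_filter.1 hr).2.trans (Finset.mem_filter.1 hr').2.symm) h)
    have h6 : X / Ht w ≤ 1 / V * (1 + X ^ 2) := by
      rw [one_div_mul_eq_div]
      exact div_le_div₀ (by positivity) (by nlinarith [sq_nonneg (X - 1)]) hV h4
    calc (t.card : ℝ) ≤ C * ((N + 1) * (D * X / Ht w)) * (C * (1 + D * X * Ht w)) := by
          refine h5.trans (mul_le_mul_of_nonneg_right (h3.trans ?_) (by positivity))
          gcongr
          linarith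
      _ = C ^ 2 * (N + 1) * D * (X / Ht w + D * X ^ 2) := by field_simp
      _ ≤ C ^ 2 * (N + 1) * D * ((1 / V + D) * (1 + X ^ 2)) := by
          gcongr
          nlinarith
      _ = _ := by ring
  rw [← Finset.card_filter_add_card_filter_not (s := s') (fun r => r.1 = 0), Nat.cast_add, add_mul]
  exact add_le_add (h0.trans (le_mul_of_one_le_right (by positivity) (by nlinarith))) h1

theorem card_rows (a : ℕ) : ∃ C : ℝ, 0 < C ∧ ∀ w : Hy K, Pos w → ∀ X : ℝ, 0 < X →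
    ∀ s : Finset (RowQ K), (∀ q ∈ s, Box a q.out ∧ 1 / X ≤ vr q.out w) →
      (s.card : ℝ) ≤ C * (1 + X ^ 2) := by
  obtain ⟨b, V, hV, h⟩ := exists_high (K := K)
  obtain ⟨C, hC, hc⟩ := card_rows_high (K := K) (a + b) hV
  refine ⟨C, hC, fun w hw X hX s hs => ?_⟩
  obtain ⟨g, hg, hg'⟩ := h w hw
  obtain ⟨e, he⟩ := exists_rowQEquiv g⁻¹
  rw [← Finset.card_map e.toEmbedding]
  refine hc _ (act_pos g hw) hg' X hX _ fun q hq => ?_
  obtain ⟨q, hq', rfl⟩ := Finset.mem_map.1 hq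
  rw [Equiv.coe_toEmbedding, he]
  refine ⟨?_, ?_⟩
  · obtain ⟨u, hu, k⟩ := RowQ_out (rmul q.out g⁻¹)
    rw [k, box_unit hu]
    exact (hs q hq').1.rmul hg.inv
  · have := (einv_vr (act g w)).out (rmul q.out g⁻¹)
    beta_reduce at this
    rw [this, vr_act _ _ hw, rmul_inv_cancel']
    exact (hs q hq').2

theorem finite_mden (b : ℕ) (T : ℝ) :
    {g : SL2 K | MDen b g ∧ ∀ v i j, ‖ev v ((g.1 i j : R K) : K)‖ ≤ T}.Finite := by
  have h := (finite_ball (FractionalIdeal.spanSingleton (nonZeroDivisors (𝓞 K))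
    ((MM K : K) ^ b)⁻¹) T).preimage coe_injective.injOn
  refine ((Set.Finite.pi' fun _ : Fin 2 => Set.Finite.pi' fun _ : Fin 2 => h).preimage
    (f := fun g : SL2 K => g.1) Subtype.val_injective.injOn).subset fun g hg i j =>
      ⟨cnt_mem (hg.1 i j), ?_⟩
  exact (pi_norm_le_iff_of_nonneg ((norm_nonneg _).trans (hg.2 (v0 K) i j))).2 fun v => hg.2 v i j

theorem card_act (b : ℕ) {T : ℝ} (hT : 0 < T) : ∃ N : ℕ, ∀ w : Hy K, Pos w →
    ∃ s : Finset (SL2 K), s.card ≤ N ∧ ∀ g, MDen b g → InBox T (act g w) → g ∈ s := by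
  classical
  have hF := finite_mden (K := K) (b + b) (4 * max T 1 ^ 4)
  refine ⟨hF.toFinset.card, fun w hw => ?_⟩
  by_cases h : ∃ g₀, MDen b g₀ ∧ InBox T (act g₀ w)
  swap
  · exact ⟨∅, Nat.zero_le _, fun g h1 h2 => (h ⟨g, h1, h2⟩).elim⟩
  obtain ⟨g₀, h1, h2⟩ := h
  refine ⟨hF.toFinset.image (· * g₀), Finset.card_image_le, fun g h3 h4 =>
    Finset.mem_image.2 ⟨g * g₀⁻¹, hF.mem_toFinset.2 ⟨h3.mul h1.inv, fun v i j => ?_⟩,
      inv_mul_cancel_right _ _⟩⟩
  refine entry_le_of_box (evM v (g * g₀⁻¹)) (le_max_right _ _) (h2.mono hT (le_max_left _ _) v)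
    ?_ i j
  rw [← act_apply, ← act_mul _ _ hw, inv_mul_cancel_right]
  exact h4.mono hT (le_max_left _ _) v

theorem finite_act (b : ℕ) {w : Hy K} (hw : Pos w) {T : ℝ} (hT : 0 < T) :
    {g : SL2 K | MDen b g ∧ act g w ∈ Sg K T}.Finite := by
  obtain ⟨B, hB⟩ : ∃ B, B = nK ((MM K : K) ^ b) * max (Ht w) (1 / Ht w) := ⟨_, rfl⟩
  obtain ⟨N, hN⟩ := card_act (K := K) b (T := max T (B * T ^ (Fintype.card (Pl K) - 1)))
    (lt_max_of_lt_left hT)
  obtain ⟨s, -, hs⟩ := hN w hw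
  refine s.finite_toSet.subset fun g hg => hs g hg.1 fun v => ⟨le_max_of_le_left (hg.2 v).1,
    (one_div_le_one_div_of_le hT (le_max_left _ _)).trans (hg.2 v).2, le_max_of_le_right ?_⟩
  have h1 := vr_le hg.1.box_row hw
  rw [← hB, ← Ht_act, Ht, ← Finset.mul_prod_erase _ _ (Finset.mem_univ v)] at h1
  have h2 : ∏ _v ∈ Finset.univ.erase v, 1 / T ≤ ∏ v' ∈ Finset.univ.erase v, (act g w v').2 :=
    Finset.prod_le_prod (fun _ _ => by positivity) fun v' _ => (hg.2 v').2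
  rw [Finset.prod_const, Finset.card_erase_of_mem (Finset.mem_univ v), Finset.card_univ,
    one_div_pow] at h2
  rw [← div_le_iff₀ (by positivity), div_eq_mul_one_div]
  exact (mul_le_mul_of_nonneg_left h2 (act_pos g hw v).le).trans h1

end Vale.Agent.P319
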