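import Vale.Agent.P319.N.ThOp

/-! TH-B: incomplete Eisenstein series are finite combinations of Poincaré series of cuspidal strips.
Sum `γ ↦ conj (Ψ (row γ)) / n (row γ) * G (act γ w)` over the matrices with `MDen a γ` in two ways. -/

namespace Vale.Agent.P319

open scoped ComplexConjugate Real Topology ENNReal NNReal InnerProductSpace NumberField
open MeasureTheory Filter Set

variable {K : Type} [Field K] [NumberField K] [Stp K]

/-- coset decomposition -/
noncomputable def cosetEquiv (Γ : Subgroup (SL2 K)) : (SL2 K ⧸ Γ) × Γ ≃ SL2 K :=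
  Equiv.ofBijective (fun p => p.1.out * p.2) ⟨fun p p' h => by
    have e : ∀ p : (SL2 K ⧸ Γ) × Γ, ((p.1.out * p.2 : SL2 K) : SL2 K ⧸ Γ) = p.1 := fun p => by
      rw [QuotientGroup.mk_mul_of_mem _ p.2.2, QuotientGroup.out_eq']
    have h1 : p.1 = p'.1 := by rw [← e p, ← e p']; exact congrArg _ h
    refine Prod.ext h1 (Subtype.ext ?_)
    beta_reduce at h
    rw [h1] at h
    exact mul_left_cancel h,
  fun g => ⟨((g : SL2 K ⧸ Γ), ⟨(g : SL2 K ⧸ Γ).out⁻¹ * g,
    QuotientGroup.eq.1 (QuotientGroup.out_eq' _)⟩), mul_inv_cancel_left _ _⟩⟩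

theorem cosetEquiv_apply (Γ : Subgroup (SL2 K)) (p : (SL2 K ⧸ Γ) × Γ) :
    cosetEquiv Γ p = p.1.out * p.2 := rfl

variable {a : ℕ} {m m' : Ideal (𝓞 K)} {Ψ : R K × R K → ℂ} {ψ : ℝ → ℂ} {P : Set (Pl K → ℂ)}

open Classical in
/-- cut off a function of the total height by a fundamental set for the units -/
noncomputable def chi (ψ : ℝ → ℂ) (y : Pl K → ℝ) : ℂ :=
  if (∀ v, 0 < y v) ∧ pr (fun v => Real.log (y v)) ∈ DD K then ψ (∏ v, y v) else 0

theorem test1_chi (hψ : Tst ψ) : Test1 (chi ψ : (Pl K → ℝ) → ℂ) := by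
  obtain ⟨h1, M, hM, h⟩ := hψ
  obtain ⟨hD, hb, -⟩ := uf_DD (K := K)
  obtain ⟨A, hA⟩ : ∃ A : ℝ, ∀ t ∈ DD K, ∀ v, |ex t v| ≤ A := by
    obtain ⟨A, hA⟩ := hb.isCompact_closure.exists_bound_of_continuousOn
      (f := fun t : HH K => fun v => ex t v) (continuous_pi continuous_ex).continuousOn
    exact ⟨A, fun t ht v => (norm_le_pi_norm (fun v => ex t v) v).trans (hA t (subset_closure ht))⟩
  refine ⟨Measurable.ite ?_ (h1.comp (Finset.measurable_prod _ fun v _ => measurable_pi_apply v))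
    measurable_const, max M (Real.exp (A + |Real.log M|)), lt_max_of_lt_left hM, fun y => ?_⟩
  · refine MeasurableSet.inter ?_ ((contDiff_pr.continuous.measurable.comp
      (measurable_pi_lambda _ fun v => (measurable_pi_apply v).log)) hD)
    have := MeasurableSet.iInter fun v : Pl K => measurableSet_lt
      (measurable_const (a := (0 : ℝ))) (measurable_pi_apply (X := fun _ : Pl K => ℝ) v)
    rwa [← ofPred_forall] at this
  unfold chi
  split_ifs with k
  · refine ⟨(h _).1.trans (le_max_left _ _), fun k' v => ?_⟩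
    obtain ⟨b1, b2⟩ := (h _).2 k'
    have p0 : 0 < ∏ v, y v := Finset.prod_pos fun v _ => k.1 v
    have c1 : |Real.log (∏ v, y v)| ≤ |Real.log M| := by
      have d1 := Real.log_le_log p0 b2
      have d2 := Real.log_le_log (one_div_pos.2 hM) b1
      rw [one_div, Real.log_inv] at d2
      exact abs_le.2 ⟨by linarith [le_abs_self (Real.log M)], d1.trans (le_abs_self _)⟩
    have c2 := hA _ k.2 v
    rw [ex_pr, ← Real.log_prod fun v _ => (k.1 v).ne'] at c2
    have c3 : |Real.log (∏ v, y v) / rr K| ≤ |Real.log M| := by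
      rw [abs_div, Nat.abs_cast]
      exact (div_le_self (abs_nonneg _) (by exact_mod_cast rr_pos)).trans c1
    have c4 : |Real.log (y v)| ≤ A + |Real.log M| := by
      have := abs_add_le (Real.log (y v) - Real.log (∏ v, y v) / rr K)
        (Real.log (∏ v, y v) / rr K)
      rw [sub_add_cancel] at this
      linarith
    obtain ⟨c5, c6⟩ := abs_le.1 c4
    constructor
    · refine (one_div_le_one_div_of_le (Real.exp_pos _) (le_max_right _ _)).trans ?_
      rw [one_div, ← Real.exp_neg]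
      exact (Real.le_log_iff_exp_le (k.1 v)).1 c5
    · exact ((Real.log_le_iff_le_exp (k.1 v)).1 c6).trans (le_max_right _ _)
  · exact ⟨by rw [norm_zero]; exact le_max_of_le_left hM.le, fun k' => absurd rfl k'⟩

theorem tsum_chi (ψ : ℝ → ℂ) {y : Pl K → ℝ} (hy : ∀ v, 0 < y v) :
    ∑' u : EU K, chi ψ (fun v => ‖ev v ((u.1 : R K) : K)‖ ^ 2 * y v) = ψ (∏ v, y v) := by
  obtain ⟨u, hu, hu'⟩ := (uf_DD (K := K)).2.2 (pr fun v => Real.log (y v))
  have e : ∀ u : EU K, pr (fun v => Real.log (‖ev v ((u.1 : R K) : K)‖ ^ 2 * y v)) =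
      pr (fun v => Real.log (y v)) + (1 : ℝ) • lgH ((u.1 : R K) : K) := by
    intro u
    rw [one_smul, lgH, ← pr_add]
    congr 1
    funext v
    have := norm_pos_iff.2 (ev_ne_zero v (unit_ne_zero u.1))
    rw [Real.log_mul (by positivity) (hy v).ne', Pi.add_apply, lg, add_comm]
  rw [tsum_eq_single u fun u' h' => by
    rw [chi, if_neg fun k => h' (hu' u' (by simpa only [e] using k.2))]]
  rw [chi, if_pos ⟨fun v => mul_pos (pow_pos (norm_pos_iff.2 (ev_ne_zero v (unit_ne_zero u.1))) 2)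
    (hy v), by simpa only [e] using hu⟩, Finset.prod_mul_distrib, prod_norm_ev, nK_EU u.2, one_mul]

theorem Tile.test (hP : Tile m P) {χ : (Pl K → ℝ) → ℂ} (hχ : Test1 χ) :
    Test fun w : Hy K => P.indicator (fun _ => (1 : ℂ)) (fun v => (w v).1) *
      χ fun v => (w v).2 := by
  obtain ⟨h1, ⟨A, hA⟩, -⟩ := hP
  obtain ⟨h2, M, hM, h⟩ := hχ
  refine ⟨((measurable_const.indicator h1).comp
    (measurable_pi_lambda _ fun v => (measurable_pi_apply v).fst)).mul
      (h2.comp (measurable_pi_lambda _ fun v => (measurable_pi_apply v).snd)),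
    max A M, lt_max_of_lt_right hM, fun w => ?_⟩
  by_cases k : (fun v => (w v).1) ∈ P
  · simp only [indicator_of_mem k, one_mul]
    exact ⟨(h _).1.trans (le_max_right _ _), fun k' v =>
      ⟨((norm_le_pi_norm (fun v => (w v).1) v).trans (hA _ k)).trans (le_max_left _ _),
      (one_div_le_one_div_of_le hM (le_max_right _ _)).trans ((h _).2 k' v).1,
      ((h _).2 k' v).2.trans (le_max_right _ _)⟩⟩
  · simp only [indicator_of_notMem k, zero_mul, norm_zero]
    exact ⟨le_max_of_le_right hM.le, fun k' => absurd rfl k'⟩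

theorem cusp_finite_den (b : ℕ) (T : ℝ) :
    {x : R K | Den b x ∧ ∀ v, ‖ev v (x : K)‖ ≤ T}.Finite := by
  refine ((finite_mden (K := K) b (max 1 T)).image fun g => g.1 0 1).subset fun x hx =>
    ⟨mN x, ⟨mden_mN hx.1, fun v i j => ?_⟩, rfl⟩
  fin_cases i <;> fin_cases j
  · exact le_max_of_le_left (by simp [mN_00])
  · exact le_max_of_le_right (hx.2 v)
  · exact le_max_of_le_left (by simp [mN_10])
  · exact le_max_of_le_left (by simp [mN_11])

theorem tile_tsum (hP : Tile m P) {Λ : AddSubgroup (R K)} (h1 : ∀ x ∈ inR m, x ∈ Λ) {b : ℕ}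
    (h2 : ∀ x ∈ Λ, Den b x) : (inR m).toAddSubgroup.relIndex Λ ≠ 0 ∧ ∀ z : Pl K → ℂ,
      ∑' x : Λ, P.indicator (fun _ => (1 : ℂ)) (z + emb ((x : R K) : K)) =
        (inR m).toAddSubgroup.relIndex Λ := by
  obtain ⟨-, ⟨A, hA⟩, h⟩ := hP
  have key : ∀ z : Pl K → ℂ, {x : Λ | z + emb ((x : R K) : K) ∈ P}.Finite ∧
      Function.Bijective fun x : {x : Λ | z + emb ((x : R K) : K) ∈ P} =>
        ((x : Λ) : Λ ⧸ (inR m).toAddSubgroup.addSubgroupOf Λ) := by
    intro z
    refine ⟨((cusp_finite_den (K := K) b (A + ‖z‖)).preimage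
      (f := fun x : Λ => (x : R K)) Subtype.val_injective.injOn).subset fun x hx =>
        ⟨h2 _ x.2, fun v => ?_⟩, fun x x' e => ?_, fun q => ?_⟩
    · have a1 := norm_sub_le (z + emb ((x : R K) : K)) z
      rw [add_sub_cancel_left] at a1
      exact (norm_le_pi_norm (emb ((x : R K) : K)) v).trans (by linarith [hA _ hx])
    · obtain ⟨t, ht, e'⟩ := mem_inR.1 (AddSubgroup.mem_addSubgroupOf.1 (QuotientAddGroup.eq.1 e))
      have e2 : ((x'.1 : R K) : K) = ((x.1 : R K) : K) + (t : K) := by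
        rw [← coe_int t, ← e']
        simp
      obtain ⟨y, -, hy⟩ := h (z + emb ((x.1 : R K) : K))
      have k0 : z + emb ((x.1 : R K) : K) ∈ P := x.2
      have k1 := hy 0 ⟨m.zero_mem, by simpa [emb_zero] using k0⟩
      have k2 := hy t ⟨ht, by rw [add_assoc, ← emb_add, ← e2]; exact x'.2⟩
      rw [k2, ← k1] at e2
      exact Subtype.ext (Subtype.ext (coe_injective (by simpa using e2.symm)))
    · obtain ⟨x, rfl⟩ := QuotientAddGroup.mk_surjective q
      obtain ⟨y, ⟨y1, y2⟩, -⟩ := h (z + emb ((x : R K) : K))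
      have hy : algebraMap (𝓞 K) (R K) y ∈ inR m := mem_inR.2 ⟨y, y1, rfl⟩
      refine ⟨⟨x + ⟨_, h1 _ hy⟩, ?_⟩, ?_⟩
      · change z + emb (((x : R K) + algebraMap (𝓞 K) (R K) y : R K) : K) ∈ P
        rwa [map_add, emb_add, ← add_assoc, coe_int]
      · exact QuotientAddGroup.mk_add_of_mem _ (AddSubgroup.mem_addSubgroupOf.2 hy)
  constructor
  · have := (key 0).1.to_subtype
    have := Finite.of_surjective _ (key 0).2.2
    exact Nat.card_pos.ne'
  · intro z
    rw [tsum_eq_sum (s := (key z).1.toFinset) fun x hx =>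
      indicator_of_notMem (s := P) (fun k => hx ((key z).1.mem_toFinset.2 k)) _,
      Finset.sum_congr rfl fun x hx =>
        indicator_of_mem (s := P) ((key z).1.mem_toFinset.1 hx) (fun _ => (1 : ℂ)),
      Finset.sum_const, nsmul_one, ← Set.ncard_eq_toFinset_card _ (key z).1, ← Nat.card_coe_set_eq,
      Nat.card_eq_of_bijective _ (key z).2]
    rfl

/-- the translations that keep the denominators bounded -/
noncomputable def Lam (a : ℕ) (r : R K × R K) : AddSubgroup (R K) where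
  carrier := {x | Den a (x * r.1) ∧ Den a (x * r.2)}
  add_mem' := fun h h' => ⟨by rw [add_mul]; exact h.1.add h'.1, by rw [add_mul]; exact h.2.add h'.2⟩
  zero_mem' := by
    have : Den a (0 : R K) := by simpa [Den] using sIn_zero (K := K) 0
    exact ⟨by rwa [zero_mul], by rwa [zero_mul]⟩
  neg_mem' := fun h => ⟨by rw [neg_mul]; exact h.1.neg, by rw [neg_mul]; exact h.2.neg⟩

theorem lam_le {r : R K × R K} {δ : SL2 K} (hδ : MDen 0 δ) : Lam a r ≤ Lam a (rmul r δ) := by
  intro x hx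
  constructor <;> simp only [rmul, mul_add, ← mul_assoc]
  · exact (hx.1.mul (hδ 0 0)).add (hx.2.mul (hδ 1 0))
  · exact (hx.1.mul (hδ 0 1)).add (hx.2.mul (hδ 1 1))

theorem lam_rmul (r : R K × R K) {δ : SL2 K} (hδ : MDen 0 δ) : Lam a (rmul r δ) = Lam a r :=
  le_antisymm (by simpa only [rmul_inv_cancel] using lam_le (a := a) (r := rmul r δ) hδ.inv)
    (lam_le hδ)

theorem einv_lam (a : ℕ) : EInv (Lam (K := K) a) := by
  have key : ∀ u ∈ EU K, ∀ r : R K × R K, Lam a r ≤ Lam a ((u : R K) * r.1, (u : R K) * r.2) := by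
    intro u hu r x hx
    have h : Den 0 (u : R K) := mden_mD hu 0 0
    exact ⟨by rw [mul_left_comm, mul_comm]; exact hx.1.mul h,
      by rw [mul_left_comm, mul_comm]; exact hx.2.mul h⟩
  intro u hu r
  refine le_antisymm ?_ (key u hu r)
  simpa only [Units.inv_mul_cancel_left] using
    key u⁻¹ (inv_mem hu) ((u : R K) * r.1, (u : R K) * r.2)

theorem mem_lam {r : R K × R K} (hr : Box a r) {x : R K} (hx : x ∈ inR m) : x ∈ Lam a r := by
  have h : Den 0 x := den_zero_iff.2 (inR_mono le_top hx)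
  exact ⟨by rw [mul_comm]; exact hr.den1.mul h, by rw [mul_comm]; exact hr.den2.mul h⟩

theorem den_of_lam {r : R K × R K} (hr : Box a r) {x : R K} (hx : x ∈ Lam a r) :
    Den (a + a) x := by
  obtain ⟨s, t, hs, ht, e⟩ := hr.2.2.2
  have h := (SIn.mul_left hx.1 hs).add (SIn.mul_left hx.2 ht)
  unfold Den
  rw [pow_add, mul_assoc]
  nth_rewrite 2 [← e]
  refine (congrArg (SIn 0) ?_).mp h
  rw [map_mul, map_mul]
  ring

theorem mden_mN_mul {g : SL2 K} (hg : MDen a g) (x : R K) :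
    MDen a (mN x * g) ↔ x ∈ Lam a (row g) := by
  have e0 : ∀ j, (mN x * g).1 0 j = g.1 0 j + x * g.1 1 j := fun j => by
    rw [sl2_mul, mN_00, mN_01, one_mul]
  have e1 : ∀ j, (mN x * g).1 1 j = g.1 1 j := fun j => by
    rw [sl2_mul, mN_10, mN_11, one_mul, zero_mul, zero_add]
  constructor
  · intro h
    have k : ∀ j, Den a (x * g.1 1 j) := fun j => by
      have := (h 0 j).add (hg 0 j).neg
      rwa [e0, add_neg_cancel_comm] at this
    exact ⟨k 0, k 1⟩
  · intro h
    refine Fin.forall_fin_two.2 ⟨Fin.forall_fin_two.2 ⟨?_, ?_⟩, fun j => ?_⟩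
    · rw [e0]; exact (hg 0 0).add h.1
    · rw [e0]; exact (hg 0 1).add h.2
    · rw [e1]; exact hg 1 j

theorem exists_rowEquiv (a : ℕ) :
    ∃ (e : {q : RowQ K // IsCoprime q.out.1 q.out.2} × EU K × R K ≃ SL2 K)
      (g : {q : RowQ K // IsCoprime q.out.1 q.out.2} → SL2 K),
      (∀ q, row (g q) = q.1.out) ∧ (∀ q, Box a q.1.out → MDen a (g q)) ∧
        ∀ q u x, e (q, u, x) = mN x * (mD u.1 * g q) := by
  have h : ∀ q : {q : RowQ K // IsCoprime q.out.1 q.out.2}, ∃ g : SL2 K, row g = q.1.out ∧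
      (Box a q.1.out → MDen a g) := by
    intro q
    by_cases hq : Box a q.1.out
    · obtain ⟨g, h1, h2⟩ := hq.exists_row
      exact ⟨g, h1, fun _ => h2⟩
    · obtain ⟨g, h1⟩ := exists_row q.2
      exact ⟨g, h1, fun k => absurd k hq⟩
  choose g hg hg' using h
  have hrow : ∀ (q : {q : RowQ K // IsCoprime q.out.1 q.out.2}) (u : EU K) (x : R K),
      row (mN x * (mD u.1 * g q)) = (((u.1⁻¹ : (R K)ˣ) : R K) * q.1.out.1,
        ((u.1⁻¹ : (R K)ˣ) : R K) * q.1.out.2) := fun q u x => by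
    rw [row_mN_mul, row_mD_mul, hg]
  have hmk : ∀ (q : {q : RowQ K // IsCoprime q.out.1 q.out.2}) (u : EU K) (x : R K),
      (Quot.mk _ (row (mN x * (mD u.1 * g q))) : RowQ K) = q.1 := fun q u x => by
    rw [hrow, ← Quot.out_eq q.1, eq_comm, RowQ_eq]
    exact ⟨u.1⁻¹, inv_mem u.2, by rw [Quot.out_eq]⟩
  refine ⟨Equiv.ofBijective (fun p => mN p.2.2 * (mD p.2.1.1 * g p.1)) ⟨?_, fun γ => ?_⟩, g, hg,
    hg', fun _ _ _ => rfl⟩
  · rintro ⟨q, u, x⟩ ⟨q', u', x'⟩ h
    simp only at h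
    obtain rfl : q = q' := Subtype.ext (by rw [← hmk q u x, ← hmk q' u' x', h])
    rw [← mul_assoc, ← mul_assoc] at h
    have h1 := mul_right_cancel h
    have h2 := congrArg (fun t : SL2 K => t.1 0 0) h1
    simp only [sl2_mul, mN_00, mN_01, mD_00, mD_10, one_mul, mul_zero, add_zero] at h2
    obtain rfl : u = u' := Subtype.ext (Units.ext h2)
    obtain rfl : x = x' := congrArg (fun t : SL2 K => t.1 0 1) (mul_right_cancel h1)
    rfl
  · obtain ⟨u, hu, e⟩ := RowQ_out (row γ)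
    have hc : IsCoprime (Quot.mk _ (row γ) : RowQ K).out.1 (Quot.mk _ (row γ) : RowQ K).out.2 := by
      rw [e]
      exact (isCoprime_mul_unit_left u.isUnit _ _).2 (coprime_row γ)
    obtain ⟨x, hx⟩ := (row_eq_row_iff (g := γ) (h := mD u * g ⟨_, hc⟩)).1 (by
      rw [row_mD_mul, hg, e]
      simp)
    exact ⟨(⟨_, hc⟩, ⟨u, hu⟩, x), hx.symm⟩

theorem conj_JJ (hm : m ≠ ⊥) (hΨ : Cls a m Ψ) (hP : Tile m' P) (hψ : Tst ψ) :
    ∃ (t : Finset (SL2 K)) (c : SL2 K → ℂ), (∀ g ∈ t, MDen a g) ∧ ∀ w : Hy K, Pos w →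
      conj (JJ Ψ ψ w) = ∑ g ∈ t, c g * Pc m (fun w =>
        P.indicator (fun _ => (1 : ℂ)) (fun v => (act g w v).1) *
          chi (fun x => conj (ψ x)) fun v => (act g w v).2) w := by
  classical
  obtain ⟨t, -, hcos⟩ := exists_fin_cosets a hm (S := {g | MDen a g}) fun _ h => h
  have hfin : {q : SL2 K ⧸ GamS m | MDen a q.out}.Finite := by
    refine (t.finite_toSet.image fun g : SL2 K => (g : SL2 K ⧸ GamS m)).subset fun q hq => ?_
    obtain ⟨g, hg, -, h⟩ := hcos _ hq
    exact ⟨g, hg, (QuotientGroup.eq.2 h).trans (QuotientGroup.out_eq' q)⟩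
  obtain ⟨n, hn⟩ : ∃ n : R K × R K → ℂ,
    n = fun r => (((inR m').toAddSubgroup.relIndex (Lam a r) : ℕ) : ℂ) := ⟨_, rfl⟩
  refine ⟨hfin.toFinset.image fun q => q.out, fun g => conj (Ψ (row g)) * (n (row g))⁻¹,
    fun g hg => ?_, fun w hw => ?_⟩
  · obtain ⟨q, hq, rfl⟩ := Finset.mem_image.1 hg
    exact hfin.mem_toFinset.1 hq
  obtain ⟨-, M, hM, hG⟩ := hP.test (test1_chi (K := K) hψ.conj)
  obtain ⟨A, hA⟩ : ∃ A : SL2 K → ℂ, A = fun γ => if MDen a γ then
    conj (Ψ (row γ)) * (n (row γ))⁻¹ * (P.indicator (fun _ => (1 : ℂ)) (fun v => (act γ w v).1) *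
      chi (fun x => conj (ψ x)) fun v => (act γ w v).2) else 0 := ⟨_, rfl⟩
  have hs : Summable A := by
    refine summable_of_hasFiniteSupport ((finite_act a hw hM).subset fun γ hγ => ?_)
    rw [hA] at hγ
    by_cases k : MDen a γ
    · simp only [Function.mem_support, if_pos k] at hγ
      exact ⟨k, ((hG (act γ w)).2 (right_ne_zero_of_mul hγ)).mem_Sg⟩
    · simp [k] at hγ
  obtain ⟨e, g, hg, hg', he⟩ := exists_rowEquiv (K := K) a
  have e1 : ∑' γ, A γ = conj (JJ Ψ ψ w) := by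
    have s1 : Summable fun p => A (e p) := e.summable_iff.2 hs
    rw [← e.tsum_eq, s1.tsum_prod, JJ, Complex.conj_tsum,
      ← tsum_subtype_eq_of_support_subset (s := {q : RowQ K | IsCoprime q.out.1 q.out.2})
        fun r hr => by_contra fun k => hr (by simp [hΨ.1 r.out fun k' => k k'.coprime])]
    refine tsum_congr fun q => ?_
    have hrow : ∀ (u : EU K) (x : R K), row (mN x * (mD u.1 * g q)) =
        (((u.1⁻¹ : (R K)ˣ) : R K) * q.1.out.1, ((u.1⁻¹ : (R K)ˣ) : R K) * q.1.out.2) :=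
      fun u x => by rw [row_mN_mul, row_mD_mul, hg]
    by_cases hq : Box a q.1.out
    swap
    · have : ∀ p, A (e (q, p)) = 0 := fun p => by
        rw [he, hA]
        simp only [hrow, hΨ.unit (inv_mem p.1.2), hΨ.1 _ hq, map_zero, zero_mul, ite_self]
      simp only [this, tsum_zero, hΨ.1 _ hq, zero_mul, map_zero]
    obtain ⟨n0, hT⟩ := tile_tsum hP (fun x => mem_lam hq) fun x => den_of_lam hq
    have n1 : n q.1.out ≠ 0 := by rw [hn]; exact Nat.cast_ne_zero.2 n0
    have hw' := act_pos (g q) hw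
    rw [(s1.prod_factor q).tsum_prod, map_mul, ← hg q, ← Ht_act, hg q, Ht,
      ← tsum_chi (fun x => conj (ψ x)) hw', ← tsum_mul_left]
    refine tsum_congr fun u => ?_
    have hu : MDen a (mD u.1 * g q) := by simpa using (mden_mD u.2).mul (hg' q hq)
    have hl : Lam a (row (mD u.1 * g q)) = Lam a q.1.out := by
      rw [row_mD_mul, hg, einv_lam a _ (inv_mem u.2)]
    have e2 : ∀ x : R K, A (e (q, u, x)) = conj (Ψ q.1.out) * (n q.1.out)⁻¹ *
        chi (fun x => conj (ψ x)) (fun v => ‖ev v ((u.1 : R K) : K)‖ ^ 2 * (act (g q) w v).2) *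
          (Lam a q.1.out : Set (R K)).indicator (fun x : R K => P.indicator (fun _ => (1 : ℂ))
            ((fun v => (act (mD u.1 * g q) w v).1) + emb (x : K))) x := by
      intro x
      rw [he, hA]
      simp only [mden_mN_mul hu, hl]
      by_cases k : x ∈ Lam a q.1.out
      · rw [if_pos k, indicator_of_mem (show x ∈ (Lam a q.1.out : Set (R K)) from k), hrow,
          hΨ.unit (inv_mem u.2), hn]
        simp only [einv_lam a _ (inv_mem u.2), act_mul _ _ hw, act_mN, act_mD]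
        rw [mul_assoc _ (chi _ _), mul_comm (chi _ _)]
        rfl
      · rw [if_neg k, indicator_of_notMem (show x ∉ (Lam a q.1.out : Set (R K)) from k), mul_zero]
    simp only [e2]
    rw [tsum_mul_left, ← tsum_subtype]
    have := hT fun v => (act (mD u.1 * g q) w v).1
    rw [show (((inR m').toAddSubgroup.relIndex (Lam a q.1.out) : ℕ) : ℂ) = n q.1.out by rw [hn]]
      at this
    refine (congrArg _ this).trans ?_
    field_simp
  have s2 : Summable fun p => A (cosetEquiv (GamS m) p) := (cosetEquiv (GamS m)).summable_iff.2 hs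
  have hmd : ∀ (q : SL2 K ⧸ GamS m) (δ : GamS m), MDen a (q.out * (δ : SL2 K)) ↔ MDen a q.out :=
    fun q δ => ⟨fun h => by simpa using h.mul (Gam.mden δ.2).inv,
      fun h => h.mul (Gam.mden δ.2)⟩
  rw [← e1, Finset.sum_image (g := fun q : SL2 K ⧸ GamS m => q.out)
    fun _ _ _ _ k => Quotient.out_injective k, ← (cosetEquiv (GamS m)).tsum_eq, s2.tsum_prod,
    tsum_eq_sum (s := hfin.toFinset) fun q hq => by
      have : ¬MDen a q.out := fun k => hq (hfin.mem_toFinset.2 k)
      simp only [cosetEquiv_apply, hA, hmd, this, if_false, tsum_zero]]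
  refine Finset.sum_congr rfl fun q hq => ?_
  rw [Pc, ← tsum_mul_left]
  refine tsum_congr fun δ => ?_
  rw [cosetEquiv_apply, hA]
  beta_reduce
  rw [if_pos ((hmd q δ).2 (hfin.mem_toFinset.1 hq)), row_mul, hΨ.gam δ.2, act_mul _ _ hw, map_mul,
    hn]
  simp only [lam_rmul _ (Gam.mden δ.2)]
  ring

end Vale.Agent.P319
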