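import Vale.Agent.P319.N.Defs

/-! TH-B: the action of `SL₂(ℂ)` on hyperbolic 3-space (one place). -/

namespace Vale.Agent.P319

open scoped ComplexConjugate Real Topology ENNReal NNReal
open MeasureTheory Filter Set

/-- `SL₂(ℂ)` -/
abbrev SC : Type := Matrix.SpecialLinearGroup (Fin 2) ℂ

/-- the action of `SL₂(ℂ)` -/
noncomputable def aC (g : SC) (w : ℂ × ℝ) : ℂ × ℝ :=
  actC (g.1 0 0) (g.1 0 1) (g.1 1 0) (g.1 1 1) w

/-- `cosh` of the hyperbolic distance -/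
noncomputable def tt (w w' : ℂ × ℝ) : ℝ := (‖w.1 - w'.1‖ ^ 2 + w.2 ^ 2 + w'.2 ^ 2) / (2 * w.2 * w'.2)

/-- the ball `cosh d ≤ τ` -/
def Bt (τ : ℝ) (w : ℂ × ℝ) : Set (ℂ × ℝ) := {w' | 0 < w'.2 ∧ tt w w' ≤ τ}

/-- translation -/
noncomputable def nC (x : ℂ) : SC := ⟨!![1, x; 0, 1], by simp [Matrix.det_fin_two]⟩
/-- inversion -/
noncomputable def sC : SC := ⟨!![0, -1; 1, 0], by simp [Matrix.det_fin_two]⟩
/-- dilation -/
noncomputable def dC (a : ℂ) (ha : a ≠ 0) : SC :=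
  ⟨!![a, 0; 0, a⁻¹], by simp [Matrix.det_fin_two, ha]⟩

variable {w w' : ℂ × ℝ} {c d : ℂ} {τ : ℝ}

theorem sc_det (g : SC) : g.1 0 0 * g.1 1 1 - g.1 0 1 * g.1 1 0 = 1 := by
  rw [← Matrix.det_fin_two]
  exact g.2

theorem sc_mul (g h : SC) (i j : Fin 2) :
    (g * h).1 i j = g.1 i 0 * h.1 0 j + g.1 i 1 * h.1 1 j := by
  rw [Matrix.SpecialLinearGroup.coe_mul, Matrix.mul_apply, Fin.sum_univ_two]

theorem sc_ext {g h : SC} (h1 : g.1 0 0 = h.1 0 0) (h2 : g.1 0 1 = h.1 0 1)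
    (h3 : g.1 1 0 = h.1 1 0) (h4 : g.1 1 1 = h.1 1 1) : g = h := by
  rw [Matrix.SpecialLinearGroup.ext_iff]
  intro i j
  fin_cases i <;> fin_cases j <;> assumption

theorem sc_row (g : SC) (i : Fin 2) : g.1 i 0 ≠ 0 ∨ g.1 i 1 ≠ 0 := by
  by_contra h
  rw [not_or, not_not, not_not] at h
  have := sc_det g
  fin_cases i
  · simp only [Fin.zero_eta] at h
    simp [h.1, h.2] at this
  · simp only [Fin.mk_one] at h
    simp [h.1, h.2] at this

/-- Bruhat decomposition -/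
theorem sc_induction {P : SC → Prop} (hn : ∀ x, P (nC x)) (hd : ∀ a ha, P (dC a ha)) (hs : P sC)
    (hmul : ∀ g h, P g → P h → P (g * h)) (g : SC) : P g := by
  have hdet := sc_det g
  by_cases hc : g.1 1 0 = 0
  · have ha : g.1 0 0 ≠ 0 := fun h => by simp [h, hc] at hdet
    have e : g = dC (g.1 0 0) ha * nC (g.1 0 1 / g.1 0 0) := by
      rw [hc, mul_zero, sub_zero] at hdet
      apply sc_ext <;> simp only [sc_mul] <;> simp [dC, nC, hc]
      · field_simp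
      · exact eq_inv_of_mul_eq_one_right hdet
    rw [e]
    exact hmul _ _ (hd _ _) (hn _)
  · have e : g = nC (g.1 0 0 / g.1 1 0) * (sC * (dC (g.1 1 0) hc * nC (g.1 1 1 / g.1 1 0))) := by
      apply sc_ext <;> simp only [sc_mul] <;> simp [dC, nC, sC] <;> field_simp
      linear_combination -hdet
    rw [e]
    exact hmul _ _ (hn _) (hmul _ _ hs (hmul _ _ (hd _ _) (hn _)))

theorem denC_nonneg (c d : ℂ) (w : ℂ × ℝ) : 0 ≤ denC c d w := by
  unfold denC; positivity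

theorem denC_pos (h : c ≠ 0 ∨ d ≠ 0) (hw : 0 < w.2) : 0 < denC c d w := by
  unfold denC
  by_cases hc : c = 0
  · have h2 : d ≠ 0 := h.resolve_left (not_not.2 hc)
    simp only [hc, zero_mul, zero_add]
    positivity
  · positivity

theorem denC_mul (u c d : ℂ) (w : ℂ × ℝ) : denC (u * c) (u * d) w = ‖u‖ ^ 2 * denC c d w := by
  unfold denC
  rw [mul_assoc, ← mul_add, norm_mul, norm_mul]
  ring

theorem denC_zero_one (w : ℂ × ℝ) : denC 0 1 w = 1 := by simp [denC]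

theorem denC_row_pos (g : SC) (hw : 0 < w.2) : 0 < denC (g.1 1 0) (g.1 1 1) w :=
  denC_pos (sc_row g 1) hw

theorem aC_snd (g : SC) (w : ℂ × ℝ) : (aC g w).2 = w.2 / denC (g.1 1 0) (g.1 1 1) w := rfl

theorem aC_pos (g : SC) (hw : 0 < w.2) : 0 < (aC g w).2 := div_pos hw (denC_row_pos g hw)

theorem aC_pos_iff (g : SC) : 0 < (aC g w).2 ↔ 0 < w.2 :=
  ⟨fun h => by_contra fun h' =>
    (div_nonpos_of_nonpos_of_nonneg (not_lt.1 h') (denC_nonneg _ _ w)).not_gt h, aC_pos g⟩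

theorem aC_one (w : ℂ × ℝ) : aC 1 w = w := by
  simp [aC, actC, denC]

theorem geo_lagrange (U u A c : ℂ) (v : ℝ) :
    ‖U * conj u + A * conj c * (v : ℂ) ^ 2‖ ^ 2 + ‖A * u - U * c‖ ^ 2 * v ^ 2 =
      (‖U‖ ^ 2 + ‖A‖ ^ 2 * v ^ 2) * (‖u‖ ^ 2 + ‖c‖ ^ 2 * v ^ 2) := by
  simp only [Complex.sq_norm, Complex.normSq_apply, ← Complex.ofReal_pow, Complex.add_re,
    Complex.add_im, Complex.mul_re, Complex.mul_im, Complex.sub_re, Complex.sub_im,
    Complex.conj_re, Complex.conj_im, Complex.ofReal_re, Complex.ofReal_im]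
  ring

theorem denC_aC (p q : ℂ) (g : SC) (hw : 0 < w.2) :
    denC p q (aC g w) * denC (g.1 1 0) (g.1 1 1) w =
      denC (p * g.1 0 0 + q * g.1 1 0) (p * g.1 0 1 + q * g.1 1 1) w := by
  have hD := denC_row_pos g hw
  have hdet := sc_det g
  have h1 := geo_lagrange ((p * g.1 0 0 + q * g.1 1 0) * w.1 + (p * g.1 0 1 + q * g.1 1 1))
    (g.1 1 0 * w.1 + g.1 1 1) (p * g.1 0 0 + q * g.1 1 0) (g.1 1 0) w.2
  have h2 : (p * g.1 0 0 + q * g.1 1 0) * (g.1 1 0 * w.1 + g.1 1 1) -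
      ((p * g.1 0 0 + q * g.1 1 0) * w.1 + (p * g.1 0 1 + q * g.1 1 1)) * g.1 1 0 = p := by
    linear_combination p * hdet
  have h3 : ((denC (g.1 1 0) (g.1 1 1) w : ℝ) : ℂ) = (g.1 1 0 * w.1 + g.1 1 1) *
      conj (g.1 1 0 * w.1 + g.1 1 1) + g.1 1 0 * conj (g.1 1 0) * (w.2 : ℂ) ^ 2 := by
    rw [Complex.mul_conj', Complex.mul_conj', denC]
    push_cast
    ring
  have h4 : p * (aC g w).1 + q = (((p * g.1 0 0 + q * g.1 1 0) * w.1 +
      (p * g.1 0 1 + q * g.1 1 1)) * conj (g.1 1 0 * w.1 + g.1 1 1) +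
        (p * g.1 0 0 + q * g.1 1 0) * conj (g.1 1 0) * (w.2 : ℂ) ^ 2) /
          (denC (g.1 1 0) (g.1 1 1) w : ℝ) := by
    have h5 : ((denC (g.1 1 0) (g.1 1 1) w : ℝ) : ℂ) ≠ 0 := Complex.ofReal_ne_zero.2 hD.ne'
    rw [eq_div_iff h5, add_mul, aC, actC, mul_assoc]
    simp only
    rw [div_mul_cancel₀ _ h5, h3]
    ring
  rw [h2] at h1
  change _ = denC (p * g.1 0 0 + q * g.1 1 0) (p * g.1 0 1 + q * g.1 1 1) w *
    denC (g.1 1 0) (g.1 1 1) w at h1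
  rw [denC, h4, aC_snd, norm_div, Complex.norm_real, Real.norm_eq_abs, abs_of_pos hD]
  generalize ‖(_ : ℂ) * conj (_ : ℂ) + _‖ = N at h1 ⊢
  field_simp
  linear_combination h1

/-- the height of the row `(p, q)` transforms by right multiplication -/
theorem div_denC_aC (p q : ℂ) (g : SC) (hw : 0 < w.2) :
    (aC g w).2 / denC p q (aC g w) =
      w.2 / denC (p * g.1 0 0 + q * g.1 1 0) (p * g.1 0 1 + q * g.1 1 1) w := by
  rw [aC_snd, ← denC_aC p q g hw, div_div, mul_comm]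

theorem ext_denC (hw : 0 < w.2) (hw' : 0 < w'.2)
    (h : ∀ p q, w.2 / denC p q w = w'.2 / denC p q w') : w = w' := by
  have h0 : w.2 = w'.2 := by simpa only [denC_zero_one, div_one] using h 0 1
  have h1 : ∀ x : ℂ, ‖w.1 + x‖ ^ 2 = ‖w'.1 + x‖ ^ 2 := by
    intro x
    have h2 : (1 : ℂ) ≠ 0 ∨ x ≠ 0 := Or.inl one_ne_zero
    have h3 := h 1 x
    rw [div_eq_div_iff (denC_pos h2 hw).ne' (denC_pos h2 hw').ne', h0] at h3
    have h4 := mul_left_cancel₀ hw'.ne' h3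
    simp only [denC, one_mul, h0] at h4
    linarith
  have h2 := h1 (-w'.1)
  rw [add_neg_cancel, norm_zero, zero_pow two_ne_zero, pow_eq_zero_iff two_ne_zero, norm_eq_zero,
    ← sub_eq_add_neg, sub_eq_zero] at h2
  exact Prod.ext h2 h0

theorem aC_mul (g h : SC) (hw : 0 < w.2) : aC (g * h) w = aC g (aC h w) :=
  ext_denC (aC_pos _ hw) (aC_pos _ (aC_pos _ hw)) fun p q => by
    rw [div_denC_aC _ _ _ hw, div_denC_aC _ _ _ (aC_pos _ hw), div_denC_aC _ _ _ hw]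
    simp only [sc_mul]
    congr 2 <;> ring

theorem aC_inv_aC (g : SC) (hw : 0 < w.2) : aC g⁻¹ (aC g w) = w := by
  rw [← aC_mul _ _ hw, inv_mul_cancel, aC_one]

theorem aC_aC_inv (g : SC) (hw : 0 < w.2) : aC g (aC g⁻¹ w) = w := by
  rw [← aC_mul _ _ hw, mul_inv_cancel, aC_one]

theorem aC_nC (x : ℂ) (w : ℂ × ℝ) : aC (nC x) w = (w.1 + x, w.2) := by
  simp [aC, actC, nC, denC]

theorem aC_sC (w : ℂ × ℝ) : aC sC w =
    (-conj w.1 / ((‖w.1‖ ^ 2 + w.2 ^ 2 : ℝ) : ℂ), w.2 / (‖w.1‖ ^ 2 + w.2 ^ 2)) := by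
  simp [aC, actC, sC, denC]

theorem aC_dC (a : ℂ) (ha : a ≠ 0) (w : ℂ × ℝ) :
    aC (dC a ha) w = (a ^ 2 * w.1, ‖a‖ ^ 2 * w.2) := by
  have h1 : ‖a‖ ≠ 0 := norm_ne_zero_iff.2 ha
  have h2 : conj a ≠ 0 := by simpa using ha
  have h3 : ((‖a‖ : ℝ) : ℂ) ^ 2 = a * conj a := by rw [Complex.mul_conj']
  simp only [aC, actC, dC, denC, Matrix.of_apply, Matrix.cons_val', Matrix.cons_val_zero,
    Matrix.cons_val_one, Matrix.cons_val_fin_one, zero_mul, zero_add, add_zero, map_zero, mul_zero,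
    norm_zero, norm_inv, map_inv₀, zero_pow two_ne_zero]
  refine Prod.ext ?_ ?_
  · simp only [Complex.ofReal_pow, Complex.ofReal_inv, inv_pow, h3]
    field_simp
  · simp only
    field_simp

theorem tt_comm (w w' : ℂ × ℝ) : tt w w' = tt w' w := by
  rw [tt, tt, norm_sub_rev]
  ring

theorem tt_aC (g : SC) (hw : 0 < w.2) (hw' : 0 < w'.2) : tt (aC g w) (aC g w') = tt w w' := by
  induction g using sc_induction generalizing w w' with
  | hn x => simp [aC_nC, tt]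
  | hd a ha =>
    have h1 : ‖a‖ ≠ 0 := norm_ne_zero_iff.2 ha
    simp only [aC_dC, tt, ← mul_sub, norm_mul, norm_pow]
    field_simp
  | hs =>
    rw [aC_sC, aC_sC]
    have h1 : 0 < ‖w.1‖ ^ 2 + w.2 ^ 2 := by positivity
    have h2 : 0 < ‖w'.1‖ ^ 2 + w'.2 ^ 2 := by positivity
    simp only [tt, Complex.sq_norm, Complex.normSq_apply, Complex.sub_re, Complex.sub_im,
      Complex.div_ofReal_re, Complex.div_ofReal_im, Complex.neg_re, Complex.neg_im,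
      Complex.conj_re, Complex.conj_im] at h1 h2 ⊢
    generalize hρ : w.1.re * w.1.re + w.1.im * w.1.im + w.2 ^ 2 = ρ at h1
    generalize hρ' : w'.1.re * w'.1.re + w'.1.im * w'.1.im + w'.2 ^ 2 = ρ' at h2
    field_simp
    rw [← hρ, ← hρ']
    ring
  | hmul g h ihg ihh =>
    rw [aC_mul _ _ hw, aC_mul _ _ hw', ihg (aC_pos _ hw) (aC_pos _ hw'), ihh hw hw']

theorem mem_Bt_aC (g : SC) (hw : 0 < w.2) : aC g w' ∈ Bt τ (aC g w) ↔ w' ∈ Bt τ w := by
  simp only [Bt, mem_ofPred_eq, aC_pos_iff]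
  exact and_congr_right fun h => by rw [tt_aC g hw h]

theorem mem_Bt_iff (hw : 0 < w.2) :
    w' ∈ Bt τ w ↔ 0 < w'.2 ∧ ‖w'.1 - w.1‖ ^ 2 ≤ 2 * τ * w.2 * w'.2 - w.2 ^ 2 - w'.2 ^ 2 := by
  refine and_congr_right fun h => ?_
  rw [tt, div_le_iff₀ (by positivity), norm_sub_rev]
  constructor <;> intro h <;> linarith

theorem Bt_bounds (hτ : τ ≤ 2) (hw : 0 < w.2) (h : w' ∈ Bt τ w) :
    ‖w'.1 - w.1‖ ≤ 2 * w.2 ∧ w.2 / 4 ≤ w'.2 ∧ w'.2 ≤ 4 * w.2 := by
  obtain ⟨h1, h2⟩ := (mem_Bt_iff (τ := 2) hw).1 ⟨h.1, h.2.trans hτ⟩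
  have h3 := sq_nonneg ‖w'.1 - w.1‖
  refine ⟨abs_le_of_sq_le_sq' ?_ (by positivity) |>.2, ?_, ?_⟩
  · nlinarith [sq_nonneg (w'.2 - 2 * w.2)]
  · nlinarith
  · nlinarith

theorem measurableSet_Bt₂ (τ : ℝ) :
    MeasurableSet {p : (ℂ × ℝ) × (ℂ × ℝ) | p.2 ∈ Bt τ p.1} := by
  have h : Measurable fun p : (ℂ × ℝ) × (ℂ × ℝ) => tt p.1 p.2 := by
    unfold tt
    fun_prop
  exact (measurableSet_lt measurable_const measurable_snd.snd).inter
    (measurableSet_le h measurable_const)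

theorem measurableSet_Bt (τ : ℝ) (w : ℂ × ℝ) : MeasurableSet (Bt τ w) :=
  measurable_prodMk_left (x := w) (measurableSet_Bt₂ τ)

theorem continuous_denC (c d : ℂ) : Continuous (denC c d) := by
  unfold denC
  fun_prop

theorem measurable_aC (g : SC) : Measurable (aC g) :=
  (Measurable.div (Continuous.measurable (by fun_prop))
    (Complex.continuous_ofReal.comp (continuous_denC _ _)).measurable).prodMk
      (measurable_snd.div (continuous_denC _ _).measurable)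

theorem continuousOn_aC (g : SC) : ContinuousOn (aC g) {w | 0 < w.2} :=
  (ContinuousOn.div (Continuous.continuousOn (by fun_prop))
    (Complex.continuous_ofReal.comp (continuous_denC _ _)).continuousOn fun _ hw =>
      Complex.ofReal_ne_zero.2 (denC_row_pos g hw).ne').prodMk
    (continuousOn_snd.div (continuous_denC _ _).continuousOn fun _ hw => (denC_row_pos g hw).ne')

/-- a compact box is mapped into a compact box -/
theorem aC_box (g : SC) {T : ℝ} (hT : 0 < T) : ∃ T' : ℝ, 0 < T' ∧ ∀ w : ℂ × ℝ,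
    ‖w.1‖ ≤ T ∧ 1 / T ≤ w.2 ∧ w.2 ≤ T →
      ‖(aC g w).1‖ ≤ T' ∧ 1 / T' ≤ (aC g w).2 ∧ (aC g w).2 ≤ T' := by
  have hK : IsCompact (Metric.closedBall (0 : ℂ) T ×ˢ Icc (1 / T) T) :=
    (isCompact_closedBall _ _).prod isCompact_Icc
  have hs : Metric.closedBall (0 : ℂ) T ×ˢ Icc (1 / T) T ⊆ {w | 0 < w.2} :=
    fun w hw => (one_div_pos.2 hT).trans_le hw.2.1
  have hc := (continuousOn_aC g).mono hs
  obtain ⟨C, hC⟩ := hK.exists_bound_of_continuousOn hc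
  obtain ⟨C', hC'⟩ := hK.exists_bound_of_continuousOn
    (hc.snd.inv₀ fun w hw => (aC_pos _ (hs hw)).ne')
  refine ⟨max 1 (max C C'), lt_max_of_lt_left one_pos, fun w h => ?_⟩
  have h1 : w ∈ Metric.closedBall (0 : ℂ) T ×ˢ Icc (1 / T) T :=
    ⟨mem_closedBall_zero_iff.2 h.1, h.2⟩
  have h2 := aC_pos g (hs h1)
  have h3 := hC _ h1
  have h4 := hC' _ h1
  simp only [Pi.inv_apply] at h4
  have h5 : C ≤ max 1 (max C C') := le_max_of_le_right (le_max_left _ _)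
  refine ⟨(norm_fst_le _).trans (h3.trans h5), ?_,
    (le_abs_self _).trans ((norm_snd_le _).trans (h3.trans h5))⟩
  rw [one_div]
  exact inv_le_of_inv_le₀ h2
    ((le_abs_self _).trans (h4.trans (le_max_of_le_right (le_max_right _ _))))

/-- a matrix that moves a point of a box into the box has bounded entries -/
theorem entry_le_of_box (g : SC) {T : ℝ} (hT : 1 ≤ T)
    (h : ‖w.1‖ ≤ T ∧ 1 / T ≤ w.2 ∧ w.2 ≤ T)
    (h' : ‖(aC g w).1‖ ≤ T ∧ 1 / T ≤ (aC g w).2 ∧ (aC g w).2 ≤ T) (i j : Fin 2) :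
    ‖g.1 i j‖ ≤ 4 * T ^ 4 := by
  have hT0 : 0 < T := by linarith
  have hw : 0 < w.2 := (one_div_pos.2 hT0).trans_le h.2.1
  have hy : 1 ≤ T * w.2 := by
    have := h.2.1
    rw [div_le_iff₀ hT0] at this
    linarith
  have key : ∀ p q : ℂ, denC p q w ≤ 2 * T ^ 4 → ‖p‖ ≤ 4 * T ^ 4 ∧ ‖q‖ ≤ 4 * T ^ 4 := by
    intro p q hd
    unfold denC at hd
    have a1 : ‖p‖ * w.2 ≤ 3 / 2 * T ^ 2 := abs_le_of_sq_le_sq' (by
      nlinarith [sq_nonneg ‖p * w.1 + q‖, pow_pos hT0 4]) (by positivity) |>.2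
    have a2 : ‖p * w.1 + q‖ ≤ 3 / 2 * T ^ 2 := abs_le_of_sq_le_sq' (by
      nlinarith [mul_nonneg (sq_nonneg ‖p‖) (sq_nonneg w.2), pow_pos hT0 4]) (by positivity) |>.2
    have a3 : ‖p‖ ≤ 3 / 2 * T ^ 3 := by
      calc ‖p‖ ≤ ‖p‖ * (T * w.2) := le_mul_of_one_le_right (norm_nonneg _) hy
        _ = T * (‖p‖ * w.2) := by ring
        _ ≤ T * (3 / 2 * T ^ 2) := by gcongr
        _ = _ := by ring
    have a4 : ‖q‖ ≤ ‖p * w.1 + q‖ + ‖p‖ * ‖w.1‖ := by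
      rw [← norm_mul]
      simpa using norm_sub_le (p * w.1 + q) (p * w.1)
    have a5 : ‖p‖ * ‖w.1‖ ≤ 3 / 2 * T ^ 3 * T := mul_le_mul a3 h.1 (norm_nonneg _) (by positivity)
    have a6 : T ^ 2 ≤ T ^ 4 := pow_le_pow_right₀ hT (by norm_num)
    have a7 : T ^ 3 ≤ T ^ 4 := pow_le_pow_right₀ hT (by norm_num)
    have a8 : 0 < T ^ 4 := by positivity
    constructor <;> nlinarith
  have hD := denC_row_pos g hw
  have b1 : denC (g.1 1 0) (g.1 1 1) w ≤ T ^ 2 := by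
    have := h'.2.1
    rw [aC_snd, div_le_div_iff₀ hT0 hD] at this
    nlinarith [h.2.2]
  have a6 : T ^ 2 ≤ T ^ 4 := pow_le_pow_right₀ hT (by norm_num)
  have b2 : denC (g.1 0 0) (g.1 0 1) w ≤ 2 * T ^ 4 := by
    have e := denC_aC 1 0 g hw
    simp only [one_mul, zero_mul, add_zero] at e
    have b3 : denC 1 0 (aC g w) ≤ 2 * T ^ 2 := by
      simp only [denC, one_mul, add_zero, norm_one, one_pow]
      have c1 := pow_le_pow_left₀ (norm_nonneg _) h'.1 2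
      have c2 := pow_le_pow_left₀ (aC_pos g hw).le h'.2.2 2
      linarith
    rw [← e]
    calc _ ≤ 2 * T ^ 2 * T ^ 2 := mul_le_mul b3 b1 hD.le (by positivity)
      _ = _ := by ring
  have k1 := key _ _ b2
  have k2 := key (g.1 1 0) (g.1 1 1) (by nlinarith [pow_pos hT0 4])
  fin_cases i <;> fin_cases j
  exacts [k1.1, k1.2, k2.1, k2.2]

end Vale.Agent.P319
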