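import Vale.Agent.P319.N.ThM1
import Vale.Agent.P319.N.ThRes

/-! TH-B: the eigenvalue of the ball of radius `ρ ≤ 1` at one place (port of P026 ThHat with `4` replaced by `2 cosh ρ`).
PLAN.  `hh_eq`: as `slice` + `hhat_eq` of P026 (at the point `(0, 1)`; `mem_Bt_iff`, `hat_area`, `integral_hmu`, `integrable_of_siegel`,
`Bt_bounds` with `cosh ρ ≤ cosh 1 ≤ 2`), substitute `x = exp y`.  `hatK ρ` is even, continuous, positive exactly on `|y| < ρ`
(`Real.cosh_lt_cosh`).  Differentiate under the integral.  By `y ↦ -y`: `2 Im hh (σ+it) = ∫ k y * 2 sinh((σ-1)y) sin(t y) > 0`;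
`Im (hh s * exp (-2ρ i)) = ∫ k y exp((σ-1)y) sin (t y - 2ρ) < 0` since `-π < -3ρ < t y - 2ρ < -ρ < 0` on the support.
`im_pow_ne`: write `z = ‖z‖ exp (arg z i)`, `0 < arg z < π`, `sin (arg z - 2ρ) < 0` forces `arg z < 2ρ`, so `0 < n arg z < 2 < π`. -/

namespace Vale.Agent.P319

open scoped ComplexConjugate Real Topology ENNReal NNReal InnerProductSpace NumberField
open MeasureTheory Filter Set

/-- the density in logarithmic coordinates -/
noncomputable def hatK (ρ y : ℝ) : ℝ := π * max (2 * Real.cosh ρ - 2 * Real.cosh y) 0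

/-- the eigenvalue at one place -/
noncomputable def hh (ρ : ℝ) (s : ℂ) : ℂ := ∫ w in Bt (Real.cosh ρ) (0, 1), (w.2 : ℂ) ^ s ∂hmu

variable {ρ : ℝ}

theorem cosh_le_two (h0 : 0 < ρ) (h1 : ρ ≤ 1) : Real.cosh ρ ≤ 2 := by
  have h2 : Real.cosh ρ ≤ Real.cosh 1 :=
    Real.cosh_le_cosh.2 (by rw [abs_of_pos h0, abs_one]; exact h1)
  have h3 := Real.exp_one_lt_d9
  have h4 : Real.exp (-1) < 1 := Real.exp_lt_one_iff.2 (by norm_num)
  rw [Real.cosh_eq 1] at h2
  linarith
theorem Bt_log {w : ℂ × ℝ} (h0 : 0 < ρ) (h : w ∈ Bt (Real.cosh ρ) (0, 1)) :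
    |Real.log w.2| ≤ ρ := by
  obtain ⟨h1, h2⟩ := (mem_Bt_iff (w := (0, 1)) one_pos).1 h
  rw [← abs_of_pos h0, ← Real.cosh_le_cosh, Real.cosh_log h1, div_le_iff₀ two_pos,
    ← sub_nonneg]
  have e : Real.cosh ρ * 2 - (w.2 + w.2⁻¹)
      = (2 * Real.cosh ρ * 1 * w.2 - 1 ^ 2 - w.2 ^ 2) / w.2 := by
    field_simp
    ring
  rw [e]
  exact div_nonneg ((sq_nonneg _).trans h2) h1.le
private theorem Bt_siegel (h0 : 0 < ρ) (h1 : ρ ≤ 1) {w : ℂ × ℝ}
    (h : w ∈ Bt (Real.cosh ρ) (0, 1)) : ‖w.1‖ ≤ 2 ∧ 1 / 4 ≤ w.2 := by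
  have b := Bt_bounds (w := (0, 1)) (cosh_le_two h0 h1) one_pos h
  simp only [sub_zero, mul_one] at b
  exact ⟨b.1, b.2.1⟩
theorem hmu_Bt_lt_top (h0 : 0 < ρ) (h1 : ρ ≤ 1) : hmu (Bt (Real.cosh ρ) (0, 1)) < ⊤ := by
  exact (measure_mono fun _ h => Bt_siegel h0 h1 h).trans_lt (hmu_siegel 2 (by norm_num))
private theorem hat_area (Q : ℝ) : volume.real {z : ℂ | ‖z - 0‖ ^ 2 ≤ Q} = π * max Q 0 := by
  rcases lt_or_ge Q 0 with h | h
  · rw [show {z : ℂ | ‖z - 0‖ ^ 2 ≤ Q} = ∅ from eq_empty_of_forall_notMem fun z hz =>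
      absurd (lt_of_le_of_lt hz h) (not_lt.2 (sq_nonneg _)), max_eq_right h.le]
    simp
  · have e : {z : ℂ | ‖z - 0‖ ^ 2 ≤ Q} = Metric.closedBall 0 √Q := by
      ext z
      rw [mem_closedBall_iff_norm, Real.le_sqrt (norm_nonneg _) h]
      rfl
    rw [e, Measure.real, Complex.volume_closedBall, max_eq_left h, ENNReal.toReal_mul,
      ENNReal.toReal_pow, ENNReal.toReal_ofReal (Real.sqrt_nonneg _), Real.sq_sqrt h, mul_comm]
    rfl
theorem hh_eq (h0 : 0 < ρ) (h1 : ρ ≤ 1) (s : ℂ) :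
    hh ρ s = ∫ y : ℝ, (hatK ρ y : ℂ) * Complex.exp ((s - 1) * y) := by
  have hi : Integrable ((Bt (Real.cosh ρ) (0, 1)).indicator fun w : ℂ × ℝ => (w.2 : ℂ) ^ s) hmu :=
    integrable_of_siegel (Measurable.indicator (by fun_prop)
      (measurableSet_Bt _ _)).aestronglyMeasurable (R := 2) (a := 1 / 4)
      (M := Real.exp (ρ * |s.re|)) (by norm_num) fun w hw => ⟨by
        by_cases k : w ∈ Bt (Real.cosh ρ) (0, 1)
        · rw [indicator_of_mem k, Complex.norm_cpow_eq_rpow_re_of_pos hw,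
            Real.rpow_def_of_pos hw]
          refine Real.exp_le_exp.2 ((le_abs_self _).trans ?_)
          rw [abs_mul]
          exact mul_le_mul_of_nonneg_right (Bt_log h0 k) (abs_nonneg _)
        · rw [indicator_of_notMem k, norm_zero]
          exact (Real.exp_pos _).le,
        fun k => Bt_siegel h0 h1 (mem_of_indicator_ne_zero k)⟩
  rw [hh, ← integral_indicator (measurableSet_Bt _ _), integral_hmu hi, ← Real.range_exp,
    ← image_univ, integral_image_eq_integral_abs_deriv_smul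
    MeasurableSet.univ (fun y _ => (Real.hasDerivAt_exp y).hasDerivWithinAt)
    Real.exp_injective.injOn, setIntegral_univ]
  refine integral_congr_ae (Eventually.of_forall fun y => ?_)
  have p := Real.exp_pos y
  have e1 : (fun z : ℂ => (Bt (Real.cosh ρ) (0, 1)).indicator
      (fun w : ℂ × ℝ => (w.2 : ℂ) ^ s) (z, Real.exp y)) =
      {z : ℂ | ‖z - 0‖ ^ 2 ≤ Real.exp y * (2 * Real.cosh ρ - 2 * Real.cosh y)}.indicator
        fun _ => ((Real.exp y : ℝ) : ℂ) ^ s := by
    funext z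
    have i : (z, Real.exp y) ∈ Bt (Real.cosh ρ) (0, 1) ↔
        z ∈ {z : ℂ | ‖z - 0‖ ^ 2 ≤ Real.exp y * (2 * Real.cosh ρ - 2 * Real.cosh y)} := by
      rw [mem_Bt_iff (w := (0, 1)) one_pos, and_iff_right p, mem_ofPred_eq]
      refine iff_of_eq (congrArg _ ?_)
      rw [Real.cosh_eq y, Real.exp_neg]
      field_simp
      ring
    by_cases k : (z, Real.exp y) ∈ Bt (Real.cosh ρ) (0, 1)
    · rw [indicator_of_mem k, indicator_of_mem (i.1 k)]
    · rw [indicator_of_notMem k, indicator_of_notMem fun k' => k (i.2 k')]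
  have e2 : ((Real.exp y : ℝ) : ℂ) ^ s = Complex.exp (y * s) := by
    rw [Complex.cpow_def_of_ne_zero (Complex.ofReal_ne_zero.2 p.ne'), ← Complex.ofReal_log p.le,
      Real.log_exp]
  have e3 : Real.exp y * (π * max (Real.exp y * (2 * Real.cosh ρ - 2 * Real.cosh y)) 0 *
      (1 / Real.exp y ^ 3)) = hatK ρ y * Real.exp (-y) := by
    have e : max (Real.exp y * (2 * Real.cosh ρ - 2 * Real.cosh y)) 0 =
        Real.exp y * max (2 * Real.cosh ρ - 2 * Real.cosh y) 0 := by
      rw [mul_max_of_nonneg _ _ p.le, mul_zero]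
    rw [e, hatK, Real.exp_neg]
    field_simp
  have e4 : Complex.exp ((s - 1) * y) = (Real.exp (-y) : ℝ) * Complex.exp (y * s) := by
    rw [Complex.ofReal_exp, ← Complex.exp_add]
    push_cast
    congr 1
    ring
  beta_reduce
  rw [e1, integral_indicator_const _ (measurableSet_le (by fun_prop) measurable_const), hat_area,
    e2, e4, ← mul_assoc, ← Complex.ofReal_mul, ← e3, abs_of_pos p, Complex.real_smul,
    Complex.real_smul]
  simp only [Complex.ofReal_mul]
  ring
private theorem hatK_nonneg (ρ y : ℝ) : 0 ≤ hatK ρ y := by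
  unfold hatK
  positivity
private theorem hatK_neg (ρ y : ℝ) : hatK ρ (-y) = hatK ρ y := by
  unfold hatK
  rw [Real.cosh_neg]
private theorem continuous_hatK (ρ : ℝ) : Continuous (hatK ρ) := by
  unfold hatK
  fun_prop
private theorem hatK_support (h0 : 0 < ρ) {y : ℝ} (h : hatK ρ y ≠ 0) : -ρ < y ∧ y < ρ := by
  have h1 : 0 < 2 * Real.cosh ρ - 2 * Real.cosh y := by
    by_contra k
    exact h (by rw [hatK, max_eq_right (not_lt.1 k), mul_zero])
  have h2 : |y| < |ρ| := Real.cosh_lt_cosh.1 (by linarith)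
  rw [abs_of_pos h0] at h2
  exact abs_lt.1 h2
private theorem hatK_half (h0 : 0 < ρ) : 0 < hatK ρ (ρ / 2) := by
  have h2 : Real.cosh (ρ / 2) < Real.cosh ρ := Real.cosh_lt_cosh.2 (by
    rw [abs_of_pos h0, abs_of_pos (half_pos h0)]
    exact half_lt_self h0)
  exact mul_pos Real.pi_pos (lt_max_of_lt_left (by linarith))
private theorem hatK_compact (h0 : 0 < ρ) : HasCompactSupport (hatK ρ) :=
  HasCompactSupport.intro (isCompact_Icc (a := -ρ) (b := ρ)) fun _ hy => by_contra fun k =>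
    hy ⟨(hatK_support h0 k).1.le, (hatK_support h0 k).2.le⟩
private theorem hatK_int (h0 : 0 < ρ) {g : ℝ → ℝ} (hg : Continuous g) :
    Integrable fun y => hatK ρ y * g y :=
  ((continuous_hatK ρ).mul hg).integrable_of_hasCompactSupport (hatK_compact h0).mul_right
private theorem hatK_intC (h0 : 0 < ρ) {g : ℝ → ℂ} (hg : Continuous g) :
    Integrable fun y => (hatK ρ y : ℂ) * g y :=
  ((Complex.continuous_ofReal.comp (continuous_hatK ρ)).mul hg).integrable_of_hasCompactSupport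
    ((hatK_compact h0).comp_left (g := fun x : ℝ => (x : ℂ)) Complex.ofReal_zero).mul_right
private theorem hatK_pos (h0 : 0 < ρ) {g : ℝ → ℝ} (hg : Continuous g)
    (h : ∀ y, 0 ≤ y → y < ρ → 0 ≤ g y + g (-y)) (h1 : 0 < g (ρ / 2) + g (-(ρ / 2))) :
    0 < ∫ y, hatK ρ y * g y := by
  have hg' : Continuous fun y => g (-y) := hg.comp continuous_neg
  have e : ∫ y, hatK ρ y * g (-y) = ∫ y, hatK ρ y * g y := by
    rw [← integral_neg_eq_self fun y => hatK ρ y * g y]
    simp only [hatK_neg]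
  have k : 0 < ∫ y, hatK ρ y * (g y + g (-y)) := by
    refine integral_pos_of_integrable_nonneg_nonzero (x := ρ / 2)
      ((continuous_hatK ρ).mul (hg.add hg'))
      (hatK_int h0 (hg.add hg')) (fun y => ?_) (mul_pos (hatK_half h0) h1).ne'
    by_cases k : hatK ρ y = 0
    · simp [k]
    refine mul_nonneg (hatK_nonneg ρ y) ?_
    rcases le_total 0 y with c | c
    · exact h y c (hatK_support h0 k).2
    · have := h (-y) (by linarith) (by linarith [(hatK_support h0 k).1])
      rwa [neg_neg, add_comm] at this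
  simp only [mul_add] at k
  rw [integral_add (hatK_int h0 hg) (hatK_int h0 hg'), e] at k
  linarith
private theorem hasDerivAt_hh (h0 : 0 < ρ) (h1 : ρ ≤ 1) (s : ℂ) :
    HasDerivAt (hh ρ) (∫ y : ℝ, (hatK ρ y : ℂ) * (Complex.exp ((s - 1) * y) * y)) s := by
  rw [funext (hh_eq h0 h1)]
  refine (hasDerivAt_integral_of_dominated_loc_of_deriv_le (Metric.ball_mem_nhds s one_pos)
    (F := fun (x : ℂ) (y : ℝ) => (hatK ρ y : ℂ) * Complex.exp ((x - 1) * y))
    (F' := fun (x : ℂ) (y : ℝ) => (hatK ρ y : ℂ) * (Complex.exp ((x - 1) * y) * y))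
    (bound := fun y => hatK ρ y * (Real.exp ((‖s - 1‖ + 1) * |y|) * |y|))
    (Eventually.of_forall fun x => (hatK_intC h0 (by fun_prop)).aestronglyMeasurable)
    (hatK_intC h0 (by fun_prop)) (hatK_intC h0 (by fun_prop)).aestronglyMeasurable
    (Eventually.of_forall fun y x hx => ?_) (hatK_int h0 (by fun_prop))
    (Eventually.of_forall fun y x _ => ?_)).2
  · rw [norm_mul, norm_mul, Complex.norm_real, Complex.norm_real,
      Real.norm_of_nonneg (hatK_nonneg ρ y), Real.norm_eq_abs]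
    refine mul_le_mul_of_nonneg_left (mul_le_mul_of_nonneg_right
      ((Complex.norm_exp_le_exp_norm _).trans (Real.exp_le_exp.2 ?_)) (abs_nonneg _))
      (hatK_nonneg ρ y)
    rw [norm_mul, Complex.norm_real, Real.norm_eq_abs]
    refine mul_le_mul_of_nonneg_right ?_ (abs_nonneg _)
    have := norm_add_le (s - 1) (x - s)
    rw [show s - 1 + (x - s) = x - 1 by ring] at this
    linarith [mem_ball_iff_norm.1 hx]
  · have := ((((hasDerivAt_id x).sub_const 1).mul_const (y : ℂ)).cexp).const_mul (hatK ρ y : ℂ)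
    rwa [one_mul] at this
theorem differentiable_hh (h0 : 0 < ρ) (h1 : ρ ≤ 1) : Differentiable ℂ (hh ρ) := by
  exact fun s => (hasDerivAt_hh h0 h1 s).differentiableAt
theorem hh_im (h0 : 0 < ρ) (h1 : ρ ≤ 1) {s : ℂ} (hs : s ∈ Dom) :
    0 < (hh ρ s).im ∧ (hh ρ s * Complex.exp (-((2 * ρ : ℝ) * Complex.I))).im < 0 := by
  obtain ⟨a1, -, a2, a3⟩ := hs
  have p := Real.pi_gt_three
  constructor
  · have e : (hh ρ s).im =
        ∫ y, hatK ρ y * (Real.exp ((s.re - 1) * y) * Real.sin (s.im * y)) := by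
      rw [hh_eq h0 h1]
      refine (integral_im (hatK_intC h0 (by fun_prop))).symm.trans
        (integral_congr_ae (Eventually.of_forall fun y => ?_))
      simp [Complex.exp_im]
    have key : ∀ y, Real.exp ((s.re - 1) * y) * Real.sin (s.im * y) +
        Real.exp ((s.re - 1) * -y) * Real.sin (s.im * -y) =
        (Real.exp ((s.re - 1) * y) - Real.exp ((s.re - 1) * -y)) * Real.sin (s.im * y) :=
      fun y => by
        rw [mul_neg s.im, Real.sin_neg]
        ring
    rw [e]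
    refine hatK_pos h0 (by fun_prop) (fun y y0 y3 => ?_) ?_ <;> rw [key]
    · refine mul_nonneg (sub_nonneg.2 (Real.exp_le_exp.2 (by nlinarith)))
        (Real.sin_nonneg_of_nonneg_of_le_pi (by positivity) (by nlinarith))
    · refine mul_pos (sub_pos.2 (Real.exp_lt_exp.2 (by nlinarith)))
        (Real.sin_pos_of_pos_of_lt_pi (by positivity) (by nlinarith))
  · have e : -(hh ρ s * Complex.exp (-((2 * ρ : ℝ) * Complex.I))).im =
        ∫ y, hatK ρ y * (Real.exp ((s.re - 1) * y) * Real.sin (2 * ρ - s.im * y)) := by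
      rw [hh_eq h0 h1, ← integral_mul_const]
      simp only [mul_assoc (hatK ρ _ : ℂ), ← Complex.exp_add]
      rw [show ∀ z : ℂ, z.im = RCLike.im z from fun _ => rfl,
        ← integral_im (hatK_intC h0 (by fun_prop)), ← integral_neg]
      refine integral_congr_ae (Eventually.of_forall fun y => ?_)
      beta_reduce
      rw [← neg_sub (s.im * y), Real.sin_neg]
      simp [Complex.exp_im, sub_eq_add_neg]
    have key : ∀ y, -ρ < y → y < ρ →
        0 < Real.exp ((s.re - 1) * y) * Real.sin (2 * ρ - s.im * y) := fun y y1 y2 =>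
      mul_pos (Real.exp_pos _) (Real.sin_pos_of_pos_of_lt_pi (by nlinarith) (by nlinarith))
    rw [← neg_pos, e]
    exact hatK_pos h0 (by fun_prop) (fun y y0 y3 => (add_pos (key _ (by linarith) y3)
      (key _ (by linarith) (by linarith))).le)
      (add_pos (key _ (by linarith) (by linarith)) (key _ (by linarith) (by linarith)))
private theorem hat_exp (y : ℝ) : Complex.exp ((4 / 3 - 1) * y) = (Real.exp (y / 3) : ℝ) := by
  push_cast
  congr 1
  ring
theorem hh_real (h0 : 0 < ρ) (h1 : ρ ≤ 1) : ∃ a b : ℝ, 0 < a ∧ 0 < b ∧ hh ρ (4 / 3) = b ∧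
    HasDerivAt (hh ρ) a (4 / 3) := by
  have h := hasDerivAt_hh h0 h1 (4 / 3)
  have h' := hh_eq h0 h1 (4 / 3)
  simp only [hat_exp, ← Complex.ofReal_mul] at h h'
  rw [integral_complex_ofReal] at h h'
  refine ⟨_, _, hatK_pos h0 (by fun_prop) (fun y y0 _ => ?_) ?_,
    hatK_pos h0 (by fun_prop) (fun y _ _ => by positivity) (by positivity), h', h⟩
  · have : Real.exp (-y / 3) ≤ Real.exp (y / 3) := Real.exp_le_exp.2 (by linarith)
    nlinarith
  · have : Real.exp (-(ρ / 2) / 3) < Real.exp (ρ / 2 / 3) := Real.exp_lt_exp.2 (by linarith)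
    nlinarith
theorem im_pow_ne {z : ℂ} {n : ℕ} (hn : 0 < n) (h : 0 < z.im)
    (h' : (z * Complex.exp (-((2 * (1 / n) : ℝ) * Complex.I))).im < 0) : (z ^ n).im ≠ 0 := by
  have p := Real.pi_gt_three
  have hz : 0 < ‖z‖ := norm_pos_iff.2 fun e => by simp [e] at h
  have a1 : 0 < z.arg := lt_of_le_of_ne (Complex.arg_nonneg_iff.2 h.le) fun e =>
    h.ne' (Complex.arg_eq_zero_iff.1 e.symm).2
  have a2 := Complex.arg_le_pi z
  have hn' : (0 : ℝ) < n := Nat.cast_pos.2 hn
  have e := Complex.norm_mul_exp_arg_mul_I z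
  generalize z.arg = θ at a1 a2 e
  generalize ‖z‖ = r at hz e
  subst e
  have e1 : (r : ℂ) * Complex.exp (θ * Complex.I) * Complex.exp (-((2 * (1 / n) : ℝ) * Complex.I))
      = r * Complex.exp ((θ - 2 * (1 / n) : ℝ) * Complex.I) := by
    rw [mul_assoc, ← Complex.exp_add, Complex.ofReal_sub, sub_mul, sub_eq_add_neg]
  have e2 : ((r : ℂ) * Complex.exp (θ * Complex.I)) ^ n
      = (r ^ n : ℝ) * Complex.exp ((n * θ : ℝ) * Complex.I) := by
    rw [mul_pow, ← Complex.exp_nat_mul, Complex.ofReal_pow, Complex.ofReal_mul, mul_assoc,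
      Complex.ofReal_natCast]
  rw [e1, Complex.im_ofReal_mul, Complex.exp_ofReal_mul_I_im] at h'
  rw [e2, Complex.im_ofReal_mul, Complex.exp_ofReal_mul_I_im]
  have a3 : θ < 2 * (1 / n) := by
    by_contra k
    have k1 : (0 : ℝ) < 2 * (1 / n) := by positivity
    exact h'.not_ge (mul_nonneg hz.le (Real.sin_nonneg_of_nonneg_of_le_pi
      (sub_nonneg.2 (not_lt.1 k)) (by linarith)))
  rw [mul_one_div, lt_div_iff₀ hn'] at a3
  exact (mul_pos (pow_pos hz n) (Real.sin_pos_of_pos_of_lt_pi (by positivity) (by linarith))).ne'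

end Vale.Agent.P319
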