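import Vale.Agent.P319.N.ThMeas
import Vale.Agent.P319.N.ThHat1

/-! TH-B: the product of small balls, the measure `Om` of total heights, `conv`, `hhat`.
PLAN.  `BtK w = univ.pi ..`.  For `Pos w` let `g v = nC (w v).1 * dC √(w v).2`, so `aC (g v) (0, 1) = w v` and
`(aC (g v) u).2 = (w v).2 * u.2`; `measurePreserving_piC g` and `mem_Bt_aC` give `slice` (`integral_map` twice, indicator functions)
and `hmuK (BtK w) = hmuK (BtK w0) = ∏ hmu (Bt ..) < ⊤` (`Measure.pi_pi`).  `ae_Om`: `|log Ht| ≤ r * (1 / r) = 1`, `exp 1 < 4`.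
`hhat_eq_pow`: `Measure.restrict_pi_pi`, `(∏ y v) ^ s = ∏ (y v) ^ s` for positive reals, `integral_fintype_prod_eq_pow`. -/

namespace Vale.Agent.P319

open scoped ComplexConjugate Real Topology ENNReal NNReal InnerProductSpace NumberField
open MeasureTheory Filter Set

variable {K : Type} [Field K] [NumberField K] [Stp K]

variable (K) in
/-- the radius of the balls -/
noncomputable def rad : ℝ := 1 / (Fintype.card (Pl K) : ℝ)

/-- product of balls -/
def BtK (w : Hy K) : Set (Hy K) := {w' | ∀ v, w' v ∈ Bt (Real.cosh (rad K)) (w v)}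

variable (K) in
/-- distribution of the total height on the ball about the base point -/
noncomputable def Om : Measure ℝ := ((hmuK K).restrict (BtK fun _ => (0, 1))).map Ht

variable (K) in
/-- the ball average acting on functions of the height -/
noncomputable def conv (ψ : ℝ → ℂ) (v : ℝ) : ℂ := ∫ x, ψ (v * x) ∂Om K

variable (K) in
/-- the eigenvalue -/
noncomputable def hhat (s : ℂ) : ℂ := ∫ x, (x : ℂ) ^ s ∂Om K

variable (K) in
/-- the total mass -/
noncomputable def cOm : ℝ := (Om K).real univ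

variable {w w' : Hy K}

theorem rad_pos : 0 < rad K := one_div_pos.2 (Nat.cast_pos.2 card_Pl_pos)
theorem rad_le_one : rad K ≤ 1 := by
  have h : (1 : ℝ) ≤ Fintype.card (Pl K) := Nat.one_le_cast.2 card_Pl_pos
  exact (div_le_one (by linarith)).2 h
theorem BtK_pos (h : w' ∈ BtK w) : Pos w' := fun v => (h v).1
theorem mem_BtK_act (g : SL2 K) (hw : Pos w) : act g w' ∈ BtK (act g w) ↔ w' ∈ BtK w :=
  forall_congr' fun v => mem_Bt_aC (evM v g) (hw v)
theorem BtK_comm (hw : Pos w) (h : w' ∈ BtK w) : w ∈ BtK w' :=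
  fun v => ⟨hw v, (tt_comm _ _).trans_le (h v).2⟩
theorem measurableSet_BtK₂ : MeasurableSet {p : Hy K × Hy K | p.2 ∈ BtK p.1} := by
  have h : {p : Hy K × Hy K | p.2 ∈ BtK p.1} = ⋂ v, (fun p : Hy K × Hy K => (p.1 v, p.2 v)) ⁻¹'
      {p : (ℂ × ℝ) × (ℂ × ℝ) | p.2 ∈ Bt (Real.cosh (rad K)) p.1} := by
    ext p
    simp only [BtK, mem_ofPred_eq, mem_iInter, mem_preimage]
  rw [h]
  exact MeasurableSet.iInter fun v => (measurableSet_Bt₂ _).preimage
    (((measurable_pi_apply v).comp measurable_fst).prodMk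
      ((measurable_pi_apply v).comp measurable_snd))
theorem measurableSet_BtK (w : Hy K) : MeasurableSet (BtK w) :=
  measurable_prodMk_left (x := w) measurableSet_BtK₂
theorem BtK_subset (hw : Pos w) : ∃ T : ℝ, 0 < T ∧ BtK w ⊆ Sg K T := by
  have h0 : ∀ v, 0 ≤ ‖(w v).1‖ + 2 * (w v).2 + 4 / (w v).2 := fun v => by
    have := hw v
    positivity
  have h1 : 0 ≤ ∑ v, (‖(w v).1‖ + 2 * (w v).2 + 4 / (w v).2) := Finset.sum_nonneg fun v _ => h0 v
  refine ⟨1 + ∑ v, (‖(w v).1‖ + 2 * (w v).2 + 4 / (w v).2), by linarith, fun u hu v => ?_⟩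
  have h2 : ‖(w v).1‖ + 2 * (w v).2 + 4 / (w v).2 ≤
      ∑ v, (‖(w v).1‖ + 2 * (w v).2 + 4 / (w v).2) :=
    Finset.single_le_sum (f := fun v => ‖(w v).1‖ + 2 * (w v).2 + 4 / (w v).2)
      (fun v _ => h0 v) (Finset.mem_univ v)
  obtain ⟨h3, h4, -⟩ := Bt_bounds (cosh_le_two rad_pos rad_le_one) (hw v) (hu v)
  have h5 := hw v
  have h6 : 0 < 4 / (w v).2 := by positivity
  have h7 := norm_nonneg (w v).1
  refine ⟨?_, le_trans ?_ h4⟩
  · have h8 := norm_le_norm_sub_add (u v).1 (w v).1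
    linarith
  · rw [← one_div_div 4 (w v).2]
    exact one_div_le_one_div_of_le h6 (by linarith)

private theorem base_pos : Pos (fun _ => (0, 1) : Hy K) := fun _ => one_pos

/-- the invariant map that moves the base point to `w` -/
private theorem exists_move (hw : Pos w) : ∃ Φ : Hy K → Hy K,
    MeasurePreserving Φ (hmuK K) (hmuK K) ∧ Φ ⁻¹' BtK w = BtK (fun _ => (0, 1)) ∧
      ∀ u, Ht (Φ u) = Ht w * Ht u := by
  have ha : ∀ v, ((√(w v).2 : ℝ) : ℂ) ≠ 0 := fun v =>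
    Complex.ofReal_ne_zero.2 (Real.sqrt_pos.2 (hw v)).ne'
  have hn : ∀ v, ‖((√(w v).2 : ℝ) : ℂ)‖ ^ 2 = (w v).2 := fun v => by
    rw [Complex.norm_real, Real.norm_eq_abs, sq_abs, Real.sq_sqrt (hw v).le]
  refine ⟨_, (measurePreserving_piC fun v => nC (w v).1).comp
    (measurePreserving_piC fun v => dC _ (ha v)), ?_, fun u => ?_⟩
  · ext u
    refine forall_congr' fun v => ?_
    have h1 : w v = aC (nC (w v).1) (aC (dC _ (ha v)) (0, 1)) := by
      rw [aC_nC, aC_dC, hn]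
      simp
    change aC (nC (w v).1) (aC (dC _ (ha v)) (u v)) ∈ Bt _ (w v) ↔ u v ∈ Bt _ (0, 1)
    rw [← mem_Bt_aC (dC _ (ha v)) (w := (0, 1)) one_pos,
      ← mem_Bt_aC (nC (w v).1) (aC_pos (dC _ (ha v)) (w := (0, 1)) one_pos), ← h1]
  · rw [Ht, Ht, Ht, ← Finset.prod_mul_distrib]
    refine Finset.prod_congr rfl fun v _ => ?_
    change (aC (nC (w v).1) (aC (dC _ (ha v)) (u v))).2 = _
    rw [aC_nC, aC_dC, hn]

private theorem base_lt_top : hmuK K (BtK fun _ => (0, 1)) < ⊤ := by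
  obtain ⟨T, hT, h⟩ := BtK_subset (base_pos (K := K))
  exact (measure_mono h).trans_lt (hmuK_Sg hT)

theorem hmuK_BtK : ∃ M : ℝ≥0, ∀ w : Hy K, Pos w → hmuK K (BtK w) ≤ M := by
  refine ⟨(hmuK K (BtK fun _ => (0, 1))).toNNReal, fun w hw => ?_⟩
  obtain ⟨Φ, h1, h2, -⟩ := exists_move hw
  rw [ENNReal.coe_toNNReal base_lt_top.ne, ← h2,
    h1.measure_preimage (measurableSet_BtK w).nullMeasurableSet]
instance thb_finite_Om : IsFiniteMeasure (Om K) := by
  have : IsFiniteMeasure ((hmuK K).restrict (BtK fun _ => (0, 1))) :=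
    isFiniteMeasure_restrict.2 base_lt_top.ne
  unfold Om
  infer_instance
theorem cOm_nonneg : 0 ≤ cOm K := measureReal_nonneg
theorem ae_Om : ∀ᵐ x ∂Om K, 1 / 4 ≤ x ∧ x ≤ 4 := by
  refine (ae_map_iff measurable_Ht.aemeasurable (p := fun x => 1 / 4 ≤ x ∧ x ≤ 4)
    measurableSet_Icc).2 ((ae_restrict_mem (measurableSet_BtK _)).mono fun u hu => ?_)
  have hu0 : Pos u := BtK_pos hu
  have h1 : |Real.log (Ht u)| ≤ 1 := by
    rw [Ht, Real.log_prod fun v _ => (hu0 v).ne']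
    refine (Finset.abs_sum_le_sum_abs _ _).trans
      ((Finset.sum_le_sum fun v _ => Bt_log rad_pos (hu v)).trans ?_)
    have h : (0 : ℝ) < Fintype.card (Pl K) := Nat.cast_pos.2 card_Pl_pos
    rw [Finset.sum_const, Finset.card_univ, nsmul_eq_mul, rad, mul_one_div_cancel h.ne']
  have h2 := Real.exp_log hu0.ht_pos
  have h3 := Real.exp_one_lt_three
  obtain ⟨h4, h5⟩ := abs_le.1 h1
  refine ⟨?_, by linarith [Real.exp_le_exp.2 h5]⟩
  have h6 := Real.exp_le_exp.2 h4
  have h7 : 1 / 4 ≤ Real.exp (-1) := by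
    rw [Real.exp_neg, ← one_div]
    exact one_div_le_one_div_of_le (Real.exp_pos 1) (by linarith)
  linarith
theorem integrable_Om {f : ℝ → ℂ} (hf : Measurable f) {M : ℝ}
    (h : ∀ x, 1 / 4 ≤ x → x ≤ 4 → ‖f x‖ ≤ M) :
    Integrable f (Om K) ∧ ‖∫ x, f x ∂Om K‖ ≤ cOm K * M := by
  have h1 : ∀ᵐ x ∂Om K, ‖f x‖ ≤ M := ae_Om.mono fun x hx => h x hx.1 hx.2
  exact ⟨Integrable.of_bound hf.aestronglyMeasurable M h1,
    (norm_integral_le_of_norm_le_const h1).trans_eq (mul_comm _ _)⟩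
theorem measurable_Om_int {F : ℝ × ℝ → ℂ} (hF : Measurable F) :
    Measurable fun v => ∫ x, F (v, x) ∂Om K :=
  hF.stronglyMeasurable.integral_prod_right'.measurable
theorem measurable_conv {ψ : ℝ → ℂ} (hψ : Measurable ψ) : Measurable (conv K ψ) :=
  measurable_Om_int (F := fun p => ψ (p.1 * p.2)) (hψ.comp (measurable_fst.mul measurable_snd))
theorem slice {ψ : ℝ → ℂ} (hψ : Measurable ψ) (hw : Pos w) :
    ∫ w' in BtK w, ψ (Ht w') ∂hmuK K = conv K ψ (Ht w) := by
  obtain ⟨Φ, h1, h2, h3⟩ := exists_move hw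
  have h4 := h1.restrict_preimage (measurableSet_BtK w)
  rw [← h4.map_eq, integral_map h4.measurable.aemeasurable
    (hψ.fun_comp measurable_Ht).aestronglyMeasurable, h2, conv, Om,
    integral_map measurable_Ht.aemeasurable
      (hψ.fun_comp (measurable_const_mul _)).aestronglyMeasurable]
  simp only [h3]

private theorem prod_cpow {ι : Type} (t : Finset ι) {y : ι → ℝ} (hy : ∀ i, 0 < y i) (s : ℂ) :
    ((∏ i ∈ t, y i : ℝ) : ℂ) ^ s = ∏ i ∈ t, (y i : ℂ) ^ s := by
  classical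
  induction t using Finset.induction_on with
  | empty => simp
  | insert a t ha ih =>
    rw [Finset.prod_insert ha, Finset.prod_insert ha, Complex.ofReal_mul,
      Complex.mul_cpow_ofReal_nonneg (hy a).le (Finset.prod_nonneg fun i _ => (hy i).le), ih]

theorem hhat_eq_pow (s : ℂ) : hhat K s = hh (rad K) s ^ Fintype.card (Pl K) := by
  have h1 : (BtK fun _ => (0, 1) : Set (Hy K)) =
      univ.pi fun _ => Bt (Real.cosh (rad K)) (0, 1) := by
    ext u
    simp only [BtK, mem_ofPred_eq, mem_univ_pi]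
  rw [hhat, Om, integral_map measurable_Ht.aemeasurable
    (Complex.measurable_ofReal.pow_const s).aestronglyMeasurable,
    setIntegral_congr_fun (measurableSet_BtK _) (f := fun u => (Ht u : ℂ) ^ s)
      (g := fun u => ∏ v, ((u v).2 : ℂ) ^ s)
      fun u hu => prod_cpow _ (BtK_pos hu) s, h1, hmuK, Measure.restrict_pi_pi, hh]
  exact integral_fintype_prod_eq_pow fun w : ℂ × ℝ => (w.2 : ℂ) ^ s
theorem differentiable_hhat : Differentiable ℂ (hhat K) := by
  rw [funext (hhat_eq_pow (K := K))]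
  exact (differentiable_hh rad_pos rad_le_one).pow _
theorem hhat_im_ne {s : ℂ} (hs : s ∈ Dom) : (hhat K s).im ≠ 0 := by
  rw [hhat_eq_pow]
  exact im_pow_ne card_Pl_pos (hh_im rad_pos rad_le_one hs).1 (hh_im rad_pos rad_le_one hs).2
theorem hhat_im_zero : (hhat K (4 / 3)).im = 0 := by
  obtain ⟨a, b, -, -, h, -⟩ := hh_real (rad_pos (K := K)) rad_le_one
  rw [hhat_eq_pow, h, ← Complex.ofReal_pow, Complex.ofReal_im]
theorem hhat_deriv : ∃ a : ℝ, a ≠ 0 ∧ HasDerivAt (hhat K) a (4 / 3) := by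
  obtain ⟨a, b, ha, hb, h, h'⟩ := hh_real (rad_pos (K := K)) rad_le_one
  have h0 : (0 : ℝ) < Fintype.card (Pl K) := Nat.cast_pos.2 card_Pl_pos
  refine ⟨Fintype.card (Pl K) * b ^ (Fintype.card (Pl K) - 1) * a, by positivity, ?_⟩
  rw [funext (hhat_eq_pow (K := K))]
  have h1 := h'.fun_pow (Fintype.card (Pl K))
  rw [h] at h1
  push_cast
  exact h1

end Vale.Agent.P319
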