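import Vale.Agent.P319.N.ThCount

/-! TH-B: absolute convergence of series over rows (port of the second half of P026 ThCount and of ThEis). -/

namespace Vale.Agent.P319

open scoped ComplexConjugate Real Topology ENNReal NNReal InnerProductSpace NumberField
open MeasureTheory Filter Set

variable {K : Type} [Field K] [NumberField K] [Stp K]

theorem sum_rows (a : ℕ) {σ : ℝ} (hσ : 2 < σ) : ∃ C : ℝ, 0 < C ∧ ∀ w : Hy K, Pos w →
    ∀ s : Finset (RowQ K), (∀ r ∈ s, Box a r.out) →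
      ∑ r ∈ s, min 1 (vr r.out w ^ σ) ≤ C := by
  classical
  obtain ⟨C, hC, hc⟩ := card_rows (K := K) a
  set p : ℝ := (1 / 2) ^ σ with hp
  have hp0 : 0 < p := by positivity
  have hp1 : 4 * p < 1 := by
    have := Real.rpow_lt_rpow_of_exponent_gt (x := 1 / 2) (by norm_num) (by norm_num) hσ
    rw [Real.rpow_two] at this
    linarith
  refine ⟨5 * C * (1 - 4 * p)⁻¹, mul_pos (by positivity) (inv_pos.2 (by linarith)),
    fun w hw s hs => ?_⟩
  have ex : ∀ r : RowQ K, ∃ k : ℕ, Box a r.out →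
      1 / (2 : ℝ) ^ (k + 1) ≤ vr r.out w ∧ min 1 (vr r.out w ^ σ) ≤ p ^ k := by
    intro r
    by_cases hr : Box a r.out
    swap
    · exact ⟨0, fun h => absurd h hr⟩
    have hv := vr_pos (ne_zero_of_coprime hr.coprime) hw
    rcases le_total 1 (vr r.out w) with h1 | h1
    · exact ⟨0, fun _ => ⟨by linarith, by simp⟩⟩
    obtain ⟨k, h2, h3⟩ := exists_nat_pow_near_of_lt_one hv h1 (y := 1 / 2) (by norm_num)
      (by norm_num)
    refine ⟨k, fun _ => ⟨by simpa using h2.le, (min_le_right _ _).trans ?_⟩⟩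
    rw [hp, ← Real.rpow_natCast, ← Real.rpow_mul (by norm_num), mul_comm,
      Real.rpow_mul (by norm_num), Real.rpow_natCast]
    gcongr
  choose k hk using ex
  calc ∑ r ∈ s, min 1 (vr r.out w ^ σ) ≤ ∑ r ∈ s, p ^ k r :=
        Finset.sum_le_sum fun r hr => (hk r (hs r hr)).2
    _ = ∑ j ∈ s.image k, ((s.filter fun r => k r = j).card : ℝ) * p ^ j := by
        rw [Finset.sum_comp (fun j => p ^ j) k]
        simp only [nsmul_eq_mul]
    _ ≤ ∑ j ∈ s.image k, 5 * C * (4 * p) ^ j := by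
        refine Finset.sum_le_sum fun j _ => ?_
        have h1 := hc w hw (2 ^ (j + 1)) (by positivity) (s.filter fun r => k r = j) fun r hr => by
          obtain ⟨hr', rfl⟩ := Finset.mem_filter.1 hr
          exact ⟨hs r hr', (hk r (hs r hr')).1⟩
        have h2 : ((2 : ℝ) ^ (j + 1)) ^ 2 = 4 * 4 ^ j := by
          rw [← pow_mul, mul_comm, pow_mul, pow_succ]; norm_num; ring
        have h3 : (1 : ℝ) ≤ 4 ^ j := one_le_pow₀ (by norm_num)
        rw [mul_pow, ← mul_assoc]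
        gcongr
        nlinarith
    _ ≤ _ := by
        rw [← Finset.mul_sum, ← tsum_geometric_of_lt_one (by positivity) hp1]
        gcongr
        exact (summable_geometric_of_lt_one (by positivity) hp1).sum_le_tsum _
          fun j _ => by positivity

/-- uniform absolute convergence of series over primitive rows -/
theorem tsum_rows (b : ℕ) {σ : ℝ} (hσ : 2 < σ) : ∃ C : ℝ, 0 < C ∧ ∀ w : Hy K, Pos w →
    ∀ (a : RowQ K → ℂ) (M : ℝ), 0 ≤ M → (∀ r : RowQ K, ¬Box b r.out → a r = 0) →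
      (∀ r : RowQ K, Box b r.out → ‖a r‖ ≤ M * min 1 (vr r.out w ^ σ)) →
      Summable (fun r => ‖a r‖) ∧ ∑' r, ‖a r‖ ≤ C * M := by
  classical
  obtain ⟨C, hC, hc⟩ := sum_rows (K := K) b hσ
  refine ⟨C, hC, fun w hw a M hM h0 h1 => ?_⟩
  have key : ∀ s : Finset (RowQ K), ∑ r ∈ s, ‖a r‖ ≤ C * M := by
    intro s
    rw [← Finset.sum_filter_of_ne (p := fun r => Box b r.out)
      fun r _ h => by_contra fun h' => h (by rw [h0 r h', norm_zero])]
    refine (Finset.sum_le_sum fun r hr => h1 r (Finset.mem_filter.1 hr).2).trans ?_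
    rw [← Finset.mul_sum, mul_comm]
    gcongr
    exact hc w hw _ fun r hr => (Finset.mem_filter.1 hr).2
  have hs := summable_of_sum_le (fun r => norm_nonneg (a r)) key
  exact ⟨hs, hs.tsum_le_of_sum_le key⟩

/-- the heights of the rows of `Box a` are bounded on a compact box -/
theorem vr_le_box (a : ℕ) {T : ℝ} (hT : 0 < T) : ∃ B : ℝ, 1 ≤ B ∧ ∀ w : Hy K, InBox T w →
    ∀ r, Box a r → vr r w ≤ B := by
  refine ⟨max 1 (nK ((MM K : K) ^ a) * T ^ Fintype.card (Pl K)), le_max_left _ _,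
    fun w hw r hr => le_max_of_le_right ((vr_le hr (hw.pos hT)).trans ?_)⟩
  exact mul_le_mul_of_nonneg_left (hw.max_le hT) (nK_nonneg _)

/-- absolute convergence of the Eisenstein series, uniformly on compact boxes -/
theorem tsum_eis (a : ℕ) {σ T : ℝ} (hσ : 2 < σ) (hT : 0 < T) : ∃ C : ℝ, 0 < C ∧
    ∀ Ψ : R K × R K → ℂ, (∀ r, ¬Box a r → Ψ r = 0) → (∀ r, ‖Ψ r‖ ≤ 1) →
    ∀ s : ℂ, s.re = σ → ∀ w : Hy K, InBox T w →
      Summable (fun r : RowQ K => ‖Ψ r.out * ((vr r.out w : ℝ) : ℂ) ^ s‖) ∧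
      ∑' r : RowQ K, ‖Ψ r.out * ((vr r.out w : ℝ) : ℂ) ^ s‖ ≤ C := by
  obtain ⟨C, hC, hc⟩ := tsum_rows (K := K) a hσ
  obtain ⟨B, hb, hB⟩ := vr_le_box (K := K) a hT
  refine ⟨C * B ^ σ, by positivity, fun Ψ h0 h1 s hs w hw => hc w (hw.pos hT) _ _ (by positivity)
    (fun r hr => by rw [h0 _ hr, zero_mul]) fun r hr => ?_⟩
  have hv := vr_pos (ne_zero_of_coprime hr.coprime) (hw.pos hT)
  rw [norm_mul, Complex.norm_cpow_eq_rpow_re_of_pos hv, hs, mul_min_of_nonneg _ _ (by positivity)]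
  refine (mul_le_of_le_one_left (by positivity) (h1 _)).trans (le_min ?_ ?_)
  · rw [mul_one]
    exact Real.rpow_le_rpow hv.le (hB w hw _ hr) (by linarith)
  · exact le_mul_of_one_le_left (by positivity) (Real.one_le_rpow hb (by linarith))

theorem tsum_box (a : ℕ) {σ T : ℝ} (hσ : 2 < σ) (hT : 0 < T) : ∃ C : ℝ, ∀ w : Hy K, InBox T w →
    Summable (fun r : RowQ K => ‖ind (Box a r.out)‖ * vr r.out w ^ σ) ∧
      ∑' r : RowQ K, ‖ind (Box a r.out)‖ * vr r.out w ^ σ ≤ C := by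
  obtain ⟨C, -, hc⟩ := tsum_eis (K := K) a hσ hT
  refine ⟨C, fun w hw => ?_⟩
  have h := hc (fun r => ind (Box a r)) (fun r hr => by simp [ind, hr])
    (fun r => by unfold ind; split_ifs <;> simp) (σ : ℂ) (Complex.ofReal_re σ) w hw
  have e : ∀ r : RowQ K, ‖ind (Box a r.out) * ((vr r.out w : ℝ) : ℂ) ^ (σ : ℂ)‖ =
      ‖ind (Box a r.out)‖ * vr r.out w ^ σ := by
    intro r
    by_cases hr : Box a r.out
    · rw [norm_mul, Complex.norm_cpow_eq_rpow_re_of_pos
        (vr_pos (ne_zero_of_coprime hr.coprime) (hw.pos hT)), Complex.ofReal_re]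
    · simp [ind, hr]
  simpa only [e] using h

theorem integrable_Eis {a : ℕ} {Ψ : R K × R K → ℂ} (h0 : ∀ r, ¬Box a r → Ψ r = 0)
    (h1 : ∀ r, ‖Ψ r‖ ≤ 1) {F : Hy K → ℂ} (hF : Test F) {s : ℂ} (hs : 2 < s.re) :
    Integrable (fun w => Eis Ψ w s * F w) (hmuK K) := by
  obtain ⟨M, hM, hFM⟩ := hF.2
  obtain ⟨C, hC, hc⟩ := tsum_eis (K := K) a hs hM
  refine (hF.integrable.norm.const_mul C).mono'
    ((measurable_Eis Ψ s).mul hF.1).aestronglyMeasurable (Eventually.of_forall fun w => ?_)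
  by_cases h : F w = 0
  · simp [h]
  obtain ⟨h4, h5⟩ := hc Ψ h0 h1 s rfl w ((hFM w).2 h)
  rw [norm_mul]
  gcongr
  exact (norm_tsum_le_tsum_norm h4).trans h5

end Vale.Agent.P319
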