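import Vale.Agent.P319.N.ThCount

/-! TH-B: a finite measure that plays the role of a fundamental domain (port of P026 ThWeight). -/

namespace Vale.Agent.P319

open scoped ComplexConjugate Real Topology ENNReal NNReal InnerProductSpace NumberField
open MeasureTheory Filter Set

variable {K : Type} [Field K] [NumberField K] [Stp K]

/-- `ν` is a finite measure whose translates add up to `hmuK` -/
def IsWt (Γ : Subgroup (SL2 K)) (ν : Measure (Hy K)) : Prop :=
  IsFiniteMeasure ν ∧ hmuK K = Measure.sum fun δ : Γ => ν.map (act δ)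

theorem exists_wt0 {𝔪 : Ideal (𝓞 K)} (hm : 𝔪 ≠ ⊥) : ∃ φ : Hy K → ℝ≥0∞, Measurable φ ∧
    ∫⁻ w, φ w ∂hmuK K ≠ ⊤ ∧ ∀ w : Hy K, Pos w → ∑' δ : GamS 𝔪, φ (act δ w) = 1 := by
  obtain ⟨b, T, hT, hS⟩ := exists_siegel (K := K)
  obtain ⟨t, ht, hcos⟩ := exists_fin_cosets b hm (S := {g | MDen b g}) fun _ h => h
  obtain ⟨S, hSd⟩ : ∃ S : Set (Hy K), S = ⋃ g ∈ t, act g ⁻¹' Sg K T := ⟨_, rfl⟩
  have mS : MeasurableSet S := hSd ▸ t.measurableSet_biUnion fun g _ =>
    measurable_act g (measurableSet_Sg T)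
  have fS : hmuK K S ≠ ⊤ := by
    rw [hSd]
    refine ne_top_of_le_ne_top ?_ (measure_biUnion_finset_le _ _)
    refine ENNReal.sum_ne_top.2 fun g _ => ?_
    rw [(measurePreserving_act g).measure_preimage (measurableSet_Sg T).nullMeasurableSet]
    exact (hmuK_Sg hT).ne
  obtain ⟨I, hI⟩ : ∃ I, I = S.indicator fun _ => (1 : ℝ≥0∞) := ⟨_, rfl⟩
  have mI : Measurable I := hI ▸ measurable_const.indicator mS
  obtain ⟨Φ, hΦ⟩ : ∃ Φ : Hy K → ℝ≥0∞, Φ = fun w => ∑' δ : GamS 𝔪, I (act δ w) := ⟨_, rfl⟩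
  have mΦ : Measurable Φ :=
    hΦ ▸ Measurable.tsum fun δ : GamS 𝔪 => mI.fun_comp (measurable_act (δ : SL2 K))
  have h1 : ∀ w : Hy K, Pos w → 1 ≤ Φ w := fun w hw => by
    obtain ⟨g, hg, hgw⟩ := hS w hw
    obtain ⟨g₀, h0, -, hδ⟩ := hcos g hg
    rw [hΦ]
    refine le_trans (le_of_eq ?_) (ENNReal.le_tsum (⟨g₀⁻¹ * g, hδ⟩ : GamS 𝔪))
    rw [hI, indicator_of_mem]
    rw [hSd]
    refine mem_biUnion h0 ?_
    change act g₀ (act (g₀⁻¹ * g) w) ∈ Sg K T
    rwa [← act_mul _ _ hw, mul_inv_cancel_left]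
  have h2 : ∀ w : Hy K, Pos w → Φ w ≠ ⊤ := fun w hw => by
    have hf : {δ : GamS 𝔪 | act δ w ∈ S}.Finite := by
      refine (t.finite_toSet.biUnion (t := fun g => (fun δ : GamS 𝔪 => g * (δ : SL2 K)) ⁻¹'
        {g : SL2 K | MDen b g ∧ act g w ∈ Sg K T}) fun g _ => (finite_act b hw hT).preimage
          fun x _ y _ h => Subtype.ext (mul_left_cancel h)).subset fun δ hδ => ?_
      rw [hSd] at hδ
      obtain ⟨g, hg, h⟩ := mem_iUnion₂.1 hδ
      refine mem_biUnion hg ⟨(ht g hg).mul (Gam.mden δ.2), ?_⟩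
      rw [act_mul _ _ hw]
      exact h
    rw [hΦ]
    beta_reduce
    rw [tsum_eq_sum (s := hf.toFinset) fun g hg => by
      rw [hI, indicator_of_notMem (show act g w ∉ S from fun k => hg (hf.mem_toFinset.2 k))]]
    refine ENNReal.sum_ne_top.2 fun g _ => ?_
    rw [hI]
    exact ne_top_of_le_ne_top ENNReal.one_ne_top (indicator_le_self _ _ _)
  have h3 : ∀ w : Hy K, Pos w → ∀ h : GamS 𝔪, Φ (act h w) = Φ w := fun w hw h => by
    rw [hΦ]
    beta_reduce
    rw [← (Equiv.mulRight h).tsum_eq fun g : GamS 𝔪 => I (act g w)]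
    exact tsum_congr fun g => by rw [Equiv.coe_mulRight, Subgroup.coe_mul, act_mul _ _ hw]
  refine ⟨fun w => I w * (Φ w)⁻¹, mI.mul mΦ.inv, ?_, fun w hw => ?_⟩
  · refine ne_top_of_le_ne_top fS ?_
    calc ∫⁻ w, I w * (Φ w)⁻¹ ∂hmuK K ≤ ∫⁻ w, I w ∂hmuK K :=
          lintegral_mono_ae (ae_pos.mono fun w hw =>
            mul_le_of_le_one_right' (ENNReal.inv_le_one.2 (h1 w hw)))
      _ = hmuK K S := by rw [hI, lintegral_indicator_const mS, one_mul]
  · simp only [h3 w hw]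
    rw [ENNReal.tsum_mul_right]
    have e : ∑' g : GamS 𝔪, I (act g w) = Φ w := by rw [hΦ]
    rw [e]
    exact ENNReal.mul_inv_cancel (lt_of_lt_of_le one_pos (h1 w hw)).ne' (h2 w hw)

theorem exists_weight {𝔪 : Ideal (𝓞 K)} (hm : 𝔪 ≠ ⊥) : ∃ ν, IsWt (GamS 𝔪) ν := by
  obtain ⟨φ, m1, f0, s0⟩ := exists_wt0 hm
  have s1 : ∀ w : Hy K, Pos w → ∑' δ : GamS 𝔪, φ (act (δ : SL2 K)⁻¹ w) = 1 := fun w hw => by
    rw [← s0 w hw, ← (Equiv.inv (GamS 𝔪)).tsum_eq]
    refine tsum_congr fun δ => ?_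
    rw [Equiv.inv_apply, Subgroup.coe_inv, inv_inv]
  refine ⟨(hmuK K).withDensity φ, isFiniteMeasure_withDensity f0, ?_⟩
  · ext A hA
    have e : ∀ δ : GamS 𝔪, ((hmuK K).withDensity φ).map (act δ) A =
        ∫⁻ w in A, φ (act (δ : SL2 K)⁻¹ w) ∂hmuK K := fun δ => by
      have hA' := measurable_act (δ : SL2 K) hA
      rw [Measure.map_apply (measurable_act (δ : SL2 K)) hA, withDensity_apply _ hA',
        ← lintegral_indicator hA', ← lintegral_indicator hA,
        ← lintegral_act δ ((m1.fun_comp (measurable_act _)).indicator hA)]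
      refine lintegral_congr_ae (ae_pos.mono fun w hw => ?_)
      beta_reduce
      by_cases k : act δ w ∈ A
      · rw [indicator_of_mem k, indicator_of_mem (show w ∈ act δ ⁻¹' A from k),
          act_inv_act _ hw]
      · rw [indicator_of_notMem k, indicator_of_notMem (show w ∉ act δ ⁻¹' A from k)]
    rw [Measure.sum_apply _ hA, tsum_congr e,
      ← lintegral_tsum fun δ : GamS 𝔪 => (m1.fun_comp (measurable_act (δ : SL2 K)⁻¹)).aemeasurable,
      ← setLIntegral_one]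
    exact lintegral_congr_ae (ae_restrict_of_ae (ae_pos.mono fun w hw => (s1 w hw).symm))

variable {Γ : Subgroup (SL2 K)} {ν : Measure (Hy K)}

theorem IsWt.ae_pos (h : IsWt Γ ν) : ∀ᵐ w ∂ν, Pos w := by
  have k := P319.ae_pos (K := K)
  rw [h.2, Measure.ae_sum_iff] at k
  exact (ae_of_ae_map (measurable_act _).aemeasurable (k 1)).mono fun w hw =>
    (act_pos_iff _).1 hw

theorem IsWt.lintegral (h : IsWt Γ ν) {f : Hy K → ℝ≥0∞} (hf : Measurable f) :
    ∫⁻ w, f w ∂hmuK K = ∫⁻ w, ∑' δ : Γ, f (act δ w) ∂ν := by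
  rw [h.2, lintegral_sum_measure,
    lintegral_tsum fun δ : Γ => (hf.fun_comp (measurable_act (δ : SL2 K))).aemeasurable]
  exact tsum_congr fun δ => lintegral_map hf (measurable_act (δ : SL2 K))

theorem IsWt.integral (h : IsWt Γ ν) {f : Hy K → ℂ} (hf : Measurable f) (hi : Integrable f (hmuK K)) :
    ∫ w, f w ∂hmuK K = ∫ w, ∑' δ : Γ, f (act δ w) ∂ν := by
  have k := h.lintegral hf.enorm
  rw [lintegral_tsum fun δ : Γ => (hf.enorm.fun_comp (measurable_act (δ : SL2 K))).aemeasurable] at k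
  rw [integral_tsum (fun δ : Γ => (hf.fun_comp (measurable_act (δ : SL2 K))).aestronglyMeasurable)
    (k ▸ hi.2.ne)]
  rw [h.2] at hi ⊢
  rw [integral_sum_measure hi]
  exact tsum_congr fun δ => integral_map (measurable_act (δ : SL2 K)).aemeasurable hf.aestronglyMeasurable

end Vale.Agent.P319
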