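import Vale.Agent.P319.N.ThProf
import Vale.Agent.P319.N.ThWeight
import Vale.Agent.P319.N.ThSum
import Vale.Agent.P319.N.Rows

/-! TH-B: incomplete Eisenstein series (port of P026 ThJ). -/

namespace Vale.Agent.P319

open scoped ComplexConjugate Real Topology ENNReal NNReal InnerProductSpace NumberField
open MeasureTheory Filter Set

variable {K : Type} [Field K] [NumberField K] [Stp K]

/-- incomplete Eisenstein series -/
noncomputable def JJ (Ψ : R K × R K → ℂ) (ψ : ℝ → ℂ) (w : Hy K) : ℂ :=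
  ∑' r : RowQ K, Ψ r.out * ψ (vr r.out w)

/-- bounded measurable automorphic functions -/
def AutF (m : Ideal (𝓞 K)) (f : Hy K → ℂ) : Prop :=
  Measurable f ∧ (∃ M : ℝ, ∀ w : Hy K, Pos w → ‖f w‖ ≤ M) ∧
    ∀ δ, Gam m δ → ∀ w : Hy K, Pos w → f (act δ w) = conj (kap δ) * f w

open Classical in
/-- the class in `L²` -/
noncomputable def cl (ν : Measure (Hy K)) (f : Hy K → ℂ) : Lp ℂ 2 ν :=
  if h : MemLp f 2 ν then h.toLp f else 0

variable {a : ℕ} {m : Ideal (𝓞 K)} {Ψ : R K × R K → ℂ} {ψ χ : ℝ → ℂ} {ν : Measure (Hy K)}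
  {Γ : Subgroup (SL2 K)} {f g : Hy K → ℂ} {w : Hy K}

theorem memLp_of_bdd (hν : IsWt Γ ν) (hf : Measurable f) {M : ℝ}
    (h : ∀ w : Hy K, Pos w → ‖f w‖ ≤ M) : MemLp f 2 ν :=
  have := hν.1
  MemLp.of_bound hf.aestronglyMeasurable M (hν.ae_pos.mono h)

theorem AutF.memLp (hν : IsWt Γ ν) (hf : AutF m f) : MemLp f 2 ν :=
  let ⟨_, h⟩ := hf.2.1
  memLp_of_bdd hν hf.1 h

theorem cl_ae (hf : MemLp f 2 ν) : (cl ν f : Hy K → ℂ) =ᵐ[ν] f := by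
  rw [cl, dif_pos hf]
  exact hf.coeFn_toLp

theorem eq_cl {x : Lp ℂ 2 ν} (h : (x : Hy K → ℂ) =ᵐ[ν] f) : x = cl ν f :=
  Lp.ext (h.trans (cl_ae ((memLp_congr_ae h).1 (Lp.memLp x))).symm)

theorem cl_congr (h : f =ᵐ[ν] g) : cl ν f = cl ν g := by
  by_cases hf : MemLp f 2 ν
  · exact eq_cl ((cl_ae hf).trans h)
  · rw [cl, cl, dif_neg hf, dif_neg fun k => hf ((memLp_congr_ae h).2 k)]

theorem cl_sub_smul (hf : MemLp f 2 ν) (hg : MemLp g 2 ν) (c : ℂ) :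
    cl ν (fun w => f w - c * g w) = cl ν f - c • cl ν g := by
  refine (eq_cl ?_).symm
  filter_upwards [Lp.coeFn_sub (cl ν f) (c • cl ν g), Lp.coeFn_smul c (cl ν g), cl_ae hf,
    cl_ae hg] with w h1 h2 h3 h4
  rw [h1, Pi.sub_apply, h2, Pi.smul_apply, h3, h4, smul_eq_mul]

theorem cl_sum {ι : Type*} (t : Finset ι) (c : ι → ℂ) {f : ι → Hy K → ℂ}
    (hf : ∀ i ∈ t, MemLp (f i) 2 ν) :
    cl ν (fun w => ∑ i ∈ t, c i * f i w) = ∑ i ∈ t, c i • cl ν (f i) := by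
  classical
  refine (eq_cl ?_).symm
  induction t using Finset.induction_on with
  | empty => exact Lp.coeFn_zero ℂ 2 ν
  | insert i t hi ih =>
    simp only [Finset.sum_insert hi]
    filter_upwards [Lp.coeFn_add (c i • cl ν (f i)) (∑ i ∈ t, c i • cl ν (f i)),
      Lp.coeFn_smul (c i) (cl ν (f i)), cl_ae (hf i (Finset.mem_insert_self _ _)),
      ih fun j hj => hf j (Finset.mem_insert_of_mem hj)] with w h1 h2 h3 h4
    rw [h1, Pi.add_apply, h2, Pi.smul_apply, h3, h4, smul_eq_mul]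

theorem inner_cl (hf : MemLp (fun w => conj (f w)) 2 ν) (hg : MemLp g 2 ν) :
    ⟪cl ν fun w => conj (f w), cl ν g⟫_ℂ = ∫ w, g w * f w ∂ν := by
  rw [L2.inner_def]
  refine integral_congr_ae ?_
  filter_upwards [cl_ae hf, cl_ae hg] with w h1 h2
  rw [h1, h2, RCLike.inner_apply, Complex.conj_conj]

theorem norm_cl_sq (hf : MemLp f 2 ν) : ‖cl ν f‖ ^ 2 = ∫ w, ‖f w‖ ^ 2 ∂ν := by
  apply Complex.ofReal_injective
  have e := inner_self_eq_norm_sq_to_K (𝕜 := ℂ) (cl ν f)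
  rw [L2.inner_def] at e
  rw [← integral_complex_ofReal, Complex.ofReal_pow]
  refine e.symm.trans (integral_congr_ae ?_)
  filter_upwards [cl_ae hf] with w h1
  rw [h1, inner_self_eq_norm_sq_to_K, Complex.ofReal_pow]
  rfl

theorem norm_cl_le (hν : IsWt Γ ν) : ∃ C : ℝ, 0 ≤ C ∧ ∀ (f : Hy K → ℂ) (M : ℝ), 0 ≤ M →
    (∀ w : Hy K, Pos w → ‖f w‖ ≤ M) → ‖cl ν f‖ ≤ C * M := by
  have := hν.1
  refine ⟨(measureUnivNNReal ν : ℝ) ^ (2 : ℝ≥0∞).toReal⁻¹, by positivity, fun f M hM h => ?_⟩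
  by_cases hf : MemLp f 2 ν
  · refine Lp.norm_le_of_ae_bound hM ?_
    filter_upwards [cl_ae hf, hν.ae_pos] with w h1 h2
    rw [h1]
    exact h w h2
  · rw [cl, dif_neg hf, norm_zero]
    positivity

theorem JJ_bound (a : ℕ) {σ : ℝ} (hσ : 2 < σ) : ∃ C : ℝ, 0 < C ∧
    ∀ (m : Ideal (𝓞 K)) (Ψ : R K × R K → ℂ), Cls a m Ψ →
    ∀ (ψ : ℝ → ℂ) (M : ℝ), 0 ≤ M → (∀ v, 0 < v → ‖ψ v‖ ≤ M * min 1 (v ^ σ)) →
      ∀ w : Hy K, Pos w → Summable (fun r : RowQ K => ‖Ψ r.out * ψ (vr r.out w)‖) ∧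
        ∑' r : RowQ K, ‖Ψ r.out * ψ (vr r.out w)‖ ≤ C * M ∧ ‖JJ Ψ ψ w‖ ≤ C * M := by
  obtain ⟨C, hC, h⟩ := tsum_rows (K := K) a hσ
  refine ⟨C, hC, fun m Ψ hΨ ψ M hM hψ w hw => ?_⟩
  obtain ⟨h1, h2⟩ := h w hw (fun r => Ψ r.out * ψ (vr r.out w)) M hM
    (fun r hr => by rw [hΨ.1 _ hr, zero_mul]) fun r hr => by
      rw [norm_mul]
      exact (mul_le_of_le_one_left (norm_nonneg _) (hΨ.2.1 _)).trans
        (hψ _ (vr_pos (ne_zero_of_coprime hr.coprime) hw))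
  exact ⟨h1, h2, (norm_tsum_le_tsum_norm h1).trans h2⟩

theorem Prof.summable (hΨ : Cls a m Ψ) (hψ : Prof ψ) (hw : Pos w) :
    Summable fun r : RowQ K => Ψ r.out * ψ (vr r.out w) := by
  obtain ⟨-, M, σ, hM, hσ, h⟩ := hψ
  obtain ⟨C, -, hC⟩ := JJ_bound (K := K) a hσ
  exact (hC m Ψ hΨ ψ M hM h w hw).1.of_norm

theorem measurable_JJ (Ψ : R K × R K → ℂ) (hψ : Measurable ψ) : Measurable (JJ Ψ ψ) :=
  Measurable.tsum fun r : RowQ K => (hψ.comp (measurable_vr r.out)).const_mul _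

theorem Prof.JJ_bdd (hΨ : Cls a m Ψ) (hψ : Prof ψ) :
    ∃ M : ℝ, ∀ w : Hy K, Pos w → ‖JJ Ψ ψ w‖ ≤ M := by
  obtain ⟨-, M, σ, hM, hσ, h⟩ := hψ
  obtain ⟨C, -, hC⟩ := JJ_bound (K := K) a hσ
  exact ⟨C * M, fun w hw => (hC m Ψ hΨ ψ M hM h w hw).2.2⟩

theorem Prof.memLp_JJ (hν : IsWt Γ ν) (hΨ : Cls a m Ψ) (hψ : Prof ψ) : MemLp (JJ Ψ ψ) 2 ν :=
  let ⟨_, h⟩ := hψ.JJ_bdd hΨ
  memLp_of_bdd hν (measurable_JJ Ψ hψ.1) h

theorem Cls.einv (hΨ : Cls a m Ψ) : EInv Ψ := hΨ.2.2.1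

theorem Prof.aut (hΨ : Cls a m Ψ) (hψ : Prof ψ) : AutF m (JJ Ψ ψ) := by
  refine ⟨measurable_JJ Ψ hψ.1, hψ.JJ_bdd hΨ, fun δ hδ w hw => ?_⟩
  unfold JJ
  rw [← tsum_rmul (hΨ.einv.comp₂ (einv_vr w) fun x y => x * ψ y) δ, ← tsum_mul_left]
  refine tsum_congr fun r => ?_
  have h2 := kap_mul_conj δ
  rw [vr_act _ δ hw, hΨ.gam hδ]
  linear_combination (-(Ψ r.out * ψ (vr (rmul r.out δ) w))) * h2

theorem JJ_sub_smul (hΨ : Cls a m Ψ) (hψ : Prof ψ) (hχ : Prof χ) (c : ℂ) (hw : Pos w) :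
    JJ Ψ (fun v => ψ v - c * χ v) w = JJ Ψ ψ w - c * JJ Ψ χ w := by
  refine Eq.trans (tsum_congr fun r => ?_)
    ((hψ.summable hΨ hw).hasSum.sub ((hχ.summable hΨ hw).hasSum.mul_left c)).tsum_eq
  ring

theorem ball_JJ (hΨ : Cls a m Ψ) (hψ : Prof ψ) (hw : Pos w) :
    ∫ w' in BtK w, JJ Ψ ψ w' ∂hmuK K = JJ Ψ (conv K ψ) w := by
  obtain ⟨h0, M, σ, hM, hσ, h⟩ := hψ
  obtain ⟨C, -, hC⟩ := JJ_bound (K := K) a hσ
  obtain ⟨B, hB⟩ := hmuK_BtK (K := K)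
  have mm : ∀ r : RowQ K, Measurable fun w' : Hy K => Ψ r.out * ψ (vr r.out w') := fun r =>
    (h0.comp (measurable_vr r.out)).const_mul _
  unfold JJ
  rw [integral_tsum fun r => (mm r).aestronglyMeasurable]
  · refine tsum_congr fun r => ?_
    rw [integral_const_mul]
    by_cases hr : Box a r.out
    · obtain ⟨g, hg⟩ := exists_row hr.coprime
      rw [← hg]
      congr 1
      rw [← Ht_act, ← slice h0 (act_pos g hw), ← integral_indicator (measurableSet_BtK _),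
        ← integral_indicator (measurableSet_BtK _),
        ← integral_act g ((h0.fun_comp measurable_Ht).indicator (measurableSet_BtK (act g w)))]
      refine integral_congr_ae (Eventually.of_forall fun w' => ?_)
      beta_reduce
      by_cases k : w' ∈ BtK w
      · rw [indicator_of_mem k, indicator_of_mem ((mem_BtK_act g hw).2 k)]
        rfl
      · rw [indicator_of_notMem k, indicator_of_notMem fun k' => k ((mem_BtK_act g hw).1 k')]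
    · rw [hΨ.1 _ hr, zero_mul, zero_mul]
  · rw [← lintegral_tsum fun r => (mm r).enorm.aemeasurable]
    refine ne_top_of_le_ne_top (b := ∫⁻ _ in BtK w, ENNReal.ofReal (C * M) ∂hmuK K) ?_
      (setLIntegral_mono' (measurableSet_BtK w) fun w' hw' => ?_)
    · rw [setLIntegral_const]
      exact ENNReal.mul_ne_top ENNReal.ofReal_ne_top
        (ne_top_of_le_ne_top ENNReal.coe_ne_top (hB w hw))
    · obtain ⟨h1, h2, -⟩ := hC m Ψ hΨ ψ M hM h w' (BtK_pos hw')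
      simp only [← ofReal_norm]
      rw [← ENNReal.ofReal_tsum_of_nonneg (fun _ => norm_nonneg _) h1]
      exact ENNReal.ofReal_le_ofReal h2

theorem Eis_split (hΨ : Cls a m Ψ) {s : ℂ} (hs : 2 < s.re) (hw : Pos w) {b : ℝ}
    (hb : ∀ r, Box a r → vr r w ≤ b) : Eis Ψ w s = JJ Ψ (lowP s) w + JJ Ψ (hiP b s) w := by
  refine Eq.trans (tsum_congr fun r => ?_) (((prof_lowP hs).summable hΨ hw).hasSum.add
    (((ud_hiP b).prof s).summable hΨ hw).hasSum).tsum_eq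
  by_cases hr : Box a r.out
  · rw [← mul_add, lowP_add_hiP (vr_pos (ne_zero_of_coprime hr.coprime) hw) (hb _ hr)]
  · simp [hΨ.1 _ hr]

theorem UD.differentiable (hν : IsWt Γ ν) (hΨ : Cls a m Ψ) {p : ℂ → ℝ → ℂ} (hp : UD p) :
    Differentiable ℂ fun s => cl ν (JJ Ψ (p s)) := by
  intro s₀
  obtain ⟨p', C, δ, hC, hδ, mp, h⟩ := hp.2 s₀
  have pp : Prof p' := ⟨mp, C, 3, hC, by norm_num, fun v hv => (h v hv).2.1⟩
  obtain ⟨C₁, -, h1⟩ := JJ_bound (K := K) a (σ := 3) (by norm_num)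
  obtain ⟨C₂, -, h2⟩ := norm_cl_le hν
  refine HasDerivAt.differentiableAt (f' := cl ν (JJ Ψ p')) (hasDerivAt_iff_isLittleO.2 ?_)
  refine Asymptotics.IsBigO.trans_isLittleO (Asymptotics.IsBigO.of_bound (C₂ * (C₁ * C)) ?_)
    (Asymptotics.isLittleO_pow_sub_sub s₀ one_lt_two)
  filter_upwards [Metric.closedBall_mem_nhds s₀ hδ] with s hs
  rw [mem_closedBall_iff_norm] at hs
  have k := h1 m Ψ hΨ (fun v => p s v - p s₀ v - (s - s₀) * p' v) (C * ‖s - s₀‖ ^ 2)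
    (by positivity) fun v hv => (h v hv).2.2 s hs
  have e : cl ν (JJ Ψ (p s)) - cl ν (JJ Ψ (p s₀)) - (s - s₀) • cl ν (JJ Ψ p') =
      cl ν (JJ Ψ fun v => p s v - p s₀ v - (s - s₀) * p' v) := by
    refine eq_cl ?_
    filter_upwards [Lp.coeFn_sub (cl ν (JJ Ψ (p s)) - cl ν (JJ Ψ (p s₀)))
      ((s - s₀) • cl ν (JJ Ψ p')), Lp.coeFn_sub (cl ν (JJ Ψ (p s))) (cl ν (JJ Ψ (p s₀))),
      Lp.coeFn_smul (s - s₀) (cl ν (JJ Ψ p')), cl_ae ((hp.prof s).memLp_JJ hν hΨ),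
      cl_ae ((hp.prof s₀).memLp_JJ hν hΨ), cl_ae (pp.memLp_JJ hν hΨ), hν.ae_pos]
      with w a1 a2 a3 a4 a5 a6 hw
    rw [a1, Pi.sub_apply, a2, Pi.sub_apply, a3, Pi.smul_apply, a4, a5, a6, smul_eq_mul]
    refine Eq.trans ((((hp.prof s).summable hΨ hw).hasSum.sub
      ((hp.prof s₀).summable hΨ hw).hasSum).sub
      ((pp.summable hΨ hw).hasSum.mul_left (s - s₀))).tsum_eq.symm (tsum_congr fun r => ?_)
    ring
  have w0 : Pos (K := K) fun _ => (0, 1) := fun _ => one_pos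
  rw [e, norm_pow, norm_norm]
  exact (h2 _ _ ((norm_nonneg _).trans (k _ w0).2.2) fun w hw => (k w hw).2.2).trans
    (le_of_eq (by ring))

end Vale.Agent.P319
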