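import Vale.Agent.P319.N.ThG1

/-! TH-B: the invariant measure at one place (port of P026 ThMeas). -/

namespace Vale.Agent.P319

open scoped ComplexConjugate Real Topology ENNReal NNReal InnerProductSpace
open MeasureTheory Filter Set

instance thb_sigmaFinite_hmu : SigmaFinite hmu := by unfold hmu; infer_instance

theorem measurableSet_upper : MeasurableSet {w : ℂ × ℝ | 0 < w.2} :=
  measurableSet_lt measurable_const measurable_snd

theorem measurable_hden : Measurable fun w : ℂ × ℝ => ENNReal.ofReal (1 / w.2 ^ 3) := by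
  fun_prop

theorem restrict_upper : (volume : Measure (ℂ × ℝ)).restrict {w | 0 < w.2} =
    (volume : Measure ℂ).prod ((volume : Measure ℝ).restrict (Ioi 0)) := by
  rw [← Measure.restrict_univ (μ := (volume : Measure ℂ)), Measure.prod_restrict,
    Measure.volume_eq_prod]
  congr 1
  ext w
  simp

theorem lintegral_hmu' {f : ℂ × ℝ → ℝ≥0∞} (hf : Measurable f) :
    ∫⁻ w, f w ∂hmu = ∫⁻ w in {w : ℂ × ℝ | 0 < w.2}, ENNReal.ofReal (1 / w.2 ^ 3) * f w := by
  rw [hmu, lintegral_withDensity_eq_lintegral_mul _ measurable_hden hf]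
  rfl

theorem lintegral_hmu {f : ℂ × ℝ → ℝ≥0∞} (hf : Measurable f) :
    ∫⁻ w, f w ∂hmu = ∫⁻ v in Ioi (0 : ℝ), (∫⁻ z, f (z, v)) * ENNReal.ofReal (1 / v ^ 3) := by
  rw [lintegral_hmu' hf, restrict_upper,
    lintegral_prod_symm _ (measurable_hden.fun_mul hf).aemeasurable]
  refine lintegral_congr fun v => ?_
  rw [mul_comm, ← lintegral_const_mul' _ _ ENNReal.ofReal_ne_top]

theorem integral_hmu {f : ℂ × ℝ → ℂ} (hf : Integrable f hmu) :
    ∫ w, f w ∂hmu = ∫ v in Ioi (0 : ℝ), (∫ z, f (z, v)) * ((1 / v ^ 3 : ℝ) : ℂ) := by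
  have hm : Measurable fun w : ℂ × ℝ => Real.toNNReal (1 / w.2 ^ 3) := by fun_prop
  have h1 : hmu = ((volume : Measure (ℂ × ℝ)).restrict {w | 0 < w.2}).withDensity
      fun w => (Real.toNNReal (1 / w.2 ^ 3) : ℝ≥0∞) := rfl
  rw [h1, integrable_withDensity_iff_integrable_smul hm, restrict_upper] at hf
  rw [h1, integral_withDensity_eq_integral_smul hm, restrict_upper, integral_prod_symm _ hf]
  refine setIntegral_congr_fun measurableSet_Ioi fun v hv => ?_
  have h2 : (0 : ℝ) ≤ 1 / v ^ 3 := by have := mem_Ioi.1 hv; positivity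
  simp only [NNReal.smul_def, Real.coe_toNNReal _ h2, Complex.real_smul]
  rw [integral_const_mul, mul_comm]

theorem ae_pos1 : ∀ᵐ w ∂hmu, 0 < w.2 :=
  (withDensity_absolutelyContinuous _ _).ae_le (ae_restrict_mem measurableSet_upper)

theorem measurePreserving_nC (x : ℂ) : MeasurePreserving (aC (nC x)) hmu hmu := by
  refine ⟨measurable_aC _, Measure.ext_of_lintegral _ fun g hg => ?_⟩
  rw [lintegral_map hg (measurable_aC _), lintegral_hmu (hg.fun_comp (measurable_aC _)),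
    lintegral_hmu hg]
  refine lintegral_congr fun v => ?_
  simp only [aC_nC]
  rw [lintegral_add_right_eq_self (fun z => g (z, v))]

theorem abs_det_of_invol (A : (ℂ × ℝ) →ₗ[ℝ] (ℂ × ℝ)) (h : ∀ x, A (A x) = x) :
    |LinearMap.det A| = 1 := by
  have h1 : A ∘ₗ A = LinearMap.id := LinearMap.ext h
  have h2 := congrArg LinearMap.det h1
  rw [LinearMap.det_comp, LinearMap.det_id] at h2
  rcases mul_self_eq_one_iff.1 h2 with h3 | h3 <;> simp [h3]

theorem exists_fderiv_sC {w : ℂ × ℝ} (hw : 0 < w.2) : ∃ L : (ℂ × ℝ) →L[ℝ] (ℂ × ℝ),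
    HasFDerivAt (aC sC) L w ∧ |L.det| = 1 / (‖w.1‖ ^ 2 + w.2 ^ 2) ^ 3 := by
  let R : (ℂ × ℝ) →L[ℝ] (ℂ × ℝ) :=
    ((-(Complex.conjCLE : ℂ →L[ℝ] ℂ)).comp (ContinuousLinearMap.fst ℝ ℂ ℝ)).prod
      (ContinuousLinearMap.snd ℝ ℂ ℝ)
  have hR : ∀ x, R x = (-conj x.1, x.2) := fun x => rfl
  let a : (ℂ × ℝ) →L[ℝ] ℝ := Complex.reCLM.comp (ContinuousLinearMap.fst ℝ ℂ ℝ)
  let b : (ℂ × ℝ) →L[ℝ] ℝ := Complex.imCLM.comp (ContinuousLinearMap.fst ℝ ℂ ℝ)
  let c : (ℂ × ℝ) →L[ℝ] ℝ := ContinuousLinearMap.snd ℝ ℂ ℝ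
  have hρ : ∀ x : ℂ × ℝ, ‖x.1‖ ^ 2 + x.2 ^ 2 = a x * a x + b x * b x + c x * c x := fun x => by
    rw [Complex.sq_norm, Complex.normSq_apply, sq]
    rfl
  have hpos : 0 < ‖w.1‖ ^ 2 + w.2 ^ 2 := by positivity
  have h1 := (((a.hasFDerivAt (x := w)).mul a.hasFDerivAt).add
    ((b.hasFDerivAt (x := w)).mul b.hasFDerivAt)).add ((c.hasFDerivAt (x := w)).mul c.hasFDerivAt)
  have hpos' : 0 < a w * a w + b w * b w + c w * c w := hρ w ▸ hpos
  have h2 := ((hasFDerivAt_inv hpos'.ne').comp w h1).smul (R.hasFDerivAt (x := w))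
  refine ⟨_, h2.congr_of_eventuallyEq (Eventually.of_forall fun x => ?_), ?_⟩
  · rw [aC_sC, hρ]
    simp only [Pi.smul_apply', Function.comp, Pi.add_apply, Pi.mul_apply, hR, Prod.smul_mk,
      smul_eq_mul, Complex.real_smul, Complex.ofReal_inv, div_eq_inv_mul]
  · set ρ := a w * a w + b w * b w + c w * c w with hρw
    have hρ0 : ρ ≠ 0 := hpos'.ne'
    let l : (ℂ × ℝ) →ₗ[ℝ] ℝ := (2 / ρ) • (a w • (a : (ℂ × ℝ) →ₗ[ℝ] ℝ) + b w • (b : (ℂ × ℝ) →ₗ[ℝ] ℝ) +
      c w • (c : (ℂ × ℝ) →ₗ[ℝ] ℝ))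
    have hl : ∀ x, l x = 2 / ρ * (a w * a x + b w * b x + c w * c x) := fun x => rfl
    let A : (ℂ × ℝ) →ₗ[ℝ] (ℂ × ℝ) := LinearMap.id - l.smulRight w
    have hA : ∀ x, A x = x - l x • w := fun x => rfl
    have h3 := abs_det_of_invol A fun x => by
      have h4 : l w = 2 := by rw [hl, ← hρw]; field_simp
      rw [hA, hA, map_sub, map_smul, h4, smul_eq_mul]
      module
    have h4 := abs_det_of_invol (R : (ℂ × ℝ) →ₗ[ℝ] (ℂ × ℝ)) fun x => by
      simp [hR]
    have h5 : |LinearMap.det (ρ⁻¹ • ((R : (ℂ × ℝ) →ₗ[ℝ] (ℂ × ℝ)) ∘ₗ A))| =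
        1 / (‖w.1‖ ^ 2 + w.2 ^ 2) ^ 3 := by
      rw [LinearMap.det_smul, LinearMap.det_comp, abs_mul, abs_mul, h3, h4, hρ, ← hρw,
        abs_of_nonneg (pow_nonneg (inv_nonneg.2 hpos'.le) _)]
      simp
    rw [← h5, ContinuousLinearMap.det]
    congr 2
    refine LinearMap.ext fun x => ?_
    simp only [ContinuousLinearMap.coe_coe, LinearMap.smul_apply, LinearMap.comp_apply, hA, hl,
      map_sub, map_smul, add_apply, smul_apply,
      ContinuousLinearMap.smulRight_apply, ContinuousLinearMap.comp_apply, Function.comp,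
      Pi.add_apply, Pi.mul_apply, ← hρw, smul_eq_mul, ContinuousLinearMap.toSpanSingleton_apply]
    match_scalars
    · ring
    · field_simp
      ring

theorem measurePreserving_of_fderiv (g : SC) (h : ∀ w : ℂ × ℝ, 0 < w.2 →
    ∃ L : (ℂ × ℝ) →L[ℝ] (ℂ × ℝ), HasFDerivAt (aC g) L w ∧
      |L.det| = 1 / denC (g.1 1 0) (g.1 1 1) w ^ 3) : MeasurePreserving (aC g) hmu hmu := by
  refine ⟨measurable_aC _, Measure.ext_of_lintegral _ fun f hf => ?_⟩
  choose! L hL hd using h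
  have him : aC g '' {w : ℂ × ℝ | 0 < w.2} = {w | 0 < w.2} :=
    Subset.antisymm (by rintro _ ⟨w, hw, rfl⟩; exact aC_pos _ hw)
      fun w hw => ⟨_, aC_pos _ hw, aC_aC_inv _ hw⟩
  have : (volume : Measure (ℂ × ℝ)).IsAddHaarMeasure := Measure.prod.instIsAddHaarMeasure _ _
  have h := lintegral_image_eq_lintegral_abs_det_fderiv_mul volume measurableSet_upper
    (fun w hw => (hL w hw).hasFDerivWithinAt)
    (fun w hw w' hw' h => by rw [← aC_inv_aC g hw, h, aC_inv_aC g hw'])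
    fun w => ENNReal.ofReal (1 / w.2 ^ 3) * f w
  rw [lintegral_map hf (measurable_aC _), lintegral_hmu' (hf.fun_comp (measurable_aC _)),
    lintegral_hmu' hf, ← him, h, him]
  refine setLIntegral_congr_fun measurableSet_upper fun w hw => ?_
  have hw' : 0 < w.2 := hw
  have hD := denC_row_pos g hw'
  rw [hd w hw, ← mul_assoc, ← ENNReal.ofReal_mul (by positivity)]
  congr 2
  rw [aC_snd]
  field_simp

theorem measurePreserving_sC : MeasurePreserving (aC sC) hmu hmu :=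
  measurePreserving_of_fderiv _ fun w hw => by
    obtain ⟨L, h1, h2⟩ := exists_fderiv_sC hw
    exact ⟨L, h1, by rw [h2]; simp [sC, denC]⟩

theorem measurePreserving_dC (a : ℂ) (ha : a ≠ 0) : MeasurePreserving (aC (dC a ha)) hmu hmu :=
  measurePreserving_of_fderiv _ fun w _ => by
    let A : (ℂ × ℝ) →ₗ[ℝ] (ℂ × ℝ) :=
      (Algebra.lmul ℝ ℂ (a ^ 2)).prodMap (Algebra.lmul ℝ ℝ (‖a‖ ^ 2))
    have hA : aC (dC a ha) = LinearMap.toContinuousLinearMap A := by
      funext x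
      rw [aC_dC]
      rfl
    refine ⟨LinearMap.toContinuousLinearMap A, hA ▸ ContinuousLinearMap.hasFDerivAt _, ?_⟩
    have h1 : LinearMap.det (Algebra.lmul ℝ ℂ (a ^ 2)) = ‖a‖ ^ 4 := by
      rw [← Algebra.norm_apply, Algebra.norm_complex_apply, Complex.normSq_eq_norm_sq, norm_pow]
      ring
    have h2 : LinearMap.det (Algebra.lmul ℝ ℝ (‖a‖ ^ 2)) = ‖a‖ ^ 2 := by
      rw [← Algebra.norm_apply, Algebra.norm_self]
      rfl
    have h3 : ‖a‖ ≠ 0 := norm_ne_zero_iff.2 ha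
    rw [LinearMap.det_toContinuousLinearMap, LinearMap.det_prodMap, h1, h2,
      abs_of_nonneg (by positivity)]
    simp only [dC, denC, Matrix.of_apply, Matrix.cons_val', Matrix.cons_val_zero,
      Matrix.cons_val_one, Matrix.cons_val_fin_one, zero_mul, zero_add, add_zero, norm_zero,
      norm_inv, zero_pow two_ne_zero]
    field_simp

theorem measurePreserving_aC (g : SC) : MeasurePreserving (aC g) hmu hmu :=
  sc_induction (P := fun g => MeasurePreserving (aC g) hmu hmu) measurePreserving_nC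
    measurePreserving_dC measurePreserving_sC (fun g h hg hh =>
      ⟨measurable_aC _, (Measure.map_congr (ae_pos1.mono fun _ hw => aC_mul g h hw)).trans
        (hg.comp hh).map_eq⟩) g

theorem measurableSet_siegel (R a : ℝ) : MeasurableSet {w : ℂ × ℝ | ‖w.1‖ ≤ R ∧ a ≤ w.2} :=
  (measurableSet_le measurable_fst.norm measurable_const).inter
    (measurableSet_le measurable_const measurable_snd)

theorem hmu_siegel (R : ℝ) {a : ℝ} (ha : 0 < a) : hmu {w | ‖w.1‖ ≤ R ∧ a ≤ w.2} < ⊤ := by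
  have h1 : {w : ℂ × ℝ | ‖w.1‖ ≤ R ∧ a ≤ w.2} = Metric.closedBall 0 R ×ˢ Ici a := by
    ext w
    simp
  rw [hmu, withDensity_apply _ (measurableSet_siegel R a), h1]
  refine lt_of_le_of_lt (lintegral_mono' (Measure.restrict_mono_measure Measure.restrict_le_self _)
    le_rfl) ?_
  rw [Measure.volume_eq_prod, ← Measure.prod_restrict,
    lintegral_prod _ measurable_hden.aemeasurable]
  simp only [lintegral_const, Measure.restrict_apply_univ]
  refine ENNReal.mul_lt_top ?_ measure_closedBall_lt_top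
  have h2 := (integrableOn_Ioi_rpow_of_lt (a := -3) (by norm_num) ha)
  rw [← integrableOn_Ici_iff_integrableOn_Ioi] at h2
  refine Integrable.lintegral_lt_top (h2.congr_fun (fun v hv => ?_) measurableSet_Ici)
  have h3 : 0 < v := ha.trans_le hv
  simp only
  rw [Real.rpow_neg h3.le, one_div]
  norm_cast

/-- a bounded measurable function supported in a Siegel set is integrable -/
theorem integrable_of_siegel {E : Type*} [NormedAddCommGroup E] {F : ℂ × ℝ → E}
    (hF : AEStronglyMeasurable F hmu) {R a M : ℝ} (ha : 0 < a)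
    (h : ∀ w : ℂ × ℝ, 0 < w.2 → ‖F w‖ ≤ M ∧ (F w ≠ 0 → ‖w.1‖ ≤ R ∧ a ≤ w.2)) :
    Integrable F hmu := by
  have h1 : Integrable ({w : ℂ × ℝ | ‖w.1‖ ≤ R ∧ a ≤ w.2}.indicator fun _ => M) hmu :=
    (integrable_indicator_iff (measurableSet_siegel R a)).2
      (integrableOn_const (hmu_siegel R ha).ne)
  refine h1.mono' hF (ae_pos1.mono fun w hw => ?_)
  by_cases h2 : w ∈ {w : ℂ × ℝ | ‖w.1‖ ≤ R ∧ a ≤ w.2}
  · rw [indicator_of_mem h2]
    exact (h w hw).1
  · rw [indicator_of_notMem h2, norm_le_zero_iff]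
    by_contra h3
    exact h2 ((h w hw).2 h3)

end Vale.Agent.P319
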