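import Vale.Agent.P319.N.ThMeas
import Vale.Agent.P319.N.LatTile
import Vale.Agent.P319.N.LatUn

/-! TH-B: reduction theory.
PLAN.  `exists_short`: Minkowski (`exists_ne_zero_mem_lattice_of_measure_mul_two_pow_lt_measure`) in `E × E`, `E = Pl K → ℂ`, lattice
= range of `(c, d) ↦ (emb c, emb d)` on `𝓞 K × 𝓞 K`, fundamental domain `P ×ˢ P`, `P = par ⊤` (`tile_par`, `IsAddFundamentalDomain.mk'`),
convex symmetric body `{(c, d) | ∀ v, ‖c v‖ ≤ ρ / √y_v ∧ ‖c v * z_v + d v‖ ≤ ρ √y_v}` of volume `(π ρ²)^(2r)` (`Measure.prod_apply`,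
translation invariance, `volume_pi_pi`, `Complex.volume_closedBall`), `ρ` large.
`exists_high`: `c = e c'`, `d = e d'` with `c', d'` coprime in `R` (`extract_gcd` / `IsBezout`), `exists_shift_row` (k = 1) gives a unit `t`
with `Box a (t c', t d')`; `x = e / t ∈ R` has `M^a x = s c + s' d ∈ O_S`, so `Den a x` and `Den.one_le_nK`; `vr_smul`; `Box.exists_row`.
`exists_siegel`: multiply on the left by `mD u` (`balanced_vec` with `k = 1`, `c v = log y_v`; `act_mD`) and by `mN x`, `x ∈ 𝓞 K`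
(tile of `⊤`; `act_mN`); both are `MDen 0`. -/

namespace Vale.Agent.P319

open scoped ComplexConjugate Real Topology ENNReal NNReal InnerProductSpace NumberField
open MeasureTheory Filter Set

variable {K : Type} [Field K] [NumberField K] [Stp K]

private theorem mink_vol (ρ : Pl K → ℝ) :
    volume (univ.pi fun v => Metric.closedBall (0 : ℂ) (ρ v)) =
      ∏ v, ENNReal.ofReal (ρ v) ^ 2 * NNReal.pi := by
  rw [volume_pi_pi]
  exact Finset.prod_congr rfl fun v _ => Complex.volume_closedBall _ _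

private theorem mink_fund : ∃ (L : AddSubgroup ((Pl K → ℂ) × (Pl K → ℂ)))
    (F : Set ((Pl K → ℂ) × (Pl K → ℂ))), Countable L ∧ IsAddFundamentalDomain L F volume ∧
      volume F ≠ ⊤ ∧ ∀ x ∈ L, ∃ c d : 𝓞 K, x = (emb (c : K), emb (d : K)) := by
  obtain ⟨h1, ⟨T, h2⟩, h3⟩ := tile_par (K := K) (𝔪 := ⊤) top_ne_bot
  let f : 𝓞 K →+ (Pl K → ℂ) :=
    ⟨⟨fun c => emb (c : K), by simp [emb_zero]⟩, fun c d => by simp [emb_add]⟩
  have hc : Countable (𝓞 K) := Finsupp.Countable.of_moduleFinite (R := ℤ)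
  have hP : volume (par (⊤ : Ideal (𝓞 K))) ≠ ⊤ :=
    (isBounded_iff_forall_norm_le.2 ⟨T, h2⟩).measure_lt_top.ne
  refine ⟨(f.prodMap f).range, par ⊤ ×ˢ par ⊤, (Set.countable_range _).to_subtype,
    IsAddFundamentalDomain.mk' (h1.prod h1).nullMeasurableSet fun x => ?_, ?_, ?_⟩
  · obtain ⟨c, ⟨-, hc1⟩, hc2⟩ := h3 x.1
    obtain ⟨d, ⟨-, hd1⟩, hd2⟩ := h3 x.2
    refine ⟨⟨_, (c, d), rfl⟩, ⟨by rw [add_comm] at hc1; exact hc1,
      by rw [add_comm] at hd1; exact hd1⟩, ?_⟩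
    rintro ⟨_, ⟨c', d'⟩, rfl⟩ ⟨k1, k2⟩
    obtain rfl := hc2 c' ⟨trivial, by rw [add_comm]; exact k1⟩
    obtain rfl := hd2 d' ⟨trivial, by rw [add_comm]; exact k2⟩
    rfl
  · rw [Measure.volume_eq_prod, Measure.prod_prod]
    exact ENNReal.mul_ne_top hP hP
  · rintro _ ⟨⟨c, d⟩, rfl⟩
    exact ⟨c, d, rfl⟩

theorem exists_short : ∃ C : ℝ, 0 < C ∧ ∀ w : Hy K, Pos w → ∃ c d : 𝓞 K, (c ≠ 0 ∨ d ≠ 0) ∧
    ∀ v, denC (ev v (c : K)) (ev v (d : K)) (w v) ≤ C * (w v).2 := by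
  obtain ⟨L, F, hL, hF, h1, h2⟩ := mink_fund (K := K)
  obtain ⟨n, hn⟩ := ENNReal.exists_nat_gt
    (r := volume F * 2 ^ Module.finrank ℝ ((Pl K → ℂ) × (Pl K → ℂ))) (by finiteness)
  obtain ⟨ρ, hρ⟩ : ∃ ρ : ℝ, ρ = n + 1 := ⟨_, rfl⟩
  have ρ1 : 1 ≤ ρ := by rw [hρ]; linarith [Nat.cast_nonneg (α := ℝ) n]
  refine ⟨2 * ρ ^ 2, by positivity, fun w hw => ?_⟩
  let φ : (Pl K → ℂ) × (Pl K → ℂ) →ₗ[ℝ] (Pl K → ℂ) × (Pl K → ℂ) :=
    (LinearMap.fst ℝ _ _).prod
      ((LinearMap.mulRight ℝ fun v => (w v).1).comp (LinearMap.fst ℝ _ _) + LinearMap.snd ℝ _ _)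
  have hφ : MeasurePreserving φ volume volume :=
    (MeasurePreserving.id volume).skew_product
      (g := fun c d : Pl K → ℂ => (c * fun v => (w v).1) + d) (by fun_prop)
      (Eventually.of_forall fun c => map_add_left_eq_self _ _)
  have hs : ∀ v, 0 < √(w v).2 := fun v => Real.sqrt_pos.2 (hw v)
  let A := univ.pi fun v => Metric.closedBall (0 : ℂ) (ρ / √(w v).2)
  let B := univ.pi fun v => Metric.closedBall (0 : ℂ) (ρ * √(w v).2)
  have m : ∀ r : Pl K → ℝ, MeasurableSet (univ.pi fun v => Metric.closedBall (0 : ℂ) (r v)) :=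
    fun r => MeasurableSet.univ_pi fun _ => measurableSet_closedBall
  have cv : ∀ r : Pl K → ℝ, Convex ℝ (univ.pi fun v => Metric.closedBall (0 : ℂ) (r v)) :=
    fun r => convex_pi fun _ _ => convex_closedBall _ _
  have : (volume : Measure ((Pl K → ℂ) × (Pl K → ℂ))).IsAddHaarMeasure :=
    Measure.prod.instIsAddHaarMeasure _ _
  obtain ⟨x, hx0, hx1, hx2⟩ := exists_ne_zero_mem_lattice_of_measure_mul_two_pow_lt_measure
    (s := φ ⁻¹' A ×ˢ B) hF (fun x hx => by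
      rw [mem_preimage, map_neg]
      exact ⟨fun v _ => by simpa using hx.1 v trivial, fun v _ => by simpa using hx.2 v trivial⟩)
    (((cv _).prod (cv _)).linear_preimage φ) (by
      rw [hφ.measure_preimage ((m _).prod (m _)).nullMeasurableSet, Measure.volume_eq_prod,
        Measure.prod_prod, mink_vol, mink_vol, ← Finset.prod_mul_distrib]
      have k : ∀ v, ENNReal.ofReal ρ ≤ ENNReal.ofReal (ρ / √(w v).2) ^ 2 * NNReal.pi *
          (ENNReal.ofReal (ρ * √(w v).2) ^ 2 * NNReal.pi) := fun v => by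
        have := hs v
        rw [mul_mul_mul_comm, ← mul_pow, ← ENNReal.ofReal_mul (by positivity),
          ← ENNReal.ofReal_pow (by positivity), ← ENNReal.ofReal_coe_nnreal, NNReal.coe_real_pi,
          ← ENNReal.ofReal_mul Real.pi_pos.le, ← ENNReal.ofReal_mul (by positivity)]
        refine ENNReal.ofReal_le_ofReal ?_
        rw [show ρ / √(w v).2 * (ρ * √(w v).2) = ρ ^ 2 by field_simp, ← pow_mul]
        exact (le_self_pow₀ ρ1 (by norm_num)).trans (le_mul_of_one_le_right (by positivity)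
          (by nlinarith [Real.pi_gt_three]))
      refine (hn.trans_le ?_).trans_le ((k (v0 K)).trans (Finset.single_le_prod'
        (f := fun v => ENNReal.ofReal (ρ / √(w v).2) ^ 2 * NNReal.pi *
          (ENNReal.ofReal (ρ * √(w v).2) ^ 2 * NNReal.pi))
        (fun v _ => (ENNReal.one_le_ofReal.2 ρ1).trans (k v)) (Finset.mem_univ _)))
      rw [← ENNReal.ofReal_natCast]
      exact ENNReal.ofReal_le_ofReal (by linarith))
  obtain ⟨c, d, e⟩ := h2 x.1 x.2
  refine ⟨c, d, by_contra fun h => hx0 (Subtype.ext ?_), fun v => ?_⟩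
  · push Not at h
    rw [e, h.1, h.2]
    simp [emb_zero]
  · rw [e] at hx1 hx2
    have k1 : ‖ev v (c : K)‖ ≤ ρ / √(w v).2 := mem_closedBall_zero_iff.1 (hx1 v trivial)
    have k2 : ‖ev v (c : K) * (w v).1 + ev v (d : K)‖ ≤ ρ * √(w v).2 :=
      mem_closedBall_zero_iff.1 (hx2 v trivial)
    have k3 := pow_le_pow_left₀ (by positivity) ((le_div_iff₀ (hs v)).1 k1) 2
    have k4 := pow_le_pow_left₀ (norm_nonneg _) k2 2
    rw [mul_pow, Real.sq_sqrt (hw v).le] at k3 k4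
    have k5 := mul_le_mul_of_nonneg_right k3 (hw v).le
    unfold denC
    nlinarith

theorem exists_high : ∃ (b : ℕ) (V : ℝ), 0 < V ∧ ∀ w : Hy K, Pos w →
    ∃ g : SL2 K, MDen b g ∧ V ≤ Ht (act g w) := by
  obtain ⟨C, hC, h1⟩ := exists_short (K := K)
  obtain ⟨a, h2⟩ := exists_shift_row (K := K) one_ne_zero
  have hM : 0 < nK ((MM K : K) ^ a) := nK_pos (pow_ne_zero _ M_ne_zero)
  refine ⟨a, (∏ _v : Pl K, C⁻¹) / nK ((MM K : K) ^ a),
    div_pos (Finset.prod_pos fun _ _ => inv_pos.2 hC) hM, fun w hw => ?_⟩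
  obtain ⟨c, d, h0, h3⟩ := h1 w hw
  classical
  let _ := IsBezout.toGCDDomain (R K)
  obtain ⟨c', d', e1, e2, h4⟩ := extract_gcd (algebraMap (𝓞 K) (R K) c) (algebraMap (𝓞 K) (R K) d)
  rw [gcd_isUnit_iff] at h4
  generalize gcd (algebraMap (𝓞 K) (R K) c) (algebraMap (𝓞 K) (R K) d) = e at e1 e2
  obtain ⟨t, h5, h6, s, s', h7, h8, h9⟩ := h2 c' d' (by
    by_contra h
    push Not at h
    exact h4.ne_zero_or_ne_zero.elim (fun k => k (coe_eq_zero.1 h.1)) fun k => k (coe_eq_zero.1 h.2))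
  rw [pow_one, ← map_mul] at h5 h6
  rw [pow_one, ← map_mul, ← map_mul] at h9
  have hb : Box a ((t : R K) * c', (t : R K) * d') :=
    ⟨(isCoprime_mul_unit_left t.isUnit _ _).2 h4, h5.mul_left (sIn_pow_M a).zero,
      h6.mul_left (sIn_pow_M a).zero, s, s', h7, h8, h9⟩
  obtain ⟨x, hx⟩ : ∃ x, x = e * (t⁻¹ : (R K)ˣ) := ⟨_, rfl⟩
  have f1 : x * ((t : R K) * c') = algebraMap (𝓞 K) (R K) c := by
    rw [hx, mul_assoc, Units.inv_mul_cancel_left, e1]
  have f2 : x * ((t : R K) * d') = algebraMap (𝓞 K) (R K) d := by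
    rw [hx, mul_assoc, Units.inv_mul_cancel_left, e2]
  have x0 : x ≠ 0 := by
    rintro rfl
    rw [zero_mul] at f1 f2
    exact h0.elim (fun k => int_ne_zero k f1.symm) fun k => int_ne_zero k f2.symm
  have hd : Den a x := by
    refine (congrArg (SIn 0) ?_).mp (((sIn_int c).mul_left h7).add ((sIn_int d).mul_left h8))
    rw [← h9, ← coe_int c, ← coe_int d, ← f1, ← f2, map_mul _ x, map_mul _ x]
    ring
  obtain ⟨g, hg, hg'⟩ := hb.exists_row
  refine ⟨g, hg', ?_⟩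
  have k1 := vr_smul x ((t : R K) * c', (t : R K) * d') w
  have k2 := hd.one_le_nK x0
  have k3 := vr_pos (ne_zero_of_coprime hb.1) hw
  have k4 : ∏ _v : Pl K, C⁻¹ ≤ vr (algebraMap (𝓞 K) (R K) c, algebraMap (𝓞 K) (R K) d) w := by
    refine Finset.prod_le_prod (fun _ _ => (inv_pos.2 hC).le) fun v _ => ?_
    have := den_ev_pos (r := (algebraMap (𝓞 K) (R K) c, algebraMap (𝓞 K) (R K) d))
      (fun k => h0.elim (fun j => int_ne_zero j (congrArg Prod.fst k))
        fun j => int_ne_zero j (congrArg Prod.snd k)) hw v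
    rw [le_div_iff₀ this, inv_mul_le_iff₀ hC, coe_int, coe_int]
    exact h3 v
  rw [f1, f2] at k1
  rw [Ht_act, hg, div_le_iff₀ hM]
  refine k4.trans ?_
  rw [k1, div_le_iff₀ (nK_pos (coe_ne_zero x0)), mul_assoc]
  exact le_mul_of_one_le_right k3.le k2

theorem exists_siegel : ∃ (b : ℕ) (T : ℝ), 0 < T ∧ ∀ w : Hy K, Pos w →
    ∃ g : SL2 K, MDen b g ∧ act g w ∈ Sg K T := by
  obtain ⟨b, V, hV, h1⟩ := exists_high (K := K)
  obtain ⟨T0, h2⟩ := balanced_vec (K := K) one_pos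
  obtain ⟨-, ⟨T1, h3⟩, h4⟩ := tile_par (K := K) (𝔪 := ⊤) top_ne_bot
  refine ⟨b, max T1 (Real.exp (T0 - Real.log V / rr K)), lt_max_of_lt_right (Real.exp_pos _),
    fun w hw => ?_⟩
  obtain ⟨g, hg, h5⟩ := h1 w hw
  have hw' := act_pos g hw
  obtain ⟨u, hu, h6⟩ := h2 fun v => Real.log (act g w v).2
  obtain ⟨x, ⟨-, hx⟩, -⟩ := h4 fun v => (act (mD u) (act g w) v).1
  refine ⟨mN (algebraMap (𝓞 K) (R K) x) * (mD u * g), ?_, fun v => ?_⟩
  · simpa using (mden_mN (den_of_inR (int_mem_inR.2 (Submodule.mem_top (x := x))) 0)).mul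
      ((mden_mD hu).mul hg)
  rw [act_mul _ _ hw, act_mul _ _ hw, act_mN]
  refine ⟨le_max_of_le_left ?_, (one_div_le_one_div_of_le (Real.exp_pos _)
    (le_max_right _ _)).trans ?_⟩
  · rw [coe_int]
    exact (norm_le_pi_norm _ v).trans (h3 _ hx)
  · have k1 := (abs_le.1 (h6 v)).1
    have k2 : Real.log V / rr K ≤ (∑ v, Real.log (act g w v).2) / rr K := by
      rw [← Real.log_prod fun v _ => (hw' v).ne']
      exact div_le_div_of_nonneg_right (Real.log_le_log hV h5) (Nat.cast_nonneg _)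
    rw [act_mD, one_div, ← Real.exp_neg]
    change _ ≤ _ * _
    rw [← exp_lg v (unit_ne_zero u), ← Real.exp_log (hw' v), ← Real.exp_add, Real.exp_le_exp]
    linarith

end Vale.Agent.P319
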