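import Vale.Agent.P319.N.ThJ
import Vale.Agent.P026.ThSchur

/-! TH-B: Poincaré series and the ball operator on `L²(ν)` (port of P026 ThOp). -/

namespace Vale.Agent.P319

open scoped ComplexConjugate Real Topology ENNReal NNReal InnerProductSpace NumberField
open MeasureTheory Filter Set

variable {K : Type} [Field K] [NumberField K] [Stp K]

/-- Poincaré series -/
noncomputable def Pc (m : Ideal (𝓞 K)) (F : Hy K → ℂ) (w : Hy K) : ℂ :=
  ∑' δ : GamS m, conj (kap (δ : SL2 K)) * F (act δ w)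

variable {m : Ideal (𝓞 K)} {ν : Measure (Hy K)} {f F : Hy K → ℂ}

theorem op_fin {T : ℝ} (hT : 0 < T) : ∃ N : ℕ, ∀ (m : Ideal (𝓞 K)) (w : Hy K), Pos w →
    ∃ s : Finset (GamS m), (∀ δ : GamS m, InBox T (act δ w) → δ ∈ s) ∧ (s.card : ℝ) ≤ N := by
  classical
  obtain ⟨N, h⟩ := card_act (K := K) 0 hT
  refine ⟨N, fun m w hw => ?_⟩
  obtain ⟨s, h1, h2⟩ := h w hw
  refine ⟨s.subtype fun g => g ∈ GamS m, fun δ hδ =>
    Finset.mem_subtype.2 (h2 _ (Gam.mden δ.2) hδ), ?_⟩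
  rw [Finset.card_subtype]
  exact_mod_cast (Finset.card_filter_le _ _).trans h1

theorem op_norm_term (F : Hy K → ℂ) (δ : SL2 K) (w : Hy K) :
    ‖conj (kap δ) * F (act δ w)‖ = ‖F (act δ w)‖ := by
  rw [norm_mul, Complex.norm_conj, norm_kap, one_mul]

theorem op_Pc_le {s : Finset (GamS m)} {w : Hy K} (h : ∀ δ ∉ s, F (act δ w) = 0) :
    ‖Pc m F w‖ ≤ ∑ δ ∈ s, ‖F (act δ w)‖ := by
  rw [Pc, tsum_eq_sum (s := s) fun δ hδ => by rw [h δ hδ, mul_zero]]
  exact (norm_sum_le _ _).trans (le_of_eq (Finset.sum_congr rfl fun δ _ => op_norm_term F δ w))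

theorem Test.measurable_Pc (hF : Test F) (m : Ideal (𝓞 K)) : Measurable (Pc m F) :=
  Measurable.tsum fun δ : GamS m => (hF.1.comp (measurable_act (δ : SL2 K))).const_mul _

theorem Test.Pc_bdd (hF : Test F) (m : Ideal (𝓞 K)) :
    ∃ M : ℝ, ∀ w : Hy K, Pos w → ‖Pc m F w‖ ≤ M := by
  obtain ⟨-, M, hM, h⟩ := hF
  obtain ⟨N, hC⟩ := op_fin (K := K) hM
  refine ⟨N * M, fun w hw => ?_⟩
  obtain ⟨s, h1, h2⟩ := hC m w hw
  refine (op_Pc_le (s := s) fun δ hδ => by_contra fun k => hδ (h1 δ ((h _).2 k))).trans ?_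
  refine (Finset.sum_le_card_nsmul _ _ M fun δ _ => (h _).1).trans ?_
  rw [nsmul_eq_mul]
  exact mul_le_mul_of_nonneg_right h2 hM.le

theorem Test.memLp_Pc (hF : Test F) (hν : IsWt (GamS m) ν) :
    MemLp (fun w => conj (Pc m F w)) 2 ν := by
  obtain ⟨M, hM⟩ := hF.Pc_bdd m
  exact memLp_of_bdd hν (Complex.continuous_conj.measurable.comp (hF.measurable_Pc m))
    fun w hw => (Complex.norm_conj _).trans_le (hM w hw)

theorem unfold_Pc (hν : IsWt (GamS m) ν) (hf : AutF m f) (hF : Test F) :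
    ∫ w, f w * F w ∂hmuK K = ∫ w, f w * Pc m F w ∂ν := by
  obtain ⟨h1, ⟨M', h2⟩, h3⟩ := hf
  obtain ⟨h4, M, hM, h⟩ := hF
  have hm : Measurable fun w => f w * F w := h1.mul h4
  have hi : Integrable (fun w => f w * F w) (hmuK K) :=
    integrable_of_Sg hm.aestronglyMeasurable (M := M' * M) hM
      fun w hw => ⟨by
        rw [norm_mul]
        exact mul_le_mul (h2 w hw) (h w).1 (norm_nonneg _) ((norm_nonneg _).trans (h2 w hw)),
      fun k => ((h w).2 (right_ne_zero_of_mul k)).mem_Sg⟩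
  rw [hν.integral hm hi]
  refine integral_congr_ae (hν.ae_pos.mono fun w hw => ?_)
  beta_reduce
  rw [Pc, ← tsum_mul_left]
  refine tsum_congr fun δ => ?_
  rw [h3 δ δ.2 w hw]
  ring

theorem Pc_sq {T : ℝ} (hT : 0 < T) : ∃ N : ℝ, 0 ≤ N ∧ ∀ (m : Ideal (𝓞 K)) (ν : Measure (Hy K)),
    IsWt (GamS m) ν → ∀ F, Test F → (∀ w, F w ≠ 0 → InBox T w) →
      ∫ w, ‖Pc m F w‖ ^ 2 ∂ν ≤ N * ∫ w, ‖F w‖ ^ 2 ∂hmuK K := by
  obtain ⟨N, hs⟩ := op_fin (K := K) hT
  have N0 : (0 : ℝ) ≤ N := Nat.cast_nonneg N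
  refine ⟨N, N0, fun m ν hν F hF hsup => ?_⟩
  have := hν.1
  have hm : Measurable fun w => ‖F w‖ ^ 2 := hF.1.norm.pow_const 2
  have e : ∫ w, ‖F w‖ ^ 2 ∂hmuK K = ∫ w, ∑' δ : GamS m, ‖F (act δ w)‖ ^ 2 ∂ν := by
    have k := hν.integral (f := fun w => ((‖F w‖ ^ 2 : ℝ) : ℂ))
      (Complex.measurable_ofReal.comp hm) hF.integrable_sq.ofReal
    simp only [← Complex.ofReal_tsum] at k
    rw [integral_complex_ofReal, integral_complex_ofReal] at k
    exact Complex.ofReal_injective k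
  obtain ⟨-, M, hM, h⟩ := hF
  have key : ∀ w : Hy K, Pos w → ‖∑' δ : GamS m, ‖F (act δ w)‖ ^ 2‖ ≤ N * M ^ 2 ∧
      ‖Pc m F w‖ ^ 2 ≤ N * ∑' δ : GamS m, ‖F (act δ w)‖ ^ 2 := fun w hw => by
    obtain ⟨s, h1, h2⟩ := hs m w hw
    have h0 : ∀ δ ∉ s, F (act δ w) = 0 := fun δ hδ => by_contra fun k => hδ (h1 δ (hsup _ k))
    have p0 : 0 ≤ ∑ δ ∈ s, ‖F (act δ w)‖ ^ 2 := Finset.sum_nonneg fun _ _ => sq_nonneg _
    rw [tsum_eq_sum (s := s) fun δ hδ => by rw [h0 δ hδ, norm_zero, zero_pow two_ne_zero]]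
    constructor
    · rw [Real.norm_of_nonneg p0]
      refine (Finset.sum_le_card_nsmul _ _ (M ^ 2) fun δ _ =>
        pow_le_pow_left₀ (norm_nonneg _) (h _).1 2).trans ?_
      rw [nsmul_eq_mul]
      exact mul_le_mul_of_nonneg_right h2 (sq_nonneg _)
    · exact (pow_le_pow_left₀ (norm_nonneg _) (op_Pc_le h0) 2).trans
        (sq_sum_le_card_mul_sum_sq.trans (mul_le_mul_of_nonneg_right h2 p0))
  have hi : Integrable (fun w => ∑' δ : GamS m, ‖F (act δ w)‖ ^ 2) ν :=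
    Integrable.of_bound (Measurable.tsum fun δ : GamS m =>
      hm.comp (measurable_act (δ : SL2 K))).aestronglyMeasurable _ (hν.ae_pos.mono fun w hw => (key w hw).1)
  rw [e, ← integral_const_mul]
  exact integral_mono_of_nonneg (Eventually.of_forall fun w => sq_nonneg _) (hi.const_mul (N : ℝ))
    (hν.ae_pos.mono fun w hw => (key w hw).2)

open Classical in
/-- the kernel of the ball operator -/
noncomputable def opK (m : Ideal (𝓞 K)) (w w' : Hy K) : ℂ :=
  if Pos w ∧ Pos w' then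
    ∑' δ : GamS m, if act δ w' ∈ BtK w then conj (kap (δ : SL2 K)) else 0 else 0

theorem measurable_opK (m : Ideal (𝓞 K)) : Measurable (Function.uncurry (opK m)) := by
  refine Measurable.ite ?_ (Measurable.tsum fun δ : GamS m => Measurable.ite ?_ measurable_const
    measurable_const) measurable_const
  · exact (measurable_fst measurableSet_Pos).inter (measurable_snd measurableSet_Pos)
  · exact (measurable_fst.prodMk ((measurable_act (δ : SL2 K)).comp measurable_snd)) measurableSet_BtK₂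

theorem op_mem_iff (δ : SL2 K) {x y : Hy K} (hx : Pos x) (hy : Pos y) :
    act δ⁻¹ x ∈ BtK y ↔ act δ y ∈ BtK x := by
  rw [← mem_BtK_act δ hy, act_act_inv δ hx]
  exact ⟨BtK_comm (act_pos δ hy), BtK_comm hx⟩

theorem opK_herm [Rcp K] (hm : Lev m) (x y : Hy K) : opK m y x = conj (opK m x y) := by
  unfold opK
  by_cases h : Pos x ∧ Pos y
  · rw [if_pos h, if_pos h.symm, Complex.conj_tsum, ← (Equiv.inv (GamS m)).tsum_eq]
    refine tsum_congr fun δ => ?_
    rw [Equiv.inv_apply, Subgroup.coe_inv, hm.kap_inv δ.2]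
    by_cases k : act δ y ∈ BtK x
    · rw [if_pos k, if_pos ((op_mem_iff _ h.1 h.2).2 k)]
    · rw [if_neg k, if_neg fun k' => k ((op_mem_iff _ h.1 h.2).1 k'), map_zero]
  · rw [if_neg h, if_neg fun k => h k.symm, map_zero]

theorem opK_le (m : Ideal (𝓞 K)) (x y : Hy K) :
    ‖opK m x y‖ₑ ≤ ∑' δ : GamS m, (BtK x).indicator (fun _ => (1 : ℝ≥0∞)) (act δ y) := by
  unfold opK
  split_ifs
  · refine enorm_tsum_le_tsum_enorm.trans (ENNReal.tsum_le_tsum fun δ => ?_)
    by_cases k : act δ y ∈ BtK x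
    · rw [if_pos k, indicator_of_mem k, ← ofReal_norm, Complex.norm_conj, norm_kap,
        ENNReal.ofReal_one]
    · rw [if_neg k, enorm_zero]
      exact zero_le
  · rw [enorm_zero]
    exact zero_le

theorem exists_op [Rcp K] (hl : Lev m) (hν : IsWt (GamS m) ν) :
    ∃ L : Lp ℂ 2 ν →L[ℂ] Lp ℂ 2 ν, IsSelfAdjoint L ∧ ∀ f, AutF m f →
      (L (cl ν f) : Hy K → ℂ) =ᵐ[ν] fun w => ∫ w' in BtK w, f w' ∂hmuK K := by
  have := hν.1
  obtain ⟨M, hM⟩ := hmuK_BtK (K := K)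
  obtain ⟨L, h1, h2⟩ := P026.exists_schur ν (opK m) (measurable_opK m) (opK_herm hl) M fun x => by
    by_cases hx : Pos x
    · refine (lintegral_mono (opK_le m x)).trans ?_
      rw [← hν.lintegral (measurable_const.indicator (measurableSet_BtK x)),
        lintegral_indicator_const (measurableSet_BtK x), one_mul]
      exact hM x hx
    · simp [opK, hx]
  refine ⟨L, h1, fun f hf => (h2 _).trans (hν.ae_pos.mono fun x hx => ?_)⟩
  have hc := cl_ae (hf.memLp hν)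
  obtain ⟨h3, ⟨M', h4⟩, h5⟩ := hf
  have hm := h3.indicator (measurableSet_BtK x)
  obtain ⟨T, hT, hsub⟩ := BtK_subset hx
  have hi : Integrable ((BtK x).indicator f) (hmuK K) :=
    integrable_of_Sg hm.aestronglyMeasurable (M := M') hT fun w hw =>
      ⟨(norm_indicator_le_norm_self _ _).trans (h4 w hw), fun k =>
        hsub (mem_of_indicator_ne_zero k)⟩
  beta_reduce
  rw [← integral_indicator (measurableSet_BtK x), hν.integral hm hi]
  refine integral_congr_ae ?_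
  filter_upwards [hc, hν.ae_pos] with y e hy
  rw [e, opK, if_pos ⟨hx, hy⟩, ← tsum_mul_right]
  refine tsum_congr fun δ => ?_
  by_cases k : act δ y ∈ BtK x
  · rw [if_pos k, indicator_of_mem k, h5 δ δ.2 y hy]
  · rw [if_neg k, indicator_of_notMem k, zero_mul]

end Vale.Agent.P319
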