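import Vale.Agent.P319.N.VorTh
import Vale.Agent.P319.N.Rows
import Vale.Agent.P319.N.Sym

/-! VOR: one additive twist; small arithmetic lemmas. -/

namespace Vale.Agent.P319

open scoped ComplexConjugate Real

variable {K : Type} [Field K] [NumberField K] [Stp K]
variable {ρ : (R K × R K → ℂ) → R K → ℂ} {Ψ : R K × R K → ℂ} {a : ℕ}

theorem dual_pos {c : K} (hc : c ≠ 0) {w : Hy K} (hw : Pos w) : Pos (dual c w) := fun i => by
  have h1 := norm_pos_iff.2 (ev_ne_zero i hc)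
  have h2 := hw i
  simp only [dual]
  positivity

theorem shift_pos (x : K) {w : Hy K} (hw : Pos w) : Pos (shift x w) := hw

theorem va_actC {a b c d : ℂ} (hdet : a * d - b * c = 1) (hc' : c ≠ 0) (z : ℂ) {v : ℝ}
    (hv : 0 < v) :
    actC a b c d (-(d / c) + -(conj z / (c ^ 2 * ((‖z‖ ^ 2 + v ^ 2 : ℝ) : ℂ))),
      v / (‖c‖ ^ 2 * (‖z‖ ^ 2 + v ^ 2))) = (a / c + z, v) := by
  have hρ : 0 < ‖z‖ ^ 2 + v ^ 2 := by positivity
  have hρ' : ((‖z‖ ^ 2 + v ^ 2 : ℝ) : ℂ) ≠ 0 := by exact_mod_cast hρ.ne'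
  have hn : ‖c‖ ≠ 0 := norm_ne_zero_iff.2 hc'
  simp only [actC, denC]
  have h1 : c * (-(d / c) + -(conj z / (c ^ 2 * ((‖z‖ ^ 2 + v ^ 2 : ℝ) : ℂ)))) + d =
      -(conj z / (c * ((‖z‖ ^ 2 + v ^ 2 : ℝ) : ℂ))) := by
    field_simp
    ring
  have h2 : ‖-(conj z / (c * ((‖z‖ ^ 2 + v ^ 2 : ℝ) : ℂ)))‖ ^ 2 +
      ‖c‖ ^ 2 * (v / (‖c‖ ^ 2 * (‖z‖ ^ 2 + v ^ 2))) ^ 2 = 1 / (‖c‖ ^ 2 * (‖z‖ ^ 2 + v ^ 2)) := by
    rw [norm_neg, norm_div, norm_mul, RCLike.norm_conj, Complex.norm_real, Real.norm_of_nonneg hρ.le]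
    field_simp
  rw [h1, h2]
  refine Prod.ext ?_ ?_
  · have h3 : ((‖c‖ : ℝ) : ℂ) ^ 2 = c * conj c := by
      rw [Complex.mul_conj, Complex.normSq_eq_norm_sq]; simp
    have h4 : ((‖z‖ : ℝ) : ℂ) ^ 2 = z * conj z := by
      rw [Complex.mul_conj, Complex.normSq_eq_norm_sq]; simp
    have h5 : conj c ≠ 0 := by simpa using hc'
    have h6 : b = (a * d - 1) / c := by rw [eq_div_iff hc']; linear_combination -hdet
    have h7 : ((‖z‖ ^ 2 + v ^ 2 : ℝ) : ℂ) = z * conj z + (v : ℂ) ^ 2 := by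
      rw [← h4]; push_cast; ring
    simp only [map_neg, map_div₀, map_mul, Complex.conj_conj, Complex.conj_ofReal,
      Complex.ofReal_div, Complex.ofReal_mul, Complex.ofReal_one, Complex.ofReal_pow ‖c‖, h3, h6]
    generalize ((‖z‖ ^ 2 + v ^ 2 : ℝ) : ℂ) = r at *
    field_simp
    rw [h7]
    ring
  · simp only
    field_simp

theorem act_cusp (g : SL2 K) (hc : g.1 1 0 ≠ 0) {w : Hy K} (hw : Pos w) :
    act g (shift (-((g.1 1 1 : K) / (g.1 1 0 : R K))) (dual (g.1 1 0 : R K) w)) =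
      shift ((g.1 0 0 : K) / (g.1 1 0 : R K)) w := by
  funext i
  have hdet := congrArg (fun x : R K => ev i (x : K)) (sl2_det g)
  simp only [map_sub, map_mul, map_one, ev_sub, ev_mul, ev_one] at hdet
  simp only [act, shift, dual, ev_neg, ev_div]
  exact va_actC hdet (ev_ne_zero i (coe_ne_zero hc)) _ (hw i)

theorem th_twist [Rcp K] (hρ : VAut ρ) (ha : 10 ≤ a) (hΨ : Cls a (lev K a) Ψ) {a' : ℕ}
    (ha' : 10 ≤ a') {g g₀ : SL2 K} (h0 : Cls a' (lev K a') fun r => Ψ (rmul r g₀⁻¹))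
    (hδ : Gam (lev K a) (g * g₀⁻¹)) (hc : g.1 1 0 ≠ 0) {w : Hy K} (hw : Pos w) :
    th (ρ Ψ) (shift ((g.1 0 0 : K) / (g.1 1 0 : R K)) w) =
      conj (kap (g * g₀⁻¹)) * th (ρ fun r => Ψ (rmul r g₀⁻¹))
        (shift (-((g.1 1 1 : K) / (g.1 1 0 : R K))) (dual (g.1 1 0 : R K) w)) := by
  have e3 : (fun r => Ψ (rmul r g⁻¹)) = fun r => conj (kap (g * g₀⁻¹)) * Ψ (rmul r g₀⁻¹) := by
    funext r
    rw [← hΨ.rmul_inv (Lev.lev ha) hδ g₀ r, inv_mul_cancel_right]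
  have e4 : ρ (fun r => conj (kap (g * g₀⁻¹)) * Ψ (rmul r g₀⁻¹)) =
      fun ν => conj (kap (g * g₀⁻¹)) * ρ (fun r => Ψ (rmul r g₀⁻¹)) ν :=
    funext (hρ.smul a' _ ha' h0 _ (by rw [RCLike.norm_conj, norm_kap]))
  rw [← act_cusp g hc hw, hρ.aut a Ψ ha hΨ g _ (shift_pos _ (dual_pos (coe_ne_zero hc) hw)), e3, e4,
    vth_const_mul]

theorem va_mat {c a₀ : R K} (hc : c ≠ 0) (h : IsCoprime a₀ c) (b : ℕ) : ∃ g : SL2 K,
    g.1 1 0 = c ∧ c ∣ g.1 0 0 - a₀ ∧ SIn b ((g.1 0 0 : K) / c) ∧ SIn b ((g.1 1 1 : K) / c) := by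
  obtain ⟨u, v, h⟩ := h
  obtain ⟨e, he⟩ := exists_R_approx b ((a₀ : K) / c)
  obtain ⟨f, hf⟩ := exists_R_approx b ((u : K) / c)
  obtain ⟨g, e1, -, e3, e4⟩ := exists_sl2 (a := a₀ - c * e) (b := -v - f * a₀ - e * u + c * e * f)
    (c := c) (d := u - c * f) (by linear_combination h)
  have hc' := coe_ne_zero hc
  refine ⟨g, e3, ⟨-e, by rw [e1]; ring⟩, ?_, ?_⟩
  · rwa [e1, map_sub, map_mul, sub_div, mul_div_cancel_left₀ _ hc']
  · rwa [e4, map_sub, map_mul, sub_div, mul_div_cancel_left₀ _ hc']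

theorem va_gam {c₀ : R K} (hc₀ : c₀ ≠ 0) (ha : 1 ≤ a) : ∃ b : ℕ, ∀ (g g₀ : SL2 K) (c : R K),
    g.1 1 0 = c → g₀.1 1 0 = c₀ → InUq a ((c : K) / c₀) → SIn b ((g.1 0 0 : K) / c) →
    SIn b ((g.1 1 1 : K) / c) → SIn b ((g₀.1 0 0 : K) / c₀) → SIn b ((g₀.1 1 1 : K) / c₀) →
      Gam (lev K a) (g * g₀⁻¹) := by
  obtain ⟨b, hb⟩ := exists_sIn_mul ((c₀ : K) ^ 2)
  refine ⟨a + b, fun g g₀ c e e₀ hu hx hy hx₀ hy₀ => ?_⟩
  have h0 := coe_ne_zero hc₀
  have h1 : (c : K) ≠ 0 := (div_ne_zero_iff.1 (hu.ne_zero ha)).1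
  have hu' := hu.div_symm ha
  have k := (hb a _ (hy₀.sub hy)).mul_left hu.sIn
  have d := congrArg (algebraMap (R K) K) (sl2_det g)
  have d₀ := congrArg (algebraMap (R K) K) (sl2_det g₀)
  simp only [map_sub, map_mul, map_one, e, e₀] at d d₀
  have f : ((g.1 0 1 : R K) : K) = (g.1 0 0 * g.1 1 1 - 1) / c := by
    rw [eq_div_iff h1]; linear_combination -d
  have f₀ : ((g₀.1 0 1 : R K) : K) = (g₀.1 0 0 * g₀.1 1 1 - 1) / c₀ := by
    rw [eq_div_iff h0]; linear_combination -d₀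
  rw [gam_iff]
  simp only [mem_inR_lev, sl2_mul, inv_00, inv_01, inv_10, inv_11, map_sub, map_add, map_mul,
    map_neg, map_one, e, e₀, f, f₀]
  refine ⟨(congrArg (SIn a) ?_).mp ((k.mul_left hx.zero).add hu'),
    (congrArg (SIn a) ?_).mp ((((k.mul_left hx.zero).mul_left hx₀.zero).neg.add
      ((hx.mono (Nat.le_add_right a b)).mul_left hu.sIn)).sub
        ((hx₀.mono (Nat.le_add_right a b)).mul_left hu'.sIn)),
    (congrArg (SIn a) ?_).mp k, (congrArg (SIn a) ?_).mp ((k.mul_left hx₀.zero).neg.add hu)⟩ <;>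
  field_simp <;> ring

theorem sum_res_inv {k m : R K} (hk : k ≠ 0) {F : R K → ℂ} (hF : Per k F)
    (h0 : ∀ a, ¬IsCoprime a k → F a = 0) (x : R K → R K)
    (hx : ∀ a, IsCoprime a k → k ∣ m * a * x a - 1) :
    ∑ a ∈ res k, ind (IsCoprime a k) * F (x a) = ∑ a ∈ res k, F a := by
  classical
  have hxc : ∀ a, IsCoprime a k → IsCoprime (x a) k ∧ IsCoprime m k := fun a ha => by
    obtain ⟨e, he⟩ := hx a ha
    exact ⟨⟨m * a, -e, by linear_combination he⟩, ⟨a * x a, -e, by linear_combination he⟩⟩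
  have hcc : ∀ {a b : R K}, k ∣ a - b → IsCoprime a k → IsCoprime b k := by
    rintro a b ⟨e, he⟩ ⟨u, w, huw⟩
    exact ⟨u, w + u * e, by linear_combination huw - u * he⟩
  rw [← sum_res_perm hk hF (fun a => if IsCoprime a k then x a else a) fun a b => ?_]
  · refine Finset.sum_congr rfl fun a _ => ?_
    by_cases ha : IsCoprime a k
    · rw [ind_of ha, if_pos ha, one_mul]
    · rw [ind_of_not ha, if_neg ha, zero_mul, h0 a ha]
  · by_cases ha : IsCoprime a k <;> by_cases hb : IsCoprime b k <;>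
      simp only [ha, hb, if_true, if_false]
    · obtain ⟨e, he⟩ := hx a ha
      obtain ⟨e', he'⟩ := hx b hb
      constructor
      · rintro ⟨f, hf⟩
        exact ⟨b * e - a * e' - m * a * b * f, by
          linear_combination b * he - a * he' - m * a * b * hf⟩
      · rintro ⟨f, hf⟩
        exact ⟨x b * e - x a * e' - m * x a * x b * f, by
          linear_combination x b * he - x a * he' - m * x a * x b * hf⟩
    · exact ⟨fun h => absurd (hcc h (hxc a ha).1) hb, fun h => absurd (hcc h ha) hb⟩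
    · exact ⟨fun h => absurd (hcc (dvd_sub_comm.1 h) (hxc b hb).1) ha,
        fun h => absurd (hcc (dvd_sub_comm.1 h) hb) ha⟩

theorem norm_fhat_mul {L w : R K} (hL : L ≠ 0) {φ : R K → ℂ} (hφ : Per L φ) (hw : IsCoprime w L)
    {η : ℂ} (hη : ‖η‖ = 1) (h : ∀ n, φ (w * n) = η * φ n) (b : R K) :
    ‖fhat L φ (w * b)‖ = ‖fhat L φ b‖ := by
  have hP : Per L fun x => φ x * eq (-(b * x)) L := fun x y hxy => by
    simp only
    rw [hφ x y hxy, eq_congr (x := -(b * x)) (y := -(b * y))]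
    rw [neg_sub_neg, ← mul_sub]
    exact (dvd_sub_comm.1 hxy).mul_left b
  have h1 : fhat L φ b = η * fhat L φ (w * b) := by
    simp only [fhat]
    rw [← sum_res_affine hL hP hw 0, ← mul_div_assoc, Finset.mul_sum]
    congr 1
    refine Finset.sum_congr rfl fun x _ => ?_
    rw [add_zero, h, mul_assoc η, mul_left_comm b, mul_assoc w]
  rw [h1, norm_mul, hη, one_mul]

/-- expansion of `conj (sex · k)` in additive characters -/
theorem chi_expand {k : R K} (hk : Squarefree k) (ν : R K) :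
    quad ν k * cub ν k = ∑ b ∈ res k,
      conj (gt6 k) / (√(nm k) : ℝ) * (quad b k * conj (cub b k)) * eq (b * ν) k := by
  have h1 := vl_gs_sex hk ν
  have h3 : ((√(nm k) : ℝ) : ℂ) ≠ 0 :=
    Complex.ofReal_ne_zero.2 (Real.sqrt_pos.2 (Nat.cast_pos.2 (nm_pos hk.ne_zero))).ne'
  have h4 : conj (gt6 k) * gt6 k = 1 := by
    rw [Complex.conj_mul', vl_norm_gt6 hk]
    simp
  calc _ = conj (gt6 k) / (√(nm k) : ℝ) * ∑ x ∈ res k, sex x k * eq (ν * x) k := by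
        rw [h1, conj_sex]
        field_simp
        linear_combination (-(quad ν k * cub ν k)) * h4
    _ = _ := by
        rw [Finset.mul_sum]
        refine Finset.sum_congr rfl fun a _ => ?_
        rw [sex, mul_comm ν a]
        ring

theorem va_act_mN (s : R K) (w : Hy K) : act (mN s) w = shift (s : K) w := by
  funext i
  simp [act, actC, denC, shift, mN_00, mN_01, mN_10, mN_11, ev_one, ev_zero, add_comm]

theorem va_expand {q : R K} (hq : q ≠ 0) {g : R K → ℂ} (hg : Per q g) (A : ℕ) :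
    ∃ x : R K → K, ∀ τ : R K → ℂ, Grow τ → (∀ ν, τ ν ≠ 0 → SIn 0 ((MM K : K) ^ A * ν)) →
      ∀ w, Pos w → th (fun ν => τ ν * g ν) w =
        ∑ b ∈ res q, fhat q g b * th τ (shift (x b) w) := by
  choose e he using fun b : R K => exists_R_approx A ((b : K) / q)
  refine ⟨fun b => (b : K) / q - e b, fun τ h1 h2 w hw => ?_⟩
  have k : ∀ b ν : R K, psiK ((ν : K) * ((b : K) / q - e b)) = eq (b * ν) q := fun b ν => by
    rw [eq, ← psiK_add_coe _ (ν * e b), map_mul, map_mul]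
    congr 1
    ring
  simp only [vth_psiK h2 (he _), k, ← vth_const_mul]
  rw [← vth_sum _ _ (fun b _ => (h1.mul_bdd fun ν => (norm_eq _ _).le).const_mul _) hw]
  congr 1
  funext ν
  rw [fourier_inv hq hg ν, Finset.mul_sum]
  exact Finset.sum_congr rfl fun b _ => by ring

theorem th_absorb [Rcp K] (hρ : VAut ρ) (ha : 10 ≤ a) (hΨ : Cls a (lev K a) Ψ) (s : R K) :
    ∃ (a' : ℕ) (Ψ' : R K × R K → ℂ), 10 ≤ a' ∧ Cls a' (lev K a') Ψ' ∧
      ∀ (q : R K) (g : R K → ℂ), q ≠ 0 → Per q g → ∀ w, Pos w →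
        th (fun ν => ρ Ψ ν * (eTr ((ν : K) * s) * g ν)) w = th (fun ν => ρ Ψ' ν * g ν) w := by
  obtain ⟨a', h1, h2⟩ := hΨ.exists_rmul_lev (mN s)⁻¹
  refine ⟨a', _, ha.trans h1, h2, fun q g hq hg w hw => ?_⟩
  obtain ⟨x, hx⟩ := va_expand hq hg (a' + 1)
  simp only [← mul_assoc]
  rw [hx _ ((hρ.grow ha hΨ).mul_bdd fun ν => (norm_eTr _).le) (fun ν h =>
      Den.mono (Nat.succ_le_succ h1) (hρ.supp ha hΨ ν (left_ne_zero_of_mul h))) w hw,
    hx _ (hρ.grow (ha.trans h1) h2) (hρ.supp (ha.trans h1) h2) w hw]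
  refine Finset.sum_congr rfl fun b _ => ?_
  rw [← vth_shift, ← va_act_mN, hρ.aut a Ψ ha hΨ _ _ (shift_pos _ hw)]

end Vale.Agent.P319
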