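import Vale.Agent.P319.N.VorG
import Vale.Agent.P319.N.LatHP

/-! VOR: the primes above `M`. -/

namespace Vale.Agent.P319

open scoped ComplexConjugate Real NumberField nonZeroDivisors

variable {K : Type} [Field K] [NumberField K] [Stp K]

theorem Nrm.of_inU {x α : R K} (hα : Nrm α) (h : InU ((x : K) / α)) : Nrm x := by
  have hc := cg_of_inU h
  exact ⟨hc.left_ne, hc.crep_eq ▸ h.div_trans (by norm_num) hα.2⟩

theorem nrm_ng {x : R K} (hx : x ≠ 0) {u : (R K)ˣ} (hu : u ∈ EU K) : Nrm ((u : R K) * ng x) := by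
  refine Nrm.of_inU (α := ng x) ⟨ng_ne_zero hx, (cg_ng hx).crep_eq ▸ inU_ng hx⟩ ?_
  rw [map_mul, mul_div_cancel_right₀ _ (coe_ne_zero (ng_ne_zero hx))]
  exact mem_EU.1 hu

theorem exists_ureps {q : ℕ} (hq : 10 ≤ q) : ∃ T : Finset (R K), (∀ α ∈ T, Nrm α) ∧
    ∀ x : R K, Nrm x → ∃! α, α ∈ T ∧ InUq q ((x : K) / α) := by
  classical
  have hq1 : 1 ≤ q := by omega
  let r : Setoid {x : R K // Nrm x} := ⟨fun x y => InUq q ((x.1 : K) / y.1),
    fun x => by rw [div_self (coe_ne_zero x.2.1)]; exact inUq_one q,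
    fun h => h.div_symm hq1, fun h h' => h.div_trans hq1 h'⟩
  choose t ht using fun x : {x : R K // Nrm x} => exists_int_approx x.2.2.sIn q
  have := Ideal.finiteQuotientOfFreeOfNeBot (lev K q) (sId_lev q).ne_bot
  have : Finite (Quotient r) := by
    refine Finite.of_injective (fun c => ((⟨crep 10 c.out.1, crep_mem_creps c.out.2.1⟩ : creps K 10),
      Ideal.Quotient.mk (lev K q) (t c.out))) fun c c' h => ?_
    obtain ⟨h1, h2⟩ := Prod.mk.inj h
    have h3 : crep 10 c.out.1 = crep 10 c'.out.1 := congrArg Subtype.val h1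
    rw [Ideal.Quotient.eq, lev, Ideal.mem_span_singleton, ← sIn_int_iff] at h2
    have h4 := (((ht c.out).sub (ht c'.out)).add h2).mul_right (c'.out.2.2.inv (by norm_num)).sIn
    rw [← c.out_eq, ← c'.out_eq]
    refine Quotient.sound (?_ : SIn q _)
    have h5 := coe_ne_zero c'.out.2.1
    have h6 := coe_ne_zero (crep_ne_zero (q := 10) (by norm_num) c'.out.2.1)
    convert h4 using 1
    rw [h3, show ((t c.out - t c'.out : 𝓞 K) : K) = t c.out - t c'.out from map_sub _ _ _]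
    field_simp
    ring
  have := Fintype.ofFinite (Quotient r)
  refine ⟨Finset.univ.image fun c : Quotient r => c.out.1, fun α hα => ?_, fun x hx => ?_⟩
  · obtain ⟨c, -, rfl⟩ := Finset.mem_image.1 hα
    exact c.out.2
  · refine ⟨_, ⟨Finset.mem_image_of_mem _ (Finset.mem_univ (Quotient.mk r ⟨x, hx⟩)),
      r.symm (Quotient.mk_out (⟨x, hx⟩ : {x : R K // Nrm x}))⟩, ?_⟩
    rintro _ ⟨h1, h2⟩
    obtain ⟨c, -, rfl⟩ := Finset.mem_image.1 h1
    rw [Quotient.sound (s := r) (a := ⟨x, hx⟩) h2, Quotient.out_eq]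

theorem vs_orth {I J : FI K} (hJ : J ≠ 0) (hJI : J ≤ I) {T : Finset K}
    (hT : Reps (dl J) (dl I) T) {x : K} (hx : x ∈ I) :
    ∑ ξ ∈ T, eTr (x * ξ) = ind (x ∈ J) * T.card := by
  classical
  have hI : I ≠ 0 := fun h => hJ (le_antisymm (h ▸ hJI) (FractionalIdeal.zero_le J))
  by_cases h : x ∈ J
  · rw [ind_of h, one_mul, Finset.sum_congr rfl fun ξ hξ => eTr_of_mem_dl hJ h (hT.1 ξ hξ)]
    simp
  rw [ind_of_not h, zero_mul]
  rw [← FractionalIdeal.dual_dual ℤ ℚ J, mem_dual_iff (dl_ne_zero hJ)] at h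
  push Not at h
  obtain ⟨η, h1, h2⟩ := h
  have hT' : Reps (dl J) (dl I) (T.image (· + η)) := by
    refine ⟨fun y hy => ?_, fun y hy => ?_⟩
    · obtain ⟨z, hz, rfl⟩ := Finset.mem_image.1 hy
      exact (dl J : Submodule (𝓞 K) K).add_mem (hT.1 z hz) h1
    · obtain ⟨z, ⟨h3, h4⟩, h5⟩ := hT.2 _ ((dl J : Submodule (𝓞 K) K).sub_mem hy h1)
      refine ⟨z + η, ⟨Finset.mem_image_of_mem _ h3, by rwa [add_comm, ← sub_sub]⟩, ?_⟩
      rintro _ ⟨h6, h7⟩
      obtain ⟨w, hw, rfl⟩ := Finset.mem_image.1 h6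
      rw [h5 w ⟨hw, by rwa [sub_sub, add_comm]⟩]
  have e := hT'.sum_eq hT (f := fun ξ => eTr (x * ξ)) fun y _ z hz => by
    rw [mul_add, eTr_add, eTr_of_mem_dl hI hx hz, mul_one]
  rw [Finset.sum_image fun _ _ _ _ h => add_right_cancel h] at e
  simp only [mul_add, eTr_add, ← Finset.sum_mul] at e
  exact ((mul_right_eq_self₀.1 e).resolve_left h2)

theorem exists_ind_expand (a q : ℕ) {α : R K} (hα : α ≠ 0) :
    ∃ (T : Finset (R K)) (c : R K → ℂ), ∀ ν : R K, SIn 0 ((MM K : K) ^ a * ν) →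
      ind (InUq q ((ν : K) / α)) = ∑ s ∈ T, c s * eTr ((ν : K) * s) := by
  classical
  obtain ⟨b, hb⟩ := exists_sIn_mul (α : K)⁻¹
  have hM := M_ne_zero (K := K)
  let I : FI K := FractionalIdeal.spanSingleton _ ((MM K : K) ^ a)⁻¹
  let J : FI K := FractionalIdeal.spanSingleton _ ((MM K : K) ^ (q + b))
  have hI : I ≠ 0 := FractionalIdeal.spanSingleton_ne_zero_iff.2 (by positivity)
  have hJ : J ≠ 0 := FractionalIdeal.spanSingleton_ne_zero_iff.2 (by positivity)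
  have hJI : J ≤ I := FractionalIdeal.spanSingleton_le_iff_mem.2
    ((FractionalIdeal.mem_spanSingleton _).2 ⟨(MM K : 𝓞 K) ^ (q + b + a), by
      rw [Algebra.smul_def, map_pow, map_natCast, pow_add]; field_simp⟩)
  obtain ⟨T, hT⟩ := exists_reps (I := dl J) (dl_ne_zero hI)
  obtain ⟨Y, hY⟩ := exists_reps (I := I) hJ
  have hc : (T.card : ℂ) ≠ 0 := by
    obtain ⟨y, ⟨hy, -⟩, -⟩ := hT.2 0 (FractionalIdeal.zero_mem _)
    exact Nat.cast_ne_zero.2 (Finset.card_ne_zero_of_mem hy)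
  refine ⟨T.preimage _ coe_injective.injOn,
    fun s => (∑ y ∈ Y, ind (InUq q (y / α)) * eTr (-(y * s))) / T.card, fun ν hν => ?_⟩
  rw [Finset.sum_preimage (algebraMap (R K) K) T _
    (fun s => (∑ y ∈ Y, ind (InUq q (y / α)) * eTr (-(y * s))) / T.card * eTr (ν * s))]
  · have hν' : (ν : K) ∈ I := by
      obtain ⟨t, ht⟩ := hν.exists_int ((mem_RS_iff K _).2 ⟨MM K ^ a * ν, by simp⟩)
      refine (FractionalIdeal.mem_spanSingleton _).2 ⟨t, ?_⟩
      rw [pow_zero, one_mul] at ht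
      rw [Algebra.smul_def, ← NumberField.RingOfIntegers.coe_eq_algebraMap, ← ht]
      field_simp
    obtain ⟨z, ⟨h1, h2⟩, h3⟩ := hY.2 _ hν'
    simp only [div_mul_eq_mul_div, Finset.sum_mul, ← Finset.sum_div]
    rw [Finset.sum_comm, eq_div_iff hc]
    simp only [mul_assoc, ← eTr_add, neg_add_eq_sub, ← sub_mul, ← Finset.mul_sum]
    rw [Finset.sum_congr rfl fun y hy => congrArg _ (vs_orth hJ hJI hT
      ((I : Submodule (𝓞 K) K).sub_mem hν' (hY.1 y hy))), Finset.sum_eq_single_of_mem z h1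
      fun y hy hne => by rw [ind_of_not fun h => hne (h3 y ⟨hy, h⟩), zero_mul, mul_zero],
      ind_of h2, one_mul]
    obtain ⟨t, ht⟩ := (FractionalIdeal.mem_spanSingleton _).1 h2
    have h4 := hb q _ (sIn_pow_mul_int (q + b) t)
    rw [mul_comm _ (t : K), NumberField.RingOfIntegers.coe_eq_algebraMap, ← Algebra.smul_def, ht,
      mul_comm, ← div_eq_mul_inv, sub_div] at h4
    exact congrArg (· * _) (ind_congr ⟨fun h => h.of_sub (sIn_sub_comm.1 h4), fun h => h.of_sub h4⟩)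
  · intro ξ hξ h
    refine absurd ?_ h
    obtain ⟨t, ht⟩ := exists_int_of_eTr (ξ := (MM K : K) ^ (q + b) * ξ) fun t => by
      rw [mul_right_comm, mul_comm _ (t : K)]
      exact eTr_of_mem_dl hJ ((FractionalIdeal.mem_spanSingleton _).2 ⟨t, rfl⟩) (hT.1 ξ hξ)
    exact (mem_RS_iff K ξ).1 ((mem_RS_iff_pow ξ).2 ⟨q + b + 1, t, by rw [← ht]; ring⟩)

theorem exists_phi {L α : R K} {φ : R K → ℂ} (hL : L ≠ 0) (hα : α ≠ 0) (hφ : VBw L φ) :
    ∃ φ' : R K → ℂ, Eqv L φ' ∧ ∀ x : R K, InU ((x : K) / α) → φ' x = φ (pp x) := by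
  have h10 : 1 ≤ 10 := by norm_num
  choose X h1 h2 using exists_R_inUq 10 (coe_ne_zero hα) hL
  have key : ∀ x y : R K, InU ((x : K) / α) → InU ((y : K) / α) → L ∣ x - y →
      φ (pp x) = φ (pp y) := fun x y hx hy =>
    hφ.2.1 x y (cg_of_inU hx).left_ne (hy.div_trans h10 (hx.div_symm h10))
  refine ⟨fun ν => φ (pp (X ν)), ⟨fun x y h => key _ _ (h1 x) (h1 y) ?_, fun n => hφ.1 _,
    fun w hw => ?_⟩, fun x hx => key _ _ (h1 x) hx (h2 x)⟩
  · convert ((h2 x).sub (h2 y)).add h using 1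
    ring
  · obtain ⟨u, h3, c, h4⟩ := exists_R_inUq 10 (one_ne_zero (α := K)) hL w
    rw [div_one] at h3
    obtain ⟨η, h5, h6⟩ := hφ.2.2 u h3 (by
      rw [show u = w + L * c by linear_combination h4]; exact hw.add_mul_left_left c)
    refine ⟨η, h5, fun n => ?_⟩
    beta_reduce
    rw [← h6 _ (prim_pp (cg_of_inU (h1 n)).left_ne), ← pp_mul]
    refine key _ _ (h1 _) (by rw [map_mul, mul_div_assoc]; exact h3.mul (h1 n)) ?_
    convert ((h2 (w * n)).sub ((h2 n).mul_left u)).sub ((Dvd.intro c h4.symm).mul_right n) using 1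
    ring

end Vale.Agent.P319
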