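import Vale.Agent.P319.N.VorArithA
import Vale.Agent.P319.N.VorS

/-! VOR: the twisted theta series at the dual points. -/

namespace Vale.Agent.P319

open scoped ComplexConjugate Real

variable {K : Type} [Field K] [NumberField K] [Stp K] [Rcp K]
variable {ρ : (R K × R K → ℂ) → R K → ℂ} {Ψ : R K × R K → ℂ} {a : ℕ}

omit [Rcp K] in
theorem va_inv {a n : R K} (h : IsCoprime a n) : ∃ x, n ∣ a * x - 1 := by
  obtain ⟨u, v, huv⟩ := h
  exact ⟨u, -v, by linear_combination huv⟩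

theorem va_inner (hρ : VAut ρ) (ha : 10 ≤ a) (hΨ : Cls a (lev K a) Ψ) {c₀ : R K} (hc₀ : c₀ ≠ 0) :
    ∃ (a' : ℕ) (Φ : R K × R K → ℂ), 10 ≤ a' ∧ Cls a' (lev K a') Φ ∧
      ∀ k C A y : R K, Squarefree k → C ≠ 0 → IsCoprime k C →
        InUq a (((k * C : R K) : K) / c₀) → C ∣ A * k ^ 2 * y - 1 →
        ∃ ζ : ℂ, ‖ζ‖ ≤ 1 ∧ ∀ w, Pos w →
          th (fun ν => ρ Ψ ν * (eq (A * ν) C * (quad ν k * cub ν k))) w =
            ζ * th (fun ν => ρ Φ ν * eq (-(ν * y)) C * quad ν k) (dual (k * C : R K) w) := by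
  obtain ⟨b₀, hb₀⟩ := va_gam hc₀ (a := a) (by omega)
  obtain ⟨g₀, e0, -, e1, e2⟩ := va_mat hc₀ isCoprime_one_left b₀
  obtain ⟨a', ha', hΦ⟩ := hΨ.exists_rmul_lev g₀⁻¹
  refine ⟨a', _, ha.trans ha', hΦ, fun k C A y hk hC hkC hU hy => ?_⟩
  have hk0 : k ≠ 0 := hk.ne_zero
  have hc : k * C ≠ 0 := mul_ne_zero hk0 hC
  have hm : IsCoprime (C ^ 2) k := hkC.symm.pow_left
  have hx : ∀ b, ∃ x, IsCoprime b k → k ∣ C ^ 2 * b * x - 1 := fun b => by
    by_cases hb : IsCoprime b k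
    · obtain ⟨x, hx⟩ := va_inv (hm.mul_left hb)
      exact ⟨x, fun _ => hx⟩
    · exact ⟨0, fun h => absurd h hb⟩
  choose x hx using hx
  have hG := hρ.grow ha hΨ
  have hG' := hρ.grow (ha.trans ha') hΦ
  have hS' := hρ.supp (ha.trans ha') hΦ
  set Φ := ρ (fun r => Ψ (rmul r g₀⁻¹)) with hΦdef
  have hsq : ((√(nm k) : ℝ) : ℂ) ≠ 0 := by exact_mod_cast (Real.sqrt_pos.2 (nm_pos_real hk0)).ne'
  have hd₀ : IsCoprime (g₀.1 1 1) c₀ := by simpa only [row, e0] using (coprime_row g₀).symm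
  set ζ₀ := cub C k * conj (cub (k * y) C) * cub (g₀.1 1 1) c₀ with hζ₀
  refine ⟨conj (gt6 k) * ζ₀ * quad (-1) k * gt2 k, ?_, fun w hw => ?_⟩
  · simp only [hζ₀, norm_mul, RCLike.norm_conj, vl_norm_gt6 hk, vl_norm_gt2 hk, one_mul, mul_one,
      norm_cub hkC.symm, norm_cub hd₀]
    exact mul_le_one₀ (norm_cub_le _ _) (norm_nonneg _) (norm_quad_le _ _)
  have hw' := dual_pos (coe_ne_zero hc) hw
  let F : R K → ℂ := fun b => quad b k *
    th (fun ν => Φ ν * (eq (-(ν * b)) k * eq (-(ν * y)) C)) (dual (k * C : R K) w)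
  have hF : Per k F := fun b b' h => by
    simp only [F]
    rw [quad_congr h]
    congr 2
    funext ν
    rw [eq_congr (x := -(ν * b)) (y := -(ν * b'))]
    rw [show -(ν * b) - -(ν * b') = (b - b') * -ν by ring]
    exact h.mul_right _
  have hterm : ∀ b, (quad b k * conj (cub b k)) *
      th (fun ν => ρ Ψ ν * (eq (b * ν) k * eq (A * ν) C)) w =
      ζ₀ * (ind (IsCoprime b k) * F (x b)) := fun b => by
    by_cases hb : IsCoprime b k
    swap
    · simp [quad_eq_zero hk0 hb, ind_of_not hb]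
    have hxb := hx b hb
    have h1 : k * C ∣ (b * C + A * k) * (C * x b + k * y) - 1 := by
      refine hkC.mul_dvd ?_ ?_
      · obtain ⟨e, he⟩ := hxb
        exact ⟨e + b * C * y + A * (C * x b + k * y), by linear_combination he⟩
      · obtain ⟨e, he⟩ := hy
        exact ⟨e + b * (C * x b + k * y) + A * k * x b, by linear_combination he⟩
    have h2 : IsCoprime (b * C + A * k) (k * C) := by
      obtain ⟨e, he⟩ := h1
      exact ⟨C * x b + k * y, -e, by linear_combination he⟩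
    obtain ⟨g, f10, f00, s0, s1⟩ := va_mat hc h2 (max b₀ (a' + 1))
    have f11 : k * C ∣ g.1 1 1 - (C * x b + k * y) := by
      obtain ⟨e, he⟩ := h1
      obtain ⟨e', he'⟩ := f00
      have hd := sl2_det g
      rw [f10] at hd
      exact ⟨(C * x b + k * y) * (g.1 0 1 - e' * g.1 1 1) - e * g.1 1 1, by
        linear_combination (C * x b + k * y) * hd - g.1 1 1 * he - (C * x b + k * y) * g.1 1 1 * he'⟩
    have hδ := hb₀ g g₀ _ f10 e0 hU (s0.mono (le_max_left _ _)) (s1.mono (le_max_left _ _)) e1 e2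
    have ht := th_twist hρ ha hΨ (ha.trans ha') hΦ hδ (by rw [f10]; exact hc) hw
    rw [f10, vth_psiK (hρ.supp ha hΨ) (s0.mono (by omega)),
      vth_psiK hS' (s1.mono (le_max_right _ _)).neg] at ht
    have p1 : ∀ ν : R K, psiK ((ν : K) * ((g.1 0 0 : K) / (k * C : R K))) =
        eq (b * ν) k * eq (A * ν) C := fun ν => by
      rw [← eq_crt hk0 hC, ← eq_congr (x := ν * g.1 0 0), eq, map_mul _ ν, mul_div_assoc]
      have := f00.mul_left ν
      convert this using 1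
      ring
    have p2 : ∀ ν : R K, psiK ((ν : K) * -((g.1 1 1 : K) / (k * C : R K))) =
        eq (-(ν * x b)) k * eq (-(ν * y)) C := fun ν => by
      rw [← eq_crt hk0 hC, ← eq_congr (x := -(ν * g.1 1 1)), eq, map_neg, map_mul _ ν, neg_div,
        mul_div_assoc, mul_neg]
      have := f11.mul_left (-ν)
      convert this using 1
      ring
    simp only [p1, p2] at ht
    have hJ := kapJ_left (δ := g * g₀⁻¹) (g₀ := g₀) (hδ.mono (lev_anti ha))
      (by rw [inv_mul_cancel_right, f10, e0]; exact hU.mono ha)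
    rw [inv_mul_cancel_right, f10, e0, cub_congr f11, cub_mul_right hk0 hC,
      cub_congr (a := C * x b + k * y) (b := C * x b) (n := k) ⟨y, by ring⟩,
      cub_congr (a := C * x b + k * y) (b := k * y) (n := C) ⟨x b, by ring⟩, cub_mul_left C] at hJ
    have q0 : cub C k ^ 2 * cub b k * cub (x b) k = 1 := by
      rw [← cub_pow_left, ← cub_mul_left, ← cub_mul_left, cub_congr hxb, cub_one_left]
    have hkap : conj (cub b k) * conj (kap (g * g₀⁻¹)) = ζ₀ := by
      have : cub b k * kap (g * g₀⁻¹) = conj ζ₀ := by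
        simp only [hζ₀, map_mul, Complex.conj_conj, conj_cub C]
        linear_combination (-(cub b k * kap (g * g₀⁻¹))) * cub_mul_conj hd₀ -
          cub b k * conj (cub (g₀.1 1 1) c₀) * hJ +
          cub (k * y) C * conj (cub (g₀.1 1 1) c₀) * (cub C k ^ 2 * q0 -
            cub C k * cub b k * cub (x b) k * cub_cube hkC.symm)
      rw [← map_mul, this, Complex.conj_conj]
    have hxk : IsCoprime (x b) k := by
      obtain ⟨e, he⟩ := hxb
      exact ⟨C ^ 2 * b, -e, by linear_combination he⟩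
    have hq : quad b k = quad (x b) k := by
      have q1 := quad_congr hxb
      rw [quad_mul_left, quad_mul_left, quad_pow_left, quad_sq hkC.symm, quad_one_left] at q1
      linear_combination (-quad b k) * quad_sq hxk + quad (x b) k * q1
    simp only [F]
    rw [ht, ind_of hb, ← hkap, hq]
    ring
  have hL : th (fun ν => ρ Ψ ν * (eq (A * ν) C * (quad ν k * cub ν k))) w =
      ∑ b ∈ res k, conj (gt6 k) / (√(nm k) : ℝ) * ((quad b k * conj (cub b k)) *
        th (fun ν => ρ Ψ ν * (eq (b * ν) k * eq (A * ν) C)) w) := by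
    simp only [← mul_assoc _ (quad _ k * _), ← vth_const_mul]
    rw [← vth_sum _ _ (fun b _ => (hG.mul_bdd (M := 1) fun ν => by
      simp only [norm_mul, norm_eq, mul_one, le_refl]).const_mul _) hw]
    congr 1
    funext ν
    rw [chi_expand hk, Finset.mul_sum, Finset.mul_sum]
    exact Finset.sum_congr rfl fun b _ => by ring
  have hR : ∑ b ∈ res k, F b = quad (-1) k * gt2 k * (√(nm k) : ℝ) *
      th (fun ν => Φ ν * eq (-(ν * y)) C * quad ν k) (dual (k * C : R K) w) := by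
    simp only [F, ← vth_const_mul]
    rw [← vth_sum _ _ (fun b _ => (hG'.mul_bdd (M := 1) fun ν => by
      simp only [norm_mul, norm_eq, mul_one, le_refl]).const_mul _) hw']
    congr 1
    funext ν
    have := vl_gs_quad hk (-ν)
    rw [show -ν = -1 * ν by ring, quad_mul_left] at this
    calc _ = Φ ν * eq (-(ν * y)) C * ∑ b ∈ res k, quad b k * eq (-1 * ν * b) k := by
          rw [Finset.mul_sum]
          refine Finset.sum_congr rfl fun b _ => ?_
          rw [show -1 * ν * b = -(ν * b) by ring]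
          ring
      _ = _ := by rw [this]; ring
  rw [hL]
  simp only [hterm]
  rw [← Finset.mul_sum, ← Finset.mul_sum,
    sum_res_inv hk0 hF (fun b hb => by simp [F, quad_eq_zero hk0 hb]) x hx, hR]
  field_simp

theorem vor_arith (hρ : VAut ρ) (ha : 10 ≤ a) (hΨ : Cls a (lev K a) Ψ) {β : R K} (hβ : β ≠ 0) :
    ∃ (a' : ℕ) (C₀ D : ℝ), 1 ≤ D ∧ ∀ (L : R K) (φ : R K → ℂ), L ≠ 0 → Eqv L φ →
      ∃ (C : R K → R K) (τ : R K → R K → ℂ) (W : R K → ℝ),
        (∀ b, C b ≠ 0 ∧ nK (C b : K) ≤ D * nm L ∧ ThCoef a' C₀ (τ b)) ∧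
        ∑ b ∈ res L, W b ≤ √(nm L) ∧
        ∀ k, Squarefree k → IsCoprime k L → InUq a ((k : K) / β) →
          ∃ ζ : R K → ℂ, (∀ b, ‖ζ b‖ ≤ W b) ∧ ∀ w, Pos w →
            th (fun ν => ρ Ψ ν * (φ ν * (quad ν k * cub ν k))) w =
              ∑ b ∈ res L, ζ b * th (fun ν => τ b ν * quad ν k) (dual (k * C b : R K) w) := by
  obtain ⟨T, hT, hT'⟩ := exists_ureps (K := K) ha
  have hin := fun γ : T => va_inner hρ ha hΨ (mul_ne_zero hβ (hT γ γ.2).1)
  choose a' Φ h10 hΦ hin using hin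
  choose C₀ hC₀ using fun γ : T => hρ.coef _ (h10 γ)
  refine ⟨∑ γ, (a' γ + 1), ∑ γ, |C₀ γ|, 1 + ∑ γ : T, NS γ.1, le_add_of_nonneg_right
    (Finset.sum_nonneg fun γ _ => (NS_pos (hT γ γ.2).1).le), fun L φ hL ⟨hφ, hφ1, he⟩ => ?_⟩
  have hdat : ∀ b : R K, ∃ (G A C y : R K) (γ : T), G ≠ 0 ∧ C ≠ 0 ∧ b = G * A ∧ L = G * C ∧
      C ∣ A * y - 1 ∧ InUq a ((C : K) / γ.1) := fun b => by
    obtain ⟨G, C, A, ⟨hG, -⟩, hAC, hC, hA⟩ := exists_gcd_decomp b hL
    have hC0 : C ≠ 0 := fun h => hL (by rw [hC, h, mul_zero])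
    obtain ⟨u, hu⟩ := exists_unit_ng C
    obtain ⟨γ, ⟨h1, h2⟩, -⟩ := hT' _ (nrm_ng hC0 (EU K).one_mem)
    rw [Units.val_one, one_mul] at h2
    have h3 : IsCoprime (((u⁻¹ : (R K)ˣ) : R K) * A) (ng C) :=
      (isCoprime_unit _ _).mul_left (hAC.symm.of_isCoprime_of_dvd_right (associated_ng C).dvd)
    obtain ⟨y, hy⟩ := va_inv h3
    refine ⟨G * u, _, ng C, y, ⟨γ, h1⟩, mul_ne_zero hG u.ne_zero, ng_ne_zero hC0, ?_, ?_, hy, h2⟩
    · rw [mul_assoc, Units.mul_inv_cancel_left, ← hA]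
    · rw [mul_assoc, ← hu, ← hC]
  choose G A C y γ hG hC0 hA hC hy hU using hdat
  refine ⟨C, fun b ν => ρ (Φ (γ b)) ν * eq (-(ν * y b)) (C b), fun b => ‖fhat L φ b‖,
    fun b => ⟨hC0 b, ?_, ?_⟩, sum_norm_fhat_le hL hφ1, fun k hk hkL hkU => ?_⟩
  · rw [nK_eq_nm_mul, mul_comm, NS_eq_of_inUq (by omega) (hU b)]
    have h1 := fun γ : T => (NS_pos (hT γ γ.2).1).le
    refine mul_le_mul ((Finset.single_le_sum (f := fun γ : T => NS γ.1) (fun γ _ => h1 γ)
      (Finset.mem_univ _)).trans (le_add_of_nonneg_left zero_le_one)) ?_ (by positivity)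
      (add_nonneg zero_le_one (Finset.sum_nonneg fun γ _ => h1 γ))
    exact_mod_cast nm_le_of_dvd hL ⟨G b, by rw [mul_comm]; exact hC b⟩
  · refine ((hC₀ _ _ (hΦ _)).mono ?_ ((le_abs_self _).trans ?_)).mul_bdd fun ν => (norm_eq _ _).le
    · exact Finset.single_le_sum (f := fun γ : T => a' γ + 1) (fun _ _ => Nat.zero_le _)
        (Finset.mem_univ _)
    · exact Finset.single_le_sum (f := fun γ : T => |C₀ γ|) (fun _ _ => abs_nonneg _)
        (Finset.mem_univ _)
  obtain ⟨w₀, e, hw₀⟩ := va_inv (hkL.pow_left (m := 2))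
  have hwL : IsCoprime w₀ L := ⟨k ^ 2, -e, by linear_combination hw₀⟩
  obtain ⟨η, hη, hηφ⟩ := he w₀ hwL
  have hin' := fun b => hin (γ b) k (C b) (A b * w₀) (y b) hk (hC0 b)
    (hkL.of_isCoprime_of_dvd_right ⟨G b, by rw [mul_comm]; exact hC b⟩)
    (by rw [map_mul, map_mul, ← div_mul_div_comm]; exact hkU.mul (hU b)) (by
      obtain ⟨e', he'⟩ := hy b
      exact ⟨e' + A b * y b * G b * e, by
        linear_combination he' + A b * y b * hw₀ + A b * y b * e * hC b⟩)
  choose ζ hζ hζ' using hin'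
  refine ⟨fun b => fhat L φ (w₀ * b) * ζ b, fun b => ?_, fun w hw => ?_⟩
  · rw [norm_mul, norm_fhat_mul hL hφ hwL hη hηφ]
    exact mul_le_of_le_one_right (norm_nonneg _) (hζ b)
  have hexp : ∀ ν, φ ν = ∑ b ∈ res L, fhat L φ (w₀ * b) * eq (A b * w₀ * ν) (C b) := fun ν => by
    have hP : Per L fun b => fhat L φ b * eq (b * ν) L := fun b b' h => by
      simp only
      rw [fhat_per L φ b b' h, eq_congr (x := b * ν) (y := b' * ν)]
      rw [← sub_mul]
      exact h.mul_right _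
    rw [fourier_inv hL hφ ν, ← sum_res_affine hL hP hwL 0]
    refine Finset.sum_congr rfl fun b _ => ?_
    simp only [add_zero]
    rw [← eq_mul_cancel (hG b) (A b * w₀ * ν) (C b), ← hC b]
    congr 2
    linear_combination w₀ * ν * hA b
  simp only [mul_assoc (fhat L φ _), ← hζ' _ w hw, ← vth_const_mul]
  rw [← vth_sum _ _ (fun b _ => ((hρ.grow ha hΨ).mul_bdd (M := 1) fun ν => by
    rw [norm_mul, norm_mul, norm_eq, one_mul]
    exact mul_le_one₀ (norm_quad_le _ _) (norm_nonneg _) (norm_cub_le _ _)).const_mul _) hw]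
  congr 1
  funext ν
  rw [hexp ν, Finset.sum_mul, Finset.mul_sum]
  exact Finset.sum_congr rfl fun b _ => by ring

end Vale.Agent.P319
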