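import Vale.Agent.P319.N.VorLib

/-! VOR: sums over the generators of an ideal of `R` inside a lattice `M ^ (-a) 𝓞 K`. -/

namespace Vale.Agent.P319

open scoped ComplexConjugate Real ContDiff NumberField

variable {K : Type} [Field K] [NumberField K] [Stp K]

theorem vn_orbits (a : ℕ) {η : ℝ} (hη : 0 < η) : ∃ C : ℝ, 0 < C ∧ ∀ (n : R K) (s : Finset (R K)),
    n ≠ 0 → (∀ ν ∈ s, Associated ν n ∧ SIn 0 ((MM K : K) ^ a * ν)) →
    (∀ ν ∈ s, ∀ ν' ∈ s, ∀ u ∈ EU K, ν' = (u : R K) * ν → ν' = ν) →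
      ∑ ν ∈ s, NS ν ^ (-η) ≤ C := by
  classical
  obtain ⟨C1, hC1, h1⟩ := sum_SId_le (K := K) hη
  obtain ⟨T, hT⟩ := exists_EU_reps (K := K)
  have hM : (MM K : R K) ^ a ≠ 0 := (isUnit_MR.pow a).ne_zero
  have hN := NS_pos hM
  refine ⟨NS ((MM K : R K) ^ a) ^ η * ((T.card + 1) * C1), by positivity,
    fun n s hn hs hs' => ?_⟩
  have h2 : ∀ ν ∈ s, ∃ t : 𝓞 K, (MM K : R K) ^ a * ν = algebraMap (𝓞 K) (R K) t := fun ν hν =>
    sIn_R_iff0.1 (by simpa only [map_mul, map_pow, map_natCast] using (hs ν hν).2)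
  choose! t ht using h2
  have h0 : ∀ ν ∈ s, ν ≠ 0 := fun ν hν => (hs ν hν).1.ne_zero_iff.2 hn
  have ht0 : ∀ ν ∈ s, t ν ≠ 0 := fun ν hν h => by
    have := ht ν hν
    rw [h, map_zero] at this
    exact mul_ne_zero hM (h0 ν hν) this
  have h3 : ∀ ν ∈ s, NS ν ^ (-η) = NS ((MM K : R K) ^ a) ^ η *
      (Ideal.absNorm (spart (Ideal.span {t ν})) : ℝ) ^ (-η) := fun ν hν => by
    rw [← NS_int (ht0 ν hν), ← ht ν hν, NS_mul, Real.mul_rpow hN.le (NS_pos (h0 ν hν)).le,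
      ← mul_assoc, ← Real.rpow_add hN, add_neg_cancel, Real.rpow_zero, one_mul]
  have h4 : ∀ ν ∈ s, gen (Ideal.span {t ν}) = pp n := fun ν hν => by
    rw [gen_span, ← ht ν hν]
    exact pp_eq_of_associated
      ((associated_unit_mul_left _ _ (isUnit_MR.pow a)).trans (hs ν hν).1)
  rw [Finset.sum_congr rfl h3, ← Finset.mul_sum,
    Finset.sum_comp (fun I : Ideal (𝓞 K) => (Ideal.absNorm I : ℝ) ^ (-η))
      fun ν => spart (Ideal.span {t ν})]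
  refine mul_le_mul_of_nonneg_left ?_ (by positivity)
  have h5 := h1 (s.image fun ν => spart (Ideal.span {t ν})) fun I hI => by
    obtain ⟨ν, hν, rfl⟩ := Finset.mem_image.1 hI
    exact sId_spart (by simpa using ht0 ν hν)
  refine le_trans ?_ (mul_le_mul_of_nonneg_left h5 (by positivity))
  rw [Finset.mul_sum]
  refine Finset.sum_le_sum fun I hI => ?_
  obtain ⟨ν₀, hν₀, rfl⟩ := Finset.mem_image.1 hI
  rw [nsmul_eq_mul]
  refine mul_le_mul_of_nonneg_right (le_trans (Nat.cast_le.2 ?_) (le_add_of_nonneg_right zero_le_one))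
    (by positivity)
  have h6 : ∀ ν ∈ s.filter fun ν => spart (Ideal.span {t ν}) = spart (Ideal.span {t ν₀}),
      ∃ τ ∈ T, ∃ u ∈ EU K, ν = (u : R K) * (uOR K τ : R K) * ν₀ := by
    intro ν hν
    obtain ⟨hν1, hν2⟩ := Finset.mem_filter.1 hν
    have e1 : Ideal.span {t ν₀} = Ideal.span {t ν} := by
      rw [← spart_mul_idl (Ideal.span {t ν}), ← spart_mul_idl (Ideal.span {t ν₀}), hν2,
        h4 ν hν1, h4 ν₀ hν₀]
    obtain ⟨ε, hε⟩ := Ideal.span_singleton_eq_span_singleton.1 e1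
    obtain ⟨τ, ⟨hτ1, hτ2⟩, -⟩ := hT ε
    refine ⟨τ, hτ1, _, hτ2, mul_left_cancel₀ hM ?_⟩
    rw [← Units.val_mul, ← map_mul, inv_mul_cancel_right, val_uOR, ht ν hν1, ← hε, map_mul,
      ← ht ν₀ hν₀]
    ring
  choose! τ hτ u hu hν using h6
  refine Finset.card_le_card_of_injOn τ (fun ν h => hτ ν h) fun ν h ν' h' e => ?_
  refine hs' ν' (Finset.mem_filter.1 h').1 ν (Finset.mem_filter.1 h).1 (u ν * (u ν')⁻¹)
    (mul_mem (hu ν h) (inv_mem (hu ν' h'))) ?_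
  calc ν = (u ν : R K) * (uOR K (τ ν) : R K) * ν₀ := hν ν h
    _ = (u ν * (u ν')⁻¹ : (R K)ˣ) * ((u ν' : R K) * (uOR K (τ ν') : R K) * ν₀) := by
      rw [e, ← mul_assoc, ← mul_assoc, ← Units.val_mul (u ν * (u ν')⁻¹), inv_mul_cancel_right]
    _ = _ := by rw [← hν ν' h']

theorem sum_gen (a : ℕ) {η : ℝ} (hη : 0 < η) (hη1 : η < 1) : ∃ C : ℝ, 0 < C ∧
    ∀ (n : R K) (y : Pl K → ℝ) (s : Finset (R K)), n ≠ 0 → (∀ i, 0 < y i) →
      (∀ ν ∈ s, Associated ν n ∧ SIn 0 ((MM K : K) ^ a * ν)) →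
      ∑ ν ∈ s, ∏ i, 1 / (1 + ‖ev i (ν : K)‖ ^ 2 * y i) ^ 3 ≤
        C * (nm n * ∏ i, y i) ^ (-η) / (1 + nm n * ∏ i, y i) ^ 2 := by
  classical
  obtain ⟨C1, hC1, h1⟩ := vn_orbits (K := K) a hη
  obtain ⟨C2, hC2, h2⟩ := vl_units (K := K) hη hη1 (A := 2) zero_le_two
  obtain ⟨C3, hC3, h3⟩ := exists_NS_bound (K := K) a
  refine ⟨C2 * C3 ^ 2 * C1, by positivity, fun n y s hn hy hs => ?_⟩
  let o : R K → R K := fun ν => (Quot.mk _ ν : RQ K).out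
  have hw : ∀ ν : R K, ∃ u ∈ EU K, ν = (u : R K) * o ν := fun ν =>
    RQ_eq.1 (Quot.out_eq (Quot.mk _ ν : RQ K))
  choose w hw1 hw2 using hw
  have ho : ∀ ν₀ ∈ s.image o, Associated ν₀ n ∧ SIn 0 ((MM K : K) ^ a * ν₀) := by
    intro ν₀ h
    obtain ⟨ν, hν, rfl⟩ := Finset.mem_image.1 h
    obtain ⟨u, hu, e⟩ := RQ_out ν
    have e' : o ν = (u : R K) * ν := e
    rw [e']
    refine ⟨(associated_unit_mul_left _ _ u.isUnit).trans (hs ν hν).1, ?_⟩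
    rw [map_mul, mul_left_comm]
    exact (mem_EU.1 hu).sIn.mul (hs ν hν).2
  have h4 := h1 n (s.image o) hn ho fun ν₀ h ν₀' h' u hu e => by
    obtain ⟨ν, hν, rfl⟩ := Finset.mem_image.1 h
    obtain ⟨ν', hν', rfl⟩ := Finset.mem_image.1 h'
    have e1 : (Quot.mk _ (o ν) : RQ K) = Quot.mk _ (o ν') := RQ_eq.2 ⟨u, hu, e⟩
    simp only [o, Quot.out_eq] at e1
    simp only [o, e1]
  have hP : 0 < ∏ i, y i := Finset.prod_pos fun i _ => hy i
  have hX : 0 < nm n * ∏ i, y i := mul_pos (nm_pos_real hn) hP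
  generalize hXe : nm n * ∏ i, y i = X at hX ⊢
  rw [← Finset.sum_fiberwise_of_maps_to (s := s) (t := s.image o) (g := o)
    fun ν hν => Finset.mem_image_of_mem o hν]
  refine le_trans (Finset.sum_le_sum (g := fun ν₀ => C2 * C3 ^ 2 * X ^ (-η) / (1 + X) ^ 2 *
    NS ν₀ ^ (-η)) fun ν₀ hν₀ => ?_) ?_
  · have h0 : ν₀ ≠ 0 := (ho ν₀ hν₀).1.ne_zero_iff.2 hn
    have hN := NS_pos h0
    have h5 := h2 (fun i => ‖ev i (ν₀ : K)‖ ^ 2 * y i) ((s.filter fun ν => o ν = ν₀).image w)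
      (fun i => mul_pos (pow_pos (norm_pos_iff.2 (ev_ne_zero i (coe_ne_zero h0))) 2) (hy i))
      fun u hu => by
        obtain ⟨ν, -, rfl⟩ := Finset.mem_image.1 hu
        exact hw1 ν
    rw [Finset.sum_image fun ν h ν' h' e => by
      rw [hw2 ν, hw2 ν', e, (Finset.mem_filter.1 h).2, (Finset.mem_filter.1 h').2]] at h5
    have h6 : ∏ i, ‖ev i (ν₀ : K)‖ ^ 2 * y i = X * NS ν₀ := by
      rw [Finset.prod_mul_distrib, prod_norm_ev, nK_eq_nm_mul, nm_of_associated (ho ν₀ hν₀).1,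
        ← hXe]
      ring
    rw [h6] at h5
    refine le_trans (le_of_eq (Finset.sum_congr rfl fun ν hν => Finset.prod_congr rfl
      fun i _ => ?_)) (h5.trans ?_)
    · have e1 : ‖ev i (ν : K)‖ ^ 2 * y i =
          ‖ev i ((w ν : R K) : K)‖ ^ 2 * (‖ev i (ν₀ : K)‖ ^ 2 * y i) := by
        rw [← (Finset.mem_filter.1 hν).2, ← mul_assoc, ← mul_pow, ← norm_mul, ← ev_mul,
          ← map_mul, ← hw2 ν]
      have e2 : 0 ≤ 1 + ‖ev i (ν : K)‖ ^ 2 * y i := by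
        have := (hy i).le
        positivity
      rw [← e1, show (-(2 + 1) : ℝ) = -((3 : ℕ) : ℝ) by norm_num, Real.rpow_neg e2,
        Real.rpow_natCast, one_div]
    · have e3 : 1 ≤ C3 * NS ν₀ := (h3 ν₀ h0).1 (ho ν₀ hν₀).2
      have e4 : (1 + X * NS ν₀) ^ (-2 : ℝ) ≤ C3 ^ 2 / (1 + X) ^ 2 := by
        rw [show (-2 : ℝ) = -((2 : ℕ) : ℝ) by norm_num, Real.rpow_neg (by positivity),
          Real.rpow_natCast, inv_eq_one_div, div_le_div_iff₀ (by positivity) (by positivity),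
          one_mul, ← mul_pow]
        refine pow_le_pow_left₀ (by positivity) ?_ 2
        nlinarith [mul_le_mul_of_nonneg_left e3 hX.le]
      rw [Real.mul_rpow hX.le hN.le]
      calc _ ≤ C2 * (X ^ (-η) * NS ν₀ ^ (-η)) * (C3 ^ 2 / (1 + X) ^ 2) := by gcongr
        _ = _ := by ring
  · rw [← Finset.mul_sum]
    calc _ ≤ C2 * C3 ^ 2 * X ^ (-η) / (1 + X) ^ 2 * C1 := by gcongr
      _ = _ := by ring

end Vale.Agent.P319
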