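import Vale.Agent.P319.N.VorWh
import Vale.Agent.P319.N.VorGen
import Vale.Agent.P319.N.Res
import Vale.Agent.P319.N.Count

/-! VOR: summability and linearity of `th`. -/

namespace Vale.Agent.P319

open scoped ComplexConjugate Real ContDiff

variable {K : Type} [Field K] [NumberField K] [Stp K] {τ : R K → ℂ}

theorem ThCoef.grow {a : ℕ} {C : ℝ} (h : ThCoef a C τ) : Grow τ := by
  refine ⟨a, max ‖τ 0‖ (max C 0), fun ν => ?_⟩
  by_cases h0 : ν = 0
  · subst h0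
    exact ⟨le_max_left _ _, fun _ => by simpa using sIn_zero 0⟩
  by_cases h3 : τ ν = 0
  · rw [h3, norm_zero]
    exact ⟨le_max_of_le_left (norm_nonneg _), fun k => absurd rfl k⟩
  obtain ⟨h1, u, c, d, hc, -, -, h4⟩ := h ν h0 h3
  refine ⟨h4.trans (le_max_of_le_right ?_), fun _ => h1⟩
  calc _ ≤ max C 0 * 1 := by
        gcongr
        · exact le_max_left _ _
        · exact Real.rpow_le_one_of_one_le_of_nonpos (one_le_nm hc.ne_zero) (by norm_num)
    _ = _ := mul_one _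

theorem vt_mono {a a' : ℕ} (ha : a ≤ a') {x : K} (h : SIn 0 ((MM K : K) ^ a * x)) :
    SIn 0 ((MM K : K) ^ a' * x) := by
  obtain ⟨b, rfl⟩ := Nat.exists_eq_add_of_le' ha
  rw [pow_add, mul_assoc]
  exact h.mul_left ((sIn_natCast _).pow0 b)

theorem ThCoef.mono {a a' : ℕ} {C C' : ℝ} (h : ThCoef a C τ) (ha : a ≤ a') (hC : C ≤ C') :
    ThCoef a' C' τ := fun ν h0 h1 => by
  obtain ⟨h2, u, c, d, hc, hd, e, h4⟩ := h ν h0 h1
  exact ⟨vt_mono ha h2, u, c, d, hc, hd, e, h4.trans (by gcongr)⟩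

theorem ThCoef.mul_bdd {a : ℕ} {C : ℝ} (h : ThCoef a C τ) {y : R K → ℂ} (hy : ∀ ν, ‖y ν‖ ≤ 1) :
    ThCoef a C fun ν => τ ν * y ν := fun ν h0 h1 => by
  obtain ⟨h2, u, c, d, hc, hd, e, h4⟩ := h ν h0 (left_ne_zero_of_mul h1)
  refine ⟨h2, u, c, d, hc, hd, e, le_trans ?_ h4⟩
  rw [norm_mul]
  exact mul_le_of_le_one_right (norm_nonneg _) (hy ν)

theorem VAut.grow {ρ : (R K × R K → ℂ) → R K → ℂ} (hρ : VAut ρ) {a : ℕ} (ha : 10 ≤ a)
    {Ψ : R K × R K → ℂ} (hΨ : Cls a (lev K a) Ψ) : Grow (ρ Ψ) :=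
  ((hρ.coef a ha).choose_spec Ψ hΨ).grow

theorem VAut.supp {ρ : (R K × R K → ℂ) → R K → ℂ} (hρ : VAut ρ) {a : ℕ} (ha : 10 ≤ a)
    {Ψ : R K × R K → ℂ} (hΨ : Cls a (lev K a) Ψ) (ν : R K) (h : ρ Ψ ν ≠ 0) :
    SIn 0 ((MM K : K) ^ (a + 1) * ν) := by
  by_cases h0 : ν = 0
  · subst h0
    simpa using sIn_zero 0
  · exact ((hρ.coef a ha).choose_spec Ψ hΨ ν h0 h).1

theorem Grow.mul_bdd (h : Grow τ) {y : R K → ℂ} {M : ℝ} (hy : ∀ ν, ‖y ν‖ ≤ M) :
    Grow fun ν => τ ν * y ν := by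
  obtain ⟨a, C, h⟩ := h
  refine ⟨a, C * M, fun ν => ⟨?_, fun h1 => (h ν).2 (left_ne_zero_of_mul h1)⟩⟩
  rw [norm_mul]
  exact mul_le_mul (h ν).1 (hy ν) (norm_nonneg _) ((norm_nonneg _).trans (h ν).1)

theorem Grow.const_mul (h : Grow τ) (c : ℂ) : Grow fun ν => c * τ ν := by
  simpa only [mul_comm] using h.mul_bdd (y := fun _ => c) fun _ => le_rfl

theorem summable_lat (a : ℕ) {y : Pl K → ℝ} (hy : ∀ i, 0 < y i) :
    Summable fun ν : R K => ‖ind (SIn 0 ((MM K : K) ^ a * ν))‖ *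
      ∏ i, 1 / (1 + ‖ev i (ν : K)‖ ^ 2 * y i) ^ 3 := by
  classical
  obtain ⟨C, hC, h⟩ := sum_gen (K := K) a (η := 1 / 2) (by norm_num) (by norm_num)
  obtain ⟨D, hD, h'⟩ := sum_rpow_le_const (K := K) (σ := 2) (by norm_num)
  have hY : 0 < ∏ i, y i := Finset.prod_pos fun i _ => hy i
  set Y := ∏ i, y i
  set f : R K → ℝ := fun ν => ∏ i, 1 / (1 + ‖ev i (ν : K)‖ ^ 2 * y i) ^ 3 with hf
  have f0 : ∀ ν, 0 ≤ f ν := fun ν => Finset.prod_nonneg fun i _ => by
    have := hy i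
    positivity
  rw [← (Set.finite_singleton (0 : R K)).summable_compl_iff, summable_subtype_iff_indicator]
  refine summable_of_sum_le (c := C * Y ^ (-(1 / 2) : ℝ) / Y ^ 2 * D)
    (Set.indicator_nonneg fun ν _ => mul_nonneg (norm_nonneg _) (f0 ν)) fun s => ?_
  set s' := s.filter fun ν : R K => ν ≠ 0 ∧ SIn 0 ((MM K : K) ^ a * ν) with hs'
  have h1 : ∑ ν ∈ s, ({0}ᶜ : Set (R K)).indicator
      (fun ν : R K => ‖ind (SIn 0 ((MM K : K) ^ a * ν))‖ * f ν) ν = ∑ ν ∈ s', f ν := by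
    rw [hs', Finset.sum_filter]
    refine Finset.sum_congr rfl fun ν _ => ?_
    by_cases k : ν = 0
    · simp [k]
    by_cases k' : SIn 0 ((MM K : K) ^ a * ν)
    · rw [Set.indicator_of_mem (by simpa using k), ind_of k', if_pos ⟨k, k'⟩, norm_one, one_mul]
    · rw [Set.indicator_of_mem (by simpa using k), ind_of_not k', if_neg fun k'' => k' k''.2,
        norm_zero, zero_mul]
  have h2 : ∀ n ∈ s'.image pp, Prim n := fun n hn => by
    obtain ⟨ν, hν, rfl⟩ := Finset.mem_image.1 hn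
    exact prim_pp (Finset.mem_filter.1 hν).2.1
  refine h1.le.trans ?_
  rw [← Finset.sum_fiberwise_of_maps_to (g := pp) (t := s'.image pp)
    fun ν hν => Finset.mem_image_of_mem _ hν]
  refine le_trans (Finset.sum_le_sum fun n hn => ?_)
    ((Finset.mul_sum _ (fun n : R K => (nm n : ℝ) ^ (-(2 : ℝ))) _).symm.le.trans
      (mul_le_mul_of_nonneg_left (h' _ h2) (by positivity)))
  have h3 := one_le_nm (h2 n hn).ne_zero
  refine (h n y _ (h2 n hn).ne_zero hy fun ν hν => ?_).trans ?_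
  · obtain ⟨h4, rfl⟩ := Finset.mem_filter.1 hν
    exact ⟨associated_pp ν, (Finset.mem_filter.1 h4).2.2⟩
  · calc _ ≤ C * Y ^ (-(1 / 2) : ℝ) / (nm n * Y) ^ 2 := by
          refine div_le_div₀ (by positivity) (mul_le_mul_of_nonneg_left
            (Real.rpow_le_rpow_of_nonpos hY (le_mul_of_one_le_left hY.le h3) (by norm_num)) hC.le)
            (by positivity) ?_
          gcongr
          linarith
      _ = _ := by
          rw [Real.rpow_neg (show (0 : ℝ) ≤ nm n by positivity), Real.rpow_two]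
          field_simp

theorem Grow.summable (h : Grow τ) {v : Pl K → ℝ} (hv : ∀ i, 0 < v i) :
    Summable fun ν => ‖τ ν‖ * ∏ i, ‖Wh (4 / 3) (ev i (ν : K)) (v i)‖ := by
  obtain ⟨a, C, h⟩ := h
  obtain ⟨D, hD, h'⟩ := Wf_le
  refine Summable.of_nonneg_of_le (fun ν => by positivity) (fun ν => ?_)
    ((summable_lat a (y := fun i => v i ^ 2) fun i => pow_pos (hv i) 2).mul_left
      (C * ∏ i, v i ^ (2 / 3 : ℝ) * D))
  have h1 : ‖τ ν‖ ≤ C * ‖ind (SIn 0 ((MM K : K) ^ a * ν))‖ := by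
    by_cases k : τ ν = 0
    · rw [k, norm_zero]
      exact mul_nonneg ((norm_nonneg _).trans (h ν).1) (norm_nonneg _)
    · rw [ind_of ((h ν).2 k), norm_one, mul_one]
      exact (h ν).1
  rw [mul_mul_mul_comm, ← Finset.prod_mul_distrib]
  refine mul_le_mul h1 (Finset.prod_le_prod (fun i _ => norm_nonneg _) fun i _ => ?_)
    (by positivity) ((norm_nonneg _).trans h1)
  have h2 := hv i
  have h3 : 0 ≤ ‖ev i (ν : K)‖ ^ 2 * v i ^ 2 := by positivity
  have h4 := Wf_pos h3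
  rw [Wh_eq_Wf _ h2, Complex.norm_real, Real.norm_of_nonneg (by positivity), mul_assoc,
    mul_one_div]
  exact mul_le_mul_of_nonneg_left (h' _ h3) (by positivity)

theorem vt_norm (τ : R K → ℂ) (ν : R K) (w : Hy K) :
    ‖τ ν * ∏ i : Pl K, Wh (4 / 3) (ev i ν) (w i).2 * ecc (ev i ν * (w i).1)‖ =
      ‖τ ν‖ * ∏ i, ‖Wh (4 / 3) (ev i (ν : K)) (w i).2‖ := by
  simp only [norm_mul, norm_prod, norm_ecc, mul_one]

theorem Grow.summable_th (h : Grow τ) {w : Hy K} (hw : Pos w) :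
    Summable fun ν : R K => τ ν *
      ∏ i : Pl K, Wh (4 / 3) (ev i ν) (w i).2 * ecc (ev i ν * (w i).1) :=
  Summable.of_norm_bounded (h.summable hw) fun ν => (vt_norm τ ν w).le

theorem Grow.continuous_th (h : Grow τ) {v : Pl K → ℝ} (hv : ∀ i, 0 < v i) :
    Continuous fun z : Pl K → ℂ => th τ fun i => (z i, v i) :=
  continuous_tsum (f := fun (ν : R K) (z : Pl K → ℂ) =>
      τ ν * ∏ i : Pl K, Wh (4 / 3) (ev i ν) (v i) * ecc (ev i ν * z i))
    (fun ν => continuous_const.mul (continuous_finsetProd _ fun i _ => continuous_const.mul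
      (continuous_ecc.comp (f := fun z : Pl K → ℂ => ev i ν * z i) (by fun_prop))))
    (h.summable hv) fun ν z => (vt_norm τ ν fun i => (z i, v i)).le

theorem Grow.bdd_th (h : Grow τ) {v : Pl K → ℝ} (hv : ∀ i, 0 < v i) :
    ∃ M : ℝ, ∀ z : Pl K → ℂ, ‖th τ fun i => (z i, v i)‖ ≤ M :=
  ⟨_, fun z => tsum_of_norm_bounded (h.summable hv).hasSum fun ν =>
    (vt_norm τ ν fun i => (z i, v i)).le⟩

theorem vth_const_mul (c : ℂ) (τ : R K → ℂ) (w : Hy K) :
    th (fun ν => c * τ ν) w = c * th τ w := by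
  simp only [th, ← tsum_mul_left, mul_assoc]

theorem vth_sum {ι : Type*} (s : Finset ι) (τ : ι → R K → ℂ) (h : ∀ i ∈ s, Grow (τ i)) {w : Hy K}
    (hw : Pos w) : th (fun ν => ∑ i ∈ s, τ i ν) w = ∑ i ∈ s, th (τ i) w := by
  simp only [th, Finset.sum_mul]
  exact Summable.tsum_finsetSum fun i hi => (h i hi).summable_th hw

theorem vth_shift (τ : R K → ℂ) (x : K) (w : Hy K) :
    th τ (shift x w) = th (fun ν => τ ν * eTr (ν * x)) w := by
  refine tsum_congr fun ν => ?_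
  simp only [shift, mul_add, ecc_add, eTr_eq_prod, ev_mul, mul_assoc, ← Finset.prod_mul_distrib]
  congr 1
  exact Finset.prod_congr rfl fun i _ => by ring

theorem vth_psiK {a : ℕ} (h : ∀ ν, τ ν ≠ 0 → SIn 0 ((MM K : K) ^ a * ν)) {x : K} (hx : SIn a x)
    (w : Hy K) : th τ (shift x w) = th (fun ν => τ ν * psiK (ν * x)) w := by
  rw [vth_shift]
  congr 1
  funext ν
  by_cases k : τ ν = 0
  · rw [k, zero_mul, zero_mul]
  obtain ⟨z, hz, rfl⟩ := sIn_iff_exists.1 hx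
  rw [psiK_of_sIn]
  rw [← mul_assoc, mul_comm (ν : K)]
  exact (h ν k).mul_right hz

end Vale.Agent.P319
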