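import Vale.Agent.P319.N.VorDualA
import Vale.Agent.P319.N.VorTh
import Vale.Agent.P319.N.Sym

/-! VOR: mean square of the dual sums. -/

namespace Vale.Agent.P319

open scoped ComplexConjugate Real

variable {K : Type} [Field K] [NumberField K] [Stp K]

theorem db_mink {ι κ : Type*} (S : Finset κ) (t : Finset ι) (T : ι → κ → ℂ) (w : ι → ℝ) {Y : ℝ}
    (hw : ∀ p ∈ t, 0 < w p) (h : ∀ p ∈ t, ∑ k ∈ S, ‖T p k‖ ^ 2 ≤ w p ^ 2 * Y) :
    ∑ k ∈ S, ‖∑ p ∈ t, T p k‖ ^ 2 ≤ (∑ p ∈ t, w p) ^ 2 * Y := by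
  calc _ ≤ ∑ k ∈ S, (∑ p ∈ t, w p) * ∑ p ∈ t, ‖T p k‖ ^ 2 / w p := by
        refine Finset.sum_le_sum fun k _ => ?_
        refine (pow_le_pow_left₀ (norm_nonneg _) (norm_sum_le _ _) 2).trans ?_
        refine Finset.sum_sq_le_sum_mul_sum_of_sq_le_mul t (fun p hp => (hw p hp).le)
          (fun p hp => div_nonneg (by positivity) (hw p hp).le) fun p hp => le_of_eq ?_
        rw [mul_div_cancel₀ _ (hw p hp).ne']
    _ = (∑ p ∈ t, w p) * ∑ p ∈ t, (∑ k ∈ S, ‖T p k‖ ^ 2) / w p := by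
        rw [← Finset.mul_sum, Finset.sum_comm]
        simp only [Finset.sum_div]
    _ ≤ (∑ p ∈ t, w p) * ∑ p ∈ t, w p * Y := by
        refine mul_le_mul_of_nonneg_left (Finset.sum_le_sum fun p hp => ?_)
          (Finset.sum_nonneg fun p hp => (hw p hp).le)
        rw [div_le_iff₀ (hw p hp)]
        exact (h p hp).trans_eq (by ring)
    _ = _ := by rw [← Finset.sum_mul]; ring

theorem db_decomp : ∃ T : Finset (R K)ˣ, ∀ (a : ℕ) (C₀ : ℝ) (τ : R K → ℂ), ThCoef a C₀ τ →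
    ∀ ν : R K, ∃ (p : (R K)ˣ × R K) (n : R K), ν ≠ 0 → τ ν ≠ 0 → (p.1 ∈ T ∧ Prim p.2) ∧ IsS n ∧
      (Associated ν (n * p.2 ^ 3) ∧ SIn 0 ((MM K : K) ^ a * ν)) ∧
      (∀ k, quad ν k = quad ((p.1 : R K) * p.2 ^ 3) k * quad n k) ∧
      ‖τ ν‖ ≤ |C₀| * (nm n : ℝ) ^ (-1 / 6 : ℝ) := by
  obtain ⟨T, hT⟩ := exists_treps (K := K) two_ne_zero
  refine ⟨T, fun a C₀ τ h ν => ?_⟩
  by_cases h0 : ν ≠ 0 ∧ τ ν ≠ 0
  swap
  · exact ⟨(1, 0), 0, fun a b => absurd ⟨a, b⟩ h0⟩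
  obtain ⟨h1, u, c, d, hc, hd, e, hb⟩ := h ν h0.1 h0.2
  obtain ⟨t, ht, u', rfl⟩ := hT u
  refine ⟨(t, d), c, fun _ _ => ⟨⟨ht, hd⟩, hc, ⟨?_, h1⟩, fun k => ?_,
    hb.trans (by gcongr; exact le_abs_self _)⟩⟩
  · rw [e, mul_assoc]
    exact associated_unit_mul_left _ _ (Units.isUnit _)
  · rw [e, show ((t * u' ^ 2 : (R K)ˣ) : R K) * c * d ^ 3 = (u' : R K) ^ 2 * (t * d ^ 3 * c) by
      push_cast; ring, quad_mul_left, quad_unit_sq, one_mul, quad_mul_left]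

theorem dual_bound (hq : QLSStmt K) (a : ℕ) {δ : ℝ} (hδ : 0 < δ) (hδ' : δ ≤ 1 / 3) :
    ∃ C : ℝ, 0 < C ∧ ∀ (Y L C₀ : ℝ) (y : Pl K → ℝ) (τ e : R K → ℂ), 1 ≤ Y → (∀ i, 0 < y i) →
      L = 1 / ∏ i, y i → ThCoef a C₀ τ → e 0 = 0 →
      (∀ ν, ‖e ν‖ ≤ ∏ i, 1 / (1 + ‖ev i (ν : K)‖ ^ 2 * y i) ^ 3) →
      ∑ k ∈ sball K Y, ‖∑' ν, τ ν * e ν * quad ν k‖ ^ 2 ≤
        C * C₀ ^ 2 * L ^ (2 / 3 + δ) * (Y ^ (6 / 5 : ℝ) + L ^ (41 / 25 : ℝ)) := by
  classical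
  obtain ⟨C, hC, hF⟩ := db_fibre hq hδ hδ'
  obtain ⟨CG, hCG, hG⟩ := sum_gen (K := K) a (η := 1 / 12) (by norm_num) (by norm_num)
  obtain ⟨CS, hCS, hS⟩ := sum_rpow_le_const (K := K) (σ := 1 + 3 * δ / 2) (by linarith)
  obtain ⟨T, hT⟩ := db_decomp (K := K)
  refine ⟨C * CG ^ 2 * ((T.card * CS) ^ 2 + 1), by positivity,
    fun Y L C₀ y τ e hY hy hL hτ he0 he => ?_⟩
  have hy0 : 0 < ∏ i, y i := Finset.prod_pos fun i _ => hy i
  have hL0 : 0 < L := by rw [hL]; positivity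
  choose P n hP using hT a C₀ τ hτ
  set E := L ^ (2 / 3 + δ) * (Y ^ (6 / 5 : ℝ) + L ^ (41 / 25 : ℝ)) with hE
  have hE0 : 0 ≤ E := by positivity
  let w : (R K)ˣ × R K → ℝ := fun p => (nm p.2 : ℝ) ^ (-(1 + 3 * δ / 2))
  have hfin : ∀ s : Finset (R K), ∑ k ∈ sball K Y, ‖∑ ν ∈ s, τ ν * e ν * quad ν k‖ ^ 2 ≤
      (T.card * CS) ^ 2 * (C * CG ^ 2 * C₀ ^ 2 * E) := fun s => by
    set s' := s.filter fun ν => ν ≠ 0 ∧ τ ν ≠ 0 with hs'
    have e0 := fun ν (hν : ν ∈ s') => hP ν (Finset.mem_filter.1 hν).2.1 (Finset.mem_filter.1 hν).2.2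
    have e1 : ∀ k, ∑ ν ∈ s, τ ν * e ν * quad ν k =
        ∑ p ∈ s'.image P, ∑ ν ∈ s' with P ν = p, τ ν * e ν * quad ν k := fun k => by
      rw [Finset.sum_fiberwise_of_maps_to fun ν hν => Finset.mem_image_of_mem P hν, hs',
        Finset.sum_filter_of_ne]
      intro ν _ h
      exact ⟨fun h0 => h (by simp [h0, he0]), fun h0 => h (by simp [h0])⟩
    have e2 : ∀ p ∈ s'.image P, p.1 ∈ T ∧ Prim p.2 := fun p hp => by
      obtain ⟨ν, hν, rfl⟩ := Finset.mem_image.1 hp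
      exact (e0 ν hν).1
    simp only [e1]
    refine (db_mink _ _ _ w (Y := C * CG ^ 2 * C₀ ^ 2 * E)
      (fun p hp => Real.rpow_pos_of_pos (nm_pos_real (e2 p hp).2.1) _) fun p hp => ?_).trans ?_
    · have hd := one_le_nm (e2 p hp).2.1
      set sp := s'.filter fun ν => P ν = p with hsp
      have e3 : ∀ ν ∈ sp, IsS (n ν) ∧
          (Associated ν (n ν * p.2 ^ 3) ∧ SIn 0 ((MM K : K) ^ a * ν)) ∧
          (∀ k, quad ν k = quad ((p.1 : R K) * p.2 ^ 3) k * quad (n ν) k) ∧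
          ‖τ ν‖ ≤ |C₀| * (nm (n ν) : ℝ) ^ (-1 / 6 : ℝ) := fun ν hν => by
        obtain ⟨h1, rfl⟩ := Finset.mem_filter.1 hν
        exact (e0 ν h1).2
      have e4 : ∀ k, ∑ ν ∈ sp, τ ν * e ν * quad ν k = quad ((p.1 : R K) * p.2 ^ 3) k *
          ∑ x ∈ sp.image n, (∑ ν ∈ sp with n ν = x, τ ν * e ν) * quad x k := fun k => by
        rw [← Finset.sum_fiberwise_of_maps_to fun ν hν => Finset.mem_image_of_mem n hν,
          Finset.mul_sum]
        refine Finset.sum_congr rfl fun x _ => ?_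
        rw [Finset.sum_mul, Finset.mul_sum]
        refine Finset.sum_congr rfl fun ν hν => ?_
        obtain ⟨h1, rfl⟩ := Finset.mem_filter.1 hν
        rw [(e3 ν h1).2.2.1 k]
        ring
      have e5 := hF Y L (|C₀| * CG) ((nm p.2 : ℝ) ^ 3) (fun x => ∑ ν ∈ sp with n ν = x, τ ν * e ν)
        (sp.image n) hY hL0 (one_le_pow₀ hd) fun x hx => by
          obtain ⟨ν₀, hν₀, rfl⟩ := Finset.mem_image.1 hx
          have hx := (e3 ν₀ hν₀).1
          refine ⟨hx, (norm_sum_le _ _).trans ?_⟩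
          have h1 := hG (n ν₀ * p.2 ^ 3) y (sp.filter fun ν => n ν = n ν₀)
            (mul_ne_zero hx.1.1 (pow_ne_zero _ (e2 p hp).2.1)) hy fun ν hν => by
              obtain ⟨h1, h2⟩ := Finset.mem_filter.1 hν
              rw [← h2]
              exact (e3 ν h1).2.1
          rw [show (nm (n ν₀ * p.2 ^ 3) : ℝ) * ∏ i, y i = nm (n ν₀) * (nm p.2 : ℝ) ^ 3 / L by
            rw [hL, nm_mul, nm_pow]; push_cast; field_simp] at h1
          calc _ ≤ ∑ ν ∈ sp with n ν = n ν₀, |C₀| * (nm (n ν₀) : ℝ) ^ (-1 / 6 : ℝ) *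
                ∏ i, 1 / (1 + ‖ev i (ν : K)‖ ^ 2 * y i) ^ 3 := by
                refine Finset.sum_le_sum fun ν hν => ?_
                obtain ⟨h1, h2⟩ := Finset.mem_filter.1 hν
                rw [norm_mul, ← h2]
                exact mul_le_mul (e3 ν h1).2.2.2 (he ν) (norm_nonneg _) (by positivity)
            _ ≤ _ := by
                rw [← Finset.mul_sum]
                refine (mul_le_mul_of_nonneg_left h1 (by positivity)).trans_eq ?_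
                ring
      have e6 : ((nm p.2 : ℝ) ^ 3) ^ (-(2 / 3 + δ)) = w p ^ 2 := by
        have hd0 : (0 : ℝ) ≤ nm p.2 := by positivity
        simp only [w, ← Real.rpow_natCast, ← Real.rpow_mul hd0]
        congr 1
        push_cast
        ring
      calc _ ≤ ∑ k ∈ sball K Y,
            ‖∑ x ∈ sp.image n, (∑ ν ∈ sp with n ν = x, τ ν * e ν) * quad x k‖ ^ 2 := by
            refine Finset.sum_le_sum fun k _ => ?_
            rw [e4, norm_mul]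
            gcongr
            exact mul_le_of_le_one_left (norm_nonneg _) (norm_quad_le _ _)
        _ ≤ _ := e5
        _ = _ := by rw [e6, mul_pow, sq_abs]; ring
    · gcongr
      calc _ ≤ ∑ p ∈ T ×ˢ (s'.image P).image Prod.snd, w p :=
            Finset.sum_le_sum_of_subset_of_nonneg (fun p hp => Finset.mem_product.2
              ⟨(e2 p hp).1, Finset.mem_image_of_mem _ hp⟩) fun _ _ _ => by positivity
        _ ≤ _ := by
            rw [Finset.sum_product]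
            simp only [w, Finset.sum_const, nsmul_eq_mul]
            gcongr
            refine hS _ fun d hd => ?_
            obtain ⟨p, hp, rfl⟩ := Finset.mem_image.1 hd
            exact (e2 p hp).2
  have hlim : ∑ k ∈ sball K Y, ‖∑' ν, τ ν * e ν * quad ν k‖ ^ 2 ≤
      (T.card * CS) ^ 2 * (C * CG ^ 2 * C₀ ^ 2 * E) := by
    rw [← Finset.sum_filter_of_ne (p := fun k => Summable fun ν => τ ν * e ν * quad ν k)
      fun k _ h => by_contra fun h' => h (by simp [tsum_eq_zero_of_not_summable h'])]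
    refine le_of_tendsto' (tendsto_finsetSum _ fun k hk =>
      ((Finset.mem_filter.1 hk).2.hasSum.norm).pow 2) fun s => le_trans ?_ (hfin s)
    exact Finset.sum_le_sum_of_subset_of_nonneg (Finset.filter_subset _ _) fun _ _ _ => by positivity
  calc _ ≤ _ := hlim
    _ ≤ ((T.card * CS) ^ 2 + 1) * (C * CG ^ 2 * C₀ ^ 2 * E) := by gcongr; linarith
    _ = _ := by rw [hE]; ring

theorem vc_dual (hq : QLSStmt K) (a : ℕ) {δ : ℝ} (hδ : 0 < δ) (hδ' : δ ≤ 1 / 3) :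
    ∃ C : ℝ, 0 < C ∧ ∀ (Y L C₀ : ℝ) (τ : R K → ℂ) (z z' : Pl K → ℂ) (v : Pl K → ℝ), 1 ≤ Y →
      (∀ i, 0 < v i) → L = 1 / (∏ i, v i) ^ 2 → ThCoef a C₀ τ →
      ∑ k ∈ sball K Y, ‖th (fun ν => τ ν * quad ν k) (fun i => (z i, v i)) -
          th (fun ν => τ ν * quad ν k) (fun i => (z' i, v i))‖ ^ 2 ≤
        C * C₀ ^ 2 * L ^ δ * (Y ^ (6 / 5 : ℝ) + L ^ (41 / 25 : ℝ)) := by
  obtain ⟨CD, hCD, hD⟩ := dual_bound hq a hδ hδ'
  obtain ⟨CW, hCW, hW⟩ := Wf_le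
  refine ⟨4 * (CW ^ rr K) ^ 2 * CD, by positivity, fun Y L C₀ τ z z' v hY hv hL hτ => ?_⟩
  let y : R K → ℂ := fun ν => (∏ i, Wf (‖ev i (ν : K)‖ ^ 2 * v i ^ 2) : ℝ) *
    (∏ i, ecc (ev i (ν : K) * z i) - ∏ i, ecc (ev i (ν : K) * z' i)) / (2 * CW ^ rr K : ℝ)
  have hy0 : y 0 = 0 := by simp [y]
  have hy : ∀ ν, ‖y ν‖ ≤ ∏ i, 1 / (1 + ‖ev i (ν : K)‖ ^ 2 * v i ^ 2) ^ 3 := fun ν => by
    have h2 : 0 ≤ ∏ i, Wf (‖ev i (ν : K)‖ ^ 2 * v i ^ 2) :=
      Finset.prod_nonneg fun i _ => (Wf_pos (by positivity)).le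
    have h1 : ∏ i, Wf (‖ev i (ν : K)‖ ^ 2 * v i ^ 2) ≤
        CW ^ rr K * ∏ i, 1 / (1 + ‖ev i (ν : K)‖ ^ 2 * v i ^ 2) ^ 3 := by
      rw [rr, ← Finset.card_univ, ← Finset.prod_const, ← Finset.prod_mul_distrib]
      exact Finset.prod_le_prod (fun i _ => (Wf_pos (by positivity)).le) fun i _ =>
        (hW _ (by positivity)).trans_eq (div_eq_mul_one_div _ _)
    have h3 : ‖∏ i, ecc (ev i (ν : K) * z i) - ∏ i, ecc (ev i (ν : K) * z' i)‖ ≤ 2 :=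
      (norm_sub_le _ _).trans (by simp only [norm_prod, norm_ecc, Finset.prod_const_one]; norm_num)
    simp only [y, norm_div, norm_mul, Complex.norm_real, Real.norm_eq_abs, abs_of_nonneg h2,
      abs_of_pos (pow_pos hCW _), abs_two]
    rw [div_le_iff₀ (by positivity)]
    calc _ ≤ (CW ^ rr K * ∏ i, 1 / (1 + ‖ev i (ν : K)‖ ^ 2 * v i ^ 2) ^ 3) * 2 := by
          gcongr
      _ = _ := by ring
  have h := hD Y L C₀ (fun i => v i ^ 2) τ y hY (fun i => pow_pos (hv i) 2)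
    (by rw [hL, Finset.prod_pow]) hτ hy0 hy
  have hV : 0 < ∏ i, v i := Finset.prod_pos fun i _ => hv i
  have hk : ∀ k, th (fun ν => τ ν * quad ν k) (fun i => (z i, v i)) -
      th (fun ν => τ ν * quad ν k) (fun i => (z' i, v i)) =
      ((2 * CW ^ rr K * (∏ i, v i) ^ (2 / 3 : ℝ) : ℝ) : ℂ) * ∑' ν, τ ν * y ν * quad ν k := by
    intro k
    have hg : Grow fun ν => τ ν * quad ν k := hτ.grow.mul_bdd fun ν => norm_quad_le _ _
    simp only [th]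
    rw [← (hg.summable_th (w := fun i => (z i, v i)) hv).tsum_sub
      (hg.summable_th (w := fun i => (z' i, v i)) hv), ← tsum_mul_left]
    refine tsum_congr fun ν => ?_
    have : (CW : ℂ) ≠ 0 := by exact_mod_cast hCW.ne'
    simp only [y, Wh_eq_Wf _ (hv _), Finset.prod_mul_distrib,
      ← Real.finsetProd_rpow _ _ fun i _ => (hv i).le]
    push_cast
    simp only [Finset.prod_mul_distrib]
    field_simp
  have hv43 : ((∏ i, v i) ^ (2 / 3 : ℝ)) ^ 2 * L ^ (2 / 3 + δ) = L ^ δ := by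
    rw [hL]
    generalize ∏ i, v i = V at hV
    rw [Real.rpow_add (by positivity), ← mul_assoc, one_div, Real.inv_rpow (by positivity),
      ← Real.rpow_natCast V 2, ← Real.rpow_mul hV.le, ← Real.rpow_natCast _ 2,
      ← Real.rpow_mul hV.le, mul_comm (2 / 3 : ℝ), mul_inv_cancel₀ (by positivity), one_mul]
  simp only [hk, norm_mul, mul_pow, Complex.norm_real, Real.norm_eq_abs, sq_abs, ← Finset.mul_sum]
  calc _ ≤ 2 ^ 2 * (CW ^ rr K) ^ 2 * ((∏ i, v i) ^ (2 / 3 : ℝ)) ^ 2 *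
        (CD * C₀ ^ 2 * L ^ (2 / 3 + δ) * (Y ^ (6 / 5 : ℝ) + L ^ (41 / 25 : ℝ))) := by gcongr
    _ = _ := by rw [← hv43]; ring

end Vale.Agent.P319
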