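import Vale.Agent.P319.N.VorFourB
import Vale.Agent.P319.N.VorTh

/-! VOR: the weighted sum as an integral of `th`, and Minkowski. -/

namespace Vale.Agent.P319

open scoped ComplexConjugate Real ContDiff
open MeasureTheory

variable {K : Type} [Field K] [NumberField K] [Stp K]

theorem vr_int {n : ℕ} (hn : rr K < n) (F : ℝ) :
    Integrable fun ξ : EE K => F / (1 + ‖ξ‖ ^ 2) ^ n := by
  have h2 : (rr K : ℝ) < n := by exact_mod_cast hn
  have := (integrable_rpow_neg_one_add_norm_sq (E := EE K) (μ := volume) (r := 2 * n)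
    (by rw [finrank_EE]; push_cast; linarith)).const_mul F
  refine this.congr (Filter.Eventually.of_forall fun ξ => ?_)
  simp only
  rw [show -(2 * (n : ℝ)) / 2 = -n by ring, Real.rpow_neg (by positivity), Real.rpow_natCast,
    div_eq_mul_inv]

theorem vr_term (t : ℝ) {η x : ℂ} (hη : η ≠ 0) (hx : x ≠ 0) :
    Wh (4 / 3) x ‖η‖ * (x * η *
      Complex.exp ((Complex.I * t - 1 / 3) * Real.log (‖x * η‖ ^ 2)) / (Wf (‖x * η‖ ^ 2) : ℝ)) =
      η * Complex.exp (Complex.I * t * Real.log (‖η‖ ^ 2)) *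
        (x / (‖x‖ : ℝ) * (((‖x‖ ^ 2) ^ (1 / 6 : ℝ) : ℝ) : ℂ) *
          Complex.exp (Complex.I * t * Real.log (‖x‖ ^ 2))) := by
  have hv : 0 < ‖η‖ := norm_pos_iff.2 hη
  have hn : 0 < ‖x‖ := norm_pos_iff.2 hx
  have h1 : ‖x * η‖ ^ 2 = ‖x‖ ^ 2 * ‖η‖ ^ 2 := by rw [norm_mul, mul_pow]
  have h3 : ((Wf (‖x‖ ^ 2 * ‖η‖ ^ 2) : ℝ) : ℂ) ≠ 0 := by
    exact_mod_cast (Wf_pos (by positivity)).ne'
  have h4 : ((‖x‖ : ℝ) : ℂ) ≠ 0 := by exact_mod_cast hn.ne'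
  have h5 : ‖η‖ ^ (2 / 3 : ℝ) * ‖x‖ * Real.exp (-(1 / 3) * Real.log (‖x‖ ^ 2 * ‖η‖ ^ 2)) =
      (‖x‖ ^ 2) ^ (1 / 6 : ℝ) := by
    rw [Real.rpow_def_of_pos hv, Real.rpow_def_of_pos (pow_pos hn 2),
      Real.log_mul (by positivity) (by positivity), Real.log_pow, Real.log_pow]
    nth_rewrite 1 [← Real.exp_log hn]
    rw [← Real.exp_add, ← Real.exp_add]
    congr 1
    push_cast
    ring
  have h6 : Complex.exp ((Complex.I * t - 1 / 3) * Real.log (‖x‖ ^ 2 * ‖η‖ ^ 2)) =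
      Complex.exp (Complex.I * t * Real.log (‖x‖ ^ 2)) *
        Complex.exp (Complex.I * t * Real.log (‖η‖ ^ 2)) *
        (Real.exp (-(1 / 3) * Real.log (‖x‖ ^ 2 * ‖η‖ ^ 2)) : ℝ) := by
    rw [Complex.ofReal_exp, ← Complex.exp_add, ← Complex.exp_add,
      Real.log_mul (by positivity) (by positivity)]
    congr 1
    push_cast
    ring
  rw [h1, Wh_eq_Wf x hv, h6, ← h5]
  simp only [Complex.ofReal_mul]
  field_simp

theorem vr_prod (G : (Pl K → ℝ) → ℝ) (t : ℝ) {P : ℝ} (hP : 0 < P) {η : Pl K → ℂ}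
    (hη : ∀ i, η i ≠ 0) (ν : R K) :
    (∏ i, Wh (4 / 3) (ev i (ν : K)) ‖η i‖) * ((∏ i, ev i (ν : K) * η i *
      Complex.exp ((Complex.I * t - 1 / 3) * Real.log (‖ev i (ν : K) * η i‖ ^ 2)) /
        (Wf (‖ev i (ν : K) * η i‖ ^ 2) : ℝ)) *
          (G fun i => 1 / (P * ‖η i‖ ^ 2) * ‖ev i (ν : K) * η i‖ ^ 2 : ℝ)) =
      (∏ i, η i * Complex.exp (Complex.I * t * Real.log (‖η i‖ ^ 2))) * wt G t P ν := by
  rcases eq_or_ne ν 0 with rfl | hν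
  · simp [wt, ang, Fintype.card_ne_zero]
  have h0 : ∀ i, ev i (ν : K) ≠ 0 := fun i => ev_ne_zero i (coe_ne_zero hν)
  have h1 : (fun i => 1 / (P * ‖η i‖ ^ 2) * ‖ev i (ν : K) * η i‖ ^ 2) =
      fun i => ‖ev i (ν : K)‖ ^ 2 / P := by
    funext i
    have := norm_pos_iff.2 (hη i)
    rw [norm_mul]
    field_simp
  rw [h1, ← mul_assoc, ← Finset.prod_mul_distrib,
    Finset.prod_congr rfl fun i _ => vr_term t (hη i) (h0 i), wt, ← prod_norm_ev,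
    Real.log_prod fun i _ => pow_ne_zero 2 (norm_ne_zero_iff.2 (h0 i)),
    ← Real.finsetProd_rpow _ _ fun i _ => sq_nonneg _, Complex.ofReal_sum, Finset.mul_sum,
    Complex.exp_sum, Complex.ofReal_prod, ang]
  simp only [Finset.prod_mul_distrib]
  ring

theorem vor_rep {G : (Pl K → ℝ) → ℝ} {t P F : ℝ} (hP : 0 < P) {η : Pl K → ℂ} (hη : ∀ i, η i ≠ 0)
    {f : EE K → ℂ} (hf : Continuous f) {n : ℕ} (hn : rr K < n)
    (hb : ∀ ξ, ‖f ξ‖ ≤ F / (1 + ‖ξ‖ ^ 2) ^ n) (hr : Repr G t (fun i => 1 / (P * ‖η i‖ ^ 2)) f) :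
    ∃ c : ℂ, ‖c‖ = (∏ i, ‖η i‖)⁻¹ ∧ ∀ τ : R K → ℂ, Grow τ →
      HasSum (fun ν => τ ν * wt G t P ν) (c * ∫ ξ, f ξ * th τ fun i => (η i * ξ i, ‖η i‖)) := by
  have := vl_countable (K := K)
  have hv : ∀ i, 0 < ‖η i‖ := fun i => norm_pos_iff.2 (hη i)
  have hfi : Integrable f := (vr_int hn F).mono' hf.aestronglyMeasurable (.of_forall hb)
  obtain ⟨c, hc⟩ : ∃ c : ℂ, c = ∏ i, η i * Complex.exp (Complex.I * t * Real.log (‖η i‖ ^ 2)) :=
    ⟨_, rfl⟩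
  have hc0 : c ≠ 0 := by
    rw [hc]
    exact Finset.prod_ne_zero_iff.2 fun i _ => mul_ne_zero (hη i) (Complex.exp_ne_zero _)
  refine ⟨c⁻¹, ?_, fun τ hτ => ?_⟩
  · rw [norm_inv, hc, norm_prod]
    congr 1
    refine Finset.prod_congr rfl fun i _ => ?_
    rw [norm_mul, show Complex.I * t * Real.log (‖η i‖ ^ 2) =
      ((t * Real.log (‖η i‖ ^ 2) : ℝ) : ℂ) * Complex.I by push_cast; ring,
      Complex.norm_exp_ofReal_mul_I, mul_one]
  have hn1 : ∀ (ν : R K) (ξ : EE K), ‖∏ i, ecc (ev i (ν : K) * η i * ξ i)‖ = 1 := fun ν ξ => by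
    simp only [norm_prod, norm_ecc, Finset.prod_const_one]
  have h1 := hasSum_integral_of_summable_integral_norm (μ := volume)
    (F := fun (ν : R K) (ξ : EE K) => τ ν * (∏ i, Wh (4 / 3) (ev i (ν : K)) ‖η i‖) *
      (f ξ * ∏ i, ecc (ev i (ν : K) * η i * ξ i)))
    (fun ν => (hfi.mul_bdd (c := 1) (continuous_finsetProd _ fun i _ =>
      continuous_ecc.comp (by fun_prop)).aestronglyMeasurable
        (.of_forall fun ξ => (hn1 ν ξ).le)).const_mul _)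
    (by
      simp only [norm_mul (τ _ * _), norm_mul (f _), hn1, mul_one, integral_const_mul,
        norm_mul (τ _), norm_prod]
      exact (hτ.summable hv).mul_right _)
  have h2 : ∀ ν : R K, ∫ ξ : EE K, τ ν * (∏ i, Wh (4 / 3) (ev i (ν : K)) ‖η i‖) *
      (f ξ * ∏ i, ecc (ev i (ν : K) * η i * ξ i)) = c * (τ ν * wt G t P ν) := fun ν => by
    rw [integral_const_mul, hr fun i => ev i (ν : K) * η i, mul_assoc (τ ν), vr_prod G t hP hη, ← hc]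
    ring
  have h3 : ∀ ξ : EE K, ∑' ν : R K, τ ν * (∏ i, Wh (4 / 3) (ev i (ν : K)) ‖η i‖) *
      (f ξ * ∏ i, ecc (ev i (ν : K) * η i * ξ i)) = f ξ * th τ fun i => (η i * ξ i, ‖η i‖) := by
    intro ξ
    simp only [th, ← tsum_mul_left, Finset.prod_mul_distrib, mul_assoc (ev _ _)]
    exact tsum_congr fun ν => by ring
  simp only [h2, h3] at h1
  simpa only [inv_mul_cancel_left₀ hc0] using h1.mul_left c⁻¹

theorem vr_ex {T : ℝ} {G : (Pl K → ℝ) → ℝ} (hG : AdmG T G) (t : ℝ) {P : ℝ} (hP : 0 < P) :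
    ∃ (c : ℂ) (f : EE K → ℂ) (η : Pl K → ℂ), (∀ i, η i ≠ 0) ∧ ∀ τ : R K → ℂ, Grow τ →
      HasSum (fun ν => τ ν * wt G t P ν)
        (c * ∫ ξ, f ξ * th τ fun i => (η i * ξ i, ‖η i‖)) := by
  obtain ⟨C, -, h⟩ := vor_fourier hG le_rfl (v0 K) (rr K + 1)
  obtain ⟨f, h1, -, h2, h3⟩ := h t (fun _ => 1) fun i => ⟨by norm_num, le_rfl⟩
  have hs := Real.sqrt_pos.2 hP
  have hη : ∀ _ : Pl K, (((√P)⁻¹ : ℝ) : ℂ) ≠ 0 := fun _ => by exact_mod_cast (inv_pos.2 hs).ne'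
  have e : (fun _ : Pl K => 1 / (P * ‖(((√P)⁻¹ : ℝ) : ℂ)‖ ^ 2)) = fun _ => 1 := by
    funext i
    rw [Complex.norm_real, Real.norm_eq_abs, sq_abs, inv_pow, Real.sq_sqrt hP.le,
      mul_inv_cancel₀ hP.ne', div_one]
  obtain ⟨c, -, hc⟩ := vor_rep hP hη h1 (Nat.lt_succ_self _) h2 (by rw [e]; exact h3)
  exact ⟨c, f, _, hη, hc⟩

theorem Grow.summable_wt {τ : R K → ℂ} (hτ : Grow τ) {T : ℝ} {G : (Pl K → ℝ) → ℝ} (hG : AdmG T G)
    (t : ℝ) {P : ℝ} (hP : 0 < P) : Summable fun ν => τ ν * wt G t P ν := by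
  obtain ⟨c, f, η, -, h⟩ := vr_ex hG t hP
  exact (h τ hτ).summable

theorem tsum_wt_congr {τ τ' : R K → ℂ} (hτ : Grow τ) (hτ' : Grow τ') {T : ℝ}
    {G : (Pl K → ℝ) → ℝ} (hG : AdmG T G) (t : ℝ) {P : ℝ} (hP : 0 < P)
    (h : ∀ w, Pos w → th τ w = th τ' w) :
    ∑' ν, τ ν * wt G t P ν = ∑' ν, τ' ν * wt G t P ν := by
  obtain ⟨c, f, η, hη, k⟩ := vr_ex hG t hP
  rw [(k τ hτ).tsum_eq, (k τ' hτ').tsum_eq]
  congr 2
  funext ξ
  rw [h _ fun i => norm_pos_iff.2 (hη i)]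

theorem vr_flp (j : Pl K) (ξ : EE K) : flp j (flp j ξ) = ξ := by
  ext i
  simp only [flp_apply]
  split_ifs <;> simp

theorem vor_mink (j : Pl K) : ∃ C : ℝ, 0 < C ∧
    ∀ (s : Finset (R K)) (f G : R K → EE K → ℂ) (F E : ℝ), 0 ≤ E →
    (∀ k ∈ s, Continuous (f k) ∧ (∀ ξ, f k (flp j ξ) = -f k ξ) ∧
      (∀ ξ, ‖f k ξ‖ ≤ F / (1 + ‖ξ‖ ^ 2) ^ (3 * rr K + 1)) ∧ Continuous (G k) ∧
        ∃ M : ℝ, ∀ ξ, ‖G k ξ‖ ≤ M) →
    (∀ ξ, ∑ k ∈ s, ‖G k ξ - G k (flp j ξ)‖ ^ 2 ≤ E * (1 + ‖ξ‖ ^ 2) ^ (4 * rr K)) →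
    ∑ k ∈ s, ‖∫ ξ, f k ξ * G k ξ‖ ^ 2 ≤ C * F ^ 2 * E := by
  set J := ∫ ξ : EE K, 1 / (1 + ‖ξ‖ ^ 2) ^ (rr K + 1) with hJ
  have hJ0 : 0 ≤ J := integral_nonneg fun ξ => by positivity
  refine ⟨J ^ 2 + 1, by positivity, fun s f G F E hE h hG => ?_⟩
  rcases s.eq_empty_or_nonempty with rfl | ⟨k₀, hk₀⟩
  · rw [Finset.sum_empty]; positivity
  have hF : 0 ≤ F := by simpa using (norm_nonneg _).trans ((h k₀ hk₀).2.2.1 0)
  set I : R K → ℂ := fun k => ∫ ξ, f k ξ * G k ξ with hI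
  have hint : ∀ k ∈ s, Integrable (fun ξ => f k ξ * G k ξ) ∧
      Integrable fun ξ => f k ξ * G k (flp j ξ) := fun k hk => by
    obtain ⟨a1, -, a3, a4, M, a5⟩ := h k hk
    have hfi : Integrable (f k) :=
      (vr_int (by omega) F).mono' a1.aestronglyMeasurable (.of_forall a3)
    exact ⟨hfi.mul_bdd a4.aestronglyMeasurable (.of_forall a5),
      hfi.mul_bdd (a4.comp (flp j).continuous).aestronglyMeasurable (.of_forall fun ξ => a5 _)⟩
  have h2 : ∀ k ∈ s, ∫ ξ, f k ξ * (G k ξ - G k (flp j ξ)) = 2 * I k := fun k hk => by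
    have : ∫ ξ, f k ξ * G k (flp j ξ) = -I k := by
      rw [← (flp j).measurePreserving.integral_comp (flp j).toHomeomorph.measurableEmbedding, hI,
        ← integral_neg]
      simp only [vr_flp, (h k hk).2.1, neg_mul]
    simp only [mul_sub]
    rw [integral_sub (hint k hk).1 (hint k hk).2, this]
    ring
  set S := ∑ k ∈ s, ‖I k‖ ^ 2 with hS
  have hS0 : 0 ≤ S := by positivity
  have h3 : ((2 * S : ℝ) : ℂ) =
      ∫ ξ, ∑ k ∈ s, conj (I k) * (f k ξ * (G k ξ - G k (flp j ξ))) := by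
    rw [integral_finsetSum _ fun k hk => ?_]
    · rw [hS, Finset.mul_sum, Complex.ofReal_sum]
      refine Finset.sum_congr rfl fun k hk => ?_
      rw [integral_const_mul, h2 k hk, mul_left_comm, Complex.conj_mul']
      push_cast
      ring
    · simp only [mul_sub (f k _)]
      exact ((hint k hk).1.sub (hint k hk).2).const_mul _
  have h4 : 2 * S ≤ F * (√S * √E) * J := by
    rw [← Real.norm_of_nonneg (by positivity : 0 ≤ 2 * S), ← Complex.norm_real, h3, hJ,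
      ← integral_const_mul]
    refine norm_integral_le_of_norm_le ((vr_int (Nat.lt_succ_self _) 1).const_mul _)
      (.of_forall fun ξ => ?_)
    have hu : 0 < 1 + ‖ξ‖ ^ 2 := by positivity
    calc _ ≤ ∑ k ∈ s, F / (1 + ‖ξ‖ ^ 2) ^ (3 * rr K + 1) *
          (‖I k‖ * ‖G k ξ - G k (flp j ξ)‖) := by
          refine (norm_sum_le _ _).trans (Finset.sum_le_sum fun k hk => ?_)
          rw [norm_mul, norm_mul, RCLike.norm_conj, mul_left_comm]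
          gcongr
          exact (h k hk).2.2.1 ξ
      _ ≤ F / (1 + ‖ξ‖ ^ 2) ^ (3 * rr K + 1) * (√S * √(E * (1 + ‖ξ‖ ^ 2) ^ (4 * rr K))) := by
          rw [← Finset.mul_sum]
          gcongr
          refine (Real.sum_mul_le_sqrt_mul_sqrt _ _ _).trans ?_
          gcongr
          exact hG ξ
      _ = _ := by
          rw [Real.sqrt_mul hE, show (1 + ‖ξ‖ ^ 2) ^ (4 * rr K) =
            ((1 + ‖ξ‖ ^ 2) ^ (2 * rr K)) ^ 2 by ring, Real.sqrt_sq (by positivity),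
            show 3 * rr K + 1 = 2 * rr K + (rr K + 1) by ring, pow_add _ (2 * rr K)]
          field_simp
  have h5 := Real.sq_sqrt hS0
  have h6 := Real.sq_sqrt hE
  have h7 : 0 ≤ F ^ 2 * E := by positivity
  have h8 : (F * √E * J) ^ 2 = J ^ 2 * F ^ 2 * E := by rw [mul_pow, mul_pow, h6]; ring
  nlinarith [sq_nonneg (√S - F * √E * J)]

end Vale.Agent.P319
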