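import Vale.Agent.P319.N.VorArithB
import Vale.Agent.P319.N.VorDualB
import Vale.Agent.P319.N.VorRep

/-! VOR: one cell of the Voronoi bound. -/

namespace Vale.Agent.P319

open scoped ComplexConjugate Real

variable {K : Type} [Field K] [NumberField K] [Stp K]
variable {ρ : (R K × R K → ℂ) → R K → ℂ} {Ψ : R K × R K → ℂ} {a : ℕ}

theorem vc_point {k C : K} (hk : k ≠ 0) (hC : C ≠ 0) {lam : ℝ} (hl : 0 < lam) (ξ : Pl K → ℂ) :
    dual (k * C) (fun i => ((lam : ℂ) / ev i k ^ 2 * ξ i, ‖(lam : ℂ) / ev i k ^ 2‖)) = fun i =>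
      (-(conj (ξ i) / (lam * ev i C ^ 2 * ((1 + ‖ξ i‖ ^ 2 : ℝ) : ℂ))),
        1 / (lam * ‖ev i C‖ ^ 2 * (1 + ‖ξ i‖ ^ 2))) := by
  funext i
  have hk' := ev_ne_zero i hk
  have hC' := ev_ne_zero i hC
  simp only [dual, ev_mul]
  generalize ev i k = x at *
  generalize ev i C = c at *
  have hx := norm_pos_iff.2 hk'
  have hc := norm_pos_iff.2 hC'
  have hn : ‖(lam : ℂ) / x ^ 2‖ = lam / ‖x‖ ^ 2 := by
    rw [norm_div, norm_pow, Complex.norm_real, Real.norm_of_nonneg hl.le]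
  have hu : (0 : ℝ) < 1 + ‖ξ i‖ ^ 2 := by positivity
  have hρ : ‖(lam : ℂ) / x ^ 2 * ξ i‖ ^ 2 + ‖(lam : ℂ) / x ^ 2‖ ^ 2 =
      (lam / ‖x‖ ^ 2) ^ 2 * (1 + ‖ξ i‖ ^ 2) := by
    rw [norm_mul, hn]; ring
  rw [hρ, hn]
  refine Prod.ext ?_ ?_
  · have h1 : ((‖x‖ ^ 2 : ℝ) : ℂ) = x * conj x := by
      rw [Complex.mul_conj, Complex.normSq_eq_norm_sq]
    have h2 : conj x ≠ 0 := by simpa using hk'
    have h4 : (lam : ℂ) ≠ 0 := by exact_mod_cast hl.ne'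
    have h5 : ((1 + ‖ξ i‖ ^ 2 : ℝ) : ℂ) ≠ 0 := by exact_mod_cast hu.ne'
    simp only [map_mul, map_div₀, map_pow, Complex.conj_ofReal, Complex.ofReal_mul,
      Complex.ofReal_pow (lam / _), Complex.ofReal_div, h1]
    field_simp
  · simp only [norm_mul]
    field_simp

theorem vc_num {δ Y L L₀ u : ℝ} (hδ : 0 < δ) (hδ' : δ ≤ 1 / 3) (hY : 0 ≤ Y) (hL : 0 ≤ L)
    (hL₀ : 0 ≤ L₀) (hu : 1 ≤ u) (h : L ≤ L₀ * u ^ 2) :
    L ^ δ * (Y + L ^ (41 / 25 : ℝ)) ≤ L₀ ^ δ * (Y + L₀ ^ (41 / 25 : ℝ)) * u ^ 4 := by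
  have hu0 : 0 < u := by linarith
  have h1 : ∀ a : ℝ, 0 ≤ a → L ^ a ≤ L₀ ^ a * u ^ (2 * a) := fun a ha => by
    rw [Real.rpow_mul hu0.le, Real.rpow_two, ← Real.mul_rpow hL₀ (by positivity)]
    exact Real.rpow_le_rpow hL h ha
  have h2 : u ^ (2 * δ) * u ^ (2 * (41 / 25) : ℝ) ≤ u ^ 4 := by
    rw [← Real.rpow_add hu0, ← Real.rpow_natCast]
    exact Real.rpow_le_rpow_of_exponent_le hu (by push_cast; linarith)
  have h3 : 1 ≤ u ^ (2 * (41 / 25) : ℝ) := Real.one_le_rpow hu (by norm_num)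
  calc _ ≤ (L₀ ^ δ * u ^ (2 * δ)) * (Y * u ^ (2 * (41 / 25) : ℝ) +
        L₀ ^ (41 / 25 : ℝ) * u ^ (2 * (41 / 25) : ℝ)) := by
        gcongr
        · exact h1 δ hδ.le
        · exact le_mul_of_one_le_right hY h3
        · exact h1 _ (by norm_num)
    _ = L₀ ^ δ * (Y + L₀ ^ (41 / 25 : ℝ)) * (u ^ (2 * δ) * u ^ (2 * (41 / 25) : ℝ)) := by ring
    _ ≤ _ := by gcongr

theorem vc_cs {ι : Type*} (s : Finset ι) (ζ D : ι → ℂ) (w : ι → ℝ) (h : ∀ i, ‖ζ i‖ ≤ w i) :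
    ‖∑ i ∈ s, ζ i * D i‖ ^ 2 ≤ (∑ i ∈ s, w i) * ∑ i ∈ s, w i * ‖D i‖ ^ 2 := by
  have hw : ∀ i, 0 ≤ w i := fun i => (norm_nonneg _).trans (h i)
  calc _ ≤ (∑ i ∈ s, w i * ‖D i‖) ^ 2 := by
        gcongr
        refine (norm_sum_le _ _).trans (Finset.sum_le_sum fun i _ => ?_)
        rw [norm_mul]
        gcongr
        exact h i
    _ ≤ _ := Finset.sum_sq_le_sum_mul_sum_of_sq_le_mul s (fun i _ => hw i)
        (fun i _ => mul_nonneg (hw i) (by positivity)) fun i _ => le_of_eq (by ring)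

theorem vc_box {r M D Y n x : ℝ} (hr : 1 ≤ r) (hM : 0 < M) (hD : 1 ≤ D) (hY : 0 < Y) (h1 : n ≤ Y)
    (h2 : Y ≤ 2 * n) (h3 : (n * M) ^ (1 / r) / D ≤ x) (h4 : x ≤ D * (n * M) ^ (1 / r)) :
    1 / (D * (1 + M + 2 / M)) ^ 2 ≤ (x / Y ^ (1 / r)) ^ 2 ∧
      (x / Y ^ (1 / r)) ^ 2 ≤ (D * (1 + M + 2 / M)) ^ 2 := by
  have hn : 0 < n := by linarith
  have h0 : 0 < 1 / r := by positivity
  have h0' : 1 / r ≤ 1 := by rwa [div_le_one (by linarith)]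
  have hM' : 0 < 2 / M := by positivity
  have hT : 1 ≤ 1 + M + 2 / M := by linarith
  have hY' := Real.rpow_pos_of_pos hY (1 / r)
  have hn' := Real.rpow_pos_of_pos (mul_pos hn hM) (1 / r)
  have h5 : ∀ a b : ℝ, 0 ≤ a → 0 ≤ b → a ≤ (1 + M + 2 / M) * b →
      a ^ (1 / r) ≤ (1 + M + 2 / M) * b ^ (1 / r) := fun a b ha hb h => by
    refine (Real.rpow_le_rpow ha h h0.le).trans ?_
    rw [Real.mul_rpow (by positivity) hb]
    gcongr
    exact Real.rpow_le_self_of_one_le hT h0'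
  have h6 := h5 (n * M) Y (by positivity) hY.le (by nlinarith [mul_pos hM' hY])
  have h7 := h5 Y (n * M) hY.le (by positivity) (by
    have : 2 / M * (n * M) = 2 * n := by field_simp
    nlinarith [mul_pos hn hM, mul_pos hM (mul_pos hn hM)])
  have hx : 0 ≤ x := le_trans (by positivity) h3
  rw [← one_div_pow]
  constructor <;> refine pow_le_pow_left₀ (by positivity) ?_ 2
  · rw [div_le_div_iff₀ (by positivity) hY', one_mul]
    rw [div_le_iff₀ (by positivity)] at h3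
    calc _ ≤ _ := h7
      _ ≤ (1 + M + 2 / M) * (x * D) := by gcongr
      _ = _ := by ring
  · rw [div_le_iff₀ hY', mul_assoc]
    exact h4.trans (by gcongr)

theorem vc_cell [Rcp K] (hq : QLSStmt K) (hρ : VAut ρ) (ha : 10 ≤ a) (hΨ : Cls a (lev K a) Ψ)
    {T : ℝ} {G : (Pl K → ℝ) → ℝ} (hG : AdmG T G) {δ : ℝ} (hδ : 0 < δ) (hδ' : δ ≤ 1 / 3)
    {D : ℝ} (hD : 1 ≤ D) {β : R K} (hβ : β ≠ 0) :
    ∃ C : ℝ, 0 < C ∧ ∀ (P Y t : ℝ) (L : R K) (φ : R K → ℂ) (s : Finset (R K)) (g : R K → R K),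
      0 < P → 1 ≤ Y → L ≠ 0 → Eqv L φ →
      (∀ k ∈ s, k ∈ sball K Y ∧ IsCoprime k L ∧ Y ≤ 2 * nm k ∧ Associated (g k) k ∧
        InUq a ((g k : K) / β) ∧ ∀ i, nK (g k : K) ^ (1 / (rr K : ℝ)) / D ≤ ‖ev i (g k : K)‖ ^ 2 ∧
          ‖ev i (g k : K)‖ ^ 2 ≤ D * nK (g k : K) ^ (1 / (rr K : ℝ))) →
      ∑ k ∈ s, ‖∑' ν, ρ Ψ ν * (φ ν * (quad ν k * cub ν k)) * wt G t P ν‖ ^ 2 ≤
        C * (1 + |t|) ^ (12 * rr K + 4) * nm L * P ^ rr K *
          ((Y ^ 2 * (nm L : ℝ) ^ 2 / P ^ rr K) ^ δ *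
            (Y ^ (6 / 5 : ℝ) + (Y ^ 2 * (nm L : ℝ) ^ 2 / P ^ rr K) ^ (41 / 25 : ℝ))) := by
  obtain ⟨a', C₀, D₁, hD₁, har⟩ := vor_arith hρ ha hΨ hβ
  obtain ⟨CD, hCD, hdual⟩ := vc_dual hq a' hδ hδ'
  have hM := NS_pos hβ
  obtain ⟨CF, hCF, hF⟩ := vor_fourier hG (T' := (D * (1 + NS β + 2 / NS β)) ^ 2)
    (one_le_pow₀ (one_le_mul_of_one_le_of_one_le hD (by linarith [div_pos two_pos hM])))
    (v0 K) (3 * rr K + 1)
  obtain ⟨CM, hCM, hmink⟩ := vor_mink (v0 K)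
  refine ⟨NS β ^ 2 * CM * CF ^ 2 * CD * (C₀ ^ 2 + 1) * D₁ ^ 4, by positivity,
    fun P Y t L φ s g hP hY hL hφ hs => ?_⟩
  have hY0 : 0 < Y := by linarith
  have hsP : 0 < √P := Real.sqrt_pos.2 hP
  obtain ⟨C, τ', W, hC, hW, hk⟩ := har L φ hL hφ
  have hr1 : (1 : ℝ) ≤ rr K := by exact_mod_cast rr_pos
  obtain ⟨lam, hlam⟩ : ∃ lam : ℝ, lam = Y ^ (1 / (rr K : ℝ)) / √P := ⟨_, rfl⟩
  have hl : 0 < lam := by rw [hlam]; positivity
  have hlr : (lam ^ rr K) ^ 2 = Y ^ 2 / P ^ rr K := by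
    rw [hlam, div_pow, one_div, Real.rpow_inv_natCast_pow hY0.le rr_pos.ne', div_pow, ← pow_mul,
      mul_comm (rr K), pow_mul, Real.sq_sqrt hP.le]
  let η : R K → Pl K → ℂ := fun k i => (lam : ℂ) / ev i (g k : K) ^ 2
  let τ : R K → R K → ℂ := fun k ν => ρ Ψ ν * (φ ν * (quad ν k * cub ν k))
  have hτ : ∀ k, Grow (τ k) := fun k => (hρ.grow ha hΨ).mul_bdd (M := 1) fun ν => by
    rw [norm_mul, norm_mul]
    exact mul_le_one₀ (hφ.2.1 ν) (by positivity)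
      (mul_le_one₀ (norm_quad_le _ _) (norm_nonneg _) (norm_cub_le _ _))
  have hk0 : ∀ k ∈ s, (g k : K) ≠ 0 := fun k h =>
    coe_ne_zero ((hs k h).2.2.2.1.ne_zero_iff.2 (mem_sball.1 (hs k h).1).1.ne_zero)
  have hnK : ∀ k ∈ s, nK (g k : K) = nm k * NS β := fun k h => by
    rw [nK_eq_nm_mul, nm_of_associated (hs k h).2.2.2.1,
      NS_eq_of_inUq (by omega) (hs k h).2.2.2.2.1]
  have hnη : ∀ k i, ‖η k i‖ = lam / ‖ev i (g k : K)‖ ^ 2 := fun k i => by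
    simp only [η]
    rw [norm_div, norm_pow, Complex.norm_real, Real.norm_of_nonneg hl.le]
  have hηpos : ∀ k ∈ s, ∀ i, 0 < ‖η k i‖ := fun k h i => by
    have := norm_pos_iff.2 (ev_ne_zero i (hk0 k h))
    rw [hnη]; positivity
  have hf : ∀ k, ∃ f : EE K → ℂ, k ∈ s → Continuous f ∧ (∀ ξ, f (flp (v0 K) ξ) = -f ξ) ∧
      (∀ ξ, ‖f ξ‖ ≤ CF * (1 + |t|) ^ (2 * (3 * rr K + 1)) / (1 + ‖ξ‖ ^ 2) ^ (3 * rr K + 1)) ∧
        Repr G t (fun i => 1 / (P * ‖η k i‖ ^ 2)) f := fun k => by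
    by_cases h : k ∈ s
    · obtain ⟨f, hf⟩ := hF t (fun i => 1 / (P * ‖η k i‖ ^ 2)) fun i => by
        have h3 := norm_pos_iff.2 (ev_ne_zero i (hk0 k h))
        have h4 : 1 / (P * ‖η k i‖ ^ 2) = (‖ev i (g k : K)‖ ^ 2 / Y ^ (1 / (rr K : ℝ))) ^ 2 := by
          rw [hnη, hlam, div_pow, div_pow, Real.sq_sqrt hP.le]
          field_simp
        have h5 := (hs k h).2.2.2.2.2 i
        rw [hnK k h] at h5
        rw [h4]
        exact vc_box hr1 hM hD hY0 (mem_sball.1 (hs k h).1).2 (hs k h).2.2.1 h5.1 h5.2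
      exact ⟨f, fun _ => hf⟩
    · exact ⟨0, fun h' => absurd h' h⟩
  choose f hf using hf
  set L₀ := Y ^ 2 * (nm L : ℝ) ^ 2 / P ^ rr K with hL₀
  have hL₀0 : 0 ≤ L₀ := by positivity
  set X := L₀ ^ δ * (Y ^ (6 / 5 : ℝ) + L₀ ^ (41 / 25 : ℝ)) with hX
  have hX0 : 0 ≤ X := by positivity
  have hζ : ∀ k, ∃ ζ : R K → ℂ, k ∈ s → (∀ b, ‖ζ b‖ ≤ W b) ∧ ∀ w, Pos w → th (τ k) w =
      ∑ b ∈ res L, ζ b * th (fun ν => τ' b ν * quad ν k) (dual ((g k : K) * C b) w) := fun k => by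
    by_cases h : k ∈ s
    · obtain ⟨b1, b2, -, b3, b4, -⟩ := hs k h
      obtain ⟨ζ, hζ⟩ := hk (g k) (b3.squarefree_iff.2 (mem_sball.1 b1).1.2)
        (b2.of_isCoprime_of_dvd_left b3.dvd) b4
      simp only [quad_associated b3, cub_associated b3, map_mul] at hζ
      exact ⟨ζ, fun _ => hζ⟩
    · exact ⟨0, fun h' => absurd h' h⟩
  choose ζ hζ using hζ
  have hmain := hmink s f (fun k ξ => th (τ k) fun i => (η k i * ξ i, ‖η k i‖)) _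
    (nm L * (CD * C₀ ^ 2 * X * D₁ ^ 4)) (by positivity) (fun k h => by
      obtain ⟨M, hM⟩ := (hτ k).bdd_th (hηpos k h)
      exact ⟨(hf k h).1, (hf k h).2.1, (hf k h).2.2.1,
        ((hτ k).continuous_th (hηpos k h)).comp (f := fun (ξ : EE K) i => η k i * ξ i)
          (by fun_prop), M, fun ξ => hM _⟩) fun ξ => by
    rcases s.eq_empty_or_nonempty with rfl | ⟨k₀, hk₀⟩
    · rw [Finset.sum_empty]; positivity
    have hW0 : ∀ b, 0 ≤ W b := fun b => (norm_nonneg _).trans ((hζ k₀ hk₀).1 b)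
    have hu : (1 : ℝ) ≤ 1 + ‖ξ‖ ^ 2 := by nlinarith [sq_nonneg ‖ξ‖]
    have hC0 : ∀ b, (C b : K) ≠ 0 := fun b => coe_ne_zero (hC b).1
    let z : R K → EE K → Pl K → ℂ := fun b ξ i =>
      -(conj (ξ i) / (lam * ev i (C b : K) ^ 2 * ((1 + ‖ξ i‖ ^ 2 : ℝ) : ℂ)))
    let v : R K → Pl K → ℝ := fun b i => 1 / (lam * ‖ev i (C b : K)‖ ^ 2 * (1 + ‖ξ i‖ ^ 2))
    let E : R K → R K → ℂ := fun b k =>
      th (fun ν => τ' b ν * quad ν k) (fun i => (z b ξ i, v b i)) -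
        th (fun ν => τ' b ν * quad ν k) (fun i => (z b (flp (v0 K) ξ) i, v b i))
    have h0 : ∀ i, ‖flp (v0 K) ξ i‖ = ‖ξ i‖ := fun i => by
      rw [flp_apply]
      split_ifs
      exacts [norm_neg _, rfl]
    have h1 : ∀ k ∈ s, (th (τ k) fun i => (η k i * ξ i, ‖η k i‖)) -
        (th (τ k) fun i => (η k i * flp (v0 K) ξ i, ‖η k i‖)) =
        ∑ b ∈ res L, ζ k b * E b k := fun k h => by
      rw [(hζ k h).2 _ (by exact hηpos k h), (hζ k h).2 _ (by exact hηpos k h),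
        ← Finset.sum_sub_distrib]
      refine Finset.sum_congr rfl fun b _ => ?_
      simp only [η, E, z, v]
      rw [vc_point (hk0 k h) (hC0 b) hl, vc_point (hk0 k h) (hC0 b) hl, mul_sub]
      simp only [h0]
    have h2 : ∀ b, ∑ k ∈ s, ‖E b k‖ ^ 2 ≤
        CD * C₀ ^ 2 * X * D₁ ^ 4 * (1 + ‖ξ‖ ^ 2) ^ (4 * rr K) := fun b => by
      have hv : ∀ i, 0 < v b i := fun i => by
        have := norm_pos_iff.2 (ev_ne_zero i (hC0 b))
        positivity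
      have h3 := hdual Y _ C₀ (τ' b) (z b ξ) (z b (flp (v0 K) ξ)) (v b) hY hv rfl (hC b).2.2
      have h4 : 1 / (∏ i, v b i) ^ 2 ≤ L₀ * (D₁ * (1 + ‖ξ‖ ^ 2) ^ rr K) ^ 2 := by
        simp only [v]
        rw [Finset.prod_div_distrib, Finset.prod_const_one, one_div_pow, one_div_one_div,
          Finset.prod_mul_distrib, Finset.prod_mul_distrib, Finset.prod_const, prod_norm_ev,
          Finset.card_univ]
        calc _ ≤ (lam ^ rr K * (D₁ * nm L) * ∏ _ : Pl K, (1 + ‖ξ‖ ^ 2)) ^ 2 := by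
              have := nK_nonneg (C b : K)
              gcongr with i
              · exact (hC b).2.1
              · exact PiLp.norm_apply_le ξ i
          _ = _ := by
              rw [Finset.prod_const, mul_pow, mul_pow, hlr, hL₀, Finset.card_univ]
              ring
      have h5 := vc_num hδ hδ' (by positivity : 0 ≤ Y ^ (6 / 5 : ℝ)) (by positivity) hL₀0
        (one_le_mul_of_one_le_of_one_le hD₁ (one_le_pow₀ hu)) h4
      calc _ ≤ ∑ k ∈ sball K Y, ‖E b k‖ ^ 2 :=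
            Finset.sum_le_sum_of_subset_of_nonneg (fun k h => (hs k h).1) fun _ _ _ => by positivity
        _ ≤ _ := h3
        _ ≤ CD * C₀ ^ 2 * (X * (D₁ * (1 + ‖ξ‖ ^ 2) ^ rr K) ^ 4) := by
            rw [mul_assoc]
            gcongr
        _ = _ := by ring
    have h4 : 0 ≤ ∑ b ∈ res L, W b := Finset.sum_nonneg fun b _ => hW0 b
    calc _ ≤ ∑ k ∈ s, (∑ b ∈ res L, W b) * ∑ b ∈ res L, W b * ‖E b k‖ ^ 2 :=
          Finset.sum_le_sum fun k h => by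
            rw [h1 k h]
            exact vc_cs _ _ _ _ (hζ k h).1
      _ = (∑ b ∈ res L, W b) * ∑ b ∈ res L, W b * ∑ k ∈ s, ‖E b k‖ ^ 2 := by
          rw [← Finset.mul_sum, Finset.sum_comm]
          simp only [Finset.mul_sum]
      _ ≤ (∑ b ∈ res L, W b) *
          ∑ b ∈ res L, W b * (CD * C₀ ^ 2 * X * D₁ ^ 4 * (1 + ‖ξ‖ ^ 2) ^ (4 * rr K)) := by
          gcongr with b
          exacts [hW0 b, h2 b]
      _ = (∑ b ∈ res L, W b) ^ 2 * (CD * C₀ ^ 2 * X * D₁ ^ 4 * (1 + ‖ξ‖ ^ 2) ^ (4 * rr K)) := by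
          rw [← Finset.sum_mul]; ring
      _ ≤ √(nm L) ^ 2 * (CD * C₀ ^ 2 * X * D₁ ^ 4 * (1 + ‖ξ‖ ^ 2) ^ (4 * rr K)) := by gcongr
      _ = _ := by rw [Real.sq_sqrt (by positivity)]; ring
  calc _ ≤ ∑ k ∈ s, NS β ^ 2 * P ^ rr K *
        ‖∫ ξ, f k ξ * th (τ k) fun i => (η k i * ξ i, ‖η k i‖)‖ ^ 2 := by
        refine Finset.sum_le_sum fun k h => ?_
        obtain ⟨c, hc, h1⟩ := vor_rep hP (fun i => norm_pos_iff.1 (hηpos k h i)) (hf k h).1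
          (by omega) (hf k h).2.2.1 (hf k h).2.2.2
        rw [(h1 _ (hτ k)).tsum_eq, norm_mul, mul_pow, hc]
        gcongr
        have h2 := (mem_sball.1 (hs k h).1).2
        simp only [hnη]
        rw [Finset.prod_div_distrib, Finset.prod_const, prod_norm_ev, inv_div, div_pow,
          Finset.card_univ, hlr, hnK k h, div_div_eq_mul_div, div_le_iff₀ (by positivity)]
        calc _ ≤ (Y * NS β) ^ 2 * P ^ rr K := by gcongr
          _ = _ := by ring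
    _ ≤ NS β ^ 2 * P ^ rr K * (CM * (CF * (1 + |t|) ^ (2 * (3 * rr K + 1))) ^ 2 *
        (nm L * (CD * C₀ ^ 2 * X * D₁ ^ 4))) := by
        rw [← Finset.mul_sum]
        gcongr
    _ ≤ NS β ^ 2 * P ^ rr K * (CM * (CF * (1 + |t|) ^ (2 * (3 * rr K + 1))) ^ 2 *
        (nm L * (CD * (C₀ ^ 2 + 1) * X * D₁ ^ 4))) := by
        gcongr
        linarith
    _ = _ := by ring

end Vale.Agent.P319
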