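import Vale.Agent.P319.N.VorCell

/-! VOR: the Voronoi bound for the coefficients `ρ Ψ`. -/

namespace Vale.Agent.P319

open scoped ComplexConjugate Real

variable {K : Type} [Field K] [NumberField K] [Stp K]
variable {ρ : (R K × R K → ℂ) → R K → ℂ} {Ψ : R K × R K → ℂ} {a : ℕ}

theorem vo_log {δ : ℝ} (hδ : 0 < δ) : ∃ C : ℝ, 0 < C ∧ ∀ Y : ℝ, 1 ≤ Y →
    ((Nat.log 2 ⌊Y⌋₊ + 1 : ℕ) : ℝ) ≤ C * Y ^ δ := by
  have hl : 0 < Real.log 2 := Real.log_pos one_lt_two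
  refine ⟨1 + 1 / (δ * Real.log 2), by positivity, fun Y hY => ?_⟩
  have h1 := pow_log_floor_le hY
  generalize Nat.log 2 ⌊Y⌋₊ = i at h1
  have h2 : 1 + i * (δ * Real.log 2) ≤ Y ^ δ := by
    calc _ ≤ Real.exp (i * (δ * Real.log 2)) := by linarith [Real.add_one_le_exp (i * (δ * Real.log 2))]
      _ = ((2 : ℝ) ^ i) ^ δ := by
          rw [Real.rpow_def_of_pos (by positivity), Real.log_pow]; ring_nf
      _ ≤ _ := Real.rpow_le_rpow (by positivity) h1 hδ.le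
  have h3 : 1 ≤ Y ^ δ := Real.one_le_rpow hY hδ.le
  have h4 : (i : ℝ) ≤ 1 / (δ * Real.log 2) * Y ^ δ := by
    rw [one_div, ← div_eq_inv_mul, le_div_iff₀ (by positivity)]
    linarith
  push_cast
  linarith

open Classical in
theorem vor_core [Rcp K] (hq : QLSStmt K) (hρ : VAut ρ) (ha : 10 ≤ a) (hΨ : Cls a (lev K a) Ψ)
    {T : ℝ} {G : (Pl K → ℝ) → ℝ} (hG : AdmG T G) {B' : ℝ} (hB' : 1 ≤ B') {ε : ℝ} (hε : 0 < ε) :
    ∃ C : ℝ, 0 < C ∧ ∀ (P Y t : ℝ) (L : R K) (φ : R K → ℂ), 0 < P → 1 / B' ≤ P ^ rr K → 1 ≤ Y →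
      L ≠ 0 → Eqv L φ →
      ∑ k ∈ (sball K Y).filter (fun k => IsCoprime k L),
          ‖∑' ν, ρ Ψ ν * (φ ν * (quad ν k * cub ν k)) * wt G t P ν‖ ^ 2 ≤
        C * (1 + |t|) ^ (12 * rr K + 4) * (Y * nm L) ^ ε * nm L * P ^ rr K *
          (Y ^ (6 / 5 : ℝ) + (Y ^ 2 * (nm L : ℝ) ^ 2 / P ^ rr K) ^ (41 / 25 : ℝ)) := by
  set δ := min (1 / 3) (ε / 3) with hδdef
  have hδ : 0 < δ := lt_min (by norm_num) (by positivity)
  have hδ' : δ ≤ 1 / 3 := min_le_left _ _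
  have hδε : δ ≤ ε / 3 := min_le_right _ _
  obtain ⟨D, hD, hbal⟩ := vl_balanced (K := K)
  obtain ⟨S, hS, hS'⟩ := exists_ureps (K := K) ha
  choose C0 hC0 h1 using fun β : S => vc_cell hq hρ ha hΨ hG hδ hδ' hD (hS β β.2).1
  obtain ⟨C1, hC1, hC01⟩ : ∃ C1 : ℝ, 0 < C1 ∧ ∀ β, C0 β ≤ C1 :=
    ⟨1 + ∑ β, C0 β, add_pos_of_pos_of_nonneg one_pos (Finset.sum_nonneg fun β _ => (hC0 β).le),
      fun β => (Finset.single_le_sum (fun β _ => (hC0 β).le) (Finset.mem_univ β)).trans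
        (le_add_of_nonneg_left zero_le_one)⟩
  obtain ⟨C2, hC2, h2⟩ := vo_log hδ
  have hg : ∀ k : R K, ∃ g β : R K, k ≠ 0 → β ∈ S ∧ Associated g k ∧ InUq a ((g : K) / β) ∧
      ∀ i, nK (g : K) ^ (1 / (rr K : ℝ)) / D ≤ ‖ev i (g : K)‖ ^ 2 ∧
        ‖ev i (g : K)‖ ^ 2 ≤ D * nK (g : K) ^ (1 / (rr K : ℝ)) := fun k => by
    by_cases hk : k = 0
    · exact ⟨0, 0, fun h => absurd hk h⟩
    obtain ⟨u, hu, h3⟩ := hbal _ (coe_ne_zero (ng_ne_zero hk))
    obtain ⟨β, ⟨h4, h5⟩, -⟩ := hS' _ (nrm_ng hk hu)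
    refine ⟨_, β, fun _ => ⟨h4, (associated_unit_mul_left _ _ u.isUnit).trans (associated_ng k),
      h5, ?_⟩⟩
    rwa [map_mul, nK_mul, nK_EU hu, one_mul]
  choose g rep hg using hg
  refine ⟨(S.card + 1) * C2 * C1 * (64 * B'), by positivity, fun P Y t L φ hP hN hY hL hφ => ?_⟩
  generalize 12 * rr K + 4 = m at h1 ⊢
  have hN0 : 0 < P ^ rr K := by positivity
  have h1' := fun β => h1 β P
  generalize P ^ rr K = N at h1' hN hN0 ⊢
  have hnL : (1 : ℝ) ≤ nm L := one_le_nm hL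
  have hY0 : 0 < Y := by linarith
  set X := Y ^ 2 * (nm L : ℝ) ^ 2 / N with hX
  have hX0 : 0 ≤ X := by positivity
  set Z := Y ^ (6 / 5 : ℝ) + X ^ (41 / 25 : ℝ) with hZ
  have hZ0 : 0 ≤ Z := by positivity
  have hYL : 1 ≤ Y * nm L := one_le_mul_of_one_le_of_one_le hY hnL
  have hXδ : X ^ δ ≤ B' * (Y * nm L) ^ (2 * δ) := by
    have : X ≤ B' * (Y * nm L) ^ 2 := by
      rw [hX, div_le_iff₀ hN0]
      rw [div_le_iff₀ (by positivity)] at hN
      nlinarith [sq_nonneg (Y * nm L)]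
    calc _ ≤ (B' * (Y * nm L) ^ 2) ^ δ := Real.rpow_le_rpow hX0 this hδ.le
      _ = B' ^ δ * (Y * nm L) ^ (2 * δ) := by
          rw [Real.mul_rpow (by positivity) (by positivity), Real.rpow_mul (by positivity),
            Real.rpow_two]
      _ ≤ _ := by
          gcongr
          exact Real.rpow_le_self_of_one_le hB' (by linarith)
  have hmaps : ∀ k ∈ (sball K Y).filter (fun k => IsCoprime k L),
      (rep k, Nat.log 2 (nm k)) ∈ S ×ˢ Finset.range (Nat.log 2 ⌊Y⌋₊ + 1) := fun k hk => by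
    have h3 := mem_sball.1 (Finset.mem_filter.1 hk).1
    exact Finset.mem_product.2 ⟨(hg k h3.1.ne_zero).1,
      log_mem_range (sball_subset_pball _ (Finset.mem_filter.1 hk).1)⟩
  rw [← Finset.sum_fiberwise_of_maps_to hmaps]
  refine (Finset.sum_le_card_nsmul _ _
    (C1 * (1 + |t|) ^ m * nm L * N * (64 * (X ^ δ * Z))) fun p hp => ?_).trans ?_
  · rcases (((sball K Y).filter fun k => IsCoprime k L).filter
      fun k => (rep k, Nat.log 2 (nm k)) = p).eq_empty_or_nonempty with h | ⟨k₀, hk₀⟩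
    · rw [h, Finset.sum_empty]; positivity
    simp only [Finset.mem_filter] at hk₀
    have hlow : ∀ k : R K, k ≠ 0 → (2 : ℝ) ^ Nat.log 2 (nm k) ≤ nm k := fun k hk => by
      exact_mod_cast Nat.pow_log_le_self 2 (nm_pos hk).ne'
    have hup : ∀ k : R K, (nm k : ℝ) ≤ 2 ^ (Nat.log 2 (nm k) + 1) := fun k => by
      exact_mod_cast (Nat.lt_pow_succ_log_self one_lt_two (nm k)).le
    set Y' : ℝ := 2 ^ (p.2 + 1) with hY'
    have hY'1 : 1 ≤ Y' := one_le_pow₀ one_le_two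
    have hY'2 : Y' ≤ 2 * Y := by
      have h3 := hlow k₀ (mem_sball.1 hk₀.1.1).1.ne_zero
      have h4 := (mem_sball.1 hk₀.1.1).2
      rw [hY', ← hk₀.2, pow_succ]
      linarith
    refine (h1' ⟨p.1, (Finset.mem_product.1 hp).1⟩ Y' t L φ _ g hP hY'1 hL hφ
      fun k hk => ?_).trans ?_
    · simp only [Finset.mem_filter] at hk
      have hkS := (mem_sball.1 hk.1.1).1
      obtain ⟨-, b1, b2, b3⟩ := hg k hkS.ne_zero
      have e : rep k = p.1 := congrArg Prod.fst hk.2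
      refine ⟨mem_sball.2 ⟨hkS, ?_⟩, hk.1.2, ?_, b1, by simpa only [← e] using b2, b3⟩
      · rw [hY', ← hk.2]; exact hup k
      · have h3 := hlow k hkS.ne_zero
        rw [hY', ← hk.2, pow_succ]
        linarith
    · have h3 : Y' ^ 2 * (nm L : ℝ) ^ 2 / N ≤ X * 2 ^ 2 := by
        rw [hX, div_mul_eq_mul_div, mul_right_comm, ← mul_pow Y, mul_comm Y]
        gcongr
      have h4 := vc_num hδ hδ' (by positivity : 0 ≤ Y' ^ (6 / 5 : ℝ)) (by positivity) hX0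
        one_le_two h3
      have h5 : Y' ^ (6 / 5 : ℝ) ≤ 4 * Y ^ (6 / 5 : ℝ) := by
        calc _ ≤ (2 * Y) ^ (6 / 5 : ℝ) := by gcongr
          _ = 2 ^ (6 / 5 : ℝ) * Y ^ (6 / 5 : ℝ) := Real.mul_rpow zero_le_two hY0.le
          _ ≤ 2 ^ (2 : ℝ) * Y ^ (6 / 5 : ℝ) := by gcongr <;> norm_num
          _ = _ := by norm_num
      have h6 : Y' ^ (6 / 5 : ℝ) + X ^ (41 / 25 : ℝ) ≤ 4 * Z := by
        have : 0 ≤ X ^ (41 / 25 : ℝ) := by positivity
        rw [hZ]; linarith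
      gcongr ?_ * (1 + |t|) ^ m * nm L * N * ?_
      · exact hC01 _
      calc _ ≤ _ := h4
        _ ≤ X ^ δ * (4 * Z) * 2 ^ 4 := by gcongr
        _ = _ := by ring
  · rw [Finset.card_product, Finset.card_range, nsmul_eq_mul, Nat.cast_mul]
    have h3 : Y ^ δ * (Y * nm L) ^ (2 * δ) ≤ (Y * nm L) ^ ε := by
      calc _ ≤ (Y * nm L) ^ δ * (Y * nm L) ^ (2 * δ) := by
            gcongr
            exact le_mul_of_one_le_right hY0.le hnL
        _ = (Y * nm L) ^ (δ + 2 * δ) := (Real.rpow_add (by positivity) _ _).symm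
        _ ≤ _ := Real.rpow_le_rpow_of_exponent_le hYL (by linarith)
    calc _ ≤ (S.card + 1) * (C2 * Y ^ δ) *
          (C1 * (1 + |t|) ^ m * nm L * N * (64 * (B' * (Y * nm L) ^ (2 * δ) * Z))) := by
          gcongr
          exacts [le_add_of_nonneg_right zero_le_one, h2 Y hY]
      _ = (S.card + 1) * C2 * C1 * (64 * B') * (1 + |t|) ^ m * (Y ^ δ * (Y * nm L) ^ (2 * δ)) *
          nm L * N * Z := by ring
      _ ≤ _ := by gcongr

end Vale.Agent.P319
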