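import Vale.Agent.P319.N.LatDefs

/-! VOR: definitions shared by the files `N/Vor*.lean` (port of `P026/Vor*.lean`; read the P026 file of the same name first). -/

namespace Vale.Agent.P319

open scoped ComplexConjugate Real ContDiff
open MeasureTheory

variable {K : Type} [Field K] [NumberField K] [Stp K]

/-- the space of the auxiliary Fourier variable -/
abbrev EE (K : Type) [Field K] [NumberField K] [Stp K] : Type := EuclideanSpace ℂ (Pl K)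

/-- change of sign at the place `j` -/
noncomputable def flp (j : Pl K) : EE K ≃ₗᵢ[ℝ] EE K :=
  LinearIsometryEquiv.piLpCongrRight 2 fun i =>
    if i = j then LinearIsometryEquiv.neg ℝ else LinearIsometryEquiv.refl ℝ ℂ

theorem flp_apply (j : Pl K) (x : EE K) (i : Pl K) :
    flp j x i = if i = j then -x i else x i := by
  simp only [flp, LinearIsometryEquiv.piLpCongrRight_apply]
  split_ifs <;> simp [*]

theorem finrank_EE : Module.finrank ℝ (EE K) = 2 * rr K := by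
  rw [← Module.finrank_mul_finrank ℝ ℂ (EE K)]; simp

/-- the Bessel integral -/
noncomputable def VKr (y : ℝ) : ℝ :=
  ∫ t in Set.Ioi (0 : ℝ), t ^ (-2 / 3 : ℝ) * Real.exp (-(t + y / t))

/-- profile of the Whittaker function at `s = 4/3` -/
noncomputable def Wf (q : ℝ) : ℝ := π / Real.Gamma (4 / 3) * VKr (4 * π ^ 2 * q)

/-- smooth weight supported in the box `[1/T, T]^r` -/
def AdmG (T : ℝ) (G : (Pl K → ℝ) → ℝ) : Prop :=
  1 ≤ T ∧ ContDiff ℝ ∞ G ∧ ∀ y, G y ≠ 0 → ∀ i, 1 / T ≤ y i ∧ y i ≤ T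

/-- `f` represents the weight attached to `(G, t, b)` -/
def Repr (G : (Pl K → ℝ) → ℝ) (t : ℝ) (b : Pl K → ℝ) (f : EE K → ℂ) : Prop :=
  ∀ m : Pl K → ℂ, ∫ ξ, f ξ * ∏ i, ecc (m i * ξ i) =
    (∏ i, m i * Complex.exp ((Complex.I * t - 1 / 3) * Real.log (‖m i‖ ^ 2)) /
      (Wf (‖m i‖ ^ 2) : ℝ)) * (G fun i => b i * ‖m i‖ ^ 2 : ℝ)

/-- the archimedean weight of the Voronoi sum; the length is `P ^ r` -/
noncomputable def wt (G : (Pl K → ℝ) → ℝ) (t P : ℝ) (ν : R K) : ℂ :=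
  ang ν * (nK (ν : K) ^ (1 / 6 : ℝ) : ℝ) * Complex.exp (Complex.I * t * Real.log (nK (ν : K))) *
    (G fun i => ‖ev i (ν : K)‖ ^ 2 / P : ℝ)

/-- shape and size of theta coefficients -/
def ThCoef (a : ℕ) (C : ℝ) (τ : R K → ℂ) : Prop :=
  ∀ ν : R K, ν ≠ 0 → τ ν ≠ 0 → SIn 0 ((MM K : K) ^ a * ν) ∧ ∃ (u : (R K)ˣ) (c d : R K),
    IsS c ∧ Prim d ∧ ν = u * c * d ^ 3 ∧ ‖τ ν‖ ≤ C * (nm c : ℝ) ^ (-1 / 6 : ℝ)

/-- bounded coefficients supported on a lattice `M ^ (-a) 𝓞 K` -/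
def Grow (τ : R K → ℂ) : Prop :=
  ∃ (a : ℕ) (C : ℝ), ∀ ν, ‖τ ν‖ ≤ C ∧ (τ ν ≠ 0 → SIn 0 ((MM K : K) ^ a * ν))

/-- the three formal properties of the theta coefficients -/
structure VAut (ρ : (R K × R K → ℂ) → R K → ℂ) : Prop where
  aut : ∀ a Ψ, 10 ≤ a → Cls a (lev K a) Ψ → ∀ (g : SL2 K) (w : Hy K), Pos w →
    th (ρ Ψ) (act g w) = th (ρ fun r => Ψ (rmul r g⁻¹)) w
  smul : ∀ a Ψ, 10 ≤ a → Cls a (lev K a) Ψ → ∀ ζ : ℂ, ‖ζ‖ ≤ 1 → ∀ ν,
    ρ (fun r => ζ * Ψ r) ν = ζ * ρ Ψ ν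
  coef : ∀ a, 10 ≤ a → ∃ C : ℝ, ∀ Ψ, Cls a (lev K a) Ψ → ThCoef (a + 1) C (ρ Ψ)

/-- translation by `x` -/
noncomputable def shift (x : K) (w : Hy K) : Hy K := fun i => (ev i x + (w i).1, (w i).2)

/-- the point on the other side of the cusp with denominator `c` -/
noncomputable def dual (c : K) (w : Hy K) : Hy K := fun i =>
  (-(conj (w i).1 / (ev i c ^ 2 * ((‖(w i).1‖ ^ 2 + (w i).2 ^ 2 : ℝ) : ℂ))),
    (w i).2 / (‖ev i c‖ ^ 2 * (‖(w i).1‖ ^ 2 + (w i).2 ^ 2)))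

/-- normalised elements: the products of `ng n` with units in `EU` -/
def Nrm (x : R K) : Prop := x ≠ 0 ∧ InU ((x : K) / crep 10 x)

/-- periodic weights that are equivariant under `(R/L)ˣ` -/
def Eqv (L : R K) (φ : R K → ℂ) : Prop :=
  Per L φ ∧ (∀ n, ‖φ n‖ ≤ 1) ∧
    ∀ w, IsCoprime w L → ∃ η : ℂ, ‖η‖ = 1 ∧ ∀ n, φ (w * n) = η * φ n

end Vale.Agent.P319
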