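import Vale.Agent.P319.N.Count

/-! VOR: weighted form of the quadratic large sieve; a sum over ideals. -/

namespace Vale.Agent.P319

open scoped ComplexConjugate Real

variable {K : Type} [Field K] [NumberField K] [Stp K]

theorem qls_weighted (hq : QLSStmt K) {δ : ℝ} (hδ : 0 < δ) : ∃ C : ℝ, 0 < C ∧
    ∀ (Y : ℝ) (a : R K → ℂ) (s : Finset (R K)), 1 ≤ Y → (∀ n ∈ s, IsS n) →
      ∑ k ∈ sball K Y, ‖∑ n ∈ s, a n * quad n k‖ ^ 2 ≤
        C * ∑ n ∈ s, ‖a n‖ ^ 2 *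
          ((Y ^ (6 / 5 : ℝ) + (nm n : ℝ) ^ (41 / 25 : ℝ)) * (nm n : ℝ) ^ δ) := by
  classical
  obtain ⟨C, hC, h⟩ := hq
  obtain ⟨r, hr0, hr1, hr⟩ : ∃ r : ℝ, 0 < r ∧ r < 1 ∧ r = 2 ^ (-δ) :=
    ⟨_, by positivity, Real.rpow_lt_one_of_one_lt_of_neg one_lt_two (by linarith), rfl⟩
  have hr' : 0 < (1 - r)⁻¹ := inv_pos.2 (by linarith)
  refine ⟨(1 - r)⁻¹ * (4 * C), by positivity, fun Y a s hK hs => ?_⟩
  let g : R K → ℕ := fun n => Nat.log 2 (nm n)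
  have hg : ∀ n ∈ s, g n ∈ s.image g := fun n hn => Finset.mem_image_of_mem g hn
  have h1 : ∀ k, ‖∑ n ∈ s, a n * quad n k‖ ^ 2 ≤ (1 - r)⁻¹ *
      ∑ j ∈ s.image g, ‖∑ n ∈ s with g n = j, a n * quad n k‖ ^ 2 / r ^ j := fun k => by
    rw [← Finset.sum_fiberwise_of_maps_to hg]
    refine (pow_le_pow_left₀ (norm_nonneg _) (norm_sum_le _ _) 2).trans
      ((Finset.sum_sq_le_sum_mul_sum_of_sq_le_mul _ (f := fun j => r ^ j)
        (g := fun j => ‖∑ n ∈ s with g n = j, a n * quad n k‖ ^ 2 / r ^ j)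
        (fun _ _ => by positivity) (fun _ _ => by positivity) fun j _ => ?_).trans ?_)
    · rw [mul_div_cancel₀ _ (by positivity)]
    · gcongr
      exact sum_le_hasSum _ (fun _ _ => by positivity) (hasSum_geometric_of_lt_one hr0.le hr1)
  refine (Finset.sum_le_sum fun k _ => h1 k).trans ?_
  rw [← Finset.mul_sum, mul_assoc, Finset.sum_comm, ← Finset.sum_fiberwise_of_maps_to hg,
    Finset.mul_sum _ _ (4 * C)]
  gcongr with j hj
  have hsub : s.filter (g · = j) ⊆ sball K (2 ^ (j + 1)) := fun n hn => by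
    obtain ⟨h2, rfl⟩ := Finset.mem_filter.1 hn
    exact mem_sball.2 ⟨hs n h2, by exact_mod_cast (Nat.lt_pow_succ_log_self one_lt_two _).le⟩
  have h2 := h Y (2 ^ (j + 1)) (fun n => if n ∈ s.filter (g · = j) then a n else 0) hK
    (one_le_pow₀ one_le_two)
  simp only [ite_mul, zero_mul, apply_ite norm, norm_zero, ite_pow, zero_pow two_ne_zero,
    Finset.sum_ite_mem, Finset.inter_eq_right.2 hsub] at h2
  rw [← Finset.sum_div]
  refine (div_le_div_of_nonneg_right h2 (by positivity)).trans ?_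
  rw [Finset.mul_sum, Finset.sum_div, Finset.mul_sum]
  refine Finset.sum_le_sum fun n hn => ?_
  obtain ⟨h3, rfl⟩ := Finset.mem_filter.1 hn
  have h4 : (2 : ℝ) ^ g n ≤ nm n := by
    exact_mod_cast Nat.pow_log_le_self 2 (nm_pos (hs n h3).ne_zero).ne'
  have h5 : (r ^ g n)⁻¹ ≤ (nm n : ℝ) ^ δ := by
    rw [hr, rpow_pow_comm, Real.rpow_neg (by positivity), inv_inv]
    gcongr
  have h6 : ((2 : ℝ) ^ (g n + 1)) ^ (41 / 25 : ℝ) ≤ 4 * (nm n : ℝ) ^ (41 / 25 : ℝ) := by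
    rw [pow_succ', Real.mul_rpow two_pos.le (by positivity)]
    gcongr
    calc (2 : ℝ) ^ (41 / 25 : ℝ) ≤ 2 ^ (2 : ℝ) := by gcongr <;> norm_num
      _ = 4 := by norm_num
  have h7 : 0 ≤ Y ^ (6 / 5 : ℝ) := by positivity
  calc _ = C * ‖a n‖ ^ 2 * ((Y ^ (6 / 5 : ℝ) + (2 ^ (g n + 1)) ^ (41 / 25 : ℝ)) * (r ^ g n)⁻¹) := by
        ring
    _ ≤ C * ‖a n‖ ^ 2 * ((4 * Y ^ (6 / 5 : ℝ) + 4 * (nm n : ℝ) ^ (41 / 25 : ℝ)) *
        (nm n : ℝ) ^ δ) := by gcongr; linarith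
    _ = _ := by ring

theorem sum_weight {θ : ℝ} (h1 : -1 / 2 ≤ θ) (h2 : θ < 3) : ∃ C : ℝ, 0 < C ∧
    ∀ (L : ℝ) (s : Finset (R K)), 0 < L → (∀ n ∈ s, Prim n) →
      ∑ n ∈ s, (nm n : ℝ) ^ θ / (1 + nm n / L) ^ 4 ≤ C * L ^ (1 + θ) := by
  classical
  obtain ⟨C, hC, h⟩ := sum_rpow_le (K := K) (σ := 1 / 2) (by norm_num) (by norm_num)
  obtain ⟨D, hD, h'⟩ := sum_rpow_tail (K := K) (σ := 4 - θ) (by linarith)
  refine ⟨C + D, by positivity, fun L s hL hs => ?_⟩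
  rw [← Finset.sum_filter_add_sum_filter_not s (fun n => (nm n : ℝ) ≤ L), add_mul]
  refine add_le_add ?_ ?_
  · calc _ ≤ ∑ n ∈ s with (nm n : ℝ) ≤ L, L ^ (θ + 1 / 2) * (nm n : ℝ) ^ (-(1 / 2) : ℝ) := by
          refine Finset.sum_le_sum fun n hn => ?_
          obtain ⟨h3, h4⟩ := Finset.mem_filter.1 hn
          have h5 : (0 : ℝ) < nm n := one_pos.trans_le (one_le_nm (hs n h3).ne_zero)
          refine (div_le_self (by positivity) (one_le_pow₀ (le_add_of_nonneg_right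
            (by positivity)))).trans ?_
          rw [show (nm n : ℝ) ^ θ = nm n ^ (θ + 1 / 2) * nm n ^ (-(1 / 2) : ℝ) by
            rw [← Real.rpow_add h5]; congr 1; ring]
          gcongr
          linarith
      _ ≤ L ^ (θ + 1 / 2) * (C * L ^ (1 - 1 / 2 : ℝ)) := by
          rw [← Finset.mul_sum]
          gcongr
          exact (Finset.sum_le_sum_of_subset_of_nonneg (fun n hn => mem_pball.2
            ⟨hs n (Finset.mem_filter.1 hn).1, (Finset.mem_filter.1 hn).2⟩) fun _ _ _ => by positivity).trans (h L hL)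
      _ = _ := by
          rw [mul_left_comm, ← Real.rpow_add hL]
          congr 2; ring
  · calc _ ≤ ∑ n ∈ s with ¬(nm n : ℝ) ≤ L, L ^ (4 : ℝ) * (nm n : ℝ) ^ (-(4 - θ)) := by
          refine Finset.sum_le_sum fun n hn => ?_
          have h5 : (0 : ℝ) < nm n := nm_pos_real (hs n (Finset.mem_filter.1 hn).1).ne_zero
          calc _ ≤ (nm n : ℝ) ^ θ / (nm n / L) ^ 4 := by gcongr; linarith
            _ = _ := by
              rw [neg_sub, Real.rpow_sub h5, show (4 : ℝ) = (4 : ℕ) by norm_num, Real.rpow_natCast,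
                Real.rpow_natCast]
              field_simp
      _ ≤ L ^ (4 : ℝ) * (D * L ^ (1 - (4 - θ))) := by
          rw [← Finset.mul_sum]
          gcongr
          exact h' L _ hL fun n hn =>
            ⟨hs n (Finset.mem_filter.1 hn).1, not_le.1 (Finset.mem_filter.1 hn).2⟩
      _ = _ := by
          rw [mul_left_comm, ← Real.rpow_add hL]
          congr 2; ring

/-- one fibre of the dual sum -/
theorem db_fibre (hq : QLSStmt K) {δ : ℝ} (hδ : 0 < δ) (hδ' : δ ≤ 1 / 3) : ∃ C : ℝ, 0 < C ∧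
    ∀ (Y L A D : ℝ) (c : R K → ℂ) (s : Finset (R K)), 1 ≤ Y → 0 < L → 1 ≤ D →
      (∀ x ∈ s, IsS x ∧ ‖c x‖ ≤ A * (nm x : ℝ) ^ (-1 / 6 : ℝ) *
        ((nm x * D / L) ^ (-(1 / 12) : ℝ) / (1 + nm x * D / L) ^ 2)) →
      ∑ k ∈ sball K Y, ‖∑ x ∈ s, c x * quad x k‖ ^ 2 ≤ C * A ^ 2 * D ^ (-(2 / 3 + δ)) *
        (L ^ (2 / 3 + δ) * (Y ^ (6 / 5 : ℝ) + L ^ (41 / 25 : ℝ))) := by
  classical
  obtain ⟨CQ, hCQ, hQ⟩ := qls_weighted hq hδ
  obtain ⟨C1, hC1, h1⟩ := sum_weight (K := K) (θ := δ - 1 / 2) (by linarith) (by linarith)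
  obtain ⟨C2, hC2, h2⟩ :=
    sum_weight (K := K) (θ := δ - 1 / 2 + 41 / 25) (by linarith) (by linarith)
  refine ⟨CQ * (C1 + C2), by positivity, fun Y L A D c s hY hL hD hs => ?_⟩
  have hD0 : (0 : ℝ) < D := by linarith
  have h0 : ∀ x ∈ s, Prim x := fun x hx => (hs x hx).1.1
  set L' := L / D with hL'
  have hL'0 : 0 < L' := by positivity
  have h3 := h1 L' _ hL'0 h0
  have h4 := h2 L' _ hL'0 h0
  have h5 : L' ^ (1 / 6 : ℝ) * L' ^ (1 / 2 + δ) = D ^ (-(2 / 3 + δ)) * L ^ (2 / 3 + δ) := by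
    rw [← Real.rpow_add hL'0, show 1 / 6 + (1 / 2 + δ) = 2 / 3 + δ by ring, hL',
      Real.div_rpow hL.le hD0.le, Real.rpow_neg hD0.le, div_eq_inv_mul]
  have h6 : L' ^ (41 / 25 : ℝ) ≤ L ^ (41 / 25 : ℝ) :=
    Real.rpow_le_rpow hL'0.le (div_le_self hL.le hD) (by norm_num)
  rw [show 1 + (δ - 1 / 2) = 1 / 2 + δ by ring] at h3
  rw [show 1 + (δ - 1 / 2 + 41 / 25) = 1 / 2 + δ + 41 / 25 by ring, Real.rpow_add hL'0] at h4
  have h7 : 0 ≤ Y ^ (6 / 5 : ℝ) := by positivity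
  have h8 : 0 ≤ L ^ (41 / 25 : ℝ) := by positivity
  calc _ ≤ _ := hQ Y c s hY fun x hx => (hs x hx).1
    _ ≤ CQ * ∑ x ∈ s, A ^ 2 * L' ^ (1 / 6 : ℝ) * (Y ^ (6 / 5 : ℝ) *
          ((nm x : ℝ) ^ (δ - 1 / 2) / (1 + nm x / L') ^ 4) +
          (nm x : ℝ) ^ (δ - 1 / 2 + 41 / 25) / (1 + nm x / L') ^ 4) := by
        refine mul_le_mul_of_nonneg_left (Finset.sum_le_sum fun x hx => ?_) hCQ.le
        have hx0 : (0 : ℝ) < nm x := nm_pos_real (h0 x hx).ne_zero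
        have e2 := (hs x hx).2
        have e3 : (nm x : ℝ) * D / L = nm x / L' := by
          rw [hL']
          field_simp
        rw [e3] at e2
        have e4 : ((nm x : ℝ) ^ (-1 / 6 : ℝ) * (nm x / L') ^ (-(1 / 12) : ℝ)) ^ 2 *
            (nm x : ℝ) ^ δ = L' ^ (1 / 6 : ℝ) * (nm x : ℝ) ^ (δ - 1 / 2) := by
          simp only [Real.rpow_def_of_pos hx0, Real.rpow_def_of_pos hL'0,
            Real.rpow_def_of_pos (div_pos hx0 hL'0), Real.log_div hx0.ne' hL'0.ne',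
            ← Real.exp_add, ← Real.exp_nat_mul]
          congr 1
          push_cast
          ring
        calc _ ≤ (A * (nm x : ℝ) ^ (-1 / 6 : ℝ) *
              ((nm x / L') ^ (-(1 / 12) : ℝ) / (1 + nm x / L') ^ 2)) ^ 2 *
              ((Y ^ (6 / 5 : ℝ) + (nm x : ℝ) ^ (41 / 25 : ℝ)) * (nm x : ℝ) ^ δ) := by
              gcongr
          _ = A ^ 2 * (((nm x : ℝ) ^ (-1 / 6 : ℝ) * (nm x / L') ^ (-(1 / 12) : ℝ)) ^ 2 *
              (nm x : ℝ) ^ δ) * (Y ^ (6 / 5 : ℝ) + (nm x : ℝ) ^ (41 / 25 : ℝ)) /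
              (1 + nm x / L') ^ 4 := by
              field_simp
          _ = _ := by
              rw [e4, Real.rpow_add hx0 (δ - 1 / 2)]
              field_simp
    _ ≤ CQ * (A ^ 2 * L' ^ (1 / 6 : ℝ) * (Y ^ (6 / 5 : ℝ) * (C1 * L' ^ (1 / 2 + δ)) +
          C2 * (L' ^ (1 / 2 + δ) * L ^ (41 / 25 : ℝ)))) := by
        rw [← Finset.mul_sum, Finset.sum_add_distrib, ← Finset.mul_sum]
        gcongr
        exact h4.trans (by gcongr)
    _ = CQ * A ^ 2 * (L' ^ (1 / 6 : ℝ) * L' ^ (1 / 2 + δ)) *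
          (C1 * Y ^ (6 / 5 : ℝ) + C2 * L ^ (41 / 25 : ℝ)) := by ring
    _ ≤ CQ * A ^ 2 * (D ^ (-(2 / 3 + δ)) * L ^ (2 / 3 + δ)) *
          ((C1 + C2) * (Y ^ (6 / 5 : ℝ) + L ^ (41 / 25 : ℝ))) := by
        rw [h5]
        gcongr
        nlinarith [mul_nonneg hC1.le h8, mul_nonneg hC2.le h7]
    _ = _ := by ring

end Vale.Agent.P319
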