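import Vale.Agent.P319.N.VorDefs
import Vale.Agent.P319.N.WhBasic

/-! VOR: the Whittaker function at `s = 4/3`. -/

namespace Vale.Agent.P319

open scoped ComplexConjugate Real ContDiff
open MeasureTheory Filter

theorem Wf_eq_Kr (q : ℝ) : Wf q = π / Real.Gamma (4 / 3) * Kr (4 * π ^ 2 * q) := rfl

theorem Wh_eq_Wf (ξ : ℂ) {v : ℝ} (hv : 0 < v) :
    Wh (4 / 3) ξ v = ((v ^ (2 / 3 : ℝ) * Wf (‖ξ‖ ^ 2 * v ^ 2) : ℝ) : ℂ) := by
  rw [Wh_four_thirds ξ hv, Wr, Wf_eq_Kr,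
    show (2 * π) ^ 2 * ‖ξ‖ ^ 2 * v ^ 2 = 4 * π ^ 2 * (‖ξ‖ ^ 2 * v ^ 2) by ring]
  congr 1
  ring

theorem Wf_const_pos : 0 < π / Real.Gamma (4 / 3) := div_pos Real.pi_pos WhBasic_G

theorem Wf_pos {q : ℝ} (hq : 0 ≤ q) : 0 < Wf q :=
  mul_pos Wf_const_pos (Kr_pos (by positivity))

theorem Wf_le : ∃ C : ℝ, 0 < C ∧ ∀ q : ℝ, 0 ≤ q → Wf q ≤ C / (1 + q) ^ 3 := by
  obtain ⟨C, hC, h⟩ := Kr_decay 3
  have hc : 0 < 4 * π ^ 2 := by positivity
  have h0 := Kr_pos le_rfl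
  have h1 := Wf_const_pos
  refine ⟨π / Real.Gamma (4 / 3) * (8 * (Kr 0 + C / (4 * π ^ 2) ^ 3)), by positivity,
    fun q hq => ?_⟩
  rw [Wf_eq_Kr, mul_div_assoc]
  gcongr
  rw [le_div_iff₀ (by positivity)]
  have h2 : 0 < C / (4 * π ^ 2) ^ 3 := by positivity
  rcases le_total q 1 with h3 | h3
  · have h4 := Kr_anti le_rfl (show 0 ≤ 4 * π ^ 2 * q by positivity)
    calc _ ≤ Kr 0 * (1 + 1) ^ 3 := by gcongr
      _ ≤ _ := by linarith
  · have h4 := h _ (show 0 < 4 * π ^ 2 * q by positivity)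
    calc _ ≤ C / (4 * π ^ 2 * q) ^ 3 * (q + q) ^ 3 := by gcongr
      _ = 8 * (C / (4 * π ^ 2) ^ 3) := by field_simp; ring
      _ ≤ _ := by linarith

theorem vw_diff : DifferentiableOn ℂ (fun q : ℂ => ∫ t in Set.Ioi (0 : ℝ),
    ((t ^ (-2 / 3 : ℝ) : ℝ) : ℂ) * Complex.exp (-(t + q / t))) {q | 0 < q.re} := by
  intro q hq
  have hq : 0 < q.re := hq
  have hn : ∀ (s : ℂ) {t : ℝ}, 0 < t → ‖((t ^ (-2 / 3 : ℝ) : ℝ) : ℂ) * Complex.exp (-(t + s / t))‖ =
      t ^ (-2 / 3 : ℝ) * Real.exp (-(t + s.re / t)) := fun s t ht => by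
    rw [norm_mul, Complex.norm_real, Real.norm_of_nonneg (by positivity), Complex.norm_exp]
    simp only [Complex.neg_re, Complex.add_re, Complex.ofReal_re, Complex.div_ofReal_re]
  refine (hasDerivAt_integral_of_dominated_loc_of_deriv_le (μ := volume.restrict (Set.Ioi 0))
    (F := fun (s : ℂ) (t : ℝ) => ((t ^ (-2 / 3 : ℝ) : ℝ) : ℂ) * Complex.exp (-(t + s / t)))
    (F' := fun (s : ℂ) (t : ℝ) => ((t ^ (-2 / 3 : ℝ) : ℝ) : ℂ) * Complex.exp (-(t + s / t)) * -(1 / t))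
    (bound := fun t => t ^ (-2 / 3 : ℝ) * Real.exp (-(t + 0 / t)) * (2 / q.re))
    (Metric.ball_mem_nhds q (half_pos hq))
    (Eventually.of_forall fun s => Measurable.aestronglyMeasurable (by fun_prop)) ?_
    (Measurable.aestronglyMeasurable (by fun_prop)) ?_ (WhBasic_int.mul_const _)
    (Eventually.of_forall fun t s _ => ?_)).2.differentiableAt.differentiableWithinAt
  · refine (integrableOn_Kr hq.le).mono' (Measurable.aestronglyMeasurable (by fun_prop)) ?_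
    filter_upwards [ae_restrict_mem measurableSet_Ioi] with t ht using (hn q ht).le
  · filter_upwards [ae_restrict_mem measurableSet_Ioi] with t ht s hs
    have ht' : 0 < t := ht
    have h1 := (abs_le.1 (Complex.abs_re_le_norm (s - q))).1
    rw [Metric.mem_ball, dist_eq_norm] at hs
    rw [Complex.sub_re] at h1
    have h2 : Real.exp (-(s.re / t)) * (1 / t) ≤ 2 / q.re := by
      have h3 : q.re / 2 / t ≤ Real.exp (s.re / t) :=
        (by gcongr; linarith : q.re / 2 / t ≤ s.re / t).trans (by linarith [Real.add_one_le_exp (s.re / t)])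
      rw [Real.exp_neg]
      calc _ ≤ (q.re / 2 / t)⁻¹ * (1 / t) := by gcongr
        _ = _ := by field_simp
    rw [norm_mul, hn s ht', norm_neg, norm_div, norm_one, Complex.norm_real,
      Real.norm_of_nonneg ht'.le, zero_div, add_zero, neg_add, Real.exp_add, ← mul_assoc, mul_assoc]
    gcongr
  · have h := ((((hasDerivAt_id s).div_const (t : ℂ)).const_add (t : ℂ)).neg.cexp).const_mul
      ((t ^ (-2 / 3 : ℝ) : ℝ) : ℂ)
    simpa only [id, mul_assoc, Pi.neg_apply] using h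

theorem vw_smooth : ContDiffOn ℝ ∞ Kr (Set.Ioi 0) := by
  have hU : IsOpen {q : ℂ | 0 < q.re} := isOpen_lt continuous_const Complex.continuous_re
  refine (Complex.reCLM.contDiff.comp_contDiffOn
    (((vw_diff.contDiffOn hU).restrict_scalars ℝ).comp
    Complex.ofRealCLM.contDiff.contDiffOn fun y hy => hy)).congr fun y _ => ?_
  simp only [Function.comp, Complex.ofRealCLM_apply, Complex.reCLM_apply, Kr]
  rw [← Complex.ofReal_re (∫ t in Set.Ioi (0 : ℝ), _), ← integral_complex_ofReal]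
  push_cast
  rfl

theorem Wf_smooth : ContDiffOn ℝ ∞ Wf (Set.Ioi 0) := by
  have hc : 0 < 4 * π ^ 2 := by positivity
  exact contDiffOn_const.mul (vw_smooth.comp (contDiff_const.mul contDiff_id).contDiffOn
    fun q hq => mul_pos hc hq)

end Vale.Agent.P319
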