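import Vale.Agent.P319.N.VorFourA
import Vale.Agent.P319.N.VorWh

/-! VOR: the test function, by Fourier inversion on `EE K`. -/

namespace Vale.Agent.P319

open scoped ComplexConjugate Real ContDiff FourierTransform RealInnerProductSpace

variable {K : Type} [Field K] [NumberField K] [Stp K]

theorem vfb_cut {B : ℝ} (hB : 1 ≤ B) {g : ℝ → ℝ} (hg : ContDiffOn ℝ ∞ g (Set.Ioi 0)) :
    ContDiff ℝ ∞ fun x => Real.smoothTransition (2 * B * x - 1) * g x := by
  have hs : ContDiff ℝ ∞ fun x => Real.smoothTransition (2 * B * x - 1) :=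
    Real.smoothTransition.contDiff.comp ((contDiff_const.mul contDiff_id).sub contDiff_const)
  refine contDiff_iff_contDiffAt.2 fun x => ?_
  rcases lt_or_ge 0 x with hx | hx
  · exact hs.contDiffAt.mul (hg.contDiffAt (Ioi_mem_nhds hx))
  · refine (contDiffAt_const (c := (0 : ℝ))).congr_of_eventuallyEq ?_
    have : x < 1 / (2 * B) := hx.trans_lt (by positivity)
    filter_upwards [Iio_mem_nhds this] with y hy
    have hy' : y * (2 * B) < 1 := (lt_div_iff₀ (by positivity)).1 hy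
    rw [Real.smoothTransition.zero_of_nonpos (by linarith), zero_mul]

theorem vfb_inv {Φ : EE K → ℂ} (hc : Continuous Φ) (hs : HasCompactSupport Φ) (j : Pl K)
    (ho : ∀ p, Φ (flp j p) = -Φ p) {C : ℝ}
    (hC : ∀ ξ, ‖𝓕 Φ ξ‖ ≤ C / (1 + ‖ξ‖ ^ 2) ^ (rr K + 1)) :
    Continuous (𝓕 Φ) ∧ (∀ ξ, 𝓕 Φ (flp j ξ) = -𝓕 Φ ξ) ∧
      ∀ p, ∫ ξ, 𝓕 Φ ξ * Complex.exp (↑(2 * π * ⟪ξ, p⟫) * Complex.I) = Φ p := by
  have hi : MeasureTheory.Integrable Φ := hc.integrable_of_hasCompactSupport hs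
  have hcont : Continuous (𝓕 Φ) :=
    VectorFourier.fourierIntegral_continuous Real.continuous_fourierChar
      (by simpa using continuous_inner (𝕜 := ℝ) (E := EE K)) hi
  have hi2 : MeasureTheory.Integrable (𝓕 Φ) := by
    refine ((integrable_rpow_neg_one_add_norm_sq (E := EE K) (μ := MeasureTheory.volume)
      (r := 2 * (rr K + 1 : ℕ)) (by rw [finrank_EE]; push_cast; linarith)).const_mul C).mono'
      hcont.aestronglyMeasurable (Filter.Eventually.of_forall fun ξ => (hC ξ).trans_eq ?_)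
    rw [show (-(2 * ((rr K + 1 : ℕ) : ℝ)) / 2 : ℝ) = -(rr K + 1 : ℕ) by ring,
      Real.rpow_neg (by positivity), Real.rpow_natCast, div_eq_mul_inv]
  refine ⟨hcont, fun ξ => ?_, fun p => ?_⟩
  · rw [← Real.fourier_comp_linearIsometry]
    simp only [Function.comp, ho, Real.fourier_eq, smul_neg, MeasureTheory.integral_neg]
  · rw [← congrFun (hc.fourierInv_fourier_eq hi hi2) p, Real.fourierInv_eq']
    simp only [smul_eq_mul, mul_comm]

theorem vfb_ecc (m : Pl K → ℂ) (ξ : EE K) : ∏ i, ecc (m i * ξ i) =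
    Complex.exp (↑(2 * π * ⟪ξ, (WithLp.toLp 2 fun i => 2 * conj (m i) : EE K)⟫) * Complex.I) := by
  simp only [ecc, ← Complex.exp_sum, PiLp.inner_apply, Complex.inner, Finset.mul_sum,
    Complex.ofReal_sum, Finset.sum_mul]
  refine congrArg _ (Finset.sum_congr rfl fun i _ => ?_)
  have : (2 * conj (m i) * conj (ξ i)).re = 2 * (m i * ξ i).re := by
    simp
    ring
  rw [this]
  push_cast
  ring

theorem vor_fourier {T T' : ℝ} {G : (Pl K → ℝ) → ℝ} (hG : AdmG T G) (hT' : 1 ≤ T') (j : Pl K)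
    (n : ℕ) : ∃ C : ℝ, 0 < C ∧ ∀ (t : ℝ) (b : Pl K → ℝ), (∀ i, 1 / T' ≤ b i ∧ b i ≤ T') →
      ∃ f : EE K → ℂ, Continuous f ∧ (∀ ξ, f (flp j ξ) = -f ξ) ∧
        (∀ ξ, ‖f ξ‖ ≤ C * (1 + |t|) ^ (2 * n) / (1 + ‖ξ‖ ^ 2) ^ n) ∧ Repr G t b f := by
  obtain ⟨hT, hGs, hGT⟩ := hG
  have hB : 1 ≤ T * T' := one_le_mul_of_one_le_of_one_le hT hT'
  let x : EE K → Pl K → ℝ := fun p i => ‖p i‖ ^ 2 / 4
  have hp : ∀ i, ContDiff ℝ ∞ fun p : EE K => p i := fun i => contDiff_piLp_apply 2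
  have hx : ∀ i, ContDiff ℝ ∞ fun p => x p i := fun i =>
    ((contDiff_norm_sq ℝ).comp (hp i)).div_const _
  let l : ℝ → ℝ := fun y => Real.smoothTransition (2 * (T * T') * y - 1) * Real.log y
  let w : ℝ → ℝ := fun y => Real.smoothTransition (2 * (T * T') * y - 1) * (Wf y)⁻¹
  have hl : ContDiff ℝ ∞ l :=
    vfb_cut hB (Real.contDiffOn_log.mono fun y hy => ne_of_gt hy)
  have hw : ContDiff ℝ ∞ w :=
    vfb_cut hB (Wf_smooth.inv fun y hy => (Wf_pos (le_of_lt hy)).ne')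
  let F : (Pl K → ℝ) × EE K → ℂ := fun q => (∏ i, conj (q.2 i) / 2 *
    Complex.exp (-1 / 3 * l (x q.2 i)) * w (x q.2 i)) * G fun i => q.1 i * x q.2 i
  let L : EE K → ℝ := fun p => ∑ i, l (x p i)
  have hL : ContDiff ℝ ∞ L := ContDiff.sum fun i _ => hl.comp (hx i)
  have hx2 : ∀ i, ContDiff ℝ ∞ fun q : (Pl K → ℝ) × EE K => x q.2 i := fun i =>
    (hx i).comp contDiff_snd
  have hF : ContDiff ℝ ∞ F :=
    (contDiff_prod fun i _ =>
      (((Complex.conjCLE.contDiff.comp ((hp i).comp contDiff_snd)).div_const _).mul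
      (contDiff_const.mul (Complex.ofRealCLM.contDiff.comp (hl.comp (hx2 i)))).cexp).mul
      (Complex.ofRealCLM.contDiff.comp (hw.comp (hx2 i)))).mul
      (Complex.ofRealCLM.contDiff.comp (hGs.comp (contDiff_pi.2 fun i =>
        ((contDiff_apply ℝ ℝ i).comp contDiff_fst).mul (hx2 i))))
  have hS : IsCompact (Set.pi Set.univ fun _ : Pl K => Set.Icc (1 / T') T') :=
    isCompact_univ_pi fun _ => isCompact_Icc
  have hs : ∀ b ∈ Set.pi Set.univ fun _ : Pl K => Set.Icc (1 / T') T', ∀ p, F (b, p) ≠ 0 →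
      ‖p‖ ≤ 1 + rr K * (4 * (T * T')) := by
    intro b hb p hp
    have h1 : G (fun i => b i * x p i) ≠ 0 := fun h => hp (by simp [F, h])
    have h4 : ∀ i, ‖p i‖ ^ 2 ≤ 4 * (T * T') := fun i => by
      have h2 := (hGT _ h1 i).2
      have h3 : 1 ≤ b i * T' := (div_le_iff₀ (by positivity)).1 (hb i trivial).1
      have h5 : 0 ≤ x p i := by positivity
      have h6 : x p i ≤ T * T' := by nlinarith
      simp only [x] at h6
      linarith
    have h5 : ‖p‖ ^ 2 ≤ rr K * (4 * (T * T')) := by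
      rw [EuclideanSpace.norm_sq_eq]
      refine (Finset.sum_le_sum fun i _ => h4 i).trans_eq ?_
      rw [Finset.sum_const, nsmul_eq_mul, Finset.card_univ]
    nlinarith [norm_nonneg p, sq_nonneg (‖p‖ - 1)]
  obtain ⟨C, hC, h⟩ := vor_decay F L hF hL hS _ hs n
  obtain ⟨C', -, h'⟩ := vor_decay F L hF hL hS _ hs (rr K + 1)
  refine ⟨C, hC, fun t b hb0 => ?_⟩
  have hb : b ∈ Set.pi Set.univ fun _ : Pl K => Set.Icc (1 / T') T' := fun i _ => hb0 i
  set Φ := fun p : EE K => Complex.exp (Complex.I * t * L p) * F (b, p) with hΦ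
  have hcΦ : Continuous Φ :=
    (continuous_const.mul (Complex.continuous_ofReal.comp hL.continuous)).cexp.mul
      (hF.continuous.comp (Continuous.prodMk_right b))
  have hsΦ : HasCompactSupport Φ :=
    HasCompactSupport.intro (isCompact_closedBall 0 (1 + rr K * (4 * (T * T')))) fun p hp => by
      by_contra h0
      exact hp (mem_closedBall_zero_iff.2 (hs b hb p (right_ne_zero_of_mul h0)))
  have hoΦ : ∀ p, Φ (flp j p) = -Φ p := fun p => by
    have e1 : x (flp j p) = x p := by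
      funext i
      simp only [x, flp_apply]
      split_ifs <;> simp
    have e2 : ∀ i, conj (flp j p i) = (if i = j then -1 else 1) * conj (p i) := fun i => by
      rw [flp_apply]
      split_ifs <;> simp
    simp only [hΦ, F, L, e1, e2, mul_div_assoc, mul_assoc, Finset.prod_mul_distrib,
      Finset.prod_ite_eq', Finset.mem_univ, if_true]
    ring
  obtain ⟨h1, h2, h3⟩ := vfb_inv hcΦ hsΦ j hoΦ (h' t b hb)
  refine ⟨𝓕 Φ, h1, h2, h t b hb, fun m => ?_⟩
  have e2 : x (WithLp.toLp 2 fun i => 2 * conj (m i)) = fun i => ‖m i‖ ^ 2 := by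
    funext i
    simp only [x, norm_mul, Complex.norm_conj, Complex.norm_two]
    ring
  simp only [vfb_ecc]
  rw [h3]
  simp only [hΦ, F, L, e2]
  by_cases h0 : G (fun i => b i * ‖m i‖ ^ 2) = 0
  · simp [h0]
  have h5 : ∀ i, 1 ≤ 2 * (T * T') * ‖m i‖ ^ 2 - 1 := fun i => by
    have h6 : 1 ≤ b i * ‖m i‖ ^ 2 * T := (div_le_iff₀ (by positivity)).1 (hGT _ h0 i).1
    nlinarith [mul_nonneg (sub_nonneg.2 (hb0 i).2)
      (mul_nonneg (sq_nonneg ‖m i‖) (by linarith : 0 ≤ T))]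
  simp only [l, w, fun i => Real.smoothTransition.one_of_one_le (h5 i), one_mul]
  rw [← mul_assoc, Complex.ofReal_sum, Finset.mul_sum, Complex.exp_sum, ← Finset.prod_mul_distrib]
  refine congrArg (· * _) (Finset.prod_congr rfl fun i _ => ?_)
  rw [sub_mul, sub_eq_add_neg, Complex.exp_add]
  simp only [map_mul, map_ofNat, Complex.conj_conj, Complex.ofReal_inv]
  rw [show -(1 / 3 * (Real.log (‖m i‖ ^ 2) : ℂ)) = -1 / 3 * (Real.log (‖m i‖ ^ 2) : ℂ) by ring]
  ring

end Vale.Agent.P319
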