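import Vale.Agent.P319.N.VorLib

/-! VOR: from sums over ideals to sums over elements with a smooth weight. -/

namespace Vale.Agent.P319

open scoped ComplexConjugate Real ContDiff

variable {K : Type} [Field K] [NumberField K] [Stp K]

theorem vg_exists {B : ℝ} {V : ℝ → ℝ} (hV : Adm B V) : ∃ (T : ℝ) (G : (Pl K → ℝ) → ℝ), AdmG T G ∧
    (∀ y, G y ≠ 0 → V (∏ i, y i) ≠ 0) ∧ ∀ y : Pl K → ℝ, (∀ i, 0 < y i) →
      HasSum (fun u : EU K => G fun i => ‖ev i ((u.1 : R K) : K)‖ ^ 2 * y i) (V (∏ i, y i)) := by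
  classical
  obtain ⟨ϖ, hs, hc, hp⟩ := vl_pou (K := K)
  obtain ⟨hB, hVs, hVb⟩ := hV
  obtain ⟨T₀, hT₀⟩ := hc.isCompact.exists_bound_of_continuousOn
    (f := fun t : HH K => fun v => ex t v) (continuous_pi continuous_ex).continuousOn
  set G : (Pl K → ℝ) → ℝ := fun y =>
    if ∀ i, 0 < y i then V (∏ i, y i) * ϖ (pr fun i => Real.log (y i)) else 0 with hG
  have hL : 0 ≤ Real.log B := Real.log_nonneg hB
  have hne : ∀ y, G y ≠ 0 → (∀ i, 0 < y i) ∧ V (∏ i, y i) ≠ 0 ∧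
      ϖ (pr fun i => Real.log (y i)) ≠ 0 := by
    intro y hy
    by_cases h : ∀ i, 0 < y i
    · simp only [hG, if_pos h] at hy
      exact ⟨h, mul_ne_zero_iff.1 hy⟩
    · exact absurd (if_neg h) hy
  have hbox : ∀ y, G y ≠ 0 → ∀ i, 1 / Real.exp (|T₀| + Real.log B) ≤ y i ∧
      y i ≤ Real.exp (|T₀| + Real.log B) := by
    intro y hy i
    obtain ⟨h0, h1, h2⟩ := hne y hy
    have h3 : |ex (pr fun i => Real.log (y i)) i| ≤ |T₀| :=
      ((norm_le_pi_norm (fun v => ex (pr fun i => Real.log (y i)) v) i).trans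
        (hT₀ _ (subset_tsupport _ h2))).trans (le_abs_self _)
    have hB0 : 0 < B := by linarith
    have h4 : |∑ v, Real.log (y v)| ≤ Real.log B := by
      rw [← Real.log_prod fun v _ => (h0 v).ne', abs_le, ← Real.log_inv, ← one_div]
      exact ⟨Real.log_le_log (by positivity) (hVb _ h1).1,
        Real.log_le_log (Finset.prod_pos fun v _ => h0 v) (hVb _ h1).2⟩
    have h5 : |(∑ v, Real.log (y v)) / rr K| ≤ Real.log B := by
      rw [abs_div, Nat.abs_cast]
      exact (div_le_self (abs_nonneg _) (Nat.one_le_cast.2 rr_pos)).trans h4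
    rw [ex_pr] at h3
    obtain ⟨a1, a2⟩ := abs_le.1 h3
    obtain ⟨a3, a4⟩ := abs_le.1 h5
    rw [one_div, ← Real.exp_neg, ← Real.le_log_iff_exp_le (h0 i),
      ← Real.log_le_iff_le_exp (h0 i)]
    constructor <;> linarith
  refine ⟨Real.exp (|T₀| + Real.log B), G, ⟨Real.one_le_exp (by positivity),
    contDiff_iff_contDiffAt.2 fun y => ?_, hbox⟩, fun y hy => (hne y hy).2.1, fun y hy => ?_⟩
  · by_cases h : ∀ i, 0 < y i
    · have h1 : ∀ᶠ z in nhds y, ∀ i, 0 < z i := Filter.eventually_all.2 fun i =>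
        (continuous_apply i).continuousAt.eventually (lt_mem_nhds (h i))
      refine ContDiffAt.congr_of_eventuallyEq (f := fun z : Pl K → ℝ =>
        V (∏ i, z i) * ϖ (pr fun i => Real.log (z i))) ?_ (h1.mono fun z hz => if_pos hz)
      refine (hVs.contDiffAt.comp y (contDiffAt_prod fun i _ => contDiffAt_apply _ _ _ _)).mul
        ((hs.comp contDiff_pr).contDiffAt.comp y (contDiffAt_pi.2 fun i => ?_))
      exact (contDiffAt_apply _ _ i y).log (h i).ne'
    · obtain ⟨i, hi⟩ := not_forall.1 h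
      have h1 : ∀ᶠ z in nhds y, z i < 1 / Real.exp (|T₀| + Real.log B) :=
        (continuous_apply i).continuousAt.eventually (gt_mem_nhds
          ((not_lt.1 hi).trans_lt (by positivity)))
      exact (contDiffAt_const (c := (0 : ℝ))).congr_of_eventuallyEq
        (h1.mono fun z hz => by_contra fun k => (hbox z k i).1.not_gt hz)
  · have h1 := (hp (pr fun i => Real.log (y i))).mul_left (V (∏ i, y i))
    rw [mul_one] at h1
    refine h1.congr_fun fun u => ?_
    have h2 : ∀ i, 0 < ‖ev i ((u.1 : R K) : K)‖ ^ 2 := fun i =>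
      pow_pos (norm_pos_iff.2 (ev_ne_zero i (coe_unit_ne_zero u.1))) 2
    simp only [hG]
    rw [if_pos fun i => mul_pos (h2 i) (hy i), Finset.prod_mul_distrib, prod_norm_ev, nK_EU u.2,
      one_mul, lgH, ← pr_add]
    refine congrArg (fun t => _ * ϖ (pr t)) (funext fun i => ?_)
    rw [Real.log_mul (h2 i).ne' (hy i).ne', add_comm]
    rfl

theorem nrm_iff {x : R K} : Nrm x ↔ x ≠ 0 ∧ ∃ u ∈ EU K, x = (u : R K) * ng x := by
  refine and_congr_right fun hx => ⟨ng_unique (Associated.refl x), fun ⟨u, hu, e⟩ => ?_⟩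
  have h := InUq.mul (mem_EU.1 hu) (inU_ng hx)
  rwa [← mul_div_assoc, ← map_mul, ← e] at h

theorem vg_prod {x : R K} (hx : x ≠ 0) {N : ℝ} (hN : 0 < N) :
    ∏ i, ‖ev i (x : K)‖ ^ 2 / (N * NS x) ^ (1 / (rr K : ℝ)) = nm x / N := by
  have h := NS_pos hx
  rw [Finset.prod_div_distrib, prod_norm_ev, Finset.prod_const, Finset.card_univ, one_div,
    Real.rpow_inv_natCast_pow (by positivity) rr_pos.ne', nK_eq_nm_mul]
  field_simp

theorem exists_G {B : ℝ} {V : ℝ → ℝ} (hV : Adm B V) : ∃ (T : ℝ) (G : (Pl K → ℝ) → ℝ), AdmG T G ∧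
    ∀ (F : R K → ℂ) (N : ℝ), 0 < N → (∀ u ∈ EU K, ∀ x, F ((u : R K) * x) = F x) →
      HasSum (fun x : R K => ind (Nrm x) * F x *
          (G fun i => ‖ev i (x : K)‖ ^ 2 / (N * NS x) ^ (1 / (rr K : ℝ)) : ℝ))
        (∑ n ∈ pball K (B * N), F (ng n) * V (nm n / N)) := by
  classical
  obtain ⟨T, G, h1, h2, h3⟩ := vg_exists (K := K) hV
  refine ⟨T, G, h1, fun F N hN hF => ?_⟩
  set H : R K → ℂ := fun x =>
    F x * (G fun i => ‖ev i (x : K)‖ ^ 2 / (N * NS x) ^ (1 / (rr K : ℝ)) : ℝ) with hH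
  have key : ∀ n ∈ pball K (B * N),
      HasSum (fun x => ind (∃ u ∈ EU K, x = (u : R K) * ng n) * H x)
        (F (ng n) * V (nm n / N)) := by
    intro n hn
    have hn0 := ng_ne_zero (mem_pball.1 hn).1.1
    have hi : Function.Injective fun u : EU K => (u.1 : R K) * ng n := fun u v e =>
      Subtype.ext (Units.ext (mul_right_cancel₀ hn0 e))
    refine (hi.hasSum_iff fun x hx => ?_).1 ?_
    · rw [ind_of_not fun ⟨u, hu, e⟩ => hx ⟨⟨u, hu⟩, e.symm⟩, zero_mul]
    · have h4 := h3 (fun i => ‖ev i (ng n : K)‖ ^ 2 / (N * NS (ng n)) ^ (1 / (rr K : ℝ)))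
        fun i => div_pos (pow_pos (norm_pos_iff.2 (ev_ne_zero i (coe_ne_zero hn0))) 2)
          (Real.rpow_pos_of_pos (mul_pos hN (NS_pos hn0)) _)
      rw [vg_prod hn0 hN, nm_ng] at h4
      refine ((Complex.hasSum_ofReal.2 h4).mul_left (F (ng n))).congr_fun fun u => ?_
      simp only [Function.comp, hH]
      rw [ind_of ⟨u.1, u.2, rfl⟩, one_mul, hF _ u.2, NS_mul, NS_unit, nK_EU u.2, one_mul]
      simp only [map_mul, ev_mul, norm_mul, mul_pow, mul_div_assoc]
  refine (hasSum_sum key).congr_fun fun x => ?_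
  rw [mul_assoc]
  change ind (Nrm x) * H x = _
  have h5 : ∀ n ∈ pball K (B * N), (∃ u ∈ EU K, x = (u : R K) * ng n) → n = pp x ∧ Nrm x := by
    rintro n hn ⟨u, hu, e⟩
    have hp := (mem_pball.1 hn).1
    have e1 : pp x = n := by rw [e, pp_unit_mul, pp_ng, hp.2]
    refine ⟨e1.symm, nrm_iff.2 ⟨e ▸ mul_ne_zero u.ne_zero (ng_ne_zero hp.1), u, hu, ?_⟩⟩
    rw [← ng_pp x, e1, ← e]
  by_cases hx : Nrm x
  · obtain ⟨hx0, u, hu, e⟩ := nrm_iff.1 hx
    rw [Finset.sum_eq_single (pp x) (fun n hn hne => by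
      rw [ind_of_not fun h => hne (h5 n hn h).1, zero_mul]) fun hn => ?_,
      ind_of hx, ind_of ⟨u, hu, by rw [ng_pp, ← e]⟩]
    refine mul_eq_zero_of_right _ (mul_eq_zero_of_right _ (Complex.ofReal_eq_zero.2 ?_))
    by_contra k
    have h6 := (hV.2.2 _ (h2 _ k)).2
    rw [vg_prod hx0 hN, div_le_iff₀ hN] at h6
    exact hn (mem_pball.2 ⟨prim_pp hx0, by rwa [nm_pp]⟩)
  · rw [ind_of_not hx, zero_mul]
    exact (Finset.sum_eq_zero fun n hn => by
      rw [ind_of_not fun h => hx (h5 n hn h).2, zero_mul]).symm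

end Vale.Agent.P319
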