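import Vale.Agent.P319.N.VorDefs
import Vale.Agent.P319.N.LatUn
import Vale.Agent.P319.N.Ideals
import Vale.Agent.P319.N.Recip

/-! VOR: the facts taken from the parts LAT and GAUSS, in the form used by VOR. -/

namespace Vale.Agent.P319

open scoped ComplexConjugate Real ContDiff

variable {K : Type} [Field K] [NumberField K] [Stp K]

theorem vl_countable : Countable (R K) :=
  have : Countable K := Countable.of_equiv _ (Module.finBasis ℚ K).equivFun.toEquiv.symm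
  coe_injective.countable

/-! ### units (LAT) -/
theorem vl_balanced : ∃ C : ℝ, 1 ≤ C ∧ ∀ x : K, x ≠ 0 → ∃ u ∈ EU K, ∀ v,
    nK x ^ (1 / (rr K : ℝ)) / C ≤ ‖ev v (((u : R K) : K) * x)‖ ^ 2 ∧
      ‖ev v (((u : R K) : K) * x)‖ ^ 2 ≤ C * nK x ^ (1 / (rr K : ℝ)) := balanced
theorem vl_units {η A : ℝ} (hη : 0 < η) (hη1 : η < 1) (hA : 0 ≤ A) :
    ∃ C : ℝ, 0 < C ∧ ∀ (y : Pl K → ℝ) (s : Finset (R K)ˣ), (∀ v, 0 < y v) → (∀ u ∈ s, u ∈ EU K) →
      ∑ u ∈ s, ∏ v, (1 + ‖ev v ((u : R K) : K)‖ ^ 2 * y v) ^ (-(A + 1)) ≤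
        C * (∏ v, y v) ^ (-η) * (1 + ∏ v, y v) ^ (-A) := by
  simpa only [pow_one] using sum_units_prod (K := K) hη hη1 hA one_pos
theorem vl_pou : ∃ ϖ : HH K → ℝ, ContDiff ℝ ∞ ϖ ∧ HasCompactSupport ϖ ∧
    ∀ t, HasSum (fun u : EU K => ϖ (t + lgH ((u.1 : R K) : K))) 1 := by
  obtain ⟨ϖ, h1, h2, -, h3⟩ := exists_pou (K := K) (E := EU K) (k := 1) le_rfl (by simp) one_pos
  exact ⟨ϖ, h1, h2, fun t => by simpa only [one_smul] using (h3 t).2⟩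

/-! ### Gauss sums, units in `EU` -/
theorem vl_gs_sex {k : R K} (hk : Squarefree k) (ν : R K) :
    ∑ x ∈ res k, sex x k * eq (ν * x) k = conj (sex ν k) * gt6 k * (√(nm k) : ℝ) :=
  gs_sex hk ν
theorem vl_gs_quad {k : R K} (hk : Squarefree k) (ν : R K) :
    ∑ x ∈ res k, quad x k * eq (ν * x) k = quad ν k * gt2 k * (√(nm k) : ℝ) :=
  gs_quad hk ν
theorem vl_norm_gt6 {k : R K} (hk : Squarefree k) : ‖gt6 k‖ = 1 := norm_gt6 hk
theorem vl_norm_gt2 {k : R K} (hk : Squarefree k) : ‖gt2 k‖ = 1 := norm_gt2 hk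
theorem vl_th0_EU [Rcp K] {u : (R K)ˣ} (hu : u ∈ EU K) (x : R K) :
    th0 ((u : R K) * x) = th0 x := th0_EU hu x
theorem vl_ang_EU {u : (R K)ˣ} (hu : u ∈ EU K) (x : R K) : ang ((u : R K) * x) = ang x :=
  ang_EU_mul hu x
theorem vl_quad_EU [Rcp K] {u : (R K)ˣ} (hu : u ∈ EU K) (x k : R K) :
    quad ((u : R K) * x) k = quad x k := quad_EU_mul hu x k
theorem vl_cub_EU [Rcp K] {u : (R K)ˣ} (hu : u ∈ EU K) (x k : R K) :
    cub ((u : R K) * x) k = cub x k := cub_EU_mul hu x k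

end Vale.Agent.P319
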