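import Vale.Agent.P319.N.Places

/-! # The Whittaker function `Wh` (one complex place) as a Bessel-type integral.  Port of P026 WhEq. -/

namespace Vale.Agent.P319

open scoped ComplexConjugate Real Topology
open MeasureTheory Filter Set

/-- `∫_0^∞ t^(s-2) e^{-t - y/t} dt` -/
noncomputable def Kf (s : ℂ) (y : ℝ) : ℂ :=
  ∫ t in Ioi (0 : ℝ), (t : ℂ) ^ (s - 2) * Complex.exp (-((t + y / t : ℝ) : ℂ))

theorem WhEq_gauss {b : ℝ} (hb : 0 < b) : ∫ z : ℂ, Real.exp (-b * ‖z‖ ^ 2) = π / b := by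
  rw [GaussianFourier.integral_rexp_neg_mul_sq_norm hb]
  simp

theorem WhEq_inner {σ v t : ℝ} (hv : 0 < v) (ht : 0 < t) :
    Integrable (fun z : ℂ => t ^ (σ - 1) * Real.exp (-((1 + ‖z‖ ^ 2 / v ^ 2) * t))) ∧
    ∫ z : ℂ, t ^ (σ - 1) * Real.exp (-((1 + ‖z‖ ^ 2 / v ^ 2) * t)) =
      π * v ^ 2 * (Real.exp (-t) * t ^ (σ - 1 - 1)) := by
  have hb : 0 < t / v ^ 2 := by positivity
  have h1 : ∀ z : ℂ, t ^ (σ - 1) * Real.exp (-((1 + ‖z‖ ^ 2 / v ^ 2) * t)) =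
      t ^ (σ - 1) * Real.exp (-t) * Real.exp (-(t / v ^ 2) * ‖z‖ ^ 2) := fun z => by
    rw [mul_assoc, ← Real.exp_add]
    congr 2
    ring
  simp only [h1]
  refine ⟨Integrable.const_mul (.of_integral_ne_zero ?_) _, ?_⟩
  · rw [WhEq_gauss hb]
    positivity
  · rw [integral_const_mul, WhEq_gauss hb, Real.rpow_sub_one ht.ne' (σ - 1)]
    field_simp

theorem WhEq_integrable {σ v : ℝ} (hσ : 1 < σ) (hv : 0 < v) :
    Integrable (fun p : ℝ × ℂ => p.1 ^ (σ - 1) * Real.exp (-((1 + ‖p.2‖ ^ 2 / v ^ 2) * p.1)))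
      ((volume.restrict (Ioi 0)).prod volume) := by
  refine (integrable_prod_iff (Measurable.aestronglyMeasurable (by fun_prop))).2 ⟨?_, ?_⟩
  · filter_upwards [ae_restrict_mem measurableSet_Ioi] with t ht using (WhEq_inner hv ht).1
  · refine ((Real.GammaIntegral_convergent (sub_pos.2 hσ)).const_mul (π * v ^ 2)).congr ?_
    filter_upwards [ae_restrict_mem measurableSet_Ioi] with t ht
    have ht' : 0 < t := ht
    rw [← (WhEq_inner hv ht).2]
    exact integral_congr_ae (Eventually.of_forall fun z =>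
      (Real.norm_of_nonneg (by positivity)).symm)

theorem WhEq_div {v : ℝ} (hv : 0 < v) (z : ℂ) :
    v / (‖z‖ ^ 2 + v ^ 2) = v⁻¹ * (1 / (1 + ‖z‖ ^ 2 / v ^ 2)) := by
  field_simp
  ring

theorem WhEq_rpow {σ v : ℝ} (hσ : 1 < σ) (hv : 0 < v) (z : ℂ) :
    (v / (‖z‖ ^ 2 + v ^ 2)) ^ σ = v⁻¹ ^ σ / Real.Gamma σ *
      ∫ t in Ioi (0 : ℝ), t ^ (σ - 1) * Real.exp (-((1 + ‖z‖ ^ 2 / v ^ 2) * t)) := by
  have := Real.Gamma_pos_of_pos (one_pos.trans hσ)
  rw [Real.integral_rpow_mul_exp_neg_mul_Ioi (one_pos.trans hσ) (by positivity), WhEq_div hv,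
    Real.mul_rpow (by positivity) (by positivity), div_mul_eq_mul_div, ← mul_assoc,
    mul_div_cancel_right₀ _ this.ne']

theorem integrable_rpow_Wh {σ v : ℝ} (hσ : 1 < σ) (hv : 0 < v) :
    Integrable fun z : ℂ => (v / (‖z‖ ^ 2 + v ^ 2)) ^ σ := by
  simp only [WhEq_rpow hσ hv]
  exact (WhEq_integrable hσ hv).integral_prod_right.const_mul _
theorem integral_rpow_Wh {σ v : ℝ} (hσ : 1 < σ) (hv : 0 < v) :
    ∫ z : ℂ, (v / (‖z‖ ^ 2 + v ^ 2)) ^ σ = π * v ^ (2 - σ) / (σ - 1) := by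
  simp only [WhEq_rpow hσ hv]
  have h1 := sub_pos.2 hσ
  have h2 := Real.Gamma_add_one h1.ne'
  have h3 := Real.Gamma_pos_of_pos h1
  rw [sub_add_cancel] at h2
  rw [integral_const_mul, ← integral_integral_swap (WhEq_integrable hσ hv),
    setIntegral_congr_fun measurableSet_Ioi fun t ht => (WhEq_inner hv ht).2, integral_const_mul,
    ← Real.Gamma_eq_integral h1, h2, Real.rpow_sub hv, Real.inv_rpow hv.le, Real.rpow_two]
  field_simp
theorem WhEq_norm (s : ℂ) (ν : ℂ) {v : ℝ} (hv : 0 < v) (z : ℂ) :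
    ‖((v / (‖z‖ ^ 2 + v ^ 2) : ℝ) : ℂ) ^ s * ecc (-(ν * z))‖ =
      (v / (‖z‖ ^ 2 + v ^ 2)) ^ s.re := by
  rw [norm_mul, norm_ecc, mul_one, Complex.norm_cpow_eq_rpow_re_of_pos (by positivity)]
theorem WhEq_measurable (ν : ℂ) : Measurable fun z : ℂ => ecc (-(ν * z)) :=
  continuous_ecc.measurable.comp (by fun_prop)
theorem integrable_Wh {s : ℂ} (hs : 1 < s.re) (ν : ℂ) {v : ℝ} (hv : 0 < v) :
    Integrable fun z : ℂ => ((v / (‖z‖ ^ 2 + v ^ 2) : ℝ) : ℂ) ^ s * ecc (-(ν * z)) :=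
  (integrable_rpow_Wh hs hv).mono'
    (Measurable.mul (by fun_prop) (WhEq_measurable ν)).aestronglyMeasurable
    (Eventually.of_forall fun z => (WhEq_norm s ν hv z).le)
theorem norm_Wh_le {s : ℂ} (hs : 1 < s.re) (ν : ℂ) {v : ℝ} (hv : 0 < v) :
    ‖Wh s ν v‖ ≤ π * v ^ (2 - s.re) / (s.re - 1) := by
  rw [← integral_rpow_Wh hs hv]
  exact norm_integral_le_of_norm_le (integrable_rpow_Wh hs hv)
    (Eventually.of_forall fun z => (WhEq_norm s ν hv z).le)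
theorem integral_gauss_ec {t : ℝ} (ht : 0 < t) (ν : ℂ) :
    ∫ z : ℂ, Complex.exp (-((t * ‖z‖ ^ 2 : ℝ) : ℂ)) * ecc (-(ν * z)) =
      ((π / t * Real.exp (-((2 * π) ^ 2 * ‖ν‖ ^ 2 / t)) : ℝ) : ℂ) := by
  have h := GaussianFourier.integral_cexp_neg_mul_sq_norm_add (b := t) (V := ℂ) ht
    (-Complex.I * (4 * π : ℝ)) (conj ν)
  rw [Complex.norm_conj, Complex.finrank_real_complex] at h
  refine (integral_congr_ae (Eventually.of_forall fun z => ?_)).trans (h.trans ?_)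
  · have h1 : inner ℝ (conj ν) z = (ν * z).re := by
      simp [Complex.inner]
      ring
    simp only [ecc]
    rw [← Complex.exp_add, h1, Complex.neg_re]
    congr 1
    push_cast
    ring
  · push_cast
    rw [div_self two_ne_zero, Complex.cpow_one]
    congr 2
    linear_combination 4 * (π : ℂ) ^ 2 * (‖ν‖ : ℂ) ^ 2 / t * Complex.I_sq
theorem Wh_eq {s : ℂ} (hs : 1 < s.re) (ν : ℂ) {v : ℝ} (hv : 0 < v) :
    Wh s ν v = π * (v : ℂ) ^ (2 - s) / Complex.Gamma s * Kf s ((2 * π) ^ 2 * ‖ν‖ ^ 2 * v ^ 2) := by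
  have hΓ := Complex.Gamma_ne_zero_of_re_pos (one_pos.trans hs)
  have hv' : (v : ℂ) ≠ 0 := Complex.ofReal_ne_zero.2 hv.ne'
  have h1 : ∀ z : ℂ, ((v / (‖z‖ ^ 2 + v ^ 2) : ℝ) : ℂ) ^ s * ecc (-(ν * z)) =
      (v : ℂ) ^ (-s) / Complex.Gamma s * ∫ t in Ioi (0 : ℝ), (t : ℂ) ^ (s - 1) *
        Complex.exp (-((1 + ‖z‖ ^ 2 / v ^ 2 : ℝ) * t)) * ecc (-(ν * z)) := by
    intro z
    rw [integral_mul_const, Complex.integral_cpow_mul_exp_neg_mul_Ioi (one_pos.trans hs)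
      (by positivity), WhEq_div hv, Complex.ofReal_mul,
      Complex.mul_cpow_ofReal_nonneg (by positivity) (by positivity), Complex.ofReal_inv,
      Complex.inv_cpow _ _ (by rw [Complex.arg_ofReal_of_nonneg hv.le]; exact Real.pi_pos.ne),
      ← Complex.cpow_neg, Complex.ofReal_div, Complex.ofReal_one]
    generalize (1 / (_ : ℂ)) ^ s = A
    field_simp
  have h2 : Integrable (fun p : ℝ × ℂ => (p.1 : ℂ) ^ (s - 1) *
      Complex.exp (-((1 + ‖p.2‖ ^ 2 / v ^ 2 : ℝ) * p.1)) * ecc (-(ν * p.2)))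
      ((volume.restrict (Ioi 0)).prod volume) := by
    refine (WhEq_integrable hs hv).mono' (Measurable.mul (by fun_prop)
      ((WhEq_measurable ν).comp measurable_snd)).aestronglyMeasurable ?_
    filter_upwards [Measure.quasiMeasurePreserving_fst.ae (ae_restrict_mem measurableSet_Ioi)]
      with p hp
    rw [norm_mul, norm_ecc, mul_one, norm_mul, Complex.norm_cpow_eq_rpow_re_of_pos hp,
      ← Complex.ofReal_mul, ← Complex.ofReal_neg, Complex.norm_exp_ofReal]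
    simp
  have h3 : ∀ t ∈ Ioi (0 : ℝ), ∫ z : ℂ, (t : ℂ) ^ (s - 1) *
      Complex.exp (-((1 + ‖z‖ ^ 2 / v ^ 2 : ℝ) * t)) * ecc (-(ν * z)) =
      π * v ^ 2 * ((t : ℂ) ^ (s - 2) *
        Complex.exp (-((t + (2 * π) ^ 2 * ‖ν‖ ^ 2 * v ^ 2 / t : ℝ) : ℂ))) := by
    intro t ht
    have ht' : 0 < t := ht
    have ht0 : (t : ℂ) ≠ 0 := Complex.ofReal_ne_zero.2 ht'.ne'
    have h4 : ∀ z : ℂ, (t : ℂ) ^ (s - 1) *
        Complex.exp (-((1 + ‖z‖ ^ 2 / v ^ 2 : ℝ) * t)) * ecc (-(ν * z)) =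
        (t : ℂ) ^ (s - 1) * Complex.exp (-t) *
          (Complex.exp (-((t / v ^ 2 * ‖z‖ ^ 2 : ℝ) : ℂ)) * ecc (-(ν * z))) := fun z => by
      rw [← mul_assoc, mul_assoc (_ ^ _) (Complex.exp _) (Complex.exp _), ← Complex.exp_add]
      congr 3
      push_cast
      ring
    simp only [h4]
    rw [integral_const_mul, integral_gauss_ec (by positivity),
      show s - 1 = s - 2 + 1 by ring, Complex.cpow_add _ _ ht0, Complex.cpow_one]
    push_cast
    rw [neg_add, Complex.exp_add, div_div_eq_mul_div ((2 * π : ℂ) ^ 2 * _)]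
    field_simp
  simp only [Wh, h1]
  rw [integral_const_mul, ← integral_integral_swap h2,
    setIntegral_congr_fun measurableSet_Ioi h3, integral_const_mul, Kf, sub_eq_add_neg 2 s,
    Complex.cpow_add _ _ hv', Complex.cpow_two]
  ring

end Vale.Agent.P319
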