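import Vale.Agent.P319.N.ZetaSum

/-! # P319 ZETA: the Dedekind zeta function with a uniform bound.
PLAN.  `theta_fe`: choose units `a c` of `FI K` with `ClassGroup.mk K (a c) = c` (`ClassGroup.mk0_surjective`, `FractionalIdeal.mk0`,
`ClassGroup.mk_mk0`).  `HP` with `I = J = (a c)⁻¹`, `T = {0}`, `f = 1`, and `Y / (c0 * absNorm (a c))` in place of `Y`.  Left side:
`class_sum_all` with `G l = KK (c0 * absNorm l * (1/Y))` (`nK_eq_absNorm`, `map_mul`).  Right side: `a' c = (dl (a c)⁻¹)⁻¹`, whose class is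
`(class of (dl 1)⁻¹) * c⁻¹` (`FractionalIdeal.dual_eq_mul_inv`), `G l = KK (c0 * absNorm l * Y)`, `absNorm_dl`, `c0_sq`.  Divide by `idx`;
`V = card (ClassGroup) * VV / idx`.  Summability of `G`: `zS_summable`.
`xi_at`: `fe_bound` with `p l = c0 * absNorm l`, `Z' s = c0 ^ s * Z s`, `dedekindZeta_eq_tsum`.  For `1/2 ≤ σ ≤ 2`:
`c0 ^ (σ - 2) ≤ |D|` (`c0 ≥ 1/√|D|`, `1 ≤ |D|`), `inv_Gamma_le`, `rr ≤ finrank` (`two_mul_rr`), `tsum_ideal_two_le`,
`2 ‖s-1‖ + 8 ≤ exp (3 (1 + |t|))`; for `2 ≤ σ ≤ 4`: `norm_dedekindZeta_le`.  `1 ≤ finrank`, `0 ≤ log |D|`. -/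

namespace Vale.Agent.P319

open scoped ComplexConjugate Real NumberField nonZeroDivisors Topology
open MeasureTheory Filter Set

theorem zCoef_ideal (K : Type) [Field K] [NumberField K] {c : ℝ} (hc : 0 < c) :
    ZCoef (fun _ : (Ideal (𝓞 K))⁰ => (1 : ℂ)) fun l => c * Ideal.absNorm l.1 := by
  refine ⟨fun l _ => mul_pos hc (Nat.cast_pos.2 (Ideal.absNorm_pos_of_nonZeroDivisors l)),
    fun σ hσ => ((zeta_summable_ideal K hσ).mul_left (c ^ (-σ))).congr fun l => ?_⟩
  rw [norm_one, one_mul, Real.mul_rpow hc.le (Nat.cast_nonneg _)]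

theorem zxi_sum {K : Type} [Field K] [NumberField K] [Stp K] (a : ClassGroup (𝓞 K) → (FI K)ˣ)
    (ha : Function.Bijective fun c => ClassGroup.mk K (a c)) {y : ℝ} (hy : 0 < y) :
    ∑ c, ∑' x : KQ K, ind (x.out ∈ (a c).1⁻¹ ∧ x.out ≠ 0) *
        KK K (c0 K * (nK x.out * (FractionalIdeal.absNorm (a c).1 : ℚ)) * y) =
      idx K * zS (KK K) (fun _ : (Ideal (𝓞 K))⁰ => (1 : ℂ))
        (fun l => c0 K * Ideal.absNorm l.1) y := by
  have h := class_sum_all a ha
    (G := fun l => (KK K (c0 K * (FractionalIdeal.absNorm l : ℚ) * y) : ℂ))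
    ((zS_summable zKer_KK (zCoef_ideal K c0_pos) hy).congr fun l => by
      rw [one_mul, FractionalIdeal.coeIdeal_absNorm, Rat.cast_natCast])
  simp only [map_mul, Rat.cast_mul, ← nK_eq_absNorm, FractionalIdeal.coeIdeal_absNorm,
    Rat.cast_natCast] at h
  simp only [h, zS, one_mul]

theorem theta_fe (K : Type) [Field K] [NumberField K] [Stp K] : ∃ V : ℝ, 0 ≤ V ∧ ∀ Y : ℝ, 0 < Y →
    zS (KK K) (fun _ : (Ideal (𝓞 K))⁰ => (1 : ℂ)) (fun l => c0 K * Ideal.absNorm l.1) (1 / Y) + V =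
      Y * (zS (KK K) (fun _ : (Ideal (𝓞 K))⁰ => (1 : ℂ)) (fun l => c0 K * Ideal.absNorm l.1) Y + V) := by
  choose b hb using ClassGroup.mk0_surjective (R := 𝓞 K)
  set a : ClassGroup (𝓞 K) → (FI K)ˣ := fun c => FractionalIdeal.mk0 K (b c) with ha
  have h1 : ∀ c, ClassGroup.mk K (a c) = c := fun c => (ClassGroup.mk_mk0 K (b c)).trans (hb c)
  set d : (FI K)ˣ := Units.mk0 (dl 1) (dl_ne_zero one_ne_zero) with hd
  have h2 : Function.Bijective fun c => ClassGroup.mk K (a c) := by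
    simp only [h1]; exact Function.bijective_id
  have h3 : Function.Bijective fun c => ClassGroup.mk K (d * a c)⁻¹ := by
    simp only [map_inv, map_mul, h1]
    exact inv_involutive.bijective.comp (Group.mulLeft_bijective _)
  have h4 : ∀ c, ((d * a c)⁻¹ : (FI K)ˣ).1⁻¹ = dl (a c).1⁻¹ := fun c => by
    rw [Units.val_inv_eq_inv_val, inv_inv, dl, FractionalIdeal.dual_eq_mul_inv, inv_inv]
    rfl
  have hi : (idx K : ℂ) ≠ 0 := Nat.cast_ne_zero.2 idx_pos.ne'
  refine ⟨Fintype.card (ClassGroup (𝓞 K)) * VV K / idx K, by unfold VV; positivity,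
    fun Y hY => mul_left_cancel₀ hi ?_⟩
  have hc := c0_pos (K := K)
  have hD : 0 < |(NumberField.discr K : ℝ)| :=
    abs_pos.2 (Int.cast_ne_zero.2 (NumberField.discr_ne_zero K))
  have key : ∀ c, (∑' x : KQ K, ind (x.out ∈ (a c).1⁻¹ ∧ x.out ≠ 0) *
      KK K (c0 K * (nK x.out * (FractionalIdeal.absNorm (a c).1 : ℚ)) * (1 / Y))) + VV K =
      Y * ((∑' x : KQ K, ind (x.out ∈ ((d * a c)⁻¹ : (FI K)ˣ).1⁻¹ ∧ x.out ≠ 0) *
        KK K (c0 K * (nK x.out * (FractionalIdeal.absNorm ((d * a c)⁻¹ : (FI K)ˣ).1 : ℚ)) * Y)) +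
        VV K) := fun c => by
    have hN := absNorm_FI_pos (a c).ne_zero
    have h0 : (a c).1⁻¹ ≠ 0 := inv_ne_zero (a c).ne_zero
    have hR : Reps (a c).1⁻¹ (a c).1⁻¹ {0} :=
      ⟨fun x hx => by rw [Finset.mem_singleton.1 hx]; exact FractionalIdeal.zero_mem _,
        fun x hx => ⟨0, ⟨Finset.mem_singleton_self _, by rwa [sub_zero]⟩,
          fun y hy => Finset.mem_singleton.1 hy.1⟩⟩
    have h5 := HP h0 le_rfl hR (f := fun _ => 1) (fun _ _ _ _ => rfl) (fun _ _ _ _ => rfl)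
      (Y := Y / (c0 K * (FractionalIdeal.absNorm (a c).1 : ℚ))) (by positivity)
    have h6 : ((FractionalIdeal.absNorm ((d * a c)⁻¹ : (FI K)ˣ).1 : ℚ) : ℝ) =
        |(NumberField.discr K : ℝ)| / (FractionalIdeal.absNorm (a c).1 : ℚ) := by
      have h7 := absNorm_dl h0
      rw [← h4, map_inv₀, map_inv₀, Rat.cast_inv, Rat.cast_inv, one_div, inv_inj] at h7
      rw [h7]
      field_simp
    have e1 : ∀ z : ℝ, z / (Y / (c0 K * (FractionalIdeal.absNorm (a c).1 : ℚ))) =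
        c0 K * (z * (FractionalIdeal.absNorm (a c).1 : ℚ)) * (1 / Y) := fun z => by field_simp
    have e2 : c0 K * (Y / (c0 K * (FractionalIdeal.absNorm (a c).1 : ℚ))) /
        (FractionalIdeal.absNorm (a c).1⁻¹ : ℚ) = Y := by
      rw [map_inv₀, Rat.cast_inv]
      field_simp
    have e3 : ∀ z : ℝ, (4 * π ^ 2) ^ rr K * (Y / (c0 K * (FractionalIdeal.absNorm (a c).1 : ℚ))) * z =
        c0 K * (z * (|(NumberField.discr K : ℝ)| / (FractionalIdeal.absNorm (a c).1 : ℚ))) * Y :=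
      fun z => by
      rw [← (eq_div_iff hD.ne').1 (c0_sq (K := K))]
      field_simp
    simp only [Finset.sum_singleton, zero_mul, eTr_zero, mul_one, e1, e2, e3] at h5
    rw [h4, h6]
    exact h5
  have h8 := Finset.sum_congr rfl fun c (_ : c ∈ Finset.univ) => key c
  rw [Finset.sum_add_distrib, ← Finset.mul_sum, Finset.sum_add_distrib,
    zxi_sum a h2 (one_div_pos.2 hY), zxi_sum _ h3 hY, Finset.sum_const, Finset.card_univ,
    nsmul_eq_mul] at h8
  push_cast
  rw [mul_add, mul_left_comm, mul_add, mul_div_cancel₀ _ hi]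
  exact h8

theorem xi_at : ∃ C : ℝ, 0 < C ∧ ∀ (F : Type) [Field F] [NumberField F] [Stp F],
    ∃ Z : ℂ → ℂ, Differentiable ℂ Z ∧
      (∀ s : ℂ, 1 < s.re → Z s = (s - 1) * NumberField.dedekindZeta F s) ∧
      ∀ s : ℂ, 1 / 2 ≤ s.re → s.re ≤ 4 → ‖Z s‖ ≤ Real.exp (C *
        (Real.log |(NumberField.discr F : ℝ)| + Module.finrank ℚ F) * (1 + |s.im|)) := by
  obtain ⟨C, hC, hG⟩ := inv_Gamma_le
  refine ⟨C + 17, by positivity, fun F _ _ _ => ?_⟩
  obtain ⟨V, hV, fe⟩ := theta_fe F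
  have hc := c0_pos (K := F)
  have hc' : (c0 F : ℂ) ≠ 0 := Complex.ofReal_ne_zero.2 hc.ne'
  obtain ⟨Z, z1, z2, z3⟩ := fe_bound rr_pos zKer_KK (zCoef_ideal F hc) hV fe
  have hz : ∀ s : ℂ, 1 < s.re → (c0 F : ℂ) ^ s * Z s = (s - 1) * NumberField.dedekindZeta F s :=
    fun s hs => by
    rw [z2 s hs, dedekindZeta_eq_tsum F hs, mul_left_comm, ← tsum_mul_left]
    congr 2
    funext l
    rw [Complex.ofReal_mul, Complex.mul_cpow_ofReal_nonneg hc.le (Nat.cast_nonneg _), ← mul_assoc,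
      ← Complex.cpow_add _ _ hc', add_neg_cancel, Complex.cpow_zero, one_mul, Complex.ofReal_natCast]
  refine ⟨fun s => (c0 F : ℂ) ^ s * Z s,
    (differentiable_id.const_cpow (Or.inl hc')).mul z1, hz, fun s s1 s2 => ?_⟩
  set D : ℝ := |(NumberField.discr F : ℝ)| with hD
  have D1 : 1 ≤ D := by rw [hD]; exact_mod_cast Int.one_le_abs (NumberField.discr_ne_zero F)
  have D0 := Real.log_nonneg D1
  set n : ℝ := (Module.finrank ℚ F : ℝ) with hn
  have n1 : 1 ≤ n := by rw [hn]; exact_mod_cast Module.finrank_pos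
  set u : ℝ := 1 + |s.im| with hu
  have u1 : 1 ≤ u := by linarith [abs_nonneg s.im]
  have h1 : 2 * ‖s - 1‖ + 8 ≤ Real.exp (14 * u) := by
    have h2 := Complex.norm_le_abs_re_add_abs_im (s - 1)
    have h3 : |(s - 1).re| ≤ 3 := by
      rw [Complex.sub_re, Complex.one_re, abs_le]; constructor <;> linarith
    rw [Complex.sub_im, Complex.one_im, sub_zero] at h2
    linarith [Real.add_one_le_exp (14 * u), abs_nonneg s.im]
  have p1 : 0 ≤ Real.log D * (u - 1) := mul_nonneg D0 (by linarith)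
  have p2 : 0 ≤ n * (u - 1) := mul_nonneg (by linarith) (by linarith)
  have p3 : 0 ≤ (n - 1) * u := mul_nonneg (by linarith) (by linarith)
  have p4 : 0 ≤ C * (Real.log D * u) := by positivity
  have p5 : 0 ≤ C * (n * u) := by positivity
  rcases le_total s.re 2 with s3 | s3
  · have h2 : ∑' l : (Ideal (𝓞 F))⁰, (c0 F * Ideal.absNorm l.1) ^ (-2 : ℝ) ≤
        c0 F ^ (-2 : ℝ) * Real.exp (2 * n) := by
      simp only [Real.mul_rpow hc.le (Nat.cast_nonneg _), tsum_mul_left]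
      exact mul_le_mul_of_nonneg_left (tsum_ideal_two_le F) (by positivity)
    have h3 : ‖(Complex.Gamma s)⁻¹‖ ^ rr F ≤ Real.exp (C * u * n) := by
      refine (pow_le_pow_left₀ (norm_nonneg _) (hG s s1 s3) _).trans ?_
      rw [← Real.exp_nat_mul, mul_comm]
      have : (rr F : ℝ) ≤ n := by
        rw [hn, ← two_mul_rr]; push_cast; linarith [Nat.cast_nonneg (α := ℝ) (rr F)]
      gcongr
    have h4 : c0 F ^ s.re * c0 F ^ (-2 : ℝ) ≤ Real.exp (Real.log D) := by
      have h5 : D ^ (-(1 / 2) : ℝ) ≤ c0 F := by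
        rw [c0, Real.rpow_neg (by linarith), ← Real.sqrt_eq_rpow, ← one_div]
        gcongr
        exact one_le_pow₀ (by linarith [Real.pi_gt_three])
      rw [← Real.rpow_add hc, Real.exp_log (by linarith)]
      refine (Real.rpow_le_rpow_of_nonpos (by positivity) h5 (by linarith)).trans ?_
      rw [← Real.rpow_mul (by linarith)]
      exact (Real.rpow_le_rpow_of_exponent_le D1 (by linarith)).trans (Real.rpow_one D).le
    rw [norm_mul, Complex.norm_cpow_eq_rpow_re_of_pos hc]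
    calc c0 F ^ s.re * ‖Z s‖ ≤ c0 F ^ s.re * (Real.exp (C * u * n) * Real.exp (14 * u) *
          (c0 F ^ (-2 : ℝ) * Real.exp (2 * n))) := by
          refine mul_le_mul_of_nonneg_left ((z3 s s1 s3).trans ?_) (by positivity)
          gcongr
      _ = c0 F ^ s.re * c0 F ^ (-2 : ℝ) * Real.exp (C * u * n + 14 * u + 2 * n) := by
          rw [Real.exp_add, Real.exp_add]; ring
      _ ≤ Real.exp (Real.log D) * Real.exp (C * u * n + 14 * u + 2 * n) := by gcongr
      _ ≤ _ := by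
          rw [← Real.exp_add, Real.exp_le_exp]
          nlinarith
  · beta_reduce
    rw [hz s (by linarith), norm_mul]
    calc _ ≤ Real.exp (14 * u) * Real.exp (2 * n) := by
          gcongr
          · linarith [norm_nonneg (s - 1)]
          · exact norm_dedekindZeta_le F s3
      _ ≤ _ := by
          rw [← Real.exp_add, Real.exp_le_exp]
          nlinarith

theorem xi : XiStmt := by
  obtain ⟨C, hC, h⟩ := xi_at
  refine ⟨C, hC, fun F _ _ hw => ?_⟩
  obtain ⟨S⟩ := exists_stp hw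
  exact h F

end Vale.Agent.P319
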